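import Mathlib
import Crest.Agent.R285.Gauss
import Crest.Agent.R285.Evol
import Crest.Agent.R285.Defs
import Crest.Agent.Lib.PrekopaLeindler

-- ▼ part R285/Avg
section

/-!
Row 285: Gaussian averages `∫ Φ (x + σ g) dγ(g)` of functions of Gaussian growth, jointly in
`(σ, x)`.
-/

set_option autoImplicit false

open MeasureTheory ProbabilityTheory Real Filter Topology Set

noncomputable section

namespace Crest.Agent.R285

variable {V : Type} [NormedAddCommGroup V] [InnerProductSpace ℝ V] [FiniteDimensional ℝ V]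
  [MeasurableSpace V] [BorelSpace V]

/-- Gaussian integrability of `exp (a |g|² + b |g|)` for `a < 1/2`. -/
theorem integrable_exp_sq {a : ℝ} (ha : a < 1 / 2) (b : ℝ) :
    Integrable (fun g : V => rexp (a * ‖g‖ ^ 2 + b * ‖g‖)) (stdGaussian V) := by
  rw [integrable_stdGaussian_iff]
  set c : ℝ := (1 / 2 - a) / 2 with hc
  have hc0 : 0 < c := by rw [hc]; linarith
  have h1 := (integrable_exp_neg_sq (V := V) hc0).const_mul
    ((2 * π) ^ (-(Module.finrank ℝ V : ℝ) / 2) * rexp (b ^ 2 / (4 * c)))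
  refine h1.mono' ?_ (ae_of_all _ fun g => ?_)
  · refine Continuous.aestronglyMeasurable ?_
    exact continuous_gdens.smul (by fun_prop)
  · rw [smul_eq_mul, norm_of_nonneg (mul_nonneg (gdens_pos g).le (exp_pos _).le), gdens,
      mul_assoc, mul_assoc, ← exp_add, ← exp_add]
    refine mul_le_mul_of_nonneg_left (exp_le_exp.2 ?_) (by positivity)
    have h2 : b * ‖g‖ ≤ b ^ 2 / (4 * c) + c * ‖g‖ ^ 2 := by
      have h3 : 0 ≤ (b - 2 * c * ‖g‖) ^ 2 / (4 * c) := by positivity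
      have h4 : (b - 2 * c * ‖g‖) ^ 2 / (4 * c) = b ^ 2 / (4 * c) + c * ‖g‖ ^ 2 - b * ‖g‖ := by
        field_simp
        ring
      linarith
    have h5 : c = (1 / 2 - a) / 2 := hc
    nlinarith [sq_nonneg ‖g‖]

theorem pow_le_exp_mul {x : ℝ} (hx : 0 ≤ x) (k : ℕ) : (1 + x) ^ k ≤ (Nat.factorial k) * rexp (1 + x) := by
  have h1 := Real.pow_div_factorial_le_exp (1 + x) (by linarith) k
  rwa [div_le_iff₀ (by positivity), mul_comm] at h1

/-- The weight class: Gaussian growth with constants `C`, `h`. -/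
def gw (C h : ℝ) (y : V) : ℝ := C * rexp (C * ‖y‖ + h * ‖y‖ ^ 2 / 2)

omit [FiniteDimensional ℝ V] [MeasurableSpace V] [BorelSpace V] in
theorem gw_le {C h : ℝ} (hC : 0 ≤ C) (hh : 0 ≤ h) {s r σ : ℝ} {x : V}
    (hσ : |σ| ≤ s) (hx : ‖x‖ ≤ r) (g : V) :
    C * rexp (C * ‖x + σ • g‖ + h * ‖x + σ • g‖ ^ 2 / 2) ≤
      C * rexp (C * r + h * r ^ 2 / 2) * rexp ((h * s ^ 2 / 2) * ‖g‖ ^ 2 + (C * s + h * r * s) * ‖g‖) := by
  have h1 : ‖x + σ • g‖ ≤ r + s * ‖g‖ := by
    refine (norm_add_le _ _).trans (add_le_add hx ?_)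
    rw [norm_smul, Real.norm_eq_abs]
    exact mul_le_mul_of_nonneg_right hσ (norm_nonneg _)
  have hr : 0 ≤ r := (norm_nonneg _).trans hx
  have hs : 0 ≤ s := (abs_nonneg _).trans hσ
  rw [mul_assoc, ← exp_add]
  refine mul_le_mul_of_nonneg_left (exp_le_exp.2 ?_) hC
  have h2 : ‖x + σ • g‖ ^ 2 ≤ (r + s * ‖g‖) ^ 2 := by
    gcongr
  nlinarith [mul_le_mul_of_nonneg_left h1 hC, mul_le_mul_of_nonneg_left h2 hh, norm_nonneg g]

/-- Uniform domination for averages. -/
theorem exists_dom {C h : ℝ} (hC : 0 ≤ C) (hh : 0 ≤ h) {σ : ℝ} (hσ : h * σ ^ 2 < 1) (x : V) (k : ℕ) :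
    ∃ (s r : ℝ) (b : V → ℝ), |σ| < s ∧ ‖x‖ < r ∧ h * s ^ 2 < 1 ∧ Integrable b (stdGaussian V) ∧
      ∀ σ' x' g, |σ'| ≤ s → ‖x'‖ ≤ r →
        (1 + ‖g‖) ^ k * (C * rexp (C * ‖x' + σ' • g‖ + h * ‖x' + σ' • g‖ ^ 2 / 2)) ≤ b g := by
  obtain ⟨s, hs1, hs2⟩ : ∃ s : ℝ, |σ| < s ∧ h * s ^ 2 < 1 := by
    have hcont : Continuous (fun t : ℝ => h * t ^ 2) := by fun_prop
    have h1 : h * (|σ|) ^ 2 < 1 := by simpa using hσ
    have h2 : ∀ᶠ t in 𝓝 |σ|, h * t ^ 2 < 1 :=
      hcont.continuousAt.eventually_lt_const h1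
    obtain ⟨ε, hε, hb⟩ := Metric.eventually_nhds_iff.1 h2
    refine ⟨|σ| + ε / 2, by linarith, hb ?_⟩
    rw [Real.dist_eq, add_sub_cancel_left, abs_of_pos (by linarith)]
    linarith
  have hs0 : 0 ≤ s := (abs_nonneg _).trans hs1.le
  refine ⟨s, ‖x‖ + 1, fun g => (Nat.factorial k) * rexp 1 * (C * rexp (C * (‖x‖ + 1) + h * (‖x‖ + 1) ^ 2 / 2)) *
    rexp ((h * s ^ 2 / 2) * ‖g‖ ^ 2 + (C * s + h * (‖x‖ + 1) * s + 1) * ‖g‖), hs1, by linarith, hs2, ?_, ?_⟩
  · exact (integrable_exp_sq (by linarith) _).const_mul _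
  · intro σ' x' g hσ' hx'
    have h1 := gw_le hC hh hσ' hx' g
    have h2 := pow_le_exp_mul (norm_nonneg g) k
    calc (1 + ‖g‖) ^ k * (C * rexp (C * ‖x' + σ' • g‖ + h * ‖x' + σ' • g‖ ^ 2 / 2))
        ≤ ((Nat.factorial k) * rexp (1 + ‖g‖)) * (C * rexp (C * (‖x‖ + 1) + h * (‖x‖ + 1) ^ 2 / 2) *
          rexp ((h * s ^ 2 / 2) * ‖g‖ ^ 2 + (C * s + h * (‖x‖ + 1) * s) * ‖g‖)) := by
          gcongr
      _ = _ := by
          beta_reduce
          rw [exp_add 1 ‖g‖, show (h * s ^ 2 / 2) * ‖g‖ ^ 2 + (C * s + h * (‖x‖ + 1) * s + 1) * ‖g‖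
            = ((h * s ^ 2 / 2) * ‖g‖ ^ 2 + (C * s + h * (‖x‖ + 1) * s) * ‖g‖) + ‖g‖ by ring,
            exp_add _ ‖g‖]
          ring

variable {H : Type} [NormedAddCommGroup H] [NormedSpace ℝ H]

/-- The domain of admissible `(σ, x)`. -/
def adm (V : Type) (h : ℝ) : Set (ℝ × V) := {p | h * p.1 ^ 2 < 1}

omit [InnerProductSpace ℝ V] [FiniteDimensional ℝ V] [MeasurableSpace V] [BorelSpace V] in
theorem isOpen_adm (h : ℝ) : IsOpen (adm V h) := by
  unfold adm
  exact isOpen_lt (f := fun p : ℝ × V => h * p.1 ^ 2) (g := fun _ => (1 : ℝ)) (by fun_prop)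
    continuous_const

/-- The averaging operator. -/
def avg (Φ : V → H) (p : ℝ × V) : H := ∫ g, Φ (p.2 + p.1 • g) ∂(stdGaussian V)

/-- Continuity of generalized averages. -/
theorem continuousOn_avg_gen {Ψ : V → V → H} (hΨ : Continuous fun p : V × V => Ψ p.1 p.2)
    {C h : ℝ} (hC : 0 ≤ C) (hh : 0 ≤ h) {k : ℕ}
    (hb : ∀ y g, ‖Ψ y g‖ ≤ (1 + ‖g‖) ^ k * (C * rexp (C * ‖y‖ + h * ‖y‖ ^ 2 / 2))) :
    ContinuousOn (fun p : ℝ × V => ∫ g, Ψ (p.2 + p.1 • g) g ∂(stdGaussian V)) (adm V h) := by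
  rintro ⟨σ, x⟩ hp
  obtain ⟨s, r, b, hs, hr, hs1, hbi, hdom⟩ := exists_dom hC hh (show h * σ ^ 2 < 1 from hp) x k
  refine ContinuousAt.continuousWithinAt ?_
  refine continuousAt_of_dominated (bound := b) ?_ ?_ hbi ?_
  · refine Eventually.of_forall fun p => Continuous.aestronglyMeasurable ?_
    exact hΨ.comp (f := fun g : V => (p.2 + p.1 • g, g)) (by fun_prop)
  · have h1 : ∀ᶠ p : ℝ × V in 𝓝 (σ, x), |p.1| ≤ s := by
      have : ContinuousAt (fun p : ℝ × V => |p.1|) (σ, x) := by fun_prop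
      exact (this.eventually_lt_const hs).mono fun p hp => hp.le
    have h2 : ∀ᶠ p : ℝ × V in 𝓝 (σ, x), ‖p.2‖ ≤ r := by
      have : ContinuousAt (fun p : ℝ × V => ‖p.2‖) (σ, x) := by fun_prop
      exact (this.eventually_lt_const hr).mono fun p hp => hp.le
    filter_upwards [h1, h2] with p hp1 hp2
    exact ae_of_all _ fun g => (hb _ _).trans (hdom p.1 p.2 g hp1 hp2)
  · refine ae_of_all _ fun g => ?_
    have : Continuous fun p : ℝ × V => Ψ (p.2 + p.1 • g) g :=
      hΨ.comp (f := fun p : ℝ × V => (p.2 + p.1 • g, g)) (by fun_prop)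
    exact this.continuousAt

theorem integrable_avg_gen {Ψ : V → V → H} (hΨ : Continuous fun p : V × V => Ψ p.1 p.2)
    {C h : ℝ} (hC : 0 ≤ C) (hh : 0 ≤ h) {k : ℕ}
    (hb : ∀ y g, ‖Ψ y g‖ ≤ (1 + ‖g‖) ^ k * (C * rexp (C * ‖y‖ + h * ‖y‖ ^ 2 / 2)))
    {p : ℝ × V} (hp : p ∈ adm V h) :
    Integrable (fun g => Ψ (p.2 + p.1 • g) g) (stdGaussian V) := by
  obtain ⟨s, r, b, hs, hr, hs1, hbi, hdom⟩ := exists_dom hC hh (show h * p.1 ^ 2 < 1 from hp) p.2 k
  refine hbi.mono' ?_ (ae_of_all _ fun g => (hb _ _).trans (hdom p.1 p.2 g hs.le hr.le))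
  refine Continuous.aestronglyMeasurable ?_
  exact hΨ.comp (f := fun g : V => (p.2 + p.1 • g, g)) (by fun_prop)

/-- Direction map `(dσ, dx) ↦ dx + dσ • g`. -/
def dirMap (g : V) : ℝ × V →L[ℝ] V :=
  ContinuousLinearMap.snd ℝ ℝ V + (ContinuousLinearMap.fst ℝ ℝ V).smulRight g

omit [FiniteDimensional ℝ V] [MeasurableSpace V] [BorelSpace V] in
@[simp] theorem dirMap_apply (g : V) (q : ℝ × V) : dirMap g q = q.2 + q.1 • g := rfl

omit [FiniteDimensional ℝ V] [MeasurableSpace V] [BorelSpace V] in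
theorem norm_dirMap_le (g : V) : ‖dirMap g‖ ≤ 1 + ‖g‖ := by
  refine ContinuousLinearMap.opNorm_le_bound _ (by positivity) fun q => ?_
  rw [dirMap_apply]
  refine (norm_add_le _ _).trans ?_
  rw [norm_smul]
  have h1 : ‖q.2‖ ≤ ‖q‖ := norm_snd_le q
  have h2 : ‖q.1‖ ≤ ‖q‖ := norm_fst_le q
  nlinarith [norm_nonneg g, mul_le_mul_of_nonneg_right h2 (norm_nonneg g)]

omit [FiniteDimensional ℝ V] [MeasurableSpace V] [BorelSpace V] in
theorem continuous_dirMap : Continuous (dirMap (V := V)) := by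
  unfold dirMap
  refine continuous_const.add ?_
  exact (ContinuousLinearMap.smulRightL ℝ (ℝ × V) V (ContinuousLinearMap.fst ℝ ℝ V)).continuous

theorem aesm_clm {W : Type} [NormedAddCommGroup W] [NormedSpace ℝ W] {f : V → W →L[ℝ] H}
    (hf : Continuous f) (μ : Measure V) : AEStronglyMeasurable f μ := hf.aestronglyMeasurable

theorem hasFDerivAt_avg {Φ : V → H} (hΦ : ContDiff ℝ 1 Φ) {C h : ℝ} (hC : 0 ≤ C) (hh : 0 ≤ h)
    (hb : ∀ y, ‖Φ y‖ ≤ C * rexp (C * ‖y‖ + h * ‖y‖ ^ 2 / 2))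
    (hb' : ∀ y, ‖fderiv ℝ Φ y‖ ≤ C * rexp (C * ‖y‖ + h * ‖y‖ ^ 2 / 2))
    {p : ℝ × V} (hp : p ∈ adm V h) :
    HasFDerivAt (avg Φ) (∫ g, (fderiv ℝ Φ (p.2 + p.1 • g)).comp (dirMap g) ∂(stdGaussian V)) p := by
  obtain ⟨s, r, b, hs, hr, hs1, hbi, hdom⟩ := exists_dom hC hh (show h * p.1 ^ 2 < 1 from hp) p.2 1
  have hcont : ∀ q : ℝ × V, Continuous fun g : V => Φ (q.2 + q.1 • g) := fun q =>
    hΦ.continuous.comp (by fun_prop)
  have hcd : Continuous (fderiv ℝ Φ) := hΦ.continuous_fderiv one_ne_zero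
  have hcont' : Continuous fun g : V => (fderiv ℝ Φ (p.2 + p.1 • g)).comp (dirMap g) :=
    (hcd.comp (by fun_prop)).clm_comp continuous_dirMap
  have hU : {q : ℝ × V | |q.1| < s ∧ ‖q.2‖ < r} ∈ 𝓝 p := by
    have : IsOpen {q : ℝ × V | |q.1| < s ∧ ‖q.2‖ < r} :=
      (isOpen_lt (f := fun q : ℝ × V => |q.1|) (g := fun _ => s) (by fun_prop)
        continuous_const).inter
      (isOpen_lt (f := fun q : ℝ × V => ‖q.2‖) (g := fun _ => r) (by fun_prop) continuous_const)
    exact this.mem_nhds ⟨hs, hr⟩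
  refine hasFDerivAt_integral_of_dominated_of_fderiv_le (μ := stdGaussian V)
    (F := fun q g => Φ (q.2 + q.1 • g))
    (F' := fun q g => (fderiv ℝ Φ (q.2 + q.1 • g)).comp (dirMap g)) (bound := b)
    hU ?_ ?_ ?_ ?_ hbi ?_
  · exact Eventually.of_forall fun q => (hcont q).aestronglyMeasurable
  · refine integrable_avg_gen (Ψ := fun y _ => Φ y) (by fun_prop) hC hh (k := 0) ?_ hp
    intro y g
    simpa using hb y
  · exact aesm_clm hcont' _
  · refine ae_of_all _ fun g q hq => ?_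
    refine (ContinuousLinearMap.opNorm_comp_le _ _).trans ?_
    rw [mul_comm]
    refine le_trans ?_ (hdom q.1 q.2 g hq.1.le hq.2.le)
    rw [pow_one]
    exact mul_le_mul (norm_dirMap_le g) (hb' _) (norm_nonneg _) (by positivity)
  · refine ae_of_all _ fun g q _ => ?_
    have h1 : HasFDerivAt (fun q : ℝ × V => q.2 + q.1 • g) (dirMap g) q := (dirMap g).hasFDerivAt
    exact ((hΦ.differentiable one_ne_zero) _).hasFDerivAt.comp q h1

theorem contDiffOn_avg {Φ : V → H} (hΦ : ContDiff ℝ 1 Φ) {C h : ℝ} (hC : 0 ≤ C) (hh : 0 ≤ h)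
    (hb : ∀ y, ‖Φ y‖ ≤ C * rexp (C * ‖y‖ + h * ‖y‖ ^ 2 / 2))
    (hb' : ∀ y, ‖fderiv ℝ Φ y‖ ≤ C * rexp (C * ‖y‖ + h * ‖y‖ ^ 2 / 2)) :
    ContDiffOn ℝ 1 (avg Φ) (adm V h) := by
  have hD := isOpen_adm (V := V) h
  have hd := fun p (hp : p ∈ adm V h) => hasFDerivAt_avg hΦ hC hh hb hb' hp
  rw [show (1 : WithTop ℕ∞) = 0 + 1 by rfl, contDiffOn_succ_iff_fderiv_of_isOpen hD]
  refine ⟨fun p hp => (hd p hp).differentiableAt.differentiableWithinAt, by simp, ?_⟩
  rw [contDiffOn_zero]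
  have h1 : ContinuousOn (fun p : ℝ × V => ∫ g, (fderiv ℝ Φ (p.2 + p.1 • g)).comp (dirMap g)
      ∂(stdGaussian V)) (adm V h) := by
    refine continuousOn_avg_gen (Ψ := fun y g => (fderiv ℝ Φ y).comp (dirMap g)) ?_ hC hh (k := 1) ?_
    · exact ((hΦ.continuous_fderiv one_ne_zero).comp continuous_fst).clm_comp
        (continuous_dirMap.comp continuous_snd)
    · intro y g
      refine (ContinuousLinearMap.opNorm_comp_le _ _).trans ?_
      rw [mul_comm, pow_one]
      exact mul_le_mul (norm_dirMap_le g) (hb' _) (norm_nonneg _) (by positivity)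
  exact h1.congr fun p hp => (hd p hp).fderiv

end Crest.Agent.R285
end
end

-- ▼ part R285/Liouville
section

/-!
Row 285: Liouville's theorem, time dependent version.  If `∂ₜρ + div (ρ v) = 0` then the evolution
of `v` transports `ρ s • μ` to `ρ t • μ`.
-/

set_option autoImplicit false

open Set Filter Topology MeasureTheory

noncomputable section

namespace Crest.Agent.R285

variable {E : Type} [NormedAddCommGroup E] [NormedSpace ℝ E] [FiniteDimensional ℝ E]

/-- The divergence of a vector field (basis free). -/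
def dvg (w : E → E) (x : E) : ℝ := LinearMap.trace ℝ E (fderiv ℝ w x : E →ₗ[ℝ] E)

theorem trace_eq_sum_coord (L : E →L[ℝ] E) :
    LinearMap.trace ℝ E (L : E →ₗ[ℝ] E) =
      ∑ i, (Module.finBasis ℝ E).coord i (L (Module.finBasis ℝ E i)) := by
  rw [LinearMap.trace_eq_matrix_trace ℝ (Module.finBasis ℝ E), Matrix.trace]
  refine Finset.sum_congr rfl fun i _ => ?_
  rw [Matrix.diag_apply, LinearMap.toMatrix_apply]
  rfl

theorem trace_smulRight (l : E →L[ℝ] ℝ) (u : E) :
    LinearMap.trace ℝ E (l.smulRight u : E →ₗ[ℝ] E) = l u := by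
  rw [trace_eq_sum_coord]
  have h : u = ∑ i, (Module.finBasis ℝ E).coord i u • Module.finBasis ℝ E i := by
    simp
  calc ∑ i, (Module.finBasis ℝ E).coord i ((l.smulRight u) (Module.finBasis ℝ E i))
      = ∑ i, (Module.finBasis ℝ E).coord i u * l (Module.finBasis ℝ E i) := by
        refine Finset.sum_congr rfl fun i _ => ?_
        simp [mul_comm]
    _ = l (∑ i, (Module.finBasis ℝ E).coord i u • Module.finBasis ℝ E i) := by
        rw [map_sum]
        simp only [map_smul, smul_eq_mul]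
    _ = l u := by rw [← h]

theorem dvg_smul {g : E → ℝ} {w : E → E} {x : E} (hg : DifferentiableAt ℝ g x)
    (hw : DifferentiableAt ℝ w x) :
    dvg (fun y => g y • w y) x = fderiv ℝ g x (w x) + g x * dvg w x := by
  unfold dvg
  rw [fderiv_fun_smul hg hw]
  rw [show ((g x • fderiv ℝ w x + (fderiv ℝ g x).smulRight (w x) : E →L[ℝ] E) : E →ₗ[ℝ] E)
      = g x • (fderiv ℝ w x : E →ₗ[ℝ] E) + ((fderiv ℝ g x).smulRight (w x) : E →ₗ[ℝ] E) from rfl,
    map_add, map_smul, trace_smulRight, smul_eq_mul]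
  ring

variable [MeasurableSpace E] [BorelSpace E] (μ : Measure E) [μ.IsAddHaarMeasure]

theorem integral_fderiv_eq_zero_of_compact {g : E → ℝ} (hg : ContDiff ℝ 1 g)
    (hc : HasCompactSupport g) (u : E) : ∫ x, fderiv ℝ g x u ∂μ = 0 := by
  have h1 : Integrable (fun x => fderiv ℝ g x u) μ := by
    refine Continuous.integrable_of_hasCompactSupport ?_ ?_
    · exact (hg.continuous_fderiv one_ne_zero).clm_apply continuous_const
    · exact (hc.fderiv (𝕜 := ℝ)).comp_left (g := fun L : E →L[ℝ] ℝ => L u) rfl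
  have h2 : Integrable g μ := hg.continuous.integrable_of_hasCompactSupport hc
  have := integral_mul_fderiv_eq_neg_fderiv_mul_of_integrable (μ := μ) (f := fun _ : E => (1 : ℝ))
    (g := g) (v := u) (by simp) (by simpa using h1) (by simpa using h2)
    (fun x _ => differentiableAt_const _) (fun x _ => (hg.differentiable one_ne_zero) x)
  simpa using this

theorem integral_dvg_eq_zero {w : E → E} (hw : ContDiff ℝ 1 w) (hc : HasCompactSupport w) :
    ∫ x, dvg w x ∂μ = 0 := by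
  let c : (i : Fin (Module.finrank ℝ E)) → E →L[ℝ] ℝ := fun i =>
    LinearMap.toContinuousLinearMap ((Module.finBasis ℝ E).coord i)
  have hci : ∀ i, ContDiff ℝ 1 (fun x => c i (w x)) := fun i => (c i).contDiff.comp hw
  have hcc : ∀ i, HasCompactSupport (fun x => c i (w x)) := fun i =>
    hc.comp_left (g := fun y => c i y) (map_zero _)
  have h1 : ∀ x, dvg w x = ∑ i, fderiv ℝ (fun x => c i (w x)) x (Module.finBasis ℝ E i) := by
    intro x
    unfold dvg
    rw [trace_eq_sum_coord]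
    refine Finset.sum_congr rfl fun i _ => ?_
    have h2 : HasFDerivAt (fun x => c i (w x)) ((c i).comp (fderiv ℝ w x)) x :=
      (c i).hasFDerivAt.comp x ((hw.differentiable one_ne_zero) x).hasFDerivAt
    rw [h2.fderiv]
    rfl
  simp_rw [h1]
  rw [integral_finsetSum]
  · exact Finset.sum_eq_zero fun i _ => integral_fderiv_eq_zero_of_compact μ (hci i) (hcc i) _
  · intro i _
    refine Continuous.integrable_of_hasCompactSupport ?_ ?_
    · exact ((hci i).continuous_fderiv one_ne_zero).clm_apply continuous_const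
    · exact ((hcc i).fderiv (𝕜 := ℝ)).comp_left
        (g := fun L : E →L[ℝ] ℝ => L (Module.finBasis ℝ E i)) rfl

variable {v : ℝ → E → E} {J : Set ℝ} {ρ : ℝ → E → ℝ}

omit [MeasurableSpace E] [BorelSpace E] in
/-- Backward equation for the evolution. -/
theorem GoodOn.fderiv_evol_left (hv : GoodOn v J) {r t : ℝ} (hr : r ∈ J) (ht : t ∈ J) (x : E) :
    fderiv ℝ (fun p : ℝ × E => evol v J p.1 t p.2) (r, x) (1, v r x) = 0 := by
  have hopen : IsOpen (J ×ˢ (univ : Set E)) := hv.isOpen.prod isOpen_univ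
  have hF : ContDiffOn ℝ 1 (fun p : ℝ × E => evol v J p.1 t p.2) (J ×ˢ univ) :=
    hv.contDiffOn_evol.comp (f := fun p : ℝ × E => (p.1, t, p.2)) (by fun_prop)
      (fun p hp => ⟨hp.1, ht, mem_univ _⟩)
  have hFd : HasFDerivAt (fun p : ℝ × E => evol v J p.1 t p.2)
      (fderiv ℝ (fun p : ℝ × E => evol v J p.1 t p.2) (r, x)) (r, x) :=
    ((hF.differentiableOn one_ne_zero).differentiableAt
      (hopen.mem_nhds ⟨hr, mem_univ _⟩)).hasFDerivAt
  have hc : HasDerivAt (fun r' => ((r', evol v J r r' x) : ℝ × E)) (1, v r x) r := by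
    have := (hasDerivAt_id r).prodMk (hv.hasDerivAt_evol hr hr x)
    rw [hv.evol_self hr] at this
    simpa using this
  have hFd' : HasFDerivAt (fun p : ℝ × E => evol v J p.1 t p.2)
      (fderiv ℝ (fun p : ℝ × E => evol v J p.1 t p.2) (r, x)) (r, evol v J r r x) := by
    rw [hv.evol_self hr]; exact hFd
  have h1 := hFd'.comp_hasDerivAt r hc
  have h2 : (fun r' => evol v J r' t (evol v J r r' x)) =ᶠ[𝓝 r] fun _ => evol v J r t x := by
    filter_upwards [hv.isOpen.mem_nhds hr] with r' hr'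
    exact hv.evol_evol hr hr' ht x
  have h3 : HasDerivAt (fun r' => evol v J r' t (evol v J r r' x)) 0 r :=
    (hasDerivAt_const r _).congr_of_eventuallyEq h2
  exact h1.unique h3

/-- Conservation of the test integrals. -/
theorem GoodOn.integral_evol (hv : GoodOn v J)
    (hρ : ContDiffOn ℝ 1 (fun p : ℝ × E => ρ p.1 p.2) (J ×ˢ univ))
    (hcont : ∀ t ∈ J, ∀ x, fderiv ℝ (fun p : ℝ × E => ρ p.1 p.2) (t, x) (1, v t x)
      + ρ t x * dvg (v t) x = 0)
    {f : E → ℝ} (hf : ContDiff ℝ 1 f) (hfc : HasCompactSupport f) {s t : ℝ} (hs : s ∈ J)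
    (ht : t ∈ J) :
    ∫ x, f (evol v J s t x) * ρ s x ∂μ = ∫ x, f x * ρ t x ∂μ := by
  have hopen : IsOpen (J ×ˢ (univ : Set E)) := hv.isOpen.prod isOpen_univ
  set F : ℝ × E → E := fun p => evol v J p.1 t p.2 with hFdef
  have hF : ContDiffOn ℝ 1 F (J ×ˢ univ) :=
    hv.contDiffOn_evol.comp (f := fun p : ℝ × E => (p.1, t, p.2)) (by fun_prop)
      (fun p hp => ⟨hp.1, ht, mem_univ _⟩)
  set H : ℝ × E → ℝ := fun p => f (F p) * ρ p.1 p.2 with hHdef
  have hG : ContDiffOn ℝ 1 (fun p => f (F p)) (J ×ˢ univ) := hf.comp_contDiffOn hF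
  have hH : ContDiffOn ℝ 1 H (J ×ˢ univ) := hG.mul hρ
  have hHd : ∀ r ∈ J, ∀ x, HasFDerivAt H (fderiv ℝ H (r, x)) (r, x) := fun r hr x =>
    ((hH.differentiableOn one_ne_zero).differentiableAt
      (hopen.mem_nhds ⟨hr, mem_univ _⟩)).hasFDerivAt
  have hH' : ContinuousOn (fun p => fderiv ℝ H p (1, 0)) (J ×ˢ univ) := by
    have := hH.continuousOn_fderiv_of_isOpen hopen le_rfl
    exact this.clm_apply continuousOn_const
  -- slices
  have hslice : ∀ r ∈ J, ContDiff ℝ 1 (fun x => H (r, x)) := by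
    intro r hr
    rw [← contDiffOn_univ]
    exact hH.comp (f := fun x : E => (r, x)) (by fun_prop) (fun x _ => ⟨hr, mem_univ _⟩)
  have hvslice : ∀ r ∈ J, ContDiff ℝ 1 (v r) := by
    intro r hr
    rw [← contDiffOn_univ]
    exact hv.contDiffOn.comp (f := fun x : E => (r, x)) (by fun_prop) (fun x _ => ⟨hr, mem_univ _⟩)
  -- compact set containing the supports
  have hsupp : ∀ a ∈ J, ∀ b ∈ J, ∃ C : Set E, IsCompact C ∧ ∀ r ∈ Icc a b, ∀ x, x ∉ C →
      F (r, x) ∉ tsupport f := by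
    intro a ha b hb
    refine ⟨(fun p : ℝ × E => evol v J t p.1 p.2) '' (Icc a b ×ˢ tsupport f), ?_, ?_⟩
    · refine (isCompact_Icc.prod hfc).image_of_continuousOn ?_
      exact hv.contDiffOn_evol.continuousOn.comp (f := fun p : ℝ × E => (t, p.1, p.2))
        (by fun_prop) (fun p hp => ⟨ht, hv.ordConn.out ha hb hp.1, mem_univ _⟩)
    · intro r hr x hx hmem
      refine hx ⟨(r, F (r, x)), ⟨hr, hmem⟩, ?_⟩
      have hrJ := hv.ordConn.out ha hb hr
      simp only [hFdef]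
      rw [hv.evol_evol hrJ ht hrJ, hv.evol_self hrJ]
  have hcsupp : ∀ r ∈ J, HasCompactSupport (fun x => H (r, x)) := by
    intro r hr
    obtain ⟨C, hC, hC'⟩ := hsupp r hr r hr
    refine HasCompactSupport.intro hC fun x hx => ?_
    have : f (F (r, x)) = 0 := image_eq_zero_of_notMem_tsupport (hC' r ⟨le_rfl, le_rfl⟩ x hx)
    simp [hHdef, this]
  -- the derivative of the integral
  have hderiv : ∀ r ∈ J, HasDerivAt (fun r => ∫ x, H (r, x) ∂μ)
      (∫ x, fderiv ℝ H (r, x) (1, 0) ∂μ) r := by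
    intro r hr
    obtain ⟨ε, hε, hball⟩ := Metric.isOpen_iff.1 hv.isOpen r hr
    have ha : r - ε / 2 ∈ J := hball (by
      rw [Metric.mem_ball, Real.dist_eq, show r - ε / 2 - r = -(ε / 2) by ring, abs_neg,
        abs_of_pos (by linarith)]
      linarith)
    have hb : r + ε / 2 ∈ J := hball (by
      rw [Metric.mem_ball, Real.dist_eq, show r + ε / 2 - r = ε / 2 by ring,
        abs_of_pos (by linarith)]
      linarith)
    obtain ⟨C, hC, hC'⟩ := hsupp _ ha _ hb
    have hIJ : Icc (r - ε / 2) (r + ε / 2) ⊆ J := hv.ordConn.out ha hb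
    obtain ⟨M, hM⟩ := ((isCompact_Icc (a := r - ε / 2) (b := r + ε / 2)).prod hC).bddAbove_image
      (f := fun p : ℝ × E => ‖fderiv ℝ H p (1, 0)‖)
      ((hH'.mono (fun p hp => ⟨hIJ hp.1, mem_univ _⟩)).norm)
    have hzero : ∀ r' ∈ Icc (r - ε / 2) (r + ε / 2), ∀ x, x ∉ C → fderiv ℝ H (r', x) = 0 := by
      intro r' hr' x hx
      have h1 : ∀ᶠ p in 𝓝 (r', x), F p ∉ tsupport f := by
        have hcF : ContinuousAt F (r', x) :=
          hF.continuousOn.continuousAt (hopen.mem_nhds ⟨hIJ hr', mem_univ _⟩)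
        exact hcF.eventually ((isClosed_tsupport f).isOpen_compl.mem_nhds (hC' r' hr' x hx))
      have h2 : H =ᶠ[𝓝 (r', x)] fun _ => 0 := by
        filter_upwards [h1] with p hp
        simp [hHdef, image_eq_zero_of_notMem_tsupport hp]
      rw [h2.fderiv_eq]
      simp
    have hs' : Ioo (r - ε / 2) (r + ε / 2) ∈ 𝓝 r := Ioo_mem_nhds (by linarith) (by linarith)
    refine (hasDerivAt_integral_of_dominated_loc_of_deriv_le (μ := μ)
      (F := fun r x => H (r, x)) (F' := fun r x => fderiv ℝ H (r, x) (1, 0))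
      (bound := C.indicator fun _ => M) hs' ?_ ?_ ?_ ?_ ?_ ?_).2
    · filter_upwards [hs'] with r' hr'
      exact (hslice r' (hIJ ⟨hr'.1.le, hr'.2.le⟩)).continuous.aestronglyMeasurable
    · exact (hslice r hr).continuous.integrable_of_hasCompactSupport (hcsupp r hr)
    · have : Continuous fun x => fderiv ℝ H (r, x) (1, 0) := by
        rw [← continuousOn_univ]
        exact hH'.comp (f := fun x : E => (r, x)) (by fun_prop) (fun x _ => ⟨hr, mem_univ _⟩)
      exact this.aestronglyMeasurable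
    · refine ae_of_all _ fun x r' hr' => ?_
      by_cases hx : x ∈ C
      · rw [indicator_of_mem hx]
        exact hM ⟨(r', x), ⟨⟨hr'.1.le, hr'.2.le⟩, hx⟩, rfl⟩
      · rw [indicator_of_notMem hx, hzero r' ⟨hr'.1.le, hr'.2.le⟩ x hx]
        simp
    · exact (integrable_indicator_iff hC.measurableSet).2
        (integrableOn_const hC.measure_lt_top.ne)
    · refine ae_of_all _ fun x r' hr' => ?_
      have hcurve : HasDerivAt (fun r : ℝ => ((r, x) : ℝ × E)) ((1 : ℝ), (0 : E)) r' :=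
        (hasDerivAt_id r').prodMk (hasDerivAt_const r' x)
      exact (hHd r' (hIJ ⟨hr'.1.le, hr'.2.le⟩) x).comp_hasDerivAt r' hcurve
  -- the derivative vanishes
  have hvan : ∀ r ∈ J, ∫ x, fderiv ℝ H (r, x) (1, 0) ∂μ = 0 := by
    intro r hr
    have hw : ContDiff ℝ 1 (fun x => H (r, x) • v r x) := (hslice r hr).smul (hvslice r hr)
    have hwc : HasCompactSupport (fun x => H (r, x) • v r x) := (hcsupp r hr).smul_right
    have key : ∀ x, fderiv ℝ H (r, x) (1, 0) = - dvg (fun x => H (r, x) • v r x) x := by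
      intro x
      have hd1 : HasFDerivAt (fun x => H (r, x))
          ((fderiv ℝ H (r, x)).comp (ContinuousLinearMap.inr ℝ ℝ E)) x := by
        have hi : HasFDerivAt (fun x : E => ((r, x) : ℝ × E)) (ContinuousLinearMap.inr ℝ ℝ E) x := by
          have h0 := (hasFDerivAt_const r x).prodMk (hasFDerivAt_id (𝕜 := ℝ) x)
          exact h0
        exact (hHd r hr x).comp x hi
      rw [dvg_smul hd1.differentiableAt ((hvslice r hr).differentiable one_ne_zero x), hd1.fderiv]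
      -- the full derivative along (1, v)
      have hGd : HasFDerivAt (fun p => f (F p)) ((fderiv ℝ f (F (r, x))).comp (fderiv ℝ F (r, x)))
          (r, x) := by
        have h1 : HasFDerivAt F (fderiv ℝ F (r, x)) (r, x) :=
          ((hF.differentiableOn one_ne_zero).differentiableAt
            (hopen.mem_nhds ⟨hr, mem_univ _⟩)).hasFDerivAt
        exact ((hf.differentiable one_ne_zero) _).hasFDerivAt.comp (r, x) h1
      have hρd : HasFDerivAt (fun p : ℝ × E => ρ p.1 p.2)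
          (fderiv ℝ (fun p : ℝ × E => ρ p.1 p.2) (r, x)) (r, x) :=
        ((hρ.differentiableOn one_ne_zero).differentiableAt
          (hopen.mem_nhds ⟨hr, mem_univ _⟩)).hasFDerivAt
      have hHd' := hGd.mul hρd
      have e1 : fderiv ℝ H (r, x) (1, v r x) = f (F (r, x)) *
          fderiv ℝ (fun p : ℝ × E => ρ p.1 p.2) (r, x) (1, v r x) := by
        have h5 : fderiv ℝ H (r, x) = _ := hHd'.fderiv
        rw [h5]
        have h6 := hv.fderiv_evol_left hr ht x
        simp only [_root_.add_apply, _root_.smul_apply,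
          ContinuousLinearMap.comp_apply, smul_eq_mul]
        have h7 : fderiv ℝ F (r, x) (1, v r x) = 0 := h6
        rw [h7]
        simp
      have e2 : fderiv ℝ H (r, x) (1, v r x) = fderiv ℝ H (r, x) (1, 0)
          + fderiv ℝ H (r, x) (0, v r x) := by
        rw [← map_add]; simp
      have e3 := hcont r hr x
      have e4 : H (r, x) = f (F (r, x)) * ρ r x := rfl
      simp only [ContinuousLinearMap.comp_apply, ContinuousLinearMap.inr_apply]
      rw [e4]
      have e5 : f (F (r, x)) * (fderiv ℝ (fun p : ℝ × E => ρ p.1 p.2) (r, x) (1, v r x)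
          + ρ r x * dvg (v r) x) = 0 := by rw [e3, mul_zero]
      linarith [e1, e2, e5]
    simp_rw [key]
    rw [integral_neg, integral_dvg_eq_zero μ hw hwc, neg_zero]
  have hconst : (fun r => ∫ x, H (r, x) ∂μ) s = (fun r => ∫ x, H (r, x) ∂μ) t := by
    have h1 := (convex_uIcc s t).norm_image_sub_le_of_norm_hasDerivWithin_le (C := 0)
      (f := fun r => ∫ x, H (r, x) ∂μ) (f' := fun r => ∫ x, fderiv ℝ H (r, x) (1, 0) ∂μ)
      (fun r hr => (hderiv r (hv.ordConn.uIcc_subset hs ht hr)).hasDerivWithinAt)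
      (fun r hr => by rw [hvan r (hv.ordConn.uIcc_subset hs ht hr)]; simp)
      right_mem_uIcc left_mem_uIcc
    rw [zero_mul, norm_le_zero_iff, sub_eq_zero] at h1
    exact h1
  simpa [hHdef, hFdef, hv.evol_self ht] using hconst

omit [NormedSpace ℝ E] [FiniteDimensional ℝ E] [MeasurableSpace E] [BorelSpace E] in
theorem pi_bounded_open : IsPiSystem {U : Set E | IsOpen U ∧ Bornology.IsBounded U} := by
  rintro U ⟨hU, hU'⟩ V ⟨hV, -⟩ -
  exact ⟨hU.inter hV, hU'.subset inter_subset_left⟩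

omit μ in
/-- Two measures which are finite on bounded sets and agree on `C¹` compactly supported
functions are equal. -/
theorem measure_ext_of_contDiff {ν₁ ν₂ : Measure E}
    (h₁ : ∀ U : Set E, Bornology.IsBounded U → ν₁ U ≠ ⊤)
    (h₂ : ∀ U : Set E, Bornology.IsBounded U → ν₂ U ≠ ⊤)
    (h : ∀ f : E → ℝ, ContDiff ℝ 1 f → HasCompactSupport f → ∫ x, f x ∂ν₁ = ∫ x, f x ∂ν₂) :
    ν₁ = ν₂ := by
  have key : ∀ U : Set E, IsOpen U → Bornology.IsBounded U → ν₁ U = ν₂ U := by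
    intro U hU hU'
    obtain ⟨f, hfU, hf, hf01⟩ := hU.exists_contDiff_support_eq (n := 1)
    have hf0 : ∀ x, 0 ≤ f x := fun x => (hf01 ⟨x, rfl⟩).1
    have hf1 : ∀ x, f x ≤ 1 := fun x => (hf01 ⟨x, rfl⟩).2
    set g : ℕ → E → ℝ := fun n x => 1 - (1 - f x) ^ n with hg
    have hgc : ∀ n, ContDiff ℝ 1 (g n) := fun n => by
      have : ContDiff ℝ 1 f := by exact_mod_cast hf
      exact contDiff_const.sub ((contDiff_const.sub this).pow n)
    have hgs : ∀ n x, x ∉ U → g n x = 0 := by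
      intro n x hx
      have : f x = 0 := by
        by_contra h
        exact hx (hfU ▸ h)
      simp [hg, this]
    have hgcs : ∀ n, HasCompactSupport (g n) := fun n =>
      HasCompactSupport.intro (K := closure U) hU'.isCompact_closure
        (fun x hx => hgs n x (fun h => hx (subset_closure h)))
    have hgb : ∀ n x, ‖g n x‖ ≤ U.indicator (fun _ => (1 : ℝ)) x := by
      intro n x
      by_cases hx : x ∈ U
      · rw [indicator_of_mem hx, Real.norm_eq_abs, abs_le]
        have h1 : 0 ≤ 1 - f x := by linarith [hf1 x]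
        have h2 : (1 - f x) ^ n ≤ 1 := pow_le_one₀ h1 (by linarith [hf0 x])
        have h3 : 0 ≤ (1 - f x) ^ n := pow_nonneg h1 n
        constructor <;> simp only [hg] <;> linarith
      · rw [indicator_of_notMem hx, hgs n x hx]; simp
    have hlim : ∀ x, Tendsto (fun n => g n x) atTop (𝓝 (U.indicator (fun _ => (1 : ℝ)) x)) := by
      intro x
      by_cases hx : x ∈ U
      · rw [indicator_of_mem hx]
        have hfx : f x ≠ 0 := by
          have : x ∈ Function.support f := by rw [hfU]; exact hx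
          exact this
        have h1 : 0 < f x := lt_of_le_of_ne (hf0 x) (Ne.symm hfx)
        have h2 : Tendsto (fun n => (1 - f x) ^ n) atTop (𝓝 0) :=
          tendsto_pow_atTop_nhds_zero_of_lt_one (by linarith [hf1 x]) (by linarith)
        simpa [hg] using h2.const_sub 1
      · rw [indicator_of_notMem hx]
        simp_rw [fun n => hgs n x hx]
        exact tendsto_const_nhds
    have hint : ∀ ν : Measure E, ν U ≠ ⊤ →
        Tendsto (fun n => ∫ x, g n x ∂ν) atTop (𝓝 ((ν U).toReal)) := by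
      intro ν hν
      have h1 := tendsto_integral_of_dominated_convergence (μ := ν)
        (F := g) (f := U.indicator fun _ => (1 : ℝ)) (bound := U.indicator fun _ => (1 : ℝ))
        (fun n => (hgc n).continuous.aestronglyMeasurable)
        ((integrable_indicator_iff hU.measurableSet).2 (integrableOn_const hν))
        (fun n => ae_of_all _ (hgb n)) (ae_of_all _ hlim)
      rwa [integral_indicator hU.measurableSet, setIntegral_const, smul_eq_mul, mul_one] at h1
    have e1 := hint ν₁ (h₁ U hU')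
    have e2 := hint ν₂ (h₂ U hU')
    simp_rw [fun n => h (g n) (hgc n) (hgcs n)] at e1
    have e3 := tendsto_nhds_unique e1 e2
    exact (ENNReal.toReal_eq_toReal_iff' (h₁ U hU') (h₂ U hU')).1 e3
  refine Measure.ext_of_generateFrom_of_iUnion {U : Set E | IsOpen U ∧ Bornology.IsBounded U}
    (fun n : ℕ => Metric.ball (0 : E) n) ?_ pi_bounded_open ?_ ?_ ?_ ?_
  · refine le_antisymm ?_ (MeasurableSpace.generateFrom_le fun U hU => hU.1.measurableSet)
    rw [BorelSpace.measurable_eq (α := E), borel]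
    refine MeasurableSpace.generateFrom_le fun U hU => ?_
    have : U = ⋃ n : ℕ, (U ∩ Metric.ball (0 : E) n) := by
      rw [← inter_iUnion, Metric.iUnion_ball_nat, inter_univ]
    rw [this]
    refine MeasurableSet.iUnion fun n => MeasurableSpace.measurableSet_generateFrom
      ⟨IsOpen.inter hU Metric.isOpen_ball, Metric.isBounded_ball.subset inter_subset_right⟩
  · exact Metric.iUnion_ball_nat 0
  · exact fun n => ⟨Metric.isOpen_ball, Metric.isBounded_ball⟩
  · exact fun n => h₁ _ Metric.isBounded_ball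
  · exact fun U hU => key U hU.1 hU.2

/-- **Liouville**: transport of densities by the evolution. -/
theorem GoodOn.map_evol (hv : GoodOn v J)
    (hρ : ContDiffOn ℝ 1 (fun p : ℝ × E => ρ p.1 p.2) (J ×ˢ univ))
    (hρ0 : ∀ t ∈ J, ∀ x, 0 ≤ ρ t x)
    (hcont : ∀ t ∈ J, ∀ x, fderiv ℝ (fun p : ℝ × E => ρ p.1 p.2) (t, x) (1, v t x)
      + ρ t x * dvg (v t) x = 0)
    {s t : ℝ} (hs : s ∈ J) (ht : t ∈ J) :
    (μ.withDensity fun x => ENNReal.ofReal (ρ s x)).map (evol v J s t)
      = μ.withDensity fun x => ENNReal.ofReal (ρ t x) := by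
  have hρc : ∀ r ∈ J, Continuous (ρ r) := by
    intro r hr
    rw [← continuousOn_univ]
    exact hρ.continuousOn.comp (f := fun x : E => (r, x)) (by fun_prop)
      (fun x _ => ⟨hr, mem_univ _⟩)
  have hfin : ∀ r ∈ J, ∀ U : Set E, Bornology.IsBounded U →
      (μ.withDensity fun x => ENNReal.ofReal (ρ r x)) U ≠ ⊤ := by
    intro r hr U hU
    have hK := hU.isCompact_closure
    refine ne_top_of_le_ne_top ?_ (measure_mono subset_closure)
    rw [withDensity_apply _ hK.measurableSet]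
    have h1 : IntegrableOn (ρ r) (closure U) μ := (hρc r hr).continuousOn.integrableOn_compact hK
    exact (h1.lintegral_lt_top).ne
  have hcts := hv.continuous_evol hs ht
  refine measure_ext_of_contDiff ?_ ?_ ?_
  · intro U hU
    have hK := hU.isCompact_closure
    refine ne_top_of_le_ne_top ?_ (measure_mono subset_closure)
    rw [Measure.map_apply hcts.measurable hK.measurableSet]
    have : IsCompact (evol v J s t ⁻¹' closure U) := by
      have := (hv.homeo hs ht).isCompact_preimage.2 hK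
      exact this
    exact hfin s hs _ this.isBounded
  · exact fun U hU => hfin t ht U hU
  · intro f hf hfc
    rw [integral_map hcts.measurable.aemeasurable hf.continuous.aestronglyMeasurable]
    have e : ∀ r ∈ J, ∀ g : E → ℝ, ∫ x, g x ∂(μ.withDensity fun x => ENNReal.ofReal (ρ r x))
        = ∫ x, g x * ρ r x ∂μ := by
      intro r hr g
      rw [integral_withDensity_eq_integral_toReal_smul
        ((hρc r hr).measurable.ennreal_ofReal) (ae_of_all _ fun x => ENNReal.ofReal_lt_top)]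
      refine integral_congr_ae (ae_of_all _ fun x => ?_)
      simp only [ENNReal.toReal_ofReal (hρ0 r hr x), smul_eq_mul]
      ring
    rw [e s hs, e t ht]
    exact hv.integral_evol μ hρ hcont hf hfc hs ht

end Crest.Agent.R285
end
end

-- ▼ part R285/Pot
section

/-!
Row 285: convex potentials `U` with curvature in `[0, h]`: elementary bounds.
-/

set_option autoImplicit false
set_option maxSynthPendingDepth 3
set_option linter.unusedSectionVars false

open MeasureTheory ProbabilityTheory Real Filter Topology Set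
open scoped RealInnerProductSpace

noncomputable section

namespace Crest.Agent.R285

variable {V : Type} [NormedAddCommGroup V] [InnerProductSpace ℝ V]

/-- A symmetric bilinear form with values between `0` and `h ‖v‖²`. -/
theorem bil_le {h : ℝ} (B : V →L[ℝ] V →L[ℝ] ℝ) (hs : ∀ v w, B v w = B w v)
    (lo : ∀ v, 0 ≤ B v v) (hi : ∀ v, B v v ≤ h * ‖v‖ ^ 2) (v w : V) :
    |B v w| ≤ h * ‖v‖ * ‖w‖ := by
  have key : ∀ v w, B v w ≤ h * ‖v‖ * ‖w‖ := by
    intro v w
    by_cases hv : v = 0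
    · simp [hv]
    by_cases hw : w = 0
    · simp [hw]
    have hv' : 0 < ‖v‖ := norm_pos_iff.2 hv
    have hw' : 0 < ‖w‖ := norm_pos_iff.2 hw
    have h1 := hi (‖w‖ • v + ‖v‖ • w)
    have h2 := lo (‖w‖ • v - ‖v‖ • w)
    have h3 : ‖‖w‖ • v + ‖v‖ • w‖ ≤ 2 * ‖v‖ * ‖w‖ := by
      refine (norm_add_le _ _).trans ?_
      rw [norm_smul, norm_smul, norm_norm, norm_norm]
      linarith
    have h0 : 0 ≤ h := by
      have := (lo v).trans (hi v)
      by_contra hneg
      push Not at hneg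
      have : h * ‖v‖ ^ 2 < 0 := mul_neg_of_neg_of_pos hneg (by positivity)
      linarith
    have h4 : ‖‖w‖ • v + ‖v‖ • w‖ ^ 2 ≤ (2 * ‖v‖ * ‖w‖) ^ 2 := by gcongr
    have h5 := mul_le_mul_of_nonneg_left h4 h0
    simp only [map_add, map_sub, map_smul, _root_.add_apply, _root_.sub_apply, _root_.smul_apply,
      smul_eq_mul] at h1 h2
    have h6 := hs v w
    have h7 : 0 < ‖v‖ * ‖w‖ := by positivity
    have h8 : (‖v‖ * ‖w‖) * B v w ≤ (‖v‖ * ‖w‖) * (h * ‖v‖ * ‖w‖) := by
      rw [← h6] at h1 h2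
      nlinarith
    exact le_of_mul_le_mul_left h8 h7
  rw [abs_le]
  constructor
  · have := key (-v) w
    simp only [map_neg, _root_.neg_apply, norm_neg] at this
    linarith
  · exact key v w

variable [FiniteDimensional ℝ V]

/-- `Pot` with nonnegative `h` (automatic unless `V = 0`). -/
structure PotP (h : ℝ) (U : V → ℝ) : Prop extends Pot h U where
  hh : 0 ≤ h

variable {h : ℝ} {U : V → ℝ}

theorem pot_symm (hU : PotP h U) (x v w : V) :
    fderiv ℝ (fderiv ℝ U) x v w = fderiv ℝ (fderiv ℝ U) x w v := by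
  have := (hU.cd.contDiffAt (x := x)).isSymmSndFDerivAt (by simp)
  exact this v w

theorem pot_lo (hU : PotP h U) (x v : V) : 0 ≤ fderiv ℝ (fderiv ℝ U) x v v := by
  have := hU.lo x v
  rwa [iteratedFDeriv_two_apply] at this

theorem pot_hi (hU : PotP h U) (x v : V) : fderiv ℝ (fderiv ℝ U) x v v ≤ h * ‖v‖ ^ 2 := by
  have := hU.hi x v
  rwa [iteratedFDeriv_two_apply] at this

theorem pot_d2_norm (hU : PotP h U) (x : V) : ‖fderiv ℝ (fderiv ℝ U) x‖ ≤ h := by
  refine ContinuousLinearMap.opNorm_le_bound _ hU.hh fun v => ?_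
  refine ContinuousLinearMap.opNorm_le_bound _ (mul_nonneg hU.hh (norm_nonneg _)) fun w => ?_
  exact bil_le _ (pot_symm hU x) (pot_lo hU x) (pot_hi hU x) v w

theorem pot_cd1 (hU : PotP h U) : ContDiff ℝ 1 (fderiv ℝ U) :=
  hU.cd.fderiv_right (by norm_num)

theorem pot_lip (hU : PotP h U) (x y : V) : ‖fderiv ℝ U x - fderiv ℝ U y‖ ≤ h * ‖x - y‖ :=
  convex_univ.norm_image_sub_le_of_norm_fderiv_le (𝕜 := ℝ)
    (fun z _ => (pot_cd1 hU).differentiable one_ne_zero z) (fun z _ => pot_d2_norm hU z)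
    (mem_univ _) (mem_univ _)

theorem inner_gradient (f : V → ℝ) (x v : V) : ⟪gradient f x, v⟫ = fderiv ℝ f x v := by
  rw [gradient, InnerProductSpace.toDual_symm_apply]

theorem pot_fderiv_zero (hU : PotP h U) : fderiv ℝ U 0 = 0 := by
  ext v
  rw [← inner_gradient, hU.grad0]
  simp

theorem pot_fderiv_le (hU : PotP h U) (x : V) : ‖fderiv ℝ U x‖ ≤ h * ‖x‖ := by
  have := pot_lip hU x 0
  simpa [pot_fderiv_zero hU] using this

theorem hasDerivAt_line (hU : PotP h U) (y v : V) (t : ℝ) :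
    HasDerivAt (fun t : ℝ => U (y + t • v)) (fderiv ℝ U (y + t • v) v) t := by
  have h1 : HasDerivAt (fun t : ℝ => y + t • v) v t := by
    simpa using ((hasDerivAt_id t).smul_const v).const_add y
  exact ((hU.cd.differentiable two_ne_zero) _).hasFDerivAt.comp_hasDerivAt t h1

theorem hasDerivAt_line' (hU : PotP h U) (y v : V) (t : ℝ) :
    HasDerivAt (fun t : ℝ => fderiv ℝ U (y + t • v) v) (fderiv ℝ (fderiv ℝ U) (y + t • v) v v) t := by
  have h1 : HasDerivAt (fun t : ℝ => y + t • v) v t := by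
    simpa using ((hasDerivAt_id t).smul_const v).const_add y
  have h2 := (((pot_cd1 hU).differentiable one_ne_zero) (y + t • v)).hasFDerivAt.comp_hasDerivAt t h1
  exact h2.clm_apply (hasDerivAt_const t v) |>.congr_deriv (by simp)

theorem quad_bounds {φ φ' φ'' : ℝ → ℝ} (h1 : ∀ t, HasDerivAt φ (φ' t) t)
    (h2 : ∀ t, HasDerivAt φ' (φ'' t) t) {a b : ℝ} (ha : ∀ t, a ≤ φ'' t) (hb : ∀ t, φ'' t ≤ b) :
    a ≤ φ' 1 - φ' 0 ∧ φ' 1 - φ' 0 ≤ b ∧ a / 2 ≤ φ 1 - φ 0 - φ' 0 ∧ φ 1 - φ 0 - φ' 0 ≤ b / 2 := by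
  have hm1 : Monotone fun t => φ' t - a * t := by
    refine monotone_of_hasDerivAt_nonneg (f' := fun t => φ'' t - a) (fun t => ?_)
      (fun t => sub_nonneg.2 (ha t))
    simpa using (h2 t).fun_sub ((hasDerivAt_id t).const_mul a)
  have hm2 : Monotone fun t => b * t - φ' t := by
    refine monotone_of_hasDerivAt_nonneg (f' := fun t => b - φ'' t) (fun t => ?_)
      (fun t => sub_nonneg.2 (hb t))
    simpa using ((hasDerivAt_id t).const_mul b).fun_sub (h2 t)
  have hq1 : MonotoneOn (fun t => φ t - φ' 0 * t - a / 2 * t ^ 2) (Icc 0 1) := by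
    refine monotoneOn_of_hasDerivWithinAt_nonneg (convex_Icc 0 1)
      (f' := fun t => φ' t - φ' 0 - a * t) ?_ (fun t _ => ?_) (fun t ht => ?_)
    · intro t _
      exact (((h1 t).continuousAt).sub (by fun_prop)).sub (by fun_prop) |>.continuousWithinAt
    · have h3 := ((h1 t).sub ((hasDerivAt_id t).const_mul (φ' 0))).sub
        (((hasDerivAt_id t).pow 2).const_mul (a / 2))
      refine HasDerivAt.hasDerivWithinAt (h3.congr_deriv ?_)
      simp
      ring
    · have h3 := hm1 (interior_subset ht).1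
      simp only [mul_zero, sub_zero] at h3
      linarith
  have hq2 : MonotoneOn (fun t => b / 2 * t ^ 2 - (φ t - φ' 0 * t)) (Icc 0 1) := by
    refine monotoneOn_of_hasDerivWithinAt_nonneg (convex_Icc 0 1)
      (f' := fun t => b * t - (φ' t - φ' 0)) ?_ (fun t _ => ?_) (fun t ht => ?_)
    · intro t _
      exact ContinuousAt.sub (by fun_prop) (((h1 t).continuousAt).sub (by fun_prop))
        |>.continuousWithinAt
    · have h3 := (((hasDerivAt_id t).pow 2).const_mul (b / 2)).sub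
        ((h1 t).sub ((hasDerivAt_id t).const_mul (φ' 0)))
      refine HasDerivAt.hasDerivWithinAt (h3.congr_deriv ?_)
      simp
      ring
    · have h3 := hm2 (interior_subset ht).1
      simp only [mul_zero, zero_sub] at h3
      linarith
  have e1 := hm1 (zero_le_one (α := ℝ))
  have e2 := hm2 (zero_le_one (α := ℝ))
  have e3 := hq1 (left_mem_Icc.2 zero_le_one) (right_mem_Icc.2 zero_le_one) (zero_le_one (α := ℝ))
  have e4 := hq2 (left_mem_Icc.2 zero_le_one) (right_mem_Icc.2 zero_le_one) (zero_le_one (α := ℝ))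
  simp only [mul_zero, sub_zero, mul_one, one_pow, ne_eq, OfNat.ofNat_ne_zero, not_false_eq_true,
    zero_pow, zero_sub] at e1 e2 e3 e4
  refine ⟨by linarith, by linarith, by linarith, by linarith⟩

theorem pot_quad (hU : PotP h U) (y v : V) :
    0 ≤ (fderiv ℝ U (y + v) - fderiv ℝ U y) v ∧ (fderiv ℝ U (y + v) - fderiv ℝ U y) v ≤ h * ‖v‖ ^ 2 ∧
    0 ≤ U (y + v) - U y - fderiv ℝ U y v ∧ U (y + v) - U y - fderiv ℝ U y v ≤ h * ‖v‖ ^ 2 / 2 := by
  have := quad_bounds (hasDerivAt_line hU y v) (hasDerivAt_line' hU y v)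
    (fun t => pot_lo hU (y + t • v) v) (fun t => pot_hi hU (y + t • v) v)
  simpa using this

theorem pot_nonneg (hU : PotP h U) (x : V) : 0 ≤ U x := by
  have := (pot_quad hU 0 x).2.2.1
  simpa [pot_fderiv_zero hU, hU.zero] using this


theorem pot_convex (hU : PotP h U) : ConvexOn ℝ univ U := by
  refine ⟨convex_univ, fun x _ y _ a b ha hb hab => ?_⟩
  set m := a • x + b • y with hm
  have h1 := (pot_quad hU m (x - m)).2.2.1
  have h2 := (pot_quad hU m (y - m)).2.2.1
  rw [add_sub_cancel] at h1 h2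
  have h3 : a • (x - m) + b • (y - m) = 0 := by
    rw [smul_sub, smul_sub, sub_add_sub_comm, ← hm, ← add_smul, hab, one_smul, sub_self]
  have h4 : a * fderiv ℝ U m (x - m) + b * fderiv ℝ U m (y - m) = 0 := by
    have := congrArg (fderiv ℝ U m) h3
    simpa using this
  have h5 := mul_nonneg ha h1
  have h6 := mul_nonneg hb h2
  simp only [smul_eq_mul]
  have h7 : a * U m + b * U m = U m := by rw [← add_mul, hab, one_mul]
  nlinarith

/-! ### `exp (-U)` -/

/-- `exp (-U)`. -/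
def Ph (U : V → ℝ) (y : V) : ℝ := rexp (-U y)

theorem ph_pos (U : V → ℝ) (y : V) : 0 < Ph U y := exp_pos _

theorem ph_le_one (hU : PotP h U) (y : V) : Ph U y ≤ 1 := by
  unfold Ph
  have := pot_nonneg hU y
  exact exp_le_one_iff.2 (by linarith)

theorem ph_cd (hU : PotP h U) : ContDiff ℝ 2 (Ph U) := hU.cd.neg.exp

theorem hasFDerivAt_ph (hU : PotP h U) (y : V) :
    HasFDerivAt (Ph U) (-(Ph U y • fderiv ℝ U y)) y := by
  have h1 := (((hU.cd.differentiable two_ne_zero) y).hasFDerivAt).neg.exp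
  rwa [smul_neg] at h1

theorem fderiv_ph (hU : PotP h U) : fderiv ℝ (Ph U) = fun y => -(Ph U y • fderiv ℝ U y) :=
  funext fun y => (hasFDerivAt_ph hU y).fderiv

theorem ph_cd1 (hU : PotP h U) : ContDiff ℝ 1 (fderiv ℝ (Ph U)) :=
  (ph_cd hU).fderiv_right (by norm_num)

/-- The second derivative of `exp (-U)`. -/
theorem fderiv2_ph (hU : PotP h U) (y : V) : fderiv ℝ (fderiv ℝ (Ph U)) y =
    Ph U y • ((fderiv ℝ U y).smulRight (fderiv ℝ U y) - fderiv ℝ (fderiv ℝ U) y) := by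
  have h1 := (((hasFDerivAt_ph hU y).smul
    (((pot_cd1 hU).differentiable one_ne_zero) y).hasFDerivAt)).neg
  rw [fderiv_ph hU]
  refine h1.fderiv.trans ?_
  ext v w
  simp
  ring

theorem ph_d1_le (hU : PotP h U) (y : V) : ‖fderiv ℝ (Ph U) y‖ ≤ h * ‖y‖ := by
  rw [fderiv_ph hU, norm_neg, norm_smul, Real.norm_of_nonneg (ph_pos U y).le]
  have h1 := ph_le_one hU y
  have h2 := pot_fderiv_le hU y
  calc Ph U y * ‖fderiv ℝ U y‖ ≤ 1 * (h * ‖y‖) :=
        mul_le_mul h1 h2 (norm_nonneg _) zero_le_one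
    _ = _ := one_mul _

theorem ph_d2_le (hU : PotP h U) (y : V) :
    ‖fderiv ℝ (fderiv ℝ (Ph U)) y‖ ≤ h ^ 2 * ‖y‖ ^ 2 + h := by
  rw [fderiv2_ph hU, norm_smul, Real.norm_of_nonneg (ph_pos U y).le]
  have h1 := ph_le_one hU y
  have h2 := pot_fderiv_le hU y
  have h3 : ‖(fderiv ℝ U y).smulRight (fderiv ℝ U y) - fderiv ℝ (fderiv ℝ U) y‖ ≤
      h ^ 2 * ‖y‖ ^ 2 + h := by
    refine (norm_sub_le _ _).trans ?_
    rw [ContinuousLinearMap.norm_smulRight_apply]
    refine add_le_add ?_ (pot_d2_norm hU y)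
    calc ‖fderiv ℝ U y‖ * ‖fderiv ℝ U y‖ ≤ (h * ‖y‖) * (h * ‖y‖) :=
          mul_le_mul h2 h2 (norm_nonneg _) (mul_nonneg hU.hh (norm_nonneg _))
      _ = _ := by ring
  calc Ph U y * _ ≤ 1 * (h ^ 2 * ‖y‖ ^ 2 + h) :=
        mul_le_mul h1 h3 (norm_nonneg _) zero_le_one
    _ = _ := one_mul _

end Crest.Agent.R285
end
end

-- ▼ part R285/Heat
section

/-!
Row 285: the smoothed potential `Ub U σ x = -log ∫ exp (-U (x + σ g)) dγ(g)`, joint `C¹`
regularity, heat equation and Hamilton–Jacobi equation.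
-/

set_option autoImplicit false
set_option maxSynthPendingDepth 3
set_option linter.unusedSectionVars false

open MeasureTheory ProbabilityTheory Real Filter Topology Set
open scoped RealInnerProductSpace

noncomputable section

namespace Crest.Agent.R285

variable {V : Type} [NormedAddCommGroup V] [InnerProductSpace ℝ V] [FiniteDimensional ℝ V]

/-! ### Riesz map and Laplacian in the standard orthonormal basis -/

/-- Riesz map. -/
def rz (V : Type) [NormedAddCommGroup V] [InnerProductSpace ℝ V] [FiniteDimensional ℝ V] :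
    (V →L[ℝ] ℝ) →L[ℝ] V :=
  ∑ i, (ContinuousLinearMap.apply ℝ ℝ (stdOrthonormalBasis ℝ V i)).smulRight
    (stdOrthonormalBasis ℝ V i)

theorem rz_apply (l : V →L[ℝ] ℝ) :
    rz V l = ∑ i, l (stdOrthonormalBasis ℝ V i) • stdOrthonormalBasis ℝ V i := by
  simp [rz]

@[simp] theorem inner_rz (l : V →L[ℝ] ℝ) (v : V) : ⟪rz V l, v⟫ = l v := by
  rw [rz_apply, sum_inner]
  simp_rw [inner_smul_left]
  conv_rhs => rw [← (stdOrthonormalBasis ℝ V).sum_repr' v, map_sum]
  refine Finset.sum_congr rfl fun i _ => ?_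
  simp [mul_comm]

@[simp] theorem inner_rz' (l : V →L[ℝ] ℝ) (v : V) : ⟪v, rz V l⟫ = l v := by
  rw [real_inner_comm, inner_rz]

theorem gradient_eq_rz (f : V → ℝ) (x : V) : gradient f x = rz V (fderiv ℝ f x) := by
  refine ext_inner_right ℝ fun v => ?_
  rw [inner_gradient, inner_rz]

theorem rz_norm_sq (l : V →L[ℝ] ℝ) : ‖rz V l‖ ^ 2 = l (rz V l) := by
  rw [← inner_rz, real_inner_self_eq_norm_sq]

theorem norm_rz (l : V →L[ℝ] ℝ) : ‖rz V l‖ = ‖l‖ := by
  apply le_antisymm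
  · have h1 := rz_norm_sq l
    have h2 : l (rz V l) ≤ ‖l‖ * ‖rz V l‖ := (le_abs_self _).trans (l.le_opNorm _)
    rcases eq_or_lt_of_le (norm_nonneg (rz V l)) with h | h
    · rw [← h]; exact norm_nonneg _
    · nlinarith
  · refine ContinuousLinearMap.opNorm_le_bound _ (norm_nonneg _) fun v => ?_
    rw [← inner_rz]
    exact norm_inner_le_norm _ _

/-- Trace of a bilinear form. -/
def lap (V : Type) [NormedAddCommGroup V] [InnerProductSpace ℝ V] [FiniteDimensional ℝ V] :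
    (V →L[ℝ] V →L[ℝ] ℝ) →L[ℝ] ℝ :=
  ∑ i, (ContinuousLinearMap.apply ℝ ℝ (stdOrthonormalBasis ℝ V i)).comp
    (ContinuousLinearMap.apply ℝ (V →L[ℝ] ℝ) (stdOrthonormalBasis ℝ V i))

theorem lap_apply (B : V →L[ℝ] V →L[ℝ] ℝ) :
    lap V B = ∑ i, B (stdOrthonormalBasis ℝ V i) (stdOrthonormalBasis ℝ V i) := by
  simp [lap]

theorem trace_eq_sum_inner' (L : V →L[ℝ] V) :
    LinearMap.trace ℝ V (L : V →ₗ[ℝ] V) =
      ∑ i, ⟪stdOrthonormalBasis ℝ V i, L (stdOrthonormalBasis ℝ V i)⟫ :=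
  LinearMap.trace_eq_sum_inner (L : V →ₗ[ℝ] V) (stdOrthonormalBasis ℝ V)

theorem trace_rz_comp (B : V →L[ℝ] V →L[ℝ] ℝ) :
    LinearMap.trace ℝ V (((rz V).comp B : V →L[ℝ] V) : V →ₗ[ℝ] V) = lap V B := by
  rw [trace_eq_sum_inner', lap_apply]
  refine Finset.sum_congr rfl fun i _ => ?_
  rw [ContinuousLinearMap.comp_apply, inner_rz']

theorem lap_smulRight (l : V →L[ℝ] ℝ) : lap V (l.smulRight l) = ‖rz V l‖ ^ 2 := by
  rw [lap_apply, rz_norm_sq, rz_apply, map_sum]
  refine Finset.sum_congr rfl fun i _ => ?_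
  simp

theorem dvg_rz {Ψ : V → V →L[ℝ] ℝ} {x : V} (h : DifferentiableAt ℝ Ψ x) :
    dvg (fun y => rz V (Ψ y)) x = lap V (fderiv ℝ Ψ x) := by
  unfold dvg
  have h1 : HasFDerivAt (fun y => rz V (Ψ y)) ((rz V).comp (fderiv ℝ Ψ x)) x :=
    (rz V).hasFDerivAt.comp x h.hasFDerivAt
  rw [h1.fderiv]
  exact trace_rz_comp _

variable [MeasurableSpace V] [BorelSpace V]

/-! ### Partial derivatives of averages -/

section

variable {H : Type} [NormedAddCommGroup H] [NormedSpace ℝ H]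

/-- Gaussian growth of order `C¹`. -/
structure GG (C h : ℝ) (Φ : V → H) : Prop where
  cd : ContDiff ℝ 1 Φ
  hC : 0 ≤ C
  hh : 0 ≤ h
  b0 : ∀ y, ‖Φ y‖ ≤ C * rexp (C * ‖y‖ + h * ‖y‖ ^ 2 / 2)
  b1 : ∀ y, ‖fderiv ℝ Φ y‖ ≤ C * rexp (C * ‖y‖ + h * ‖y‖ ^ 2 / 2)

variable {C h : ℝ} {Φ : V → H}

theorem GG.integrable_fderiv (hΦ : GG C h Φ) {p : ℝ × V} (hp : p ∈ adm V h) :
    Integrable (fun g => (fderiv ℝ Φ (p.2 + p.1 • g)).comp (dirMap g)) (stdGaussian V) := by
  refine integrable_avg_gen (Ψ := fun y g => (fderiv ℝ Φ y).comp (dirMap g)) ?_ hΦ.hC hΦ.hh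
    (k := 1) ?_ hp
  · exact ((hΦ.cd.continuous_fderiv one_ne_zero).comp continuous_fst).clm_comp
      (continuous_dirMap.comp continuous_snd)
  · intro y g
    refine (ContinuousLinearMap.opNorm_comp_le _ _).trans ?_
    rw [mul_comm, pow_one]
    exact mul_le_mul (norm_dirMap_le g) (hΦ.b1 _) (norm_nonneg _) (by positivity)

theorem GG.hasFDerivAt_x [CompleteSpace H] (hΦ : GG C h Φ) {σ : ℝ} {x : V} (hp : (σ, x) ∈ adm V h) :
    HasFDerivAt (fun x => avg Φ (σ, x)) (avg (fderiv ℝ Φ) (σ, x)) x := by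
  have h1 := hasFDerivAt_avg hΦ.cd hΦ.hC hΦ.hh hΦ.b0 hΦ.b1 hp
  have h2 : HasFDerivAt (fun x : V => ((σ, x) : ℝ × V)) (ContinuousLinearMap.inr ℝ ℝ V) x := by
    have h0 := (hasFDerivAt_const (𝕜 := ℝ) σ x).prodMk (hasFDerivAt_id (𝕜 := ℝ) x)
    exact h0
  have h3 : HasFDerivAt (fun x => avg Φ (σ, x)) _ x := h1.comp x h2
  refine h3.congr_fderiv ?_
  ext v
  rw [ContinuousLinearMap.comp_apply, ContinuousLinearMap.inr_apply,
    ContinuousLinearMap.integral_apply (hΦ.integrable_fderiv hp), avg,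
    ContinuousLinearMap.integral_apply]
  · refine integral_congr_ae (ae_of_all _ fun g => ?_)
    simp
  · refine integrable_avg_gen (Ψ := fun y _ => fderiv ℝ Φ y) ?_ hΦ.hC hΦ.hh (k := 0) ?_ hp
    · exact (hΦ.cd.continuous_fderiv one_ne_zero).comp continuous_fst
    · intro y g
      simpa using hΦ.b1 y

theorem GG.hasDerivAt_σ [CompleteSpace H] (hΦ : GG C h Φ) {σ : ℝ} {x : V} (hp : (σ, x) ∈ adm V h) :
    HasDerivAt (fun σ => avg Φ (σ, x)) (∫ g, fderiv ℝ Φ (x + σ • g) g ∂(stdGaussian V)) σ := by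
  have h1 := hasFDerivAt_avg hΦ.cd hΦ.hC hΦ.hh hΦ.b0 hΦ.b1 hp
  have h2 : HasDerivAt (fun σ : ℝ => ((σ, x) : ℝ × V)) ((1 : ℝ), (0 : V)) σ :=
    (hasDerivAt_id σ).prodMk (hasDerivAt_const σ x)
  have h3 := h1.comp_hasDerivAt σ h2
  refine HasDerivAt.congr_deriv (f := fun σ => avg Φ (σ, x)) h3 ?_
  rw [ContinuousLinearMap.integral_apply (hΦ.integrable_fderiv hp)]
  refine integral_congr_ae (ae_of_all _ fun g => ?_)
  simp

end

/-! ### Gaussian integration by parts -/

theorem integral_dvg_eq_zero_of_integrable (μ : Measure V) [μ.IsAddHaarMeasure] {w : V → V}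
    (hw : ContDiff ℝ 1 w) (hi : Integrable w μ) (hi' : Integrable (fderiv ℝ w) μ) :
    ∫ x, dvg w x ∂μ = 0 := by
  set e := stdOrthonormalBasis ℝ V
  have h1 : ∀ x, dvg w x = ∑ i, ⟪e i, fderiv ℝ w x (e i)⟫ := fun x => trace_eq_sum_inner' _
  simp_rw [h1]
  have hI : ∀ i, Integrable (fun x => ⟪e i, fderiv ℝ w x (e i)⟫) μ := fun i =>
    (hi'.apply_continuousLinearMap (e i)).const_inner (e i)
  rw [integral_finsetSum _ fun i _ => hI i]
  refine Finset.sum_eq_zero fun i _ => ?_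
  have hd : ∀ x, HasFDerivAt (fun x => ⟪e i, w x⟫) ((innerSL ℝ (e i)).comp (fderiv ℝ w x)) x :=
    fun x => (innerSL ℝ (e i)).hasFDerivAt.comp x ((hw.differentiable one_ne_zero) x).hasFDerivAt
  have h2 := integral_mul_fderiv_eq_neg_fderiv_mul_of_integrable (μ := μ) (f := fun _ : V => (1 : ℝ))
    (g := fun x => ⟪e i, w x⟫) (v := e i) (by simp) ?_ ?_
    (fun x _ => differentiableAt_const _) (fun x _ => (hd x).differentiableAt)
  · simp_rw [(hd _).fderiv] at h2
    simpa using h2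
  · simp_rw [(hd _).fderiv]
    simpa using hI i
  · simpa using hi.const_inner (e i)

theorem hasFDerivAt_gdens (g : V) : HasFDerivAt (gdens (V := V)) (-(gdens g • innerSL ℝ g)) g := by
  have h1 : HasFDerivAt (fun g : V => -‖g‖ ^ 2 / 2) (-(innerSL ℝ g)) g := by
    have h2 := ((hasStrictFDerivAt_norm_sq g).hasFDerivAt.neg).mul_const (2 : ℝ)⁻¹
    refine (h2.congr_fderiv ?_).congr_of_eventuallyEq (Eventually.of_forall fun x => ?_)
    · ext v
      simp
    · simp only [Pi.neg_apply]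
      ring
  have h3 := h1.exp.const_mul ((2 * π) ^ (-(Module.finrank ℝ V : ℝ) / 2))
  refine h3.congr_fderiv ?_
  ext v
  simp [gdens]
  ring

theorem contDiff_gdens {n : WithTop ℕ∞} : ContDiff ℝ n (gdens (V := V)) := by
  unfold gdens
  refine contDiff_const.mul (ContDiff.exp ?_)
  exact ((contDiff_norm_sq ℝ).neg).div_const _

/-- Stein identity. -/
theorem stein {F : V → V} (hF : ContDiff ℝ 1 F)
    (h0 : Integrable (fun g => F g) (stdGaussian V))
    (h1 : Integrable (fun g => ‖g‖ * ‖F g‖) (stdGaussian V))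
    (h2 : Integrable (fun g => fderiv ℝ F g) (stdGaussian V)) :
    ∫ g, ⟪g, F g⟫ ∂(stdGaussian V) = ∫ g, dvg F g ∂(stdGaussian V) := by
  set w : V → V := fun g => gdens g • F g with hw
  have hwc : ContDiff ℝ 1 w := contDiff_gdens.smul hF
  have hd : ∀ g, HasFDerivAt w (gdens g • fderiv ℝ F g + (-(gdens g • innerSL ℝ g)).smulRight (F g)) g :=
    fun g => (hasFDerivAt_gdens g).smul ((hF.differentiable one_ne_zero) g).hasFDerivAt
  have hdv : ∀ g, dvg w g = gdens g * dvg F g - gdens g * ⟪g, F g⟫ := by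
    intro g
    rw [hw, dvg_smul (hasFDerivAt_gdens g).differentiableAt ((hF.differentiable one_ne_zero) g),
      (hasFDerivAt_gdens g).fderiv]
    simp
    ring
  have hA : Integrable (fun g => gdens g • F g) := (integrable_stdGaussian_iff _).1 h0
  have hB : Integrable (fun g => gdens g • (‖g‖ * ‖F g‖)) := (integrable_stdGaussian_iff _).1 h1
  have hC : Integrable (fun g => gdens g • fderiv ℝ F g) := (integrable_stdGaussian_iff _).1 h2
  have hw' : Integrable (fderiv ℝ w) := by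
    have : fderiv ℝ w = fun g => gdens g • fderiv ℝ F g +
        (-(gdens g • innerSL ℝ g)).smulRight (F g) := funext fun g => (hd g).fderiv
    rw [this]
    refine hC.add ?_
    refine hB.mono' ?_ (ae_of_all _ fun g => ?_)
    · refine Continuous.aestronglyMeasurable ?_
      have hc : Continuous fun p : (V →L[ℝ] ℝ) × V => p.1.smulRight p.2 := by fun_prop
      refine hc.comp ((Continuous.neg (continuous_gdens.smul (innerSL ℝ).continuous)).prodMk
        hF.continuous)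
    · rw [ContinuousLinearMap.norm_smulRight_apply, norm_neg, norm_smul,
        Real.norm_of_nonneg (gdens_pos g).le, innerSL_apply_norm, smul_eq_mul]
      exact le_of_eq (by ring)
  have hz := integral_dvg_eq_zero_of_integrable (volume : Measure V) hwc hA hw'
  simp_rw [hdv] at hz
  have hI1 : Integrable (fun g => gdens g * dvg F g) := by
    have h3 : Continuous fun L : V →L[ℝ] V => LinearMap.trace ℝ V (L : V →ₗ[ℝ] V) := by
      simp_rw [trace_eq_sum_inner']
      fun_prop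
    let T : (V →L[ℝ] V) →L[ℝ] ℝ :=
      ∑ i, (innerSL ℝ (stdOrthonormalBasis ℝ V i)).comp
        (ContinuousLinearMap.apply ℝ V (stdOrthonormalBasis ℝ V i))
    have hT : ∀ L, T L = LinearMap.trace ℝ V (L : V →ₗ[ℝ] V) := by
      intro L
      rw [trace_eq_sum_inner']
      simp [T]
    refine (T.integrable_comp hC).congr (ae_of_all _ fun g => ?_)
    change T (gdens g • fderiv ℝ F g) = _
    rw [map_smul, hT]
    rfl
  have hI2 : Integrable (fun g => gdens g * ⟪g, F g⟫) := by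
    refine hB.mono' ?_ (ae_of_all _ fun g => ?_)
    · exact (continuous_gdens.mul (continuous_id.inner hF.continuous)).aestronglyMeasurable
    · rw [norm_mul, Real.norm_of_nonneg (gdens_pos g).le, smul_eq_mul]
      exact mul_le_mul_of_nonneg_left (norm_inner_le_norm _ _) (gdens_pos g).le
  rw [integral_sub hI1 hI2, sub_eq_zero] at hz
  rw [integral_stdGaussian, integral_stdGaussian]
  simp only [smul_eq_mul]
  exact hz.symm

/-! ### The partition function -/

variable {h : ℝ} {U : V → ℝ}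

/-- Growth constant. -/
def gC (h : ℝ) : ℝ := 2 * (h + h ^ 2 + 1) * rexp 1

theorem gC_pos (hh : 0 ≤ h) : 1 ≤ gC h := by
  unfold gC
  have : 1 ≤ rexp 1 := one_le_exp zero_le_one
  nlinarith [sq_nonneg h]

theorem le_gC {C : ℝ} (hh : 0 ≤ h) {y : ℝ} (hy : 0 ≤ y) (hC : C ≤ h ^ 2 * y ^ 2 + h * y + h + 1) :
    C ≤ gC h * rexp (gC h * y + 0 * y ^ 2 / 2) := by
  have h1 : (1 + y) ^ 2 ≤ 2 * rexp (1 + y) := by
    have := pow_le_exp_mul hy 2
    simpa using this
  have h2 : C ≤ (h + h ^ 2 + 1) * (1 + y) ^ 2 := by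
    refine hC.trans ?_
    have : 0 ≤ h ^ 2 := sq_nonneg h
    nlinarith [mul_nonneg hh hy, mul_nonneg this hy, mul_nonneg hh (sq_nonneg y), sq_nonneg y]
  have h3 : rexp (1 + y) ≤ rexp 1 * rexp (gC h * y + 0 * y ^ 2 / 2) := by
    rw [← exp_add]
    refine exp_le_exp.2 ?_
    nlinarith [mul_le_mul_of_nonneg_right (gC_pos hh) hy]
  calc C ≤ (h + h ^ 2 + 1) * (2 * (rexp 1 * rexp (gC h * y + 0 * y ^ 2 / 2))) := by
        refine h2.trans (mul_le_mul_of_nonneg_left (h1.trans ?_) (by positivity))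
        linarith
    _ = _ := by unfold gC; ring

theorem gg_ph (hU : PotP h U) : GG (gC h) 0 (Ph U) where
  cd := (ph_cd hU).of_le (by norm_num)
  hC := zero_le_one.trans (gC_pos hU.hh)
  hh := le_rfl
  b0 := fun y => le_gC hU.hh (norm_nonneg y) (by
    rw [Real.norm_of_nonneg (ph_pos U y).le]
    have h1 := ph_le_one hU y
    have := hU.hh
    have h3 := norm_nonneg y
    have : 0 ≤ h ^ 2 * ‖y‖ ^ 2 + h * ‖y‖ + h := by positivity
    linarith)
  b1 := fun y => le_gC hU.hh (norm_nonneg y) (by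
    have h1 := ph_d1_le hU y
    have := hU.hh
    have : 0 ≤ h ^ 2 * ‖y‖ ^ 2 + h := by positivity
    linarith)

theorem gg_ph' (hU : PotP h U) : GG (gC h) 0 (fderiv ℝ (Ph U)) where
  cd := ph_cd1 hU
  hC := zero_le_one.trans (gC_pos hU.hh)
  hh := le_rfl
  b0 := (gg_ph hU).b1
  b1 := fun y => le_gC hU.hh (norm_nonneg y) (by
    have h1 := ph_d2_le hU y
    have := hU.hh
    have h3 := norm_nonneg y
    have : 0 ≤ h * ‖y‖ := by positivity
    linarith)

theorem mem_adm_zero (p : ℝ × V) : p ∈ adm V 0 := by simp [adm]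

theorem adm_zero : adm V 0 = univ := eq_univ_of_forall mem_adm_zero

/-- The partition function. -/
def Zp (U : V → ℝ) (p : ℝ × V) : ℝ := avg (Ph U) p

/-- Its gradient in `x`. -/
def Zp1 (U : V → ℝ) (p : ℝ × V) : V →L[ℝ] ℝ := avg (fderiv ℝ (Ph U)) p

/-- Its Hessian in `x`. -/
def Zp2 (U : V → ℝ) (p : ℝ × V) : V →L[ℝ] V →L[ℝ] ℝ := avg (fderiv ℝ (fderiv ℝ (Ph U))) p

theorem contDiff_zp (hU : PotP h U) : ContDiff ℝ 1 (Zp U) := by
  have h1 := contDiffOn_avg (gg_ph hU).cd (gg_ph hU).hC le_rfl (gg_ph hU).b0 (gg_ph hU).b1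
  rw [adm_zero, contDiffOn_univ] at h1
  exact h1

theorem contDiff_zp1 (hU : PotP h U) : ContDiff ℝ 1 (Zp1 U) := by
  have h1 := contDiffOn_avg (gg_ph' hU).cd (gg_ph' hU).hC le_rfl (gg_ph' hU).b0 (gg_ph' hU).b1
  rw [adm_zero, contDiffOn_univ] at h1
  exact h1

theorem integrable_ph (hU : PotP h U) (p : ℝ × V) :
    Integrable (fun g => Ph U (p.2 + p.1 • g)) (stdGaussian V) := by
  refine integrable_avg_gen (Ψ := fun y _ => Ph U y) ?_ (gg_ph hU).hC le_rfl (k := 0) ?_
    (mem_adm_zero p)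
  · exact (ph_cd hU).continuous.comp continuous_fst
  · intro y g
    simpa using (gg_ph hU).b0 y

theorem integrable_ph1 (hU : PotP h U) (p : ℝ × V) :
    Integrable (fun g => fderiv ℝ (Ph U) (p.2 + p.1 • g)) (stdGaussian V) := by
  refine integrable_avg_gen (Ψ := fun y _ => fderiv ℝ (Ph U) y) ?_ (gg_ph hU).hC le_rfl (k := 0) ?_
    (mem_adm_zero p)
  · exact (ph_cd1 hU).continuous.comp continuous_fst
  · intro y g
    simpa using (gg_ph hU).b1 y

theorem integrable_ph2 (hU : PotP h U) (p : ℝ × V) :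
    Integrable (fun g => fderiv ℝ (fderiv ℝ (Ph U)) (p.2 + p.1 • g)) (stdGaussian V) := by
  refine integrable_avg_gen (Ψ := fun y _ => fderiv ℝ (fderiv ℝ (Ph U)) y) ?_ (gg_ph hU).hC
    le_rfl (k := 0) ?_ (mem_adm_zero p)
  · exact ((ph_cd1 hU).continuous_fderiv one_ne_zero).comp continuous_fst
  · intro y g
    simpa using (gg_ph' hU).b1 y

theorem zp_pos (hU : PotP h U) (p : ℝ × V) : 0 < Zp U p := by
  have : NeZero (stdGaussian V) := ⟨IsProbabilityMeasure.ne_zero _⟩
  exact integral_exp_pos (integrable_ph hU p)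

theorem zp_le_one (hU : PotP h U) (p : ℝ × V) : Zp U p ≤ 1 := by
  have h1 : Zp U p ≤ ∫ _, (1 : ℝ) ∂(stdGaussian V) :=
    integral_mono (integrable_ph hU p) (integrable_const _) fun g => ph_le_one hU _
  simpa using h1

theorem hasFDerivAt_zp_x (hU : PotP h U) (σ : ℝ) (x : V) :
    HasFDerivAt (fun x => Zp U (σ, x)) (Zp1 U (σ, x)) x :=
  (gg_ph hU).hasFDerivAt_x (mem_adm_zero _)

theorem hasFDerivAt_zp1_x (hU : PotP h U) (σ : ℝ) (x : V) :
    HasFDerivAt (fun x => Zp1 U (σ, x)) (Zp2 U (σ, x)) x :=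
  (gg_ph' hU).hasFDerivAt_x (mem_adm_zero _)

/-- Heat equation. -/
theorem hasDerivAt_zp_σ (hU : PotP h U) (σ : ℝ) (x : V) :
    HasDerivAt (fun σ => Zp U (σ, x)) (σ * lap V (Zp2 U (σ, x))) σ := by
  refine ((gg_ph hU).hasDerivAt_σ (mem_adm_zero (σ, x))).congr_deriv ?_
  set F : V → V := fun g => rz V (fderiv ℝ (Ph U) (x + σ • g)) with hF
  have hin : ∀ g, HasFDerivAt (fun g : V => x + σ • g) (σ • ContinuousLinearMap.id ℝ V) g :=
    fun g => ((hasFDerivAt_id g).const_smul σ).const_add x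
  have hd : ∀ g, HasFDerivAt (fun g => fderiv ℝ (Ph U) (x + σ • g))
      (σ • fderiv ℝ (fderiv ℝ (Ph U)) (x + σ • g)) g := by
    intro g
    have h1 := (((ph_cd1 hU).differentiable one_ne_zero) (x + σ • g)).hasFDerivAt.comp g (hin g)
    refine h1.congr_fderiv ?_
    ext v w
    simp
  have hFc : ContDiff ℝ 1 F := (rz V).contDiff.comp ((ph_cd1 hU).comp (by fun_prop))
  have hFn : ∀ g, ‖F g‖ = ‖fderiv ℝ (Ph U) (x + σ • g)‖ := fun g => norm_rz _
  have hst := stein hFc ?_ ?_ ?_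
  · have e1 : ∀ g, ⟪g, F g⟫ = fderiv ℝ (Ph U) (x + σ • g) g := fun g => inner_rz' _ _
    have e2 : ∀ g, dvg F g = σ * lap V (fderiv ℝ (fderiv ℝ (Ph U)) (x + σ • g)) := by
      intro g
      rw [hF, dvg_rz (hd g).differentiableAt, (hd g).fderiv, map_smul, smul_eq_mul]
    simp_rw [e1, e2] at hst
    rw [hst, integral_const_mul, Zp2, avg, (lap V).integral_comp_comm (integrable_ph2 hU (σ, x))]
  · exact (rz V).integrable_comp (integrable_ph1 hU (σ, x))
  · have h1 : Integrable (fun g => ‖g‖ • fderiv ℝ (Ph U) (x + σ • g)) (stdGaussian V) := by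
      refine integrable_avg_gen (Ψ := fun y g => ‖g‖ • fderiv ℝ (Ph U) y) ?_ (gg_ph hU).hC
        le_rfl (k := 1) ?_ (mem_adm_zero (σ, x))
      · exact (continuous_norm.comp continuous_snd).smul ((ph_cd1 hU).continuous.comp continuous_fst)
      · intro y g
        rw [norm_smul, norm_norm, pow_one]
        exact mul_le_mul (by linarith [norm_nonneg g]) ((gg_ph hU).b1 y) (norm_nonneg _)
          (by positivity)
    refine h1.norm.congr (ae_of_all _ fun g => ?_)
    simp only [norm_smul, norm_norm]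
    rw [hFn]
  · have h1 : ∀ g, fderiv ℝ F g = (rz V).comp (σ • fderiv ℝ (fderiv ℝ (Ph U)) (x + σ • g)) :=
      fun g => ((rz V).hasFDerivAt.comp g (hd g)).fderiv
    simp_rw [h1]
    exact ((ContinuousLinearMap.compL ℝ V (V →L[ℝ] ℝ) V (rz V)).integrable_comp
      ((integrable_ph2 hU (σ, x)).smul σ))

end Crest.Agent.R285
end
end

-- ▼ part R285/HJ

/-!
Row 285: the smoothed potential `Ub U σ x = -log ∫ exp (-U (x + σ g)) dγ(g)`: bounds `0 ≤ D² ≤ h`
and the Hamilton–Jacobi equation.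
-/

set_option autoImplicit false
set_option maxSynthPendingDepth 3
set_option linter.unusedSectionVars false

open MeasureTheory ProbabilityTheory Real Filter Topology Set
open scoped RealInnerProductSpace

noncomputable section

namespace Crest.Agent.R285

variable {V : Type} [NormedAddCommGroup V] [InnerProductSpace ℝ V] [FiniteDimensional ℝ V]
  [MeasurableSpace V] [BorelSpace V]

theorem ub_eq (U : V → ℝ) (σ : ℝ) (x : V) : Ub U σ x = -Real.log (Zp U (σ, x)) := rfl

/-- The derivative of `Ub` as a form. -/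
def Ub1 (U : V → ℝ) (p : ℝ × V) : V →L[ℝ] ℝ := -((Zp U p)⁻¹ • Zp1 U p)

/-- The second derivative of `Ub` as a form. -/
def Ub2 (U : V → ℝ) (p : ℝ × V) : V →L[ℝ] V →L[ℝ] ℝ :=
  (Zp1 U p).smulRight (((Zp U p) ^ 2)⁻¹ • Zp1 U p) - (Zp U p)⁻¹ • Zp2 U p

variable {h : ℝ} {U : V → ℝ}

theorem contDiff_ub (hU : PotP h U) : ContDiff ℝ 1 (fun p : ℝ × V => Ub U p.1 p.2) := by
  have h1 : ContDiff ℝ 1 fun p : ℝ × V => -Real.log (Zp U p) :=
    ((contDiff_zp hU).log fun p => (zp_pos hU p).ne').neg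
  exact h1

theorem contDiff_ub1 (hU : PotP h U) : ContDiff ℝ 1 (Ub1 U) :=
  (((contDiff_zp hU).inv fun p => (zp_pos hU p).ne').smul (contDiff_zp1 hU)).neg

theorem hasFDerivAt_ub_x (hU : PotP h U) (σ : ℝ) (x : V) :
    HasFDerivAt (Ub U σ) (Ub1 U (σ, x)) x :=
  ((hasFDerivAt_zp_x hU σ x).log (zp_pos hU _).ne').neg

theorem hasFDerivAt_ub1_x (hU : PotP h U) (σ : ℝ) (x : V) :
    HasFDerivAt (fun x => Ub1 U (σ, x)) (Ub2 U (σ, x)) x := by
  have hz := hasFDerivAt_zp_x hU σ x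
  have hz1 := hasFDerivAt_zp1_x hU σ x
  have hi : HasFDerivAt (fun x => (Zp U (σ, x))⁻¹) (-((Zp U (σ, x) ^ 2)⁻¹ • Zp1 U (σ, x))) x :=
    (hasDerivAt_inv (zp_pos hU (σ, x)).ne').comp_hasFDerivAt x hz |>.congr_fderiv (by
      ext v; simp)
  refine ((hi.smul hz1).neg).congr_fderiv ?_
  ext v w
  simp [Ub2]
  ring

theorem gr_eq (hU : PotP h U) (σ : ℝ) (x : V) : G U σ x = rz V (Ub1 U (σ, x)) := by
  rw [G, gradient_eq_rz, (hasFDerivAt_ub_x hU σ x).fderiv]

theorem inner_gr (hU : PotP h U) (σ : ℝ) (x v : V) : ⟪G U σ x, v⟫ = Ub1 U (σ, x) v := by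
  rw [gr_eq hU, inner_rz]

theorem contDiff_gr (hU : PotP h U) : ContDiff ℝ 1 (fun p : ℝ × V => G U p.1 p.2) := by
  simp_rw [gr_eq hU]
  exact (rz V).contDiff.comp (contDiff_ub1 hU)

/-- The derivative of `G` in `x`. -/
def DGr (U : V → ℝ) (p : ℝ × V) : V →L[ℝ] V := (rz V).comp (Ub2 U p)

theorem hasFDerivAt_gr_x (hU : PotP h U) (σ : ℝ) (x : V) :
    HasFDerivAt (G U σ) (DGr U (σ, x)) x := by
  have h1 : G U σ = fun x => rz V (Ub1 U (σ, x)) := funext fun x => gr_eq hU σ x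
  rw [h1]
  exact (rz V).hasFDerivAt.comp x (hasFDerivAt_ub1_x hU σ x)

theorem dvg_gr (hU : PotP h U) (σ : ℝ) (x : V) : dvg (G U σ) x = lap V (Ub2 U (σ, x)) := by
  unfold dvg
  rw [(hasFDerivAt_gr_x hU σ x).fderiv]
  exact trace_rz_comp _

/-- **Hamilton–Jacobi equation.** -/
theorem hasDerivAt_ub_σ (hU : PotP h U) (σ : ℝ) (x : V) :
    HasDerivAt (fun σ => Ub U σ x) (σ * (dvg (G U σ) x - ‖G U σ x‖ ^ 2)) σ := by
  have h1 := ((hasDerivAt_zp_σ hU σ x).log (zp_pos hU _).ne').neg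
  refine HasDerivAt.congr_deriv (f := fun σ => Ub U σ x) h1 ?_
  rw [dvg_gr hU, gr_eq hU, Ub2, map_sub, map_smul]
  have hz := (zp_pos hU (σ, x)).ne'
  have e1 : lap V ((Zp1 U (σ, x)).smulRight (((Zp U (σ, x)) ^ 2)⁻¹ • Zp1 U (σ, x)))
      = (Zp U (σ, x) ^ 2)⁻¹ * ‖rz V (Zp1 U (σ, x))‖ ^ 2 := by
    rw [← lap_smulRight, ← smul_eq_mul, ← map_smul]
    congr 1
    ext v w
    simp
    ring
  have e2 : ‖rz V (Ub1 U (σ, x))‖ ^ 2 = (Zp U (σ, x) ^ 2)⁻¹ * ‖rz V (Zp1 U (σ, x))‖ ^ 2 := by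
    rw [Ub1, map_neg, map_smul, norm_neg, norm_smul, mul_pow, norm_inv, inv_pow, Real.norm_eq_abs,
      sq_abs]
  rw [e1, e2, smul_eq_mul]
  field_simp
  ring

/-! ### Bounds on the Hessian -/

theorem ub2_symm (hU : PotP h U) (p : ℝ × V) (v w : V) : Ub2 U p v w = Ub2 U p w v := by
  have hz : ∀ v w, Zp2 U p v w = Zp2 U p w v := by
    intro v w
    have h1 : ∀ v w, Zp2 U p v w = ∫ g, fderiv ℝ (fderiv ℝ (Ph U)) (p.2 + p.1 • g) v w
        ∂(stdGaussian V) := by
      intro v w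
      rw [Zp2, avg, ContinuousLinearMap.integral_apply (integrable_ph2 hU p),
        ContinuousLinearMap.integral_apply ((integrable_ph2 hU p).apply_continuousLinearMap v)]
    rw [h1, h1]
    refine integral_congr_ae (ae_of_all _ fun g => ?_)
    have := ((ph_cd hU).contDiffAt (x := p.2 + p.1 • g)).isSymmSndFDerivAt (by simp)
    exact this v w
  simp only [Ub2, _root_.sub_apply, ContinuousLinearMap.smulRight_apply, _root_.smul_apply,
    smul_eq_mul, hz v w]
  ring

theorem ub2_hi (hU : PotP h U) (p : ℝ × V) (v : V) : Ub2 U p v v ≤ h * ‖v‖ ^ 2 := by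
  set γ := stdGaussian V
  set φ : V → ℝ := fun g => Ph U (p.2 + p.1 • g) with hφ
  set a : V → ℝ := fun g => fderiv ℝ U (p.2 + p.1 • g) v with ha
  set b : V → ℝ := fun g => fderiv ℝ (fderiv ℝ U) (p.2 + p.1 • g) v v with hb
  have hIφ : Integrable φ γ := integrable_ph hU p
  have hIφa : Integrable (fun g => φ g * a g) γ := by
    have h1 := (integrable_ph1 hU p).apply_continuousLinearMap v
    rw [fderiv_ph hU] at h1
    refine h1.neg.congr (ae_of_all _ fun g => ?_)
    simp [hφ, ha]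
  have hI2 : Integrable (fun g => φ g * (a g * a g - b g)) γ := by
    have h1 := ((integrable_ph2 hU p).apply_continuousLinearMap v).apply_continuousLinearMap v
    refine h1.congr (ae_of_all _ fun g => ?_)
    simp only [fderiv2_ph hU]
    simp [hφ, ha, hb]
  have hcont : Continuous fun g : V => p.2 + p.1 • g := by fun_prop
  have hφc : Continuous φ := (ph_cd hU).continuous.comp hcont
  have hac : Continuous a := ((pot_cd1 hU).continuous.comp hcont).clm_apply continuous_const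
  have hbc : Continuous b := ((((pot_cd1 hU).continuous_fderiv one_ne_zero).comp hcont).clm_apply
    continuous_const).clm_apply continuous_const
  have hIφb : Integrable (fun g => φ g * b g) γ := by
    refine (hIφ.mul_const (h * ‖v‖ ^ 2)).mono' (hφc.mul hbc).aestronglyMeasurable
      (ae_of_all _ fun g => ?_)
    rw [norm_mul, Real.norm_of_nonneg (ph_pos U _).le, Real.norm_of_nonneg (pot_lo hU _ _)]
    exact mul_le_mul_of_nonneg_left (pot_hi hU _ _) (ph_pos U _).le
  have hIφaa : Integrable (fun g => φ g * (a g * a g)) γ := by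
    refine (hI2.add hIφb).congr (ae_of_all _ fun g => ?_)
    simp only [Pi.add_apply]
    ring
  have e0 : Zp U p = ∫ g, φ g ∂γ := rfl
  have e1 : Zp1 U p v = -∫ g, φ g * a g ∂γ := by
    rw [Zp1, avg, ContinuousLinearMap.integral_apply (integrable_ph1 hU p), ← integral_neg]
    refine integral_congr_ae (ae_of_all _ fun g => ?_)
    simp only [fderiv_ph hU]
    simp [hφ, ha]
  have e2 : Zp2 U p v v = ∫ g, φ g * (a g * a g) ∂γ - ∫ g, φ g * b g ∂γ := by
    rw [Zp2, avg, ContinuousLinearMap.integral_apply (integrable_ph2 hU p),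
      ContinuousLinearMap.integral_apply ((integrable_ph2 hU p).apply_continuousLinearMap v),
      ← integral_sub hIφaa hIφb]
    refine integral_congr_ae (ae_of_all _ fun g => ?_)
    simp only [fderiv2_ph hU]
    simp [hφ, ha, hb]
    ring
  have hb_le : ∫ g, φ g * b g ∂γ ≤ h * ‖v‖ ^ 2 * ∫ g, φ g ∂γ := by
    rw [← integral_const_mul]
    refine integral_mono hIφb (hIφ.const_mul _) fun g => ?_
    simp only
    rw [mul_comm]
    exact mul_le_mul_of_nonneg_right (pot_hi hU _ _) (ph_pos U _).le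
  set A := ∫ g, φ g * a g ∂γ
  set Z := ∫ g, φ g ∂γ
  set Q := ∫ g, φ g * (a g * a g) ∂γ
  have hZ : 0 < Z := zp_pos hU p
  have hcs : 0 ≤ Q - 2 * (A / Z) * A + (A / Z) ^ 2 * Z := by
    have h1 : ∫ g, φ g * (a g - A / Z) ^ 2 ∂γ = Q - 2 * (A / Z) * A + (A / Z) ^ 2 * Z := by
      have h2 : ∀ g, φ g * (a g - A / Z) ^ 2 = φ g * (a g * a g) - 2 * (A / Z) * (φ g * a g)
          + (A / Z) ^ 2 * φ g := fun g => by ring
      simp_rw [h2]
      have hs1 : Integrable (fun g => φ g * (a g * a g) - 2 * (A / Z) * (φ g * a g)) γ :=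
        hIφaa.sub (hIφa.const_mul _)
      rw [integral_add hs1 (hIφ.const_mul _),
        integral_sub hIφaa (hIφa.const_mul _), integral_const_mul, integral_const_mul]
    rw [← h1]
    exact integral_nonneg fun g => mul_nonneg (ph_pos U _).le (sq_nonneg _)
  have hcs' : A ^ 2 / Z ≤ Q := by
    have h3 : Q - 2 * (A / Z) * A + (A / Z) ^ 2 * Z = Q - A ^ 2 / Z := by
      field_simp
      ring
    rw [h3] at hcs
    linarith
  have e3 : Ub2 U p v v = A ^ 2 / Z ^ 2 - (Q - ∫ g, φ g * b g ∂γ) / Z := by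
    simp only [Ub2, _root_.sub_apply, ContinuousLinearMap.smulRight_apply, _root_.smul_apply,
      smul_eq_mul, e1, e2, e0]
    field_simp
  rw [e3]
  have h4 : A ^ 2 / Z ^ 2 ≤ Q / Z := by
    rw [div_le_div_iff₀ (by positivity) hZ]
    rw [div_le_iff₀ hZ] at hcs'
    nlinarith
  have h5 : (∫ g, φ g * b g ∂γ) / Z ≤ h * ‖v‖ ^ 2 := by
    rw [div_le_iff₀ hZ]
    exact hb_le
  have h6 : (Q - ∫ g, φ g * b g ∂γ) / Z = Q / Z - (∫ g, φ g * b g ∂γ) / Z := sub_div _ _ _
  rw [h6]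
  linarith

open Crest.Agent.Lib.PrekopaLeindler in
theorem PL_inner : PL V (volume : Measure V) :=
  PL.of_measurePreserving _ ((stdOrthonormalBasis ℝ V).measurePreserving_repr_symm)
    (fun a b x y => by
      change (stdOrthonormalBasis ℝ V).repr.symm _ = _
      rw [map_add, map_smul, map_smul]) (PL_euclidean _)

theorem ub_convex (hU : PotP h U) (σ : ℝ) : ConvexOn ℝ univ (Ub U σ) := by
  refine ⟨convex_univ, fun x _ y _ a b ha hb hab => ?_⟩
  rcases ha.eq_or_lt with ha0 | ha0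
  · subst ha0
    have : b = 1 := by linarith
    subst this
    simp
  rcases hb.eq_or_lt with hb0 | hb0
  · subst hb0
    have : a = 1 := by linarith
    subst this
    simp
  have hb1 : b < 1 := by linarith
  have hab' : 1 - b = a := by linarith
  set f : V → V → ENNReal := fun x g => ENNReal.ofReal (gdens g * Ph U (x + σ • g)) with hf
  have hfc : ∀ x, Continuous fun g : V => gdens g * Ph U (x + σ • g) := fun x =>
    continuous_gdens.mul ((ph_cd hU).continuous.comp (by fun_prop))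
  have hfm : ∀ x, Measurable (f x) := fun x => (hfc x).measurable.ennreal_ofReal
  have hint : ∀ x, ∫⁻ g, f x g = ENNReal.ofReal (Zp U (σ, x)) := by
    intro x
    rw [Zp, avg, integral_stdGaussian]
    simp only [smul_eq_mul]
    rw [ofReal_integral_eq_lintegral_ofReal]
    · have := (integrable_stdGaussian_iff _).1 (integrable_ph hU (σ, x))
      simpa using this
    · exact ae_of_all _ fun g => mul_nonneg (gdens_pos g).le (ph_pos U _).le
  have key := PL_inner (V := V) b hb0 hb1 (f x) (f y) (f (a • x + b • y)) (hfm x) (hfm y) (hfm _) ?_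
  · rw [hint, hint, hint, hab', ENNReal.ofReal_rpow_of_pos (zp_pos hU _),
      ENNReal.ofReal_rpow_of_pos (zp_pos hU _), ← ENNReal.ofReal_mul (by
        exact rpow_nonneg (zp_pos hU _).le _),
      ENNReal.ofReal_le_ofReal_iff (zp_pos hU _).le] at key
    have h1 := Real.log_le_log (mul_pos (rpow_pos_of_pos (zp_pos hU _) _)
      (rpow_pos_of_pos (zp_pos hU _) _)) key
    rw [Real.log_mul (rpow_pos_of_pos (zp_pos hU _) _).ne' (rpow_pos_of_pos (zp_pos hU _) _).ne',
      Real.log_rpow (zp_pos hU _), Real.log_rpow (zp_pos hU _)] at h1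
    simp only [ub_eq, smul_eq_mul]
    linarith
  · intro g g'
    rw [hab']
    simp only [hf]
    rw [ENNReal.ofReal_rpow_of_pos (mul_pos (gdens_pos g) (ph_pos U _)),
      ENNReal.ofReal_rpow_of_pos (mul_pos (gdens_pos g') (ph_pos U _)), ← ENNReal.ofReal_mul (by
        exact rpow_nonneg (mul_pos (gdens_pos g) (ph_pos U _)).le _)]
    refine ENNReal.ofReal_le_ofReal ?_
    set c : ℝ := (2 * π) ^ (-(Module.finrank ℝ V : ℝ) / 2) with hc
    have hc0 : 0 < c := by positivity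
    have e : ∀ x g : V, gdens g * Ph U (x + σ • g) = c * rexp (-(‖g‖ ^ 2 / 2 + U (x + σ • g))) := by
      intro x g
      rw [gdens, Ph, ← hc, mul_assoc, ← exp_add]
      congr 2
      ring
    rw [e, e, e, Real.mul_rpow hc0.le (exp_pos _).le, Real.mul_rpow hc0.le (exp_pos _).le,
      ← Real.exp_mul, ← Real.exp_mul]
    have e3 : c ^ a * rexp (-(‖g‖ ^ 2 / 2 + U (x + σ • g)) * a) *
        (c ^ b * rexp (-(‖g'‖ ^ 2 / 2 + U (y + σ • g')) * b)) =
        c * rexp (-(a * (‖g‖ ^ 2 / 2 + U (x + σ • g)) + b * (‖g'‖ ^ 2 / 2 + U (y + σ • g')))) := by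
      have h1 : c ^ a * c ^ b = c := by rw [← rpow_add hc0, hab, rpow_one]
      rw [show -(a * (‖g‖ ^ 2 / 2 + U (x + σ • g)) + b * (‖g'‖ ^ 2 / 2 + U (y + σ • g'))) =
        -(‖g‖ ^ 2 / 2 + U (x + σ • g)) * a + -(‖g'‖ ^ 2 / 2 + U (y + σ • g')) * b by ring, exp_add]
      nth_rewrite 3 [← h1]
      ring
    rw [e3]
    refine mul_le_mul_of_nonneg_left (exp_le_exp.2 (neg_le_neg ?_)) hc0.le
    have h1 := (pot_convex hU).2 (mem_univ (x + σ • g)) (mem_univ (y + σ • g')) ha hb hab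
    have h2 : a • (x + σ • g) + b • (y + σ • g') = a • x + b • y + σ • (a • g + b • g') := by
      rw [smul_add, smul_add, smul_add, smul_comm σ a, smul_comm σ b]
      abel
    rw [h2, smul_eq_mul, smul_eq_mul] at h1
    have h3 : ‖a • g + b • g'‖ ^ 2 ≤ a * ‖g‖ ^ 2 + b * ‖g'‖ ^ 2 := by
      have h4 := (convexOn_univ_norm (E := V)).2 (mem_univ g) (mem_univ g') ha hb hab
      simp only [smul_eq_mul] at h4
      have h5 : ‖a • g + b • g'‖ ^ 2 ≤ (a * ‖g‖ + b * ‖g'‖) ^ 2 := by gcongr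
      have h6 : (a * ‖g‖ + b * ‖g'‖) ^ 2 = a * ‖g‖ ^ 2 + b * ‖g'‖ ^ 2 - a * b * (‖g‖ - ‖g'‖) ^ 2 := by
        have : a = 1 - b := by linarith
        subst this
        ring
      have h7 : 0 ≤ a * b * (‖g‖ - ‖g'‖) ^ 2 := by positivity
      linarith
    linarith

theorem ub2_lo (hU : PotP h U) (p : ℝ × V) (v : V) : 0 ≤ Ub2 U p v v := by
  obtain ⟨σ, x⟩ := p
  have hline : ∀ t : ℝ, HasDerivAt (fun t : ℝ => x + t • v) v t := fun t => by
    simpa using ((hasDerivAt_id t).smul_const v).const_add x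
  have h1 : ∀ t : ℝ, HasDerivAt (fun t : ℝ => Ub U σ (x + t • v)) (Ub1 U (σ, x + t • v) v) t :=
    fun t => (hasFDerivAt_ub_x hU σ _).comp_hasDerivAt t (hline t)
  have h2 : HasDerivAt (fun t : ℝ => Ub1 U (σ, x + t • v) v) (Ub2 U (σ, x) v v) 0 := by
    have h3 := HasFDerivAt.comp_hasDerivAt (f := fun t : ℝ => x + t • v) (0 : ℝ)
      (l := fun y => Ub1 U (σ, y)) (hasFDerivAt_ub1_x hU σ _) (hline 0)
    have h4 := h3.clm_apply (hasDerivAt_const (0 : ℝ) v)
    simpa using h4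
  have hconv : ConvexOn ℝ univ (fun t : ℝ => Ub U σ (x + t • v)) := by
    refine ⟨convex_univ, fun s _ t _ a b ha hb hab => ?_⟩
    have h3 := (ub_convex hU σ).2 (mem_univ (x + s • v)) (mem_univ (x + t • v)) ha hb hab
    have h4 : a • (x + s • v) + b • (x + t • v) = x + (a • s + b • t) • v := by
      rw [smul_add, smul_add, smul_smul, smul_smul, add_smul, smul_eq_mul, smul_eq_mul]
      have : a • x + b • x = x := by rw [← add_smul, hab, one_smul]
      rw [add_add_add_comm, this]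
    rwa [h4] at h3
  have hmono : Monotone (fun t : ℝ => Ub1 U (σ, x + t • v) v) := by
    have h3 := hconv.monotoneOn_deriv fun t _ => (h1 t).differentiableAt
    have h4 : deriv (fun t : ℝ => Ub U σ (x + t • v)) = fun t => Ub1 U (σ, x + t • v) v :=
      funext fun t => (h1 t).deriv
    rw [h4] at h3
    exact monotoneOn_univ.1 h3
  exact h2.nonneg_of_monotone hmono

theorem ub2_norm (hU : PotP h U) (p : ℝ × V) : ‖Ub2 U p‖ ≤ h := by
  refine ContinuousLinearMap.opNorm_le_bound _ hU.hh fun v => ?_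
  refine ContinuousLinearMap.opNorm_le_bound _ (mul_nonneg hU.hh (norm_nonneg _)) fun w => ?_
  exact bil_le _ (ub2_symm hU p) (ub2_lo hU p) (ub2_hi hU p) v w

theorem dgr_norm (hU : PotP h U) (p : ℝ × V) : ‖DGr U p‖ ≤ h := by
  refine ContinuousLinearMap.opNorm_le_bound _ hU.hh fun v => ?_
  rw [DGr, ContinuousLinearMap.comp_apply, norm_rz]
  exact (Ub2 U p).le_of_opNorm_le (ub2_norm hU p) v

theorem gr_lip (hU : PotP h U) (σ : ℝ) (x y : V) : ‖G U σ x - G U σ y‖ ≤ h * ‖x - y‖ :=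
  convex_univ.norm_image_sub_le_of_norm_hasFDerivWithin_le (𝕜 := ℝ)
    (fun z _ => (hasFDerivAt_gr_x hU σ z).hasFDerivWithinAt) (fun _ _ => dgr_norm hU _)
    (mem_univ _) (mem_univ _)

theorem gr_growth (hU : PotP h U) (R : ℝ) : ∃ C, 0 ≤ C ∧ ∀ σ : ℝ, |σ| ≤ R → ∀ x : V,
    ‖G U σ x‖ ≤ C + h * ‖x‖ := by
  have hc : Continuous fun σ : ℝ => ‖G U σ (0 : V)‖ :=
    ((contDiff_gr hU).continuous.comp (f := fun σ : ℝ => (σ, (0 : V))) (by fun_prop)).norm
  obtain ⟨M, hM⟩ := (isCompact_Icc (a := -R) (b := R)).bddAbove_image hc.continuousOn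
  refine ⟨max M 0, le_max_right _ _, fun σ hσ x => ?_⟩
  have h1 : ‖G U σ (0 : V)‖ ≤ M := hM ⟨σ, abs_le.1 hσ, rfl⟩
  have h2 := gr_lip hU σ x 0
  rw [sub_zero] at h2
  have h3 : ‖G U σ x‖ ≤ ‖G U σ x - G U σ 0‖ + ‖G U σ (0 : V)‖ := by
    simpa using norm_add_le (G U σ x - G U σ 0) (G U σ (0 : V))
  linarith [le_max_left M 0]

end Crest.Agent.R285
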