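import Crest.Agent.R285.PDM
import Crest.Agent.R285.HJ
import Crest.Agent.R285.Smooth

/-!
Row 285 (S0430): the derivatives `pdm m (Ub U σ)` of the coarse potentials, joint smoothness and
the differentiated Hamilton-Jacobi equation in the variables `t`, `σ = √t` and `ε`,
`σ = √(1-ε²)` (helper635).
-/

set_option autoImplicit false

open Set
open Crest.OracleSampling (E)
open scoped ContDiff RealInnerProductSpace

noncomputable section

namespace Crest.Agent.R285.AF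

variable {d : ℕ} {h : ℝ} {U : E d → ℝ}

theorem inner_gradient_ev (F : E d → ℝ) (x : E d) (l : Fin d) :
    ⟪ev l, gradient F x⟫ = pd l F x := by
  rw [real_inner_comm, inner_gradient]
  rfl

theorem norm_sq_gradient (F : E d → ℝ) (x : E d) :
    ‖gradient F x‖ ^ 2 = ∑ l, pd l F x ^ 2 := by
  rw [EuclideanSpace.norm_sq_eq]
  refine Finset.sum_congr rfl fun l _ => ?_
  rw [← inner_gradient_ev]
  rw [ev, EuclideanSpace.inner_single_left]
  simp

theorem dvg_gradient {F : E d → ℝ} (hF : ContDiff ℝ ∞ F) (x : E d) :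
    dvg (gradient F) x = ∑ l, pd l (pd l F) x := by
  have hd : DifferentiableAt ℝ (gradient F) x := by
    have h1 : gradient F = fun y => rz (E d) (fderiv ℝ F y) :=
      funext fun y => gradient_eq_rz F y
    rw [h1]
    have h2 : DifferentiableAt ℝ (fderiv ℝ F) x :=
      ((hF.fderiv_right (m := 1) (by norm_cast)).differentiable one_ne_zero) x
    exact (rz (E d)).differentiableAt.comp x h2
  unfold dvg
  rw [LinearMap.trace_eq_sum_inner _ (EuclideanSpace.basisFun (Fin d) ℝ)]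
  refine Finset.sum_congr rfl fun l _ => ?_
  have h3 : HasFDerivAt (fun y => ⟪ev l, gradient F y⟫) _ x :=
    (hasFDerivAt_const (ev l) x).inner ℝ hd.hasFDerivAt
  have h4 : (fun y => ⟪ev l, gradient F y⟫) = pd l F := funext fun y => inner_gradient_ev F y l
  rw [h4] at h3
  rw [pd, h3.fderiv]
  simp [ev, fderivInnerCLM_apply]

theorem HJr_zero {F : E d → ℝ} (hF : ContDiff ℝ ∞ F) (x : E d) :
    HJr F 0 x = 2⁻¹ * (dvg (gradient F) x - ‖gradient F x‖ ^ 2) := by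
  rw [dvg_gradient hF, norm_sq_gradient, HJr, Nfull, qsum_zero, mul_sub]
  congr 2
  · refine Finset.sum_congr rfl fun l _ => ?_
    rw [pdm_cons hF, Multiset.cons_zero, pdm_single hF]
  · refine Finset.sum_congr rfl fun l _ => ?_
    rw [Multiset.cons_zero, pdm_single hF, sq]

theorem joint_Ub (hU : PotP h U) :
    ContDiffOn ℝ ∞ (fun p : ℝ × E d => Ub U p.1 p.2) (Ioi 0 ×ˢ univ) := by
  have := contDiffOn_ub_top hU
  refine this.mono ?_
  rintro ⟨t, x⟩ ⟨ht, -⟩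
  exact ht

theorem contDiff_Ub (hU : PotP h U) {σ : ℝ} (hσ : 0 < σ) : ContDiff ℝ ∞ (Ub U σ) :=
  joint_slice (joint_Ub hU) (mem_Ioi.2 hσ)

theorem dtf_Ub (hU : PotP h U) {σ : ℝ} (hσ : 0 < σ) (x : E d) :
    dtf (Ub U) σ x = 2 * σ * HJr (Ub U σ) 0 x := by
  rw [HJr_zero (contDiff_Ub hU hσ)]
  unfold dtf
  rw [(hasDerivAt_ub_σ hU σ x).deriv]
  unfold G
  ring

/-- coarse potential in the variance variable `t` -/
def uT (U : E d → ℝ) (t : ℝ) : E d → ℝ := Ub U √t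

theorem joint_uT (hU : PotP h U) :
    ContDiffOn ℝ ∞ (fun p : ℝ × E d => uT U p.1 p.2) (Ioi 0 ×ˢ univ) := by
  have h1 : ContDiffOn ℝ ∞ (fun p : ℝ × E d => ((√p.1, p.2) : ℝ × E d)) (Ioi 0 ×ˢ univ) := by
    refine ContDiffOn.prodMk ?_ contDiffOn_snd
    refine ContDiffOn.sqrt contDiffOn_fst ?_
    rintro ⟨t, x⟩ ⟨ht, -⟩
    exact (mem_Ioi.1 ht).ne'
  refine (joint_Ub hU).comp h1 ?_
  rintro ⟨t, x⟩ ⟨ht, -⟩
  exact ⟨mem_Ioi.2 (Real.sqrt_pos.2 ht), mem_univ _⟩

theorem contDiff_uT (hU : PotP h U) {t : ℝ} (ht : 0 < t) : ContDiff ℝ ∞ (uT U t) :=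
  contDiff_Ub hU (Real.sqrt_pos.2 ht)

theorem hj_uT (hU : PotP h U) : ∀ t ∈ Ioi (0 : ℝ), ∀ x, dtf (uT U) t x = HJr (uT U t) 0 x := by
  intro t ht x
  have ht' : 0 < t := ht
  have hs : 0 < √t := Real.sqrt_pos.2 ht'
  have h1 : HasDerivAt (fun s => Ub U s x) (2 * √t * HJr (Ub U √t) 0 x) √t := by
    rw [← dtf_Ub hU hs]
    exact hasDerivAt_dtf isOpen_Ioi (joint_Ub hU) (mem_Ioi.2 hs) x
  have h2 := h1.comp t (Real.hasDerivAt_sqrt ht'.ne')
  unfold dtf
  refine (HasDerivAt.deriv (f := fun s => uT U s x) h2).trans ?_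
  unfold uT
  field_simp

/-- The differentiated Hamilton-Jacobi equation for `uT`. -/
theorem hasDerivAt_pdm_uT (hU : PotP h U) {t : ℝ} (ht : 0 < t) (m : Multiset (Fin d)) (x : E d) :
    HasDerivAt (fun s => pdm m (uT U s) x) (HJr (uT U t) m x) t :=
  hasDerivAt_pdm isOpen_Ioi (joint_uT hU) (hj_uT hU) (mem_Ioi.2 ht) m x

theorem joint_pdm_uT (hU : PotP h U) (m : Multiset (Fin d)) :
    ContDiffOn ℝ ∞ (fun p : ℝ × E d => pdm m (uT U p.1) p.2) (Ioi 0 ×ˢ univ) :=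
  joint_pdm isOpen_Ioi (joint_uT hU) m





end Crest.Agent.R285.AF
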