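import Crest.Agent.R285.Defs
import Crest.Agent.R285.Gauss

/-!
Row 285 (S0430): polynomially bounded functions and integration by parts for rapidly decaying
densities (analytic base of the word calculus).

* `PB F` : `‖F x‖ ≤ C (1+‖x‖)^k`, closed under sums, products, ...
* `RD ρ` : `ρ` continuous, nonnegative, `ρ x ≤ A exp (-c ‖x‖²)`.
* `RD.integrable` : `F * ρ` integrable for `F` continuous `PB`.
* `RD.ibp` : integration by parts in terms of line derivatives.
* `dens μ ρ` : the measure `ρ μ`.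
-/

set_option autoImplicit false
set_option linter.unusedSectionVars false

open MeasureTheory ProbabilityTheory Set Filter Topology
open scoped ENNReal NNReal

noncomputable section

namespace Crest.Agent.R285.IBP

variable {V W H : Type*} [NormedAddCommGroup V] [NormedAddCommGroup W] [NormedAddCommGroup H]

/-- Polynomially bounded functions. -/
def PB (F : V → H) : Prop := ∃ (C : ℝ) (k : ℕ), 0 ≤ C ∧ ∀ x, ‖F x‖ ≤ C * (1 + ‖x‖) ^ k

theorem one_le_one_add_norm (x : V) : 1 ≤ 1 + ‖x‖ := by linarith [norm_nonneg x]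

theorem PB.of_bound {F : V → H} {C : ℝ} (h : ∀ x, ‖F x‖ ≤ C) : PB F := by
  refine ⟨|C|, 0, abs_nonneg _, fun x => ?_⟩
  simpa using (h x).trans (le_abs_self C)

theorem PB.const (c : H) : PB (fun _ : V => c) := PB.of_bound (C := ‖c‖) fun _ => le_rfl

theorem PB.zero : PB (fun _ : V => (0 : H)) := PB.const 0

theorem PB.mono {F : V → H} {G : V → W} (hG : PB G) (h : ∀ x, ‖F x‖ ≤ ‖G x‖) : PB F := by
  obtain ⟨C, k, hC, hk⟩ := hG
  exact ⟨C, k, hC, fun x => (h x).trans (hk x)⟩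

theorem PB.norm {F : V → H} (hF : PB F) : PB (fun x => ‖F x‖) :=
  hF.mono fun _ => by simp

theorem PB.of_linear {F : V → H} {C : ℝ} (h : ∀ x, ‖F x‖ ≤ C * (1 + ‖x‖)) : PB F := by
  refine ⟨|C|, 1, abs_nonneg _, fun x => ?_⟩
  rw [pow_one]
  exact (h x).trans (mul_le_mul_of_nonneg_right (le_abs_self C) (by positivity))

theorem PB.id : PB (fun x : V => x) := PB.of_linear (C := 1) fun x => by linarith [norm_nonneg x]


theorem PB.add {F G : V → H} (hF : PB F) (hG : PB G) : PB (fun x => F x + G x) := by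
  obtain ⟨C, k, hC, hk⟩ := hF
  obtain ⟨D, m, hD, hm⟩ := hG
  refine ⟨C + D, k + m, by positivity, fun x => ?_⟩
  have h1 : C * (1 + ‖x‖) ^ k ≤ C * (1 + ‖x‖) ^ (k + m) :=
    mul_le_mul_of_nonneg_left (pow_le_pow_right₀ (one_le_one_add_norm x) (by omega)) hC
  have h2 : D * (1 + ‖x‖) ^ m ≤ D * (1 + ‖x‖) ^ (k + m) :=
    mul_le_mul_of_nonneg_left (pow_le_pow_right₀ (one_le_one_add_norm x) (by omega)) hD
  calc ‖F x + G x‖ ≤ ‖F x‖ + ‖G x‖ := norm_add_le _ _
    _ ≤ C * (1 + ‖x‖) ^ (k + m) + D * (1 + ‖x‖) ^ (k + m) :=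
        add_le_add ((hk x).trans h1) ((hm x).trans h2)
    _ = _ := by ring

theorem PB.neg {F : V → H} (hF : PB F) : PB (fun x => - F x) := hF.mono fun x => by simp

theorem PB.sub {F G : V → H} (hF : PB F) (hG : PB G) : PB (fun x => F x - G x) := by
  simp only [sub_eq_add_neg]; exact hF.add hG.neg

theorem PB.sum {ι : Type*} (s : Finset ι) {F : ι → V → H} (hF : ∀ i ∈ s, PB (F i)) :
    PB (fun x => ∑ i ∈ s, F i x) := by
  classical
  induction s using Finset.induction_on with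
  | empty => simpa using (PB.zero : PB (fun _ : V => (0 : H)))
  | insert a s ha ih =>
    simp only [Finset.sum_insert ha]
    exact (hF a (Finset.mem_insert_self a s)).add
      (ih fun i hi => hF i (Finset.mem_insert_of_mem hi))

/-- A product-type bound. -/
theorem PB.mul_bound {X : Type*} [NormedAddCommGroup X] {F : V → H} {G : V → W} {K : V → X}
    (hF : PB F) (hG : PB G) (h : ∀ x, ‖K x‖ ≤ ‖F x‖ * ‖G x‖) : PB K := by
  obtain ⟨C, k, hC, hk⟩ := hF
  obtain ⟨D, m, hD, hm⟩ := hG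
  refine ⟨C * D, k + m, by positivity, fun x => (h x).trans ?_⟩
  calc ‖F x‖ * ‖G x‖ ≤ (C * (1 + ‖x‖) ^ k) * (D * (1 + ‖x‖) ^ m) :=
        mul_le_mul (hk x) (hm x) (norm_nonneg _) (by positivity)
    _ = _ := by rw [pow_add]; ring

theorem PB.mul {F G : V → ℝ} (hF : PB F) (hG : PB G) : PB (fun x => F x * G x) :=
  hF.mul_bound hG fun x => by rw [norm_mul]

theorem PB.smul [NormedSpace ℝ H] {F : V → ℝ} {G : V → H} (hF : PB F) (hG : PB G) :
    PB (fun x => F x • G x) :=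
  hF.mul_bound hG fun x => by rw [norm_smul]

theorem PB.const_mul (c : ℝ) {F : V → ℝ} (hF : PB F) : PB (fun x => c * F x) :=
  (PB.const c).mul hF

theorem PB.inner {H : Type*} [NormedAddCommGroup H] [InnerProductSpace ℝ H] {F G : V → H}
    (hF : PB F) (hG : PB G) : PB (fun x => inner ℝ (F x) (G x)) :=
  hF.mul_bound hG fun _ => norm_inner_le_norm _ _

theorem PB.pow {F : V → ℝ} (hF : PB F) (n : ℕ) : PB (fun x => F x ^ n) := by
  induction n with
  | zero => simpa using PB.const (V := V) (1 : ℝ)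
  | succ n ih => simp only [pow_succ]; exact ih.mul hF

theorem PB.prod {ι : Type*} (s : Finset ι) {F : ι → V → ℝ} (hF : ∀ i ∈ s, PB (F i)) :
    PB (fun x => ∏ i ∈ s, F i x) := by
  classical
  induction s using Finset.induction_on with
  | empty => simpa using PB.const (V := V) (1 : ℝ)
  | insert a s ha ih =>
    simp only [Finset.prod_insert ha]
    exact (hF a (Finset.mem_insert_self a s)).mul
      (ih fun i hi => hF i (Finset.mem_insert_of_mem hi))

/-- Composition with a map of at most linear growth. -/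
theorem PB.comp {F : W → H} (hF : PB F) {φ : V → W} (hφ : PB φ) : PB (fun x => F (φ x)) := by
  obtain ⟨C, k, hC, hk⟩ := hF
  obtain ⟨D, m, hD, hm⟩ := hφ
  refine ⟨C * (1 + D) ^ k, m * k, by positivity, fun x => (hk _).trans ?_⟩
  have h1 : 1 + ‖φ x‖ ≤ (1 + D) * (1 + ‖x‖) ^ m := by
    have : (1 : ℝ) ≤ (1 + ‖x‖) ^ m := one_le_pow₀ (one_le_one_add_norm x)
    nlinarith [hm x]
  calc C * (1 + ‖φ x‖) ^ k ≤ C * ((1 + D) * (1 + ‖x‖) ^ m) ^ k :=
        mul_le_mul_of_nonneg_left (pow_le_pow_left₀ (by positivity) h1 k) hC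
    _ = _ := by rw [mul_pow, pow_mul]; ring

theorem PB.fst : PB (fun x : V × W => x.1) :=
  (PB.id : PB (fun x : V × W => x)).mono fun x => norm_fst_le x

theorem PB.snd : PB (fun x : V × W => x.2) :=
  (PB.id : PB (fun x : V × W => x)).mono fun x => norm_snd_le x


/-- Applying a polynomially bounded family of operators to a fixed vector. -/
theorem PB.clm_apply [NormedSpace ℝ W] [NormedSpace ℝ H] {F : V → W →L[ℝ] H} (hF : PB F)
    (v : W) : PB (fun x => F x v) :=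
  hF.mul_bound (PB.const v) fun x => (F x).le_opNorm v

/-! ### Rapidly decaying densities -/

/-- Rapidly decaying densities. -/
structure RD (ρ : V → ℝ) : Prop where
  cont : Continuous ρ
  nonneg : ∀ x, 0 ≤ ρ x
  decay : ∃ A c : ℝ, 0 ≤ A ∧ 0 < c ∧ ∀ x, ρ x ≤ A * Real.exp (-c * ‖x‖ ^ 2)

lemma pow_mul_exp_bdd (n : ℕ) {c : ℝ} (hc : 0 < c) :
    ∃ B : ℝ, 0 ≤ B ∧ ∀ t : ℝ, 0 ≤ t → (1 + t) ^ n * Real.exp (-c * t ^ 2) ≤ B := by
  -- `(1+t)^n ≤ n! exp(1+t)` and `1 + t - c t² ≤ 1 + 1/(4c)`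
  refine ⟨(Nat.factorial n) * Real.exp (1 + 1 / (4 * c)), by positivity, fun t ht => ?_⟩
  have h1 : (1 + t) ^ n ≤ (Nat.factorial n) * Real.exp (1 + t) := by
    have h := Real.pow_div_factorial_le_exp (1 + t) (by positivity) n
    rw [div_le_iff₀ (by positivity)] at h
    linarith
  have h2 : 1 + t + -c * t ^ 2 ≤ 1 + 1 / (4 * c) := by
    have h3 : 0 ≤ (1 / (2 * c) - t) ^ 2 * c := by positivity
    have h4 : (1 / (2 * c) - t) ^ 2 * c = 1 / (4 * c) - t + c * t ^ 2 := by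
      field_simp
      ring
    rw [h4] at h3
    linarith
  calc (1 + t) ^ n * Real.exp (-c * t ^ 2)
      ≤ ((Nat.factorial n) * Real.exp (1 + t)) * Real.exp (-c * t ^ 2) :=
        mul_le_mul_of_nonneg_right h1 (Real.exp_pos _).le
    _ = (Nat.factorial n) * Real.exp (1 + t + -c * t ^ 2) := by
        rw [mul_assoc, ← Real.exp_add]
    _ ≤ _ := mul_le_mul_of_nonneg_left (Real.exp_le_exp.mpr h2) (by positivity)

section integ

variable [NormedSpace ℝ V] [FiniteDimensional ℝ V] [MeasurableSpace V] [BorelSpace V]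
  {μ : Measure V} [μ.IsAddHaarMeasure] [NormedSpace ℝ H]

/-- `(1+‖x‖)^k exp(-c‖x‖²)` is integrable. -/
theorem integrable_pow_exp (k : ℕ) {c : ℝ} (hc : 0 < c) :
    Integrable (fun x : V => (1 + ‖x‖) ^ k * Real.exp (-c * ‖x‖ ^ 2)) μ := by
  set r : ℕ := Module.finrank ℝ V + 1 with hr
  obtain ⟨B, hB0, hB⟩ := pow_mul_exp_bdd (k + r) hc
  have h1 : Integrable (fun x : V => (1 + ‖x‖) ^ (-(r : ℝ))) μ :=
    integrable_one_add_norm (by rw [hr]; push_cast; linarith)
  refine (h1.const_mul B).mono' (by fun_prop) (ae_of_all _ fun x => ?_)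
  have hp : 0 < 1 + ‖x‖ := by positivity
  rw [Real.norm_of_nonneg (by positivity), Real.rpow_neg hp.le, Real.rpow_natCast,
    ← div_eq_mul_inv, le_div_iff₀ (by positivity)]
  calc (1 + ‖x‖) ^ k * Real.exp (-c * ‖x‖ ^ 2) * (1 + ‖x‖) ^ r
      = (1 + ‖x‖) ^ (k + r) * Real.exp (-c * ‖x‖ ^ 2) := by rw [pow_add]; ring
    _ ≤ B := hB _ (norm_nonneg x)

/-- Polynomially bounded functions are integrable against rapidly decaying densities. -/
theorem RD.integrable_smul {ρ : V → ℝ} (hρ : RD ρ) {F : V → H} (hF : PB F)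
    (hm : AEStronglyMeasurable F μ) : Integrable (fun x => ρ x • F x) μ := by
  obtain ⟨A, c, hA, hc, hd⟩ := hρ.decay
  obtain ⟨C, k, hC, hk⟩ := hF
  refine ((integrable_pow_exp (μ := μ) k hc).const_mul (A * C)).mono'
    (hρ.cont.aestronglyMeasurable.smul hm) (ae_of_all _ fun x => ?_)
  rw [norm_smul, Real.norm_of_nonneg (hρ.nonneg x)]
  calc ρ x * ‖F x‖ ≤ (A * Real.exp (-c * ‖x‖ ^ 2)) * (C * (1 + ‖x‖) ^ k) :=
        mul_le_mul (hd x) (hk x) (norm_nonneg _) (by positivity)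
    _ = _ := by ring

theorem RD.integrable_mul {ρ : V → ℝ} (hρ : RD ρ) {F : V → ℝ} (hF : PB F)
    (hm : AEStronglyMeasurable F μ) : Integrable (fun x => F x * ρ x) μ := by
  have := hρ.integrable_smul (μ := μ) hF hm
  simpa [mul_comm] using this

theorem RD.integrable {ρ : V → ℝ} (hρ : RD ρ) : Integrable ρ μ := by
  have := hρ.integrable_mul (μ := μ) (PB.const (1 : ℝ)) aestronglyMeasurable_const
  simpa using this

/-- **Integration by parts** against a rapidly decaying density, Lebesgue form.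
`β` is the score in the direction `v`: `∂_v ρ = - β ρ`. -/
theorem RD.ibp {ρ β : V → ℝ} (hρ : RD ρ) {v : V}
    (hβ : ∀ x, HasLineDerivAt ℝ ρ (-(β x * ρ x)) x v) (hβb : PB β) (hβm : Continuous β)
    {F F' G G' : V → ℝ} (hF : ∀ x, HasLineDerivAt ℝ F (F' x) x v)
    (hG : ∀ x, HasLineDerivAt ℝ G (G' x) x v) (bF : PB F) (bF' : PB F') (bG : PB G) (bG' : PB G')
    (cF : Continuous F) (cF' : Continuous F') (cG : Continuous G) (cG' : Continuous G') :
    ∫ x, F' x * G x * ρ x ∂μ = ∫ x, F x * (β x * G x - G' x) * ρ x ∂μ := by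
  have hGρ : ∀ x, HasLineDerivAt ℝ (fun x => G x * ρ x) (G' x * ρ x + G x * (-(β x * ρ x))) x v := by
    intro x
    have h1 : HasDerivAt (fun t : ℝ => G (x + t • v)) (G' x) 0 := hG x
    have h2 : HasDerivAt (fun t : ℝ => ρ (x + t • v)) (-(β x * ρ x)) 0 := hβ x
    have h3 := h1.mul h2
    simp only [zero_smul, add_zero] at h3
    exact h3
  have key := integral_bilinear_hasLineDerivAt_right_eq_neg_left_of_integrable (μ := μ)
    (B := ContinuousLinearMap.mul ℝ ℝ) (f := F) (f' := F') (g := fun x => G x * ρ x)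
    (g' := fun x => G' x * ρ x + G x * (-(β x * ρ x))) (v := v) ?_ ?_ ?_
    (fun x _ => hF x) (fun x _ => hGρ x)
  · simp only [ContinuousLinearMap.mul_apply'] at key
    have e1 : ∫ x, F' x * G x * ρ x ∂μ = ∫ x, F' x * (G x * ρ x) ∂μ :=
      integral_congr_ae (ae_of_all _ fun x => by ring)
    rw [e1, ← neg_eq_iff_eq_neg.mpr key, ← integral_neg]
    exact integral_congr_ae (ae_of_all _ fun x => by ring)
  · simp only [ContinuousLinearMap.mul_apply']
    have := hρ.integrable_mul (μ := μ) (bF'.mul bG) (by fun_prop)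
    exact this.congr (ae_of_all _ fun x => by ring)
  · simp only [ContinuousLinearMap.mul_apply']
    have := hρ.integrable_mul (μ := μ) (bF.mul (bG'.sub (bG.mul hβb))) (by fun_prop)
    exact this.congr (ae_of_all _ fun x => by ring)
  · simp only [ContinuousLinearMap.mul_apply']
    have := hρ.integrable_mul (μ := μ) (bF.mul bG) (by fun_prop)
    exact this.congr (ae_of_all _ fun x => by ring)

/-- The measure with density `ρ`. -/
def dens (μ : Measure V) (ρ : V → ℝ) : Measure V := μ.withDensity fun x => ENNReal.ofReal (ρ x)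

theorem integral_dens {ρ : V → ℝ} (hρ : RD ρ) (F : V → H) :
    ∫ x, F x ∂(dens μ ρ) = ∫ x, ρ x • F x ∂μ := by
  unfold dens
  rw [integral_withDensity_eq_integral_toReal_smul hρ.cont.measurable.ennreal_ofReal
    (ae_of_all _ fun x => ENNReal.ofReal_lt_top)]
  exact integral_congr_ae (ae_of_all _ fun x => by
    simp only [ENNReal.toReal_ofReal (hρ.nonneg x)])

theorem integrable_dens_iff {ρ : V → ℝ} (hρ : RD ρ) (F : V → H) :
    Integrable F (dens μ ρ) ↔ Integrable (fun x => ρ x • F x) μ := by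
  unfold dens
  rw [integrable_withDensity_iff_integrable_smul' hρ.cont.measurable.ennreal_ofReal
    (ae_of_all _ fun x => ENNReal.ofReal_lt_top)]
  refine integrable_congr (ae_of_all _ fun x => ?_)
  simp only [ENNReal.toReal_ofReal (hρ.nonneg x)]

instance isFiniteMeasure_dens {ρ : V → ℝ} [hρ : Fact (RD ρ)] : IsFiniteMeasure (dens μ ρ) := by
  unfold dens
  exact isFiniteMeasure_withDensity_ofReal (hρ.out.integrable (μ := μ)).2

theorem PB.integrable_dens {ρ : V → ℝ} (hρ : RD ρ) {F : V → H} (hF : PB F)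
    (hm : AEStronglyMeasurable F μ) : Integrable F (dens μ ρ) :=
  (integrable_dens_iff hρ F).mpr (hρ.integrable_smul hF hm)

/-- Integration by parts, measure form. -/
theorem ibp_dens {ρ β : V → ℝ} (hρ : RD ρ) {v : V}
    (hβ : ∀ x, HasLineDerivAt ℝ ρ (-(β x * ρ x)) x v) (hβb : PB β) (hβm : Continuous β)
    {F F' G G' : V → ℝ} (hF : ∀ x, HasLineDerivAt ℝ F (F' x) x v)
    (hG : ∀ x, HasLineDerivAt ℝ G (G' x) x v) (bF : PB F) (bF' : PB F') (bG : PB G) (bG' : PB G')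
    (cF : Continuous F) (cF' : Continuous F') (cG : Continuous G) (cG' : Continuous G') :
    ∫ x, F' x * G x ∂(dens μ ρ) = ∫ x, F x * (β x * G x - G' x) ∂(dens μ ρ) := by
  rw [integral_dens hρ, integral_dens hρ]
  have := hρ.ibp (μ := μ) hβ hβb hβm hF hG bF bF' bG bG' cF cF' cG cG'
  simpa [mul_comm, smul_eq_mul] using this

/-! ### Products -/

theorem RD.prod {ρ : V → ℝ} {σ : W → ℝ} (hρ : RD ρ) (hσ : RD σ) :
    RD (fun x : V × W => ρ x.1 * σ x.2) := by
  obtain ⟨A, c, hA, hc, hd⟩ := hρ.decay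
  obtain ⟨B, e, hB, he, hd'⟩ := hσ.decay
  refine ⟨(hρ.cont.comp continuous_fst).mul (hσ.cont.comp continuous_snd),
    fun x => mul_nonneg (hρ.nonneg _) (hσ.nonneg _), A * B, min c e, by positivity,
    lt_min hc he, fun x => ?_⟩
  have h1 : ρ x.1 * σ x.2 ≤ (A * Real.exp (-c * ‖x.1‖ ^ 2)) * (B * Real.exp (-e * ‖x.2‖ ^ 2)) :=
    mul_le_mul (hd _) (hd' _) (hσ.nonneg _) (by positivity)
  have h2 : Real.exp (-c * ‖x.1‖ ^ 2) * Real.exp (-e * ‖x.2‖ ^ 2)
      ≤ Real.exp (-(min c e) * ‖x‖ ^ 2) := by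
    rw [← Real.exp_add]
    apply Real.exp_le_exp.mpr
    have hm0 : 0 < min c e := lt_min hc he
    have hc' : min c e ≤ c := min_le_left _ _
    have he' : min c e ≤ e := min_le_right _ _
    have hx : ‖x‖ ^ 2 ≤ ‖x.1‖ ^ 2 + ‖x.2‖ ^ 2 := by
      rw [Prod.norm_def]
      rcases max_cases ‖x.1‖ ‖x.2‖ with h | h
      · rw [h.1]; nlinarith [sq_nonneg ‖x.2‖]
      · rw [h.1]; nlinarith [sq_nonneg ‖x.1‖]
    nlinarith [sq_nonneg ‖x.1‖, sq_nonneg ‖x.2‖, mul_le_mul_of_nonneg_right hc' (sq_nonneg ‖x.1‖),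
      mul_le_mul_of_nonneg_right he' (sq_nonneg ‖x.2‖), mul_le_mul_of_nonneg_left hx hm0.le]
  calc ρ x.1 * σ x.2 ≤ A * B * (Real.exp (-c * ‖x.1‖ ^ 2) * Real.exp (-e * ‖x.2‖ ^ 2)) := by
        linarith [h1, show (A * Real.exp (-c * ‖x.1‖ ^ 2)) * (B * Real.exp (-e * ‖x.2‖ ^ 2))
          = A * B * (Real.exp (-c * ‖x.1‖ ^ 2) * Real.exp (-e * ‖x.2‖ ^ 2)) by ring]
    _ ≤ _ := mul_le_mul_of_nonneg_left h2 (by positivity)

theorem dens_prod [NormedSpace ℝ W] [FiniteDimensional ℝ W] [MeasurableSpace W] [BorelSpace W]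
    {ν : Measure W} [ν.IsAddHaarMeasure] {ρ : V → ℝ} {σ : W → ℝ} (hρ : RD ρ) (hσ : RD σ) :
    (dens μ ρ).prod (dens ν σ) = dens (μ.prod ν) (fun x : V × W => ρ x.1 * σ x.2) := by
  unfold dens
  have : IsFiniteMeasure (ν.withDensity fun x => ENNReal.ofReal (σ x)) :=
    isFiniteMeasure_withDensity_ofReal (hσ.integrable (μ := ν)).2
  rw [prod_withDensity hρ.cont.measurable.ennreal_ofReal hσ.cont.measurable.ennreal_ofReal]
  congr 1
  funext x
  rw [ENNReal.ofReal_mul (hρ.nonneg _)]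

end integ

/-! ### The densities `exp (-|x|²/2 - ψ x)` -/

section concrete

variable {E : Type*} [NormedAddCommGroup E] [InnerProductSpace ℝ E] [FiniteDimensional ℝ E]
  [MeasurableSpace E] [BorelSpace E]

/-- The (unnormalised) density `exp (-|x|²/2 - ψ x)`. -/
def gd (ψ : E → ℝ) (x : E) : ℝ := Real.exp (-(‖x‖ ^ 2 / 2) - ψ x)

theorem RD.gd {ψ : E → ℝ} (hψ : Continuous ψ) {C : ℝ} (hC : ∀ x, -C ≤ ψ x) : RD (gd ψ) := by
  refine ⟨by unfold IBP.gd; fun_prop, fun x => (Real.exp_pos _).le, Real.exp C, 1 / 2,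
    (Real.exp_pos _).le, by norm_num, fun x => ?_⟩
  unfold IBP.gd
  rw [← Real.exp_add]
  apply Real.exp_le_exp.mpr
  linarith [hC x]

theorem RD.gdens : RD (gdens (V := E)) := by
  refine ⟨continuous_gdens, fun x => (gdens_pos x).le,
    (2 * Real.pi) ^ (-(Module.finrank ℝ E : ℝ) / 2), 1 / 2, by positivity, by norm_num,
    fun x => ?_⟩
  unfold Crest.Agent.R285.gdens
  refine le_of_eq ?_
  congr 2
  ring

theorem stdGaussian_eq_dens : stdGaussian E = dens volume (gdens (V := E)) :=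
  stdGaussian_eq_withDensity

theorem hasLineDerivAt_normSq (x v : E) :
    HasLineDerivAt ℝ (fun x : E => ‖x‖ ^ 2 / 2) (inner ℝ x v) x v := by
  have h := (hasStrictFDerivAt_norm_sq x).hasFDerivAt.hasLineDerivAt v
  have h2 : HasDerivAt (fun t : ℝ => ‖x + t • v‖ ^ 2) (2 * inner ℝ x v) 0 := by
    simpa [HasLineDerivAt, two_smul, two_mul] using h
  exact (h2.div_const 2).congr_deriv (by ring)

/-- The score of `gd ψ`. -/
theorem hasLineDerivAt_gd {ψ : E → ℝ} {ψ' : E → ℝ} {v : E}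
    (hψ : ∀ x, HasLineDerivAt ℝ ψ (ψ' x) x v) (x : E) :
    HasLineDerivAt ℝ (gd ψ) (-((inner ℝ x v + ψ' x) * gd ψ x)) x v := by
  have h1 : HasDerivAt (fun t : ℝ => ‖x + t • v‖ ^ 2 / 2) (inner ℝ x v) 0 :=
    hasLineDerivAt_normSq x v
  have h2 : HasDerivAt (fun t : ℝ => ψ (x + t • v)) (ψ' x) 0 := hψ x
  have h3 : HasDerivAt (fun t : ℝ => Real.exp (-(‖x + t • v‖ ^ 2 / 2) - ψ (x + t • v))) _ 0 :=
    (h1.neg.sub h2).exp
  refine h3.congr_deriv ?_
  simp only [Pi.sub_apply, Pi.neg_apply, zero_smul, add_zero, gd]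
  ring

theorem hasLineDerivAt_gdens (x v : E) :
    HasLineDerivAt ℝ (gdens (V := E)) (-(inner ℝ x v * gdens x)) x v := by
  have h := hasLineDerivAt_gd (E := E) (ψ := fun _ => 0) (ψ' := fun _ => 0) (v := v)
    (fun x => (hasDerivAt_const (0 : ℝ) (0 : ℝ) : HasDerivAt (fun _ : ℝ => (0 : ℝ)) 0 0)) x
  have h1 : HasDerivAt (fun t : ℝ => gd (fun _ => 0) (x + t • v)) _ 0 := h
  have h2 := h1.const_mul ((2 * Real.pi) ^ (-(Module.finrank ℝ E : ℝ) / 2))
  simp only [HasLineDerivAt]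
  have e : ∀ y : E, Crest.Agent.R285.gdens y
      = (2 * Real.pi) ^ (-(Module.finrank ℝ E : ℝ) / 2) * gd (fun _ => 0) y := by
    intro y
    unfold Crest.Agent.R285.gdens gd
    congr 2
    ring
  have e2 : (fun t : ℝ => Crest.Agent.R285.gdens (x + t • v))
      = fun t : ℝ => (2 * Real.pi) ^ (-(Module.finrank ℝ E : ℝ) / 2)
        * gd (fun _ => 0) (x + t • v) := by
    funext t; exact e _
  have h3 := h2.congr_deriv (g' := -(inner ℝ x v * ((2 * Real.pi) ^
    (-(Module.finrank ℝ E : ℝ) / 2) * gd (fun _ => 0) x))) (by ring)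
  rw [e x]
  change HasDerivAt (fun t : ℝ => Crest.Agent.R285.gdens (x + t • v)) _ 0
  rw [e2]
  exact h3

/-- Line derivative of a function on a product in the first direction. -/
theorem hasLineDerivAt_fst {ρ : E → ℝ} {σ : E → ℝ} {r : ℝ} {x : E × E} {v : E}
    (h : HasLineDerivAt ℝ ρ r x.1 v) :
    HasLineDerivAt ℝ (fun x : E × E => ρ x.1 * σ x.2) (r * σ x.2) x (v, 0) := by
  have h1 : HasDerivAt (fun t : ℝ => ρ (x.1 + t • v)) r 0 := h
  have h2 := h1.mul_const (σ x.2)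
  simpa [HasLineDerivAt] using h2

theorem hasLineDerivAt_snd {ρ : E → ℝ} {σ : E → ℝ} {r : ℝ} {x : E × E} {v : E}
    (h : HasLineDerivAt ℝ σ r x.2 v) :
    HasLineDerivAt ℝ (fun x : E × E => ρ x.1 * σ x.2) (ρ x.1 * r) x (0, v) := by
  have h1 : HasDerivAt (fun t : ℝ => σ (x.2 + t • v)) r 0 := h
  have h2 := h1.const_mul (ρ x.1)
  simpa [HasLineDerivAt] using h2

/-- The reference measure of the coupled flow: `exp (-|η|²/2 - ψ η) dη ⊗ N(0, I)(db)`. -/
def M2 (ψ : E → ℝ) : Measure (E × E) := (dens volume (gd ψ)).prod (stdGaussian E)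

theorem M2_eq {ψ : E → ℝ} (hψ : Continuous ψ) {C : ℝ} (hC : ∀ x, -C ≤ ψ x) :
    M2 ψ = dens (volume.prod volume) (fun x : E × E => gd ψ x.1 * gdens x.2) := by
  unfold M2
  rw [stdGaussian_eq_dens, dens_prod (RD.gd hψ hC) RD.gdens]

theorem M2_integrable {H : Type*} [NormedAddCommGroup H] [NormedSpace ℝ H] {ψ : E → ℝ}
    (hψ : Continuous ψ) {C : ℝ} (hC : ∀ x, -C ≤ ψ x) {F : E × E → H} (hF : PB F)
    (hm : Continuous F) : Integrable F (M2 ψ) := by
  rw [M2_eq hψ hC]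
  exact hF.integrable_dens ((RD.gd hψ hC).prod RD.gdens) hm.aestronglyMeasurable

/-- Integration by parts in the first variable. -/
theorem M2_ibp_fst {ψ ψ' : E → ℝ} (hψ : Continuous ψ) {C : ℝ} (hC : ∀ x, -C ≤ ψ x) {v : E}
    (hd : ∀ x, HasLineDerivAt ℝ ψ (ψ' x) x v) (bψ' : PB ψ') (cψ' : Continuous ψ')
    {F F' G G' : E × E → ℝ} (hF : ∀ x, HasLineDerivAt ℝ F (F' x) x (v, 0))
    (hG : ∀ x, HasLineDerivAt ℝ G (G' x) x (v, 0)) (bF : PB F) (bF' : PB F') (bG : PB G)
    (bG' : PB G') (cF : Continuous F) (cF' : Continuous F') (cG : Continuous G)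
    (cG' : Continuous G') :
    ∫ x, F' x * G x ∂(M2 ψ)
      = ∫ x, F x * ((inner ℝ x.1 v + ψ' x.1) * G x - G' x) ∂(M2 ψ) := by
  rw [M2_eq hψ hC]
  refine ibp_dens (μ := (volume : Measure E).prod volume) (β := fun x => inner ℝ x.1 v + ψ' x.1)
    ((RD.gd hψ hC).prod RD.gdens) ?_ ?_ ?_ hF hG bF bF' bG bG' cF cF' cG cG'
  · intro x
    have h := hasLineDerivAt_fst (x := x) (σ := gdens (V := E)) (hasLineDerivAt_gd hd x.1)
    exact HasDerivAt.congr_deriv h (by ring)
  · exact (PB.fst.inner (PB.const v)).add (bψ'.comp PB.fst)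
  · fun_prop

/-- Integration by parts in the second variable. -/
theorem M2_ibp_snd {ψ : E → ℝ} (hψ : Continuous ψ) {C : ℝ} (hC : ∀ x, -C ≤ ψ x) {v : E}
    {F F' G G' : E × E → ℝ} (hF : ∀ x, HasLineDerivAt ℝ F (F' x) x (0, v))
    (hG : ∀ x, HasLineDerivAt ℝ G (G' x) x (0, v)) (bF : PB F) (bF' : PB F') (bG : PB G)
    (bG' : PB G') (cF : Continuous F) (cF' : Continuous F') (cG : Continuous G)
    (cG' : Continuous G') :
    ∫ x, F' x * G x ∂(M2 ψ) = ∫ x, F x * (inner ℝ x.2 v * G x - G' x) ∂(M2 ψ) := by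
  rw [M2_eq hψ hC]
  refine ibp_dens (μ := (volume : Measure E).prod volume) (β := fun x => inner ℝ x.2 v)
    ((RD.gd hψ hC).prod RD.gdens) ?_ ?_ ?_ hF hG bF bF' bG bG' cF cF' cG cG'
  · intro x
    have h := hasLineDerivAt_snd (x := x) (ρ := gd ψ) (hasLineDerivAt_gdens x.2 v)
    exact HasDerivAt.congr_deriv h (by ring)
  · exact PB.snd.inner (PB.const v)
  · fun_prop

end concrete

end Crest.Agent.R285.IBP
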