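import Mathlib
import Crest.Agent.R285.Defs

-- ▼ part R285/AFTens
section

/-!
Row 285 (S0430): flattening norms of coordinate tensors, and the bound of the quadratic
nonlinearity `N` of the Hamilton-Jacobi hierarchy by two-letter compositions (helper635).
-/

set_option autoImplicit false

open Finset

noncomputable section

namespace Crest.Agent.R285.AF

section basic

variable {A B Z A' B' : Type} [Fintype A] [Fintype B] [Fintype Z] [Fintype A'] [Fintype B']

/-- Euclidean size of a finite family. -/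
def nr (a : A → ℝ) : ℝ := √(∑ x, a x ^ 2)

theorem nr_nonneg (a : A → ℝ) : 0 ≤ nr a := Real.sqrt_nonneg _

theorem nr_sq (a : A → ℝ) : nr a ^ 2 = ∑ x, a x ^ 2 :=
  Real.sq_sqrt (sum_nonneg fun _ _ => sq_nonneg _)

theorem nr_reindex (e : A ≃ A') (a : A' → ℝ) : nr (fun x => a (e x)) = nr a := by
  unfold nr
  rw [Equiv.sum_comp e (fun x => a x ^ 2)]

theorem sum_mul_le_nr (a b : A → ℝ) : |∑ x, a x * b x| ≤ nr a * nr b := by
  have h : (∑ x, a x * b x) ^ 2 ≤ (∑ x, a x ^ 2) * ∑ x, b x ^ 2 :=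
    Finset.sum_mul_sq_le_sq_mul_sq _ _ _
  rw [← nr_sq, ← nr_sq, ← mul_pow] at h
  exact abs_le_of_sq_le_sq h (mul_nonneg (nr_nonneg _) (nr_nonneg _))

/-- Bilinear form bound (flattening norm) of a matrix. -/
def FB (T : A → B → ℝ) (C : ℝ) : Prop :=
  ∀ (a : A → ℝ) (b : B → ℝ), |∑ x, ∑ y, T x y * (a x * b y)| ≤ C * (nr a * nr b)

theorem FB.mono {T : A → B → ℝ} {C C' : ℝ} (h : FB T C) (hC : C ≤ C') : FB T C' := fun a b =>
  (h a b).trans (mul_le_mul_of_nonneg_right hC (mul_nonneg (nr_nonneg _) (nr_nonneg _)))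

theorem FB.symm {T : A → B → ℝ} {C : ℝ} (h : FB T C) : FB (fun y x => T x y) C := by
  intro b a
  have h1 := h a b
  rw [sum_comm] at h1
  rw [mul_comm (nr b)]
  refine le_of_eq_of_le ?_ h1
  congr 1
  refine sum_congr rfl fun x _ => sum_congr rfl fun y _ => ?_
  ring

theorem FB.add {T T' : A → B → ℝ} {C C' : ℝ} (h : FB T C) (h' : FB T' C') :
    FB (fun x y => T x y + T' x y) (C + C') := by
  intro a b
  have : ∑ x, ∑ y, (T x y + T' x y) * (a x * b y) =
      ∑ x, ∑ y, T x y * (a x * b y) + ∑ x, ∑ y, T' x y * (a x * b y) := by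
    simp only [add_mul, sum_add_distrib]
  rw [this, add_mul]
  exact (abs_add_le _ _).trans (add_le_add (h a b) (h' a b))

theorem FB.smul {T : A → B → ℝ} {C : ℝ} (h : FB T C) (c : ℝ) :
    FB (fun x y => c * T x y) (|c| * C) := by
  intro a b
  have : ∑ x, ∑ y, (c * T x y) * (a x * b y) = c * ∑ x, ∑ y, T x y * (a x * b y) := by
    simp only [mul_sum, mul_assoc]
  rw [this, abs_mul, mul_assoc]
  exact mul_le_mul_of_nonneg_left (h a b) (abs_nonneg _)

theorem FB.sum {κ : Type} (s : Finset κ) {T : κ → A → B → ℝ} {C : κ → ℝ}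
    (h : ∀ k ∈ s, FB (T k) (C k)) : FB (fun x y => ∑ k ∈ s, T k x y) (∑ k ∈ s, C k) := by
  classical
  induction s using Finset.induction_on with
  | empty => intro a b; simp
  | insert k s hk ih =>
    have h1 := (h k (mem_insert_self _ _)).add (ih fun j hj => h j (mem_insert_of_mem hj))
    simp only [sum_insert hk]
    exact h1

theorem FB.reindex {T : A' → B' → ℝ} {C : ℝ} (h : FB T C) (e : A ≃ A') (f : B ≃ B') :
    FB (fun x y => T (e x) (f y)) C := by
  intro a b
  have := h (fun x => a (e.symm x)) (fun y => b (f.symm y))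
  rw [nr_reindex e.symm, nr_reindex f.symm] at this
  refine le_of_eq_of_le ?_ this
  congr 1
  rw [← Equiv.sum_comp e (fun x => ∑ y, T x y * (a (e.symm x) * b (f.symm y)))]
  refine sum_congr rfl fun x _ => ?_
  rw [← Equiv.sum_comp f (fun y => T (e x) y * (a (e.symm (e x)) * b (f.symm y)))]
  simp

/-- Spectator form of the bilinear bound. -/
theorem FB.spect {T : A → B → ℝ} {C : ℝ} (hC : 0 ≤ C) (h : FB T C) (a : Z → A → ℝ)
    (b : Z → B → ℝ) :
    |∑ z, ∑ x, ∑ y, T x y * (a z x * b z y)| ≤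
      C * (nr (fun p : Z × A => a p.1 p.2) * nr (fun p : Z × B => b p.1 p.2)) := by
  calc |∑ z, ∑ x, ∑ y, T x y * (a z x * b z y)|
      ≤ ∑ z, |∑ x, ∑ y, T x y * (a z x * b z y)| := abs_sum_le_sum_abs _ _
    _ ≤ ∑ z, C * (nr (a z) * nr (b z)) := sum_le_sum fun z _ => h (a z) (b z)
    _ = C * ∑ z, nr (a z) * nr (b z) := by rw [mul_sum]
    _ ≤ C * (nr (fun p : Z × A => a p.1 p.2) * nr (fun p : Z × B => b p.1 p.2)) := by
        refine mul_le_mul_of_nonneg_left ?_ hC
        refine (le_abs_self _).trans ((sum_mul_le_nr (fun z => nr (a z)) fun z => nr (b z)).trans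
          (le_of_eq ?_))
        congr 1
        · unfold nr
          congr 1
          rw [Fintype.sum_prod_type]
          exact sum_congr rfl fun z _ => Real.sq_sqrt (sum_nonneg fun _ _ => sq_nonneg _)
        · unfold nr
          congr 1
          rw [Fintype.sum_prod_type]
          exact sum_congr rfl fun z _ => Real.sq_sqrt (sum_nonneg fun _ _ => sq_nonneg _)

/-- Operator form with spectators. -/
theorem FB.op {T : A → B → ℝ} {C : ℝ} (hC : 0 ≤ C) (h : FB T C) (b : Z → B → ℝ) :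
    nr (fun p : Z × A => ∑ y, T p.2 y * b p.1 y) ≤ C * nr (fun p : Z × B => b p.1 p.2) := by
  set x : Z → A → ℝ := fun z i => ∑ y, T i y * b z y with hx
  have h1 := h.spect hC x b
  have h2 : ∑ z, ∑ i, ∑ y, T i y * (x z i * b z y) = nr (fun p : Z × A => x p.1 p.2) ^ 2 := by
    rw [nr_sq, Fintype.sum_prod_type]
    refine sum_congr rfl fun z _ => sum_congr rfl fun i _ => ?_
    have : ∑ y, T i y * (x z i * b z y) = x z i * ∑ y, T i y * b z y := by
      rw [mul_sum]; exact sum_congr rfl fun y _ => by ring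
    rw [this, sq]
  rw [h2, abs_of_nonneg (sq_nonneg _)] at h1
  by_cases h0 : nr (fun p : Z × A => x p.1 p.2) = 0
  · change nr (fun p : Z × A => x p.1 p.2) ≤ _
    rw [h0]
    exact mul_nonneg hC (nr_nonneg _)
  · have hpos : 0 < nr (fun p : Z × A => x p.1 p.2) := lt_of_le_of_ne (nr_nonneg _) (Ne.symm h0)
    change nr (fun p : Z × A => x p.1 p.2) ≤ _
    nlinarith [nr_nonneg (fun p : Z × B => b p.1 p.2)]

theorem FB.op' {T : A → B → ℝ} {C : ℝ} (hC : 0 ≤ C) (h : FB T C) (b : B → ℝ) :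
    nr (fun x => ∑ y, T x y * b y) ≤ C * nr b := by
  have := h.op (Z := Unit) hC (fun _ => b)
  have e1 : nr (fun p : Unit × A => ∑ y, T p.2 y * b y) = nr (fun x => ∑ y, T x y * b y) := by
    unfold nr; rw [Fintype.sum_prod_type]; simp
  have e2 : nr (fun p : Unit × B => b p.2) = nr b := by
    unfold nr; rw [Fintype.sum_prod_type]; simp
  rw [e1, e2] at this
  exact this


end basic

section split

variable {A₁ A₂ B₁ B₂ M : Type} [Fintype A₁] [Fintype A₂] [Fintype B₁] [Fintype B₂] [Fintype M]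

/-- Composition of two letters, first order: `X : B₁ → A₁ × M`, `Y : B₂ × M → A₂`. -/
theorem FB.split {X : A₁ → B₁ → M → ℝ} {Y : A₂ → B₂ → M → ℝ} {C D : ℝ} (hC : 0 ≤ C) (hD : 0 ≤ D)
    (hX : FB (fun (p : A₁ × M) (q : B₁) => X p.1 q p.2) C)
    (hY : FB (fun (p : A₂) (q : B₂ × M) => Y p q.1 q.2) D) :
    FB (fun (p : A₁ × A₂) (q : B₁ × B₂) => ∑ m, X p.1 q.1 m * Y p.2 q.2 m) (C * D) := by
  intro a b
  set x : B₂ → A₁ × M → ℝ := fun j₂ p => ∑ j₁, X p.1 j₁ p.2 * b (j₁, j₂) with hx
  have h1 := hX.op hC (fun (j₂ : B₂) (j₁ : B₁) => b (j₁, j₂))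
  have e1 : nr (fun p : B₂ × B₁ => b (p.2, p.1)) = nr b :=
    nr_reindex (Equiv.prodComm B₂ B₁) b
  rw [e1] at h1
  have h2 := hY.spect (Z := A₁) hD (fun i₁ i₂ => a (i₁, i₂)) (fun i₁ q => x q.1 (i₁, q.2))
  have e2 : nr (fun p : A₁ × B₂ × M => x p.2.1 (p.1, p.2.2)) =
      nr (fun p : B₂ × A₁ × M => x p.1 p.2) := by
    have := nr_reindex (A := A₁ × B₂ × M) (A' := B₂ × A₁ × M)
      { toFun := fun p => (p.2.1, p.1, p.2.2)
        invFun := fun p => (p.2.1, p.1, p.2.2)
        left_inv := fun p => rfl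
        right_inv := fun p => rfl } (fun p => x p.1 p.2)
    exact this
  have e3 : nr (fun p : A₁ × A₂ => a (p.1, p.2)) = nr a := rfl
  rw [e2, e3] at h2
  have e4 : ∑ p : A₁ × A₂, ∑ q : B₁ × B₂, (∑ m, X p.1 q.1 m * Y p.2 q.2 m) * (a p * b q) =
      ∑ i₁, ∑ i₂, ∑ q : B₂ × M, Y i₂ q.1 q.2 * (a (i₁, i₂) * x q.1 (i₁, q.2)) := by
    rw [Fintype.sum_prod_type]
    refine sum_congr rfl fun i₁ _ => sum_congr rfl fun i₂ _ => ?_
    rw [Fintype.sum_prod_type, Fintype.sum_prod_type, sum_comm]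
    refine sum_congr rfl fun j₂ _ => ?_
    simp only [hx, sum_mul, mul_sum]
    rw [sum_comm]
    refine sum_congr rfl fun m _ => sum_congr rfl fun j₁ _ => ?_
    ring
  rw [e4]
  refine h2.trans ?_
  calc D * (nr a * nr (fun p : B₂ × A₁ × M => x p.1 p.2)) ≤ D * (nr a * (C * nr b)) :=
        mul_le_mul_of_nonneg_left (mul_le_mul_of_nonneg_left h1 (nr_nonneg _)) hD
    _ = C * D * (nr a * nr b) := by ring

/-- Composition of two letters, second order. -/
theorem FB.split' {X : A₁ → B₁ → M → ℝ} {Y : A₂ → B₂ → M → ℝ} {C D : ℝ} (hC : 0 ≤ C) (hD : 0 ≤ D)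
    (hX : FB (fun (p : A₁) (q : B₁ × M) => X p q.1 q.2) C)
    (hY : FB (fun (p : A₂ × M) (q : B₂) => Y p.1 q p.2) D) :
    FB (fun (p : A₁ × A₂) (q : B₁ × B₂) => ∑ m, X p.1 q.1 m * Y p.2 q.2 m) (C * D) := by
  have h := FB.split (X := Y) (Y := X) hD hC hY hX
  have h2 := h.reindex (Equiv.prodComm A₁ A₂) (Equiv.prodComm B₁ B₂)
  rw [mul_comm C D]
  refine fun a b => le_of_eq_of_le ?_ (h2 a b)
  congr 1
  refine sum_congr rfl fun p _ => sum_congr rfl fun q _ => ?_
  congr 1
  refine sum_congr rfl fun m _ => ?_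
  simp [mul_comm]

end split

section slots

variable {ι : Type} [Fintype ι]

/-- The multiset of values of a finite family of indices. -/
def ms {α : Type} [Fintype α] (I : α → ι) : Multiset ι := (univ : Finset α).val.map I


omit [Fintype ι] in
theorem ms_eq_zero {α : Type} [Fintype α] {I : α → ι} : ms I = 0 ↔ IsEmpty α := by
  simp [ms, Multiset.map_eq_zero, ← Finset.univ_eq_empty_iff]

omit [Fintype ι] in
theorem card_ms {α : Type} [Fintype α] (I : α → ι) : Multiset.card (ms I) = Fintype.card α := by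
  simp [ms]

omit [Fintype ι] in
theorem ms_option {α : Type} [Fintype α] (I : Option α → ι) :
    ms I = I none ::ₘ ms (fun i => I (some i)) := by
  have : (univ : Finset (Option α)).val = none ::ₘ (univ : Finset α).val.map some := rfl
  simp [ms, this, Multiset.map_map]

omit [Fintype ι] in
theorem ms_equiv {α β : Type} [Fintype α] [Fintype β] (e : α ≃ β) (I : β → ι) :
    ms (fun i => I (e i)) = ms I := by
  have : (univ : Finset α).val.map e = (univ : Finset β).val := by
    have h : (univ : Finset α).map e.toEmbedding = univ := Finset.map_univ_equiv e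
    rw [← h]; rfl
  rw [ms, ms, ← this, Multiset.map_map]
  rfl

omit [Fintype ι] in
theorem ms_subtype {α : Type} [Fintype α] (p : α → Prop) [DecidablePred p] [Fintype {i // p i}]
    (I : α → ι) :
    ms (fun i : {i // p i} => I i) = (univ.filter p).val.map I := by
  have : (univ : Finset {i // p i}).val.map Subtype.val = (univ.filter p).val := by
    have h : (univ : Finset {i // p i}).map (Function.Embedding.subtype p) = univ.filter p := by
      ext; simp
    rw [← h]; rfl
  unfold ms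
  rw [← this, Multiset.map_map]
  rfl

omit [Fintype ι] in
theorem antidiagonal_map {κ : Type} (f : κ → ι) (s : Multiset κ) :
    (s.map f).antidiagonal = s.antidiagonal.map (fun p => (p.1.map f, p.2.map f)) := by
  induction s using Multiset.induction_on with
  | empty => simp
  | cons a s ih =>
    simp only [Multiset.map_cons, Multiset.antidiagonal_cons, ih, Multiset.map_add,
      Multiset.map_map]
    congr 1 <;> refine Multiset.map_congr rfl fun p _ => ?_ <;> simp

theorem antidiagonal_val {α : Type} [DecidableEq α] (s : Finset α) :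
    s.val.antidiagonal = s.powerset.val.map (fun t => (t.val, (s \ t).val)) := by
  rw [← Multiset.map_swap_antidiagonal, Multiset.antidiagonal_eq_map_powerset, Multiset.map_map]
  have h : s.powerset.val.map Finset.val = s.val.powerset := by
    show (Multiset.pmap Finset.mk _ _).map Finset.val = _
    rw [Multiset.map_pmap]
    simp [Multiset.pmap_eq_map]
  rw [← h, Multiset.map_map]
  refine Multiset.map_congr rfl fun t _ => ?_
  simp [Finset.sdiff_val]

/-- Sum over splittings of a multiset, of quadratic terms. -/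
def qsum (φ : Multiset ι → Multiset ι → ℝ) (s : Multiset ι) : ℝ :=
  (s.antidiagonal.map fun p => φ p.1 p.2).sum

omit [Fintype ι] in
theorem qsum_zero (φ : Multiset ι → Multiset ι → ℝ) : qsum φ 0 = φ 0 0 := by simp [qsum]

omit [Fintype ι] in
theorem qsum_cons (φ : Multiset ι → Multiset ι → ℝ) (l : ι) (s : Multiset ι) :
    qsum φ (l ::ₘ s) = qsum (fun a b => φ a (l ::ₘ b)) s + qsum (fun a b => φ (l ::ₘ a) b) s := by
  simp [qsum, Multiset.map_map]

omit [Fintype ι] in
theorem qsum_add (φ ψ : Multiset ι → Multiset ι → ℝ) (s : Multiset ι) :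
    qsum (fun a b => φ a b + ψ a b) s = qsum φ s + qsum ψ s := by
  simp [qsum, Multiset.sum_map_add]

omit [Fintype ι] in
theorem qsum_ms {α β : Type} [Fintype α] [Fintype β] [DecidableEq α] [DecidableEq β]
    (φ : Multiset ι → Multiset ι → ℝ) (I : α → ι) (J : β → ι) :
    qsum φ (ms I + ms J) = ∑ S : Finset α, ∑ S' : Finset β,
      φ (ms (fun i : {i // i ∈ S} => I i) + ms (fun i : {i // i ∈ S'} => J i))
        (ms (fun i : {i // i ∉ S} => I i) + ms (fun i : {i // i ∉ S'} => J i)) := by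
  have key : ∀ {α : Type} [Fintype α] [DecidableEq α] (I : α → ι), (ms I).antidiagonal =
      (univ : Finset (Finset α)).val.map (fun S =>
        (ms (fun i : {i // i ∈ S} => I i), ms (fun i : {i // i ∉ S} => I i))) := by
    intro α _ _ I
    rw [ms, antidiagonal_map, antidiagonal_val, Multiset.map_map, Finset.powerset_univ]
    refine Multiset.map_congr rfl fun S _ => ?_
    have h1 : ms (fun i : {i // i ∈ S} => I i) = S.val.map I := by
      rw [ms_subtype (fun i => i ∈ S)]; simp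
    have h2 : ms (fun i : {i // i ∉ S} => I i) = (univ \ S).val.map I := by
      rw [ms_subtype (fun i => i ∉ S)]
      congr 2
      ext; simp
    simp only [Function.comp_apply, h1, h2]
  unfold qsum
  rw [Multiset.antidiagonal_add, key I, key J]
  simp only [Multiset.map_bind, Multiset.bind_map, Multiset.map_map, Function.comp_def]
  rw [Multiset.sum_bind]
  rfl

/-- The full quadratic term `∑ D(m::A) D(m::B)` over all splittings. -/
def Nfull (D : Multiset ι → ℝ) (s : Multiset ι) : ℝ :=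
  qsum (fun a b => ∑ m, D (m ::ₘ a) * D (m ::ₘ b)) s

/-- The part of the quadratic term with both parts nonempty. -/
def Nq (D : Multiset ι → ℝ) (s : Multiset ι) : ℝ := by
  classical
  exact qsum (fun a b => if a = 0 ∨ b = 0 then 0 else ∑ m, D (m ::ₘ a) * D (m ::ₘ b)) s

theorem Nfull_eq (D : Multiset ι → ℝ) {s : Multiset ι} (hs : s ≠ 0) :
    Nfull D s = 2 * ∑ m, D {m} * D (m ::ₘ s) + Nq D s := by
  classical
  have key : ∀ (φ : Multiset ι → Multiset ι → ℝ) (s : Multiset ι), 
      qsum (fun a b => if a = 0 then φ a b else 0) s = φ 0 s := by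
    intro φ s
    induction s using Multiset.induction_on generalizing φ with
    | empty => simp [qsum_zero]
    | cons l s ih =>
      rw [qsum_cons, ih]
      have : qsum (fun a b => if l ::ₘ a = 0 then φ (l ::ₘ a) b else 0) s = 0 := by
        simp [qsum]
      rw [this, add_zero]
  have key' : ∀ (φ : Multiset ι → Multiset ι → ℝ) (s : Multiset ι), 
      qsum (fun a b => if b = 0 then φ a b else 0) s = φ s 0 := by
    intro φ s
    induction s using Multiset.induction_on generalizing φ with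
    | empty => simp [qsum_zero]
    | cons l s ih =>
      rw [qsum_cons, ih]
      have : qsum (fun a b => if l ::ₘ b = 0 then φ a (l ::ₘ b) else 0) s = 0 := by
        simp [qsum]
      rw [this, zero_add]
  have key0 : ∀ (φ : Multiset ι → Multiset ι → ℝ) (s : Multiset ι), s ≠ 0 →
      qsum (fun a b => if a = 0 ∧ b = 0 then φ a b else 0) s = 0 := by
    intro φ s hs
    unfold qsum
    refine Multiset.sum_eq_zero fun x hx => ?_
    obtain ⟨p, hp, rfl⟩ := Multiset.mem_map.1 hx
    rw [Multiset.mem_antidiagonal] at hp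
    beta_reduce
    rw [if_neg]
    rintro ⟨h1, h2⟩
    exact hs (by rw [← hp, h1, h2, add_zero])
  set φ : Multiset ι → Multiset ι → ℝ := fun a b => ∑ m, D (m ::ₘ a) * D (m ::ₘ b) with hφ
  have e : ∀ a b, φ a b = ((if a = 0 then φ a b else 0) + (if b = 0 then φ a b else 0)) +
      ((-1) * (if a = 0 ∧ b = 0 then φ a b else 0) + (if a = 0 ∨ b = 0 then 0 else φ a b)) := by
    intro a b
    by_cases ha : a = 0 <;> by_cases hb : b = 0 <;> simp [ha, hb]
  have e2 : Nfull D s = qsum φ s := rfl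
  rw [e2, show φ = fun a b => ((if a = 0 then φ a b else 0) + (if b = 0 then φ a b else 0)) +
      ((-1) * (if a = 0 ∧ b = 0 then φ a b else 0) + (if a = 0 ∨ b = 0 then 0 else φ a b)) from
      funext fun a => funext fun b => e a b]
  rw [qsum_add, qsum_add, qsum_add, key, key']
  have e3 : qsum (fun a b => (-1) * (if a = 0 ∧ b = 0 then φ a b else 0)) s = 0 := by
    have := key0 (fun a b => (-1) * φ a b) s hs
    refine Eq.trans ?_ this
    congr 1
    funext a b
    split_ifs <;> simp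
  rw [e3, zero_add]
  congr 1
  simp only [hφ, ← Finset.sum_add_distrib, Finset.mul_sum, Multiset.cons_zero]
  refine Finset.sum_congr rfl fun m _ => ?_
  ring

/-- `FB` for one letter with an extra index on the left. -/
theorem FB_left {α β : Type} [Fintype α] [Fintype β] [DecidableEq α] [DecidableEq β]
    {D : Multiset ι → ℝ} {K : ℝ}
    (h : FB (fun (I : Option α → ι) (J : β → ι) => D (ms I + ms J)) K) :
    FB (fun (p : (α → ι) × ι) (J : β → ι) => D (p.2 ::ₘ (ms p.1 + ms J))) K := by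
  let e : (α → ι) × ι ≃ (Option α → ι) :=
    (Equiv.prodComm _ _).trans (Equiv.piOptionEquivProd (β := fun _ => ι)).symm
  have h2 := h.reindex e (Equiv.refl _)
  refine fun a b => le_of_eq_of_le ?_ (h2 a b)
  congr 1
  refine sum_congr rfl fun p _ => sum_congr rfl fun q _ => ?_
  congr 1
  show D (p.2 ::ₘ (ms p.1 + ms q)) = D (ms (e p) + ms q)
  rw [ms_option, Multiset.cons_add]
  rfl

/-- `FB` for one letter with an extra index on the right. -/
theorem FB_right {α β : Type} [Fintype α] [Fintype β] [DecidableEq α] [DecidableEq β]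
    {D : Multiset ι → ℝ} {K : ℝ}
    (h : FB (fun (I : α → ι) (J : Option β → ι) => D (ms I + ms J)) K) :
    FB (fun (I : α → ι) (p : (β → ι) × ι) => D (p.2 ::ₘ (ms I + ms p.1))) K := by
  let e : (β → ι) × ι ≃ (Option β → ι) :=
    (Equiv.prodComm _ _).trans (Equiv.piOptionEquivProd (β := fun _ => ι)).symm
  have h2 := h.reindex (Equiv.refl _) e
  refine fun a b => le_of_eq_of_le ?_ (h2 a b)
  congr 1
  refine sum_congr rfl fun p _ => sum_congr rfl fun q _ => ?_
  congr 1
  show D (q.2 ::ₘ (ms p + ms q.1)) = D (ms p + ms (e q))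
  rw [ms_option, Multiset.add_cons]
  rfl

/-- Bound of the quadratic term by two-letter compositions. -/
theorem FB_Nq {D : Multiset ι → ℝ} {k : ℕ} {K : ℕ → ℝ} (hK0 : ∀ j, 0 ≤ K j) {K' : ℝ}
    (hK' : ∀ i j, 2 ≤ i → 2 ≤ j → i + j = k + 2 → K i * K j ≤ K')
    (hD : ∀ (α β : Type) [Fintype α] [Fintype β] [DecidableEq α] [DecidableEq β] [Nonempty α]
      [Nonempty β], Fintype.card α + Fintype.card β ≤ k →
      FB (fun (I : α → ι) (J : β → ι) => D (ms I + ms J)) (K (Fintype.card α + Fintype.card β)))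
    (α β : Type) [Fintype α] [Fintype β] [DecidableEq α] [DecidableEq β] [Nonempty α]
    [Nonempty β] (hk : Fintype.card α + Fintype.card β = k) (hK'0 : 0 ≤ K') :
    FB (fun (I : α → ι) (J : β → ι) => Nq D (ms I + ms J)) (2 ^ k * K') := by
  classical
  have h1 : ∀ (S : Finset α) (S' : Finset β), FB (fun (I : α → ι) (J : β → ι) =>
      if (ms (fun i : {i // i ∈ S} => I i) + ms (fun i : {i // i ∈ S'} => J i)) = 0 ∨
        (ms (fun i : {i // i ∉ S} => I i) + ms (fun i : {i // i ∉ S'} => J i)) = 0 then 0 else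
        ∑ m, D (m ::ₘ (ms (fun i : {i // i ∈ S} => I i) + ms (fun i : {i // i ∈ S'} => J i))) *
          D (m ::ₘ (ms (fun i : {i // i ∉ S} => I i) + ms (fun i : {i // i ∉ S'} => J i)))) K' := by
    intro S S'
    by_cases hz : (IsEmpty {i // i ∈ S} ∧ IsEmpty {i // i ∈ S'}) ∨
        (IsEmpty {i // i ∉ S} ∧ IsEmpty {i // i ∉ S'})
    · have : (fun (I : α → ι) (J : β → ι) =>
          if (ms (fun i : {i // i ∈ S} => I i) + ms (fun i : {i // i ∈ S'} => J i)) = 0 ∨
            (ms (fun i : {i // i ∉ S} => I i) + ms (fun i : {i // i ∉ S'} => J i)) = 0 then 0 else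
          ∑ m, D (m ::ₘ (ms (fun i : {i // i ∈ S} => I i) + ms (fun i : {i // i ∈ S'} => J i))) *
          D (m ::ₘ (ms (fun i : {i // i ∉ S} => I i) + ms (fun i : {i // i ∉ S'} => J i)))) =
          fun _ _ => 0 := by
        funext I J
        rw [if_pos]
        rcases hz with ⟨h, h'⟩ | ⟨h, h'⟩
        · left; rw [ms_eq_zero.2 h, ms_eq_zero.2 h', add_zero]
        · right; rw [ms_eq_zero.2 h, ms_eq_zero.2 h', add_zero]
      rw [this]
      intro a b
      simp only [zero_mul, sum_const_zero, abs_zero]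
      exact mul_nonneg hK'0 (mul_nonneg (nr_nonneg _) (nr_nonneg _))
    · have hne : (fun (I : α → ι) (J : β → ι) =>
          if (ms (fun i : {i // i ∈ S} => I i) + ms (fun i : {i // i ∈ S'} => J i)) = 0 ∨
            (ms (fun i : {i // i ∉ S} => I i) + ms (fun i : {i // i ∉ S'} => J i)) = 0 then 0 else
          ∑ m, D (m ::ₘ (ms (fun i : {i // i ∈ S} => I i) + ms (fun i : {i // i ∈ S'} => J i))) *
          D (m ::ₘ (ms (fun i : {i // i ∉ S} => I i) + ms (fun i : {i // i ∉ S'} => J i)))) =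
          fun (I : α → ι) (J : β → ι) =>
          ∑ m, D (m ::ₘ (ms (fun i : {i // i ∈ S} => I i) + ms (fun i : {i // i ∈ S'} => J i))) *
          D (m ::ₘ (ms (fun i : {i // i ∉ S} => I i) + ms (fun i : {i // i ∉ S'} => J i))) := by
        funext I J
        rw [if_neg]
        simp only [add_eq_zero, ms_eq_zero]
        exact hz
      rw [hne]
      -- cards
      have c1 : Fintype.card {i // i ∈ S} + Fintype.card {i // i ∉ S} = Fintype.card α := by
        rw [← Fintype.card_sum]; exact Fintype.card_congr (Equiv.sumCompl fun i => i ∈ S)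
      have c2 : Fintype.card {i // i ∈ S'} + Fintype.card {i // i ∉ S'} = Fintype.card β := by
        rw [← Fintype.card_sum]; exact Fintype.card_congr (Equiv.sumCompl fun i => i ∈ S')
      have p1 : 0 < Fintype.card α := Fintype.card_pos
      have p2 : 0 < Fintype.card β := Fintype.card_pos
      have q1 : 0 < Fintype.card {i // i ∈ S} + Fintype.card {i // i ∈ S'} := by
        rcases Nat.eq_zero_or_pos (Fintype.card {i // i ∈ S} + Fintype.card {i // i ∈ S'}) with h | h
        · exfalso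
          rw [Nat.add_eq_zero_iff, Fintype.card_eq_zero_iff, Fintype.card_eq_zero_iff] at h
          exact hz (Or.inl h)
        · exact h
      have q2 : 0 < Fintype.card {i // i ∉ S} + Fintype.card {i // i ∉ S'} := by
        rcases Nat.eq_zero_or_pos (Fintype.card {i // i ∉ S} + Fintype.card {i // i ∉ S'}) with h | h
        · exfalso
          rw [Nat.add_eq_zero_iff, Fintype.card_eq_zero_iff, Fintype.card_eq_zero_iff] at h
          exact hz (Or.inr h)
        · exact h
      -- reindexing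
      have reidx : ∀ {C : ℝ}, FB (fun (p : ({i // i ∈ S} → ι) × ({i // i ∉ S} → ι))
          (q : ({i // i ∈ S'} → ι) × ({i // i ∉ S'} → ι)) =>
          ∑ m, D (m ::ₘ (ms p.1 + ms q.1)) * D (m ::ₘ (ms p.2 + ms q.2))) C →
          FB (fun (I : α → ι) (J : β → ι) =>
          ∑ m, D (m ::ₘ (ms (fun i : {i // i ∈ S} => I i) + ms (fun i : {i // i ∈ S'} => J i))) *
          D (m ::ₘ (ms (fun i : {i // i ∉ S} => I i) + ms (fun i : {i // i ∉ S'} => J i)))) C :=
        fun h => h.reindex (Equiv.piEquivPiSubtypeProd (fun i => i ∈ S) fun _ => ι)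
          (Equiv.piEquivPiSubtypeProd (fun i => i ∈ S') fun _ => ι)
      refine reidx ?_
      by_cases hA : Nonempty {i // i ∈ S'} ∧ Nonempty {i // i ∉ S}
      · obtain ⟨n1, n2⟩ := hA
        have m1 : 0 < Fintype.card {i // i ∈ S'} := Fintype.card_pos
        have m2 : 0 < Fintype.card {i // i ∉ S} := Fintype.card_pos
        have hX := FB_left (hD (Option {i // i ∈ S}) {i // i ∈ S'} (by
          rw [Fintype.card_option]; omega))
        have hY := FB_right (hD {i // i ∉ S} (Option {i // i ∉ S'}) (by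
          rw [Fintype.card_option]; omega))
        have := FB.split (X := fun I J m => D (m ::ₘ (ms I + ms J)))
          (Y := fun I J m => D (m ::ₘ (ms I + ms J))) (hK0 _) (hK0 _) hX hY
        refine this.mono (hK' _ _ ?_ ?_ ?_)
        · rw [Fintype.card_option]; omega
        · rw [Fintype.card_option]; omega
        · rw [Fintype.card_option, Fintype.card_option]; omega
      · have hB : Nonempty {i // i ∈ S} ∧ Nonempty {i // i ∉ S'} := by
          rw [not_and_or, not_nonempty_iff, not_nonempty_iff, ← Fintype.card_eq_zero_iff,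
            ← Fintype.card_eq_zero_iff] at hA
          rw [← Fintype.card_pos_iff, ← Fintype.card_pos_iff]
          rcases hA with hA | hA
          · constructor <;> omega
          · constructor <;> omega
        obtain ⟨n1, n2⟩ := hB
        have m1 : 0 < Fintype.card {i // i ∈ S} := Fintype.card_pos
        have m2 : 0 < Fintype.card {i // i ∉ S'} := Fintype.card_pos
        have hX := FB_right (hD {i // i ∈ S} (Option {i // i ∈ S'}) (by
          rw [Fintype.card_option]; omega))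
        have hY := FB_left (hD (Option {i // i ∉ S}) {i // i ∉ S'} (by
          rw [Fintype.card_option]; omega))
        have := FB.split' (X := fun I J m => D (m ::ₘ (ms I + ms J)))
          (Y := fun I J m => D (m ::ₘ (ms I + ms J))) (hK0 _) (hK0 _) hX hY
        refine this.mono (hK' _ _ ?_ ?_ ?_)
        · rw [Fintype.card_option]; omega
        · rw [Fintype.card_option]; omega
        · rw [Fintype.card_option, Fintype.card_option]; omega
  have h2 : (fun (I : α → ι) (J : β → ι) => Nq D (ms I + ms J)) = fun I J =>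
      ∑ S : Finset α, ∑ S' : Finset β,
      (if (ms (fun i : {i // i ∈ S} => I i) + ms (fun i : {i // i ∈ S'} => J i)) = 0 ∨
        (ms (fun i : {i // i ∉ S} => I i) + ms (fun i : {i // i ∉ S'} => J i)) = 0 then 0 else
        ∑ m, D (m ::ₘ (ms (fun i : {i // i ∈ S} => I i) + ms (fun i : {i // i ∈ S'} => J i))) *
          D (m ::ₘ (ms (fun i : {i // i ∉ S} => I i) + ms (fun i : {i // i ∉ S'} => J i)))) := by
    funext I J
    unfold Nq
    rw [qsum_ms]
  rw [h2]
  have h3 := FB.sum (univ : Finset (Finset α)) (fun S _ =>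
    FB.sum (univ : Finset (Finset β)) (fun S' _ => h1 S S'))
  refine h3.mono (le_of_eq ?_)
  simp only [sum_const, card_univ, Fintype.card_finset, nsmul_eq_mul, ← hk, pow_add]
  push_cast
  ring

end slots

end Crest.Agent.R285.AF
end
end

-- ▼ part R285/PDM

/-!
Row 285 (S0430): iterated coordinate derivatives indexed by multisets, joint smoothness in
`(t, x)`, commutation with `∂_t`, and the differentiated Hamilton-Jacobi hierarchy (helper635).
-/

set_option autoImplicit false

open Finset Set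
open Crest.OracleSampling (E)
open scoped ContDiff

noncomputable section

namespace Crest.Agent.R285.AF

variable {d : ℕ}

/-- coordinate vector -/
def ev (l : Fin d) : E d := EuclideanSpace.single l (1 : ℝ)

/-- partial derivative -/
def pd (l : Fin d) (F : E d → ℝ) (x : E d) : ℝ := fderiv ℝ F x (ev l)

/-- iterated partial derivatives along a list -/
def pdl (L : List (Fin d)) (F : E d → ℝ) : E d → ℝ := L.foldr pd F

/-- iterated partial derivatives along a multiset -/
def pdm (m : Multiset (Fin d)) (F : E d → ℝ) : E d → ℝ := pdl m.toList F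

@[simp] theorem pdl_nil (F : E d → ℝ) : pdl [] F = F := rfl

@[simp] theorem pdl_cons (l : Fin d) (L : List (Fin d)) (F : E d → ℝ) :
    pdl (l :: L) F = pd l (pdl L F) := rfl

@[simp] theorem pdm_zero (F : E d → ℝ) : pdm 0 F = F := by simp [pdm]

theorem contDiff_pd {F : E d → ℝ} (hF : ContDiff ℝ ∞ F) (l : Fin d) : ContDiff ℝ ∞ (pd l F) :=
  (hF.fderiv_right (m := ∞) (by simp)).clm_apply contDiff_const

theorem contDiff_pdl {F : E d → ℝ} (hF : ContDiff ℝ ∞ F) (L : List (Fin d)) :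
    ContDiff ℝ ∞ (pdl L F) := by
  induction L with
  | nil => exact hF
  | cons l L ih => exact contDiff_pd ih l

theorem contDiff_pdm {F : E d → ℝ} (hF : ContDiff ℝ ∞ F) (m : Multiset (Fin d)) :
    ContDiff ℝ ∞ (pdm m F) := contDiff_pdl hF _

theorem pd_pd {F : E d → ℝ} (hF : ContDiff ℝ ∞ F) (l k : Fin d) (x : E d) :
    pd l (pd k F) x = fderiv ℝ (fderiv ℝ F) x (ev l) (ev k) := by
  have h1 : DifferentiableAt ℝ (fderiv ℝ F) x :=
    ((hF.fderiv_right (m := 1) (by norm_cast)).differentiable one_ne_zero) x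
  have h2 : HasFDerivAt (pd k F) _ x := h1.hasFDerivAt.clm_apply (hasFDerivAt_const (ev k) x)
  unfold pd at h2 ⊢
  rw [h2.fderiv]
  simp

theorem pd_comm {F : E d → ℝ} (hF : ContDiff ℝ ∞ F) (l k : Fin d) :
    pd l (pd k F) = pd k (pd l F) := by
  funext x
  rw [pd_pd hF, pd_pd hF]
  have h2 : ContDiff ℝ 2 F := hF.of_le (by norm_cast)
  exact (h2.contDiffAt (x := x)).isSymmSndFDerivAt (by simp) (ev l) (ev k)

theorem pdl_perm {F : E d → ℝ} (hF : ContDiff ℝ ∞ F) {L L' : List (Fin d)} (h : L.Perm L') :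
    pdl L F = pdl L' F := by
  induction h with
  | nil => rfl
  | cons l _ ih => rw [pdl_cons, pdl_cons, ih]
  | swap l k L =>
    rw [pdl_cons, pdl_cons, pdl_cons, pdl_cons]
    exact pd_comm (contDiff_pdl hF L) _ _
  | trans _ _ ih1 ih2 => rw [ih1, ih2]

theorem pdm_coe {F : E d → ℝ} (hF : ContDiff ℝ ∞ F) (L : List (Fin d)) :
    pdm (L : Multiset (Fin d)) F = pdl L F := by
  unfold pdm
  refine pdl_perm hF ?_
  exact Multiset.coe_eq_coe.1 (Multiset.coe_toList _)

theorem pdm_cons {F : E d → ℝ} (hF : ContDiff ℝ ∞ F) (l : Fin d) (m : Multiset (Fin d)) :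
    pdm (l ::ₘ m) F = pd l (pdm m F) := by
  induction m using Quotient.inductionOn with
  | h L =>
    have : (l ::ₘ (⟦L⟧ : Multiset (Fin d))) = ((l :: L : List (Fin d)) : Multiset (Fin d)) := rfl
    rw [this, pdm_coe hF]
    change _ = pd l (pdm (L : Multiset (Fin d)) F)
    rw [pdm_coe hF, pdl_cons]

theorem pdm_single {F : E d → ℝ} (hF : ContDiff ℝ ∞ F) (l : Fin d) : pdm {l} F = pd l F := by
  have := pdm_cons hF l 0
  simpa using this

/-! ### joint smoothness -/

section joint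

variable {J : Set ℝ} {u : ℝ → E d → ℝ}

theorem joint_open (hJ : IsOpen J) : IsOpen (J ×ˢ (univ : Set (E d))) := hJ.prod isOpen_univ

theorem joint_slice (hu : ContDiffOn ℝ ∞ (fun p : ℝ × E d => u p.1 p.2) (J ×ˢ univ)) {t : ℝ}
    (ht : t ∈ J) : ContDiff ℝ ∞ (u t) := by
  have h1 : ContDiff ℝ ∞ (fun x : E d => ((t, x) : ℝ × E d)) := contDiff_prodMk_right t
  have h2 := hu.comp_contDiff h1 fun x => ⟨ht, mem_univ _⟩
  exact h2

theorem joint_diffAt (hJ : IsOpen J) (hu : ContDiffOn ℝ ∞ (fun p : ℝ × E d => u p.1 p.2) (J ×ˢ univ))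
    {t : ℝ} (ht : t ∈ J) (x : E d) : DifferentiableAt ℝ (fun p : ℝ × E d => u p.1 p.2) (t, x) :=
  (hu.contDiffAt ((joint_open hJ).mem_nhds ⟨ht, mem_univ _⟩)).differentiableAt (by simp)

theorem fderiv_slice (hJ : IsOpen J)
    (hu : ContDiffOn ℝ ∞ (fun p : ℝ × E d => u p.1 p.2) (J ×ˢ univ)) {t : ℝ} (ht : t ∈ J)
    (x v : E d) : fderiv ℝ (u t) x v = fderiv ℝ (fun p : ℝ × E d => u p.1 p.2) (t, x) (0, v) := by
  have h1 := (joint_diffAt hJ hu ht x).hasFDerivAt
  have h2 : HasFDerivAt (fun x : E d => ((t, x) : ℝ × E d)) (ContinuousLinearMap.inr ℝ ℝ (E d)) x :=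
    hasFDerivAt_prodMk_right t x
  have h3 : HasFDerivAt (u t) _ x := h1.comp x h2
  rw [h3.fderiv]
  simp

theorem hasDerivAt_slice (hJ : IsOpen J)
    (hu : ContDiffOn ℝ ∞ (fun p : ℝ × E d => u p.1 p.2) (J ×ˢ univ)) {t : ℝ} (ht : t ∈ J)
    (x : E d) : HasDerivAt (fun s => u s x)
      (fderiv ℝ (fun p : ℝ × E d => u p.1 p.2) (t, x) (1, 0)) t := by
  have h1 := (joint_diffAt hJ hu ht x).hasFDerivAt
  have h2 : HasDerivAt (fun s : ℝ => ((s, x) : ℝ × E d)) (1, 0) t :=
    (hasDerivAt_id t).prodMk (hasDerivAt_const t x)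
  exact h1.comp_hasDerivAt t h2

theorem joint_pd (hJ : IsOpen J) (hu : ContDiffOn ℝ ∞ (fun p : ℝ × E d => u p.1 p.2) (J ×ˢ univ))
    (l : Fin d) : ContDiffOn ℝ ∞ (fun p : ℝ × E d => pd l (u p.1) p.2) (J ×ˢ univ) := by
  have h1 : ContDiffOn ℝ ∞ (fderiv ℝ (fun p : ℝ × E d => u p.1 p.2)) (J ×ˢ univ) :=
    hu.fderiv_of_isOpen (joint_open hJ) (by simp)
  have h2 : ContDiffOn ℝ ∞ (fun q : ℝ × E d =>
      fderiv ℝ (fun p : ℝ × E d => u p.1 p.2) q ((0, ev l) : ℝ × E d)) (J ×ˢ univ) :=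
    h1.clm_apply contDiffOn_const
  refine h2.congr ?_
  rintro ⟨t, x⟩ ⟨ht, -⟩
  exact fderiv_slice hJ hu ht x _

theorem joint_pdl (hJ : IsOpen J) (hu : ContDiffOn ℝ ∞ (fun p : ℝ × E d => u p.1 p.2) (J ×ˢ univ))
    (L : List (Fin d)) : ContDiffOn ℝ ∞ (fun p : ℝ × E d => pdl L (u p.1) p.2) (J ×ˢ univ) := by
  induction L with
  | nil => exact hu
  | cons l L ih => exact joint_pd (u := fun t => pdl L (u t)) hJ ih l

theorem joint_pdm (hJ : IsOpen J) (hu : ContDiffOn ℝ ∞ (fun p : ℝ × E d => u p.1 p.2) (J ×ˢ univ))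
    (m : Multiset (Fin d)) : ContDiffOn ℝ ∞ (fun p : ℝ × E d => pdm m (u p.1) p.2) (J ×ˢ univ) :=
  joint_pdl hJ hu _

/-- time derivative -/
def dtf (u : ℝ → E d → ℝ) (t : ℝ) (x : E d) : ℝ := deriv (fun s => u s x) t

theorem dtf_eq (hJ : IsOpen J) (hu : ContDiffOn ℝ ∞ (fun p : ℝ × E d => u p.1 p.2) (J ×ˢ univ))
    {t : ℝ} (ht : t ∈ J) (x : E d) :
    dtf u t x = fderiv ℝ (fun p : ℝ × E d => u p.1 p.2) (t, x) (1, 0) :=
  (hasDerivAt_slice hJ hu ht x).deriv

theorem hasDerivAt_dtf (hJ : IsOpen J)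
    (hu : ContDiffOn ℝ ∞ (fun p : ℝ × E d => u p.1 p.2) (J ×ˢ univ)) {t : ℝ} (ht : t ∈ J)
    (x : E d) : HasDerivAt (fun s => u s x) (dtf u t x) t := by
  rw [dtf_eq hJ hu ht]
  exact hasDerivAt_slice hJ hu ht x

theorem joint_dtf (hJ : IsOpen J) (hu : ContDiffOn ℝ ∞ (fun p : ℝ × E d => u p.1 p.2) (J ×ˢ univ)) :
    ContDiffOn ℝ ∞ (fun p : ℝ × E d => dtf u p.1 p.2) (J ×ˢ univ) := by
  have h1 : ContDiffOn ℝ ∞ (fderiv ℝ (fun p : ℝ × E d => u p.1 p.2)) (J ×ˢ univ) :=
    hu.fderiv_of_isOpen (joint_open hJ) (by simp)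
  have h2 : ContDiffOn ℝ ∞ (fun q : ℝ × E d =>
      fderiv ℝ (fun p : ℝ × E d => u p.1 p.2) q ((1, 0) : ℝ × E d)) (J ×ˢ univ) :=
    h1.clm_apply contDiffOn_const
  refine h2.congr ?_
  rintro ⟨t, x⟩ ⟨ht, -⟩
  exact dtf_eq hJ hu ht x

theorem dtf_pd (hJ : IsOpen J) (hu : ContDiffOn ℝ ∞ (fun p : ℝ × E d => u p.1 p.2) (J ×ˢ univ))
    {t : ℝ} (ht : t ∈ J) (x : E d) (l : Fin d) :
    dtf (fun s => pd l (u s)) t x = pd l (dtf u t) x := by
  have hO := joint_open (d := d) hJ
  have hp : ((t, x) : ℝ × E d) ∈ J ×ˢ (univ : Set (E d)) := ⟨ht, mem_univ _⟩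
  set F : ℝ × E d → ℝ := fun p => u p.1 p.2 with hF
  have hd : DifferentiableAt ℝ (fderiv ℝ F) (t, x) :=
    ((hu.fderiv_of_isOpen hO (m := 1) (by norm_cast)).contDiffAt
      (hO.mem_nhds hp)).differentiableAt one_ne_zero
  rw [dtf_eq hJ (joint_pd hJ hu l) ht x]
  have e1 : (fun p : ℝ × E d => pd l (u p.1) p.2) =ᶠ[nhds (t, x)]
      fun q => fderiv ℝ F q ((0, ev l) : ℝ × E d) := by
    filter_upwards [hO.mem_nhds hp] with q hq
    exact fderiv_slice hJ hu hq.1 q.2 _
  have e2 : HasFDerivAt (fun q => fderiv ℝ F q ((0, ev l) : ℝ × E d)) _ (t, x) :=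
    hd.hasFDerivAt.clm_apply (hasFDerivAt_const ((0, ev l) : ℝ × E d) (t, x))
  rw [e1.fderiv_eq, e2.fderiv]
  unfold pd
  rw [fderiv_slice hJ (joint_dtf hJ hu) ht x]
  have e3 : (fun p : ℝ × E d => dtf u p.1 p.2) =ᶠ[nhds (t, x)]
      fun q => fderiv ℝ F q ((1, 0) : ℝ × E d) := by
    filter_upwards [hO.mem_nhds hp] with q hq
    exact dtf_eq hJ hu hq.1 q.2
  have e4 : HasFDerivAt (fun q => fderiv ℝ F q ((1, 0) : ℝ × E d)) _ (t, x) :=
    hd.hasFDerivAt.clm_apply (hasFDerivAt_const ((1, 0) : ℝ × E d) (t, x))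
  rw [e3.fderiv_eq, e4.fderiv]
  have h2 : ContDiffAt ℝ 2 F (t, x) :=
    (hu.contDiffAt (hO.mem_nhds hp)).of_le (by norm_cast)
  have := h2.isSymmSndFDerivAt (by simp) ((1, 0) : ℝ × E d) ((0, ev l) : ℝ × E d)
  simpa using this

theorem dtf_pdl (hJ : IsOpen J) (hu : ContDiffOn ℝ ∞ (fun p : ℝ × E d => u p.1 p.2) (J ×ˢ univ))
    {t : ℝ} (ht : t ∈ J) (L : List (Fin d)) :
    dtf (fun s => pdl L (u s)) t = pdl L (dtf u t) := by
  induction L with
  | nil => rfl
  | cons l L ih =>
    funext x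
    rw [pdl_cons, ← ih]
    exact dtf_pd (u := fun s => pdl L (u s)) hJ (joint_pdl hJ hu L) ht x l

theorem dtf_pdm (hJ : IsOpen J) (hu : ContDiffOn ℝ ∞ (fun p : ℝ × E d => u p.1 p.2) (J ×ˢ univ))
    {t : ℝ} (ht : t ∈ J) (m : Multiset (Fin d)) :
    dtf (fun s => pdm m (u s)) t = pdm m (dtf u t) := dtf_pdl hJ hu ht _

end joint

/-! ### the Hamilton-Jacobi hierarchy -/

section HJ

theorem pd_multiset_sum {κ : Type} (S : Multiset κ) (φ : κ → E d → ℝ) (k : Fin d) (x : E d)
    (hφ : ∀ p ∈ S, DifferentiableAt ℝ (φ p) x) :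
    DifferentiableAt ℝ (fun x => (S.map fun p => φ p x).sum) x ∧
      pd k (fun x => (S.map fun p => φ p x).sum) x = (S.map fun p => pd k (φ p) x).sum := by
  induction S using Multiset.induction_on with
  | empty => simp [pd]
  | cons p S ih =>
    obtain ⟨h1, h2⟩ := ih fun q hq => hφ q (Multiset.mem_cons_of_mem hq)
    have h0 := hφ p (Multiset.mem_cons_self p S)
    simp only [Multiset.map_cons, Multiset.sum_cons]
    refine ⟨h0.add h1, ?_⟩
    unfold pd at h2 ⊢
    rw [fderiv_fun_add h0 h1, add_apply, h2]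

theorem pd_sum {κ : Type} (S : Finset κ) (φ : κ → E d → ℝ) (k : Fin d) (x : E d)
    (hφ : ∀ p ∈ S, DifferentiableAt ℝ (φ p) x) :
    pd k (fun x => ∑ p ∈ S, φ p x) x = ∑ p ∈ S, pd k (φ p) x :=
  (pd_multiset_sum S.val φ k x hφ).2

theorem pd_mul {f g : E d → ℝ} (k : Fin d) (x : E d) (hf : DifferentiableAt ℝ f x)
    (hg : DifferentiableAt ℝ g x) :
    pd k (fun x => f x * g x) x = pd k f x * g x + f x * pd k g x := by
  unfold pd
  rw [fderiv_fun_mul hf hg]
  simp only [add_apply, smul_apply, smul_eq_mul]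
  ring

variable {F : E d → ℝ}

theorem diff_pdm (hF : ContDiff ℝ ∞ F) (m : Multiset (Fin d)) (x : E d) :
    DifferentiableAt ℝ (pdm m F) x := (contDiff_pdm hF m).differentiable (by simp) x

theorem diff_qterm (hF : ContDiff ℝ ∞ F) (a b : Multiset (Fin d)) (x : E d) :
    DifferentiableAt ℝ (fun x => ∑ l, pdm (l ::ₘ a) F x * pdm (l ::ₘ b) F x) x := by
  refine DifferentiableAt.fun_sum fun l _ => ?_
  exact (diff_pdm hF _ x).mul (diff_pdm hF _ x)

theorem pd_Nfull (hF : ContDiff ℝ ∞ F) (m : Multiset (Fin d)) (k : Fin d) (x : E d) :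
    DifferentiableAt ℝ (fun x => Nfull (fun m => pdm m F x) m) x ∧
    pd k (fun x => Nfull (fun m => pdm m F x) m) x = Nfull (fun m => pdm m F x) (k ::ₘ m) := by
  have h1 := pd_multiset_sum m.antidiagonal
    (fun (p : Multiset (Fin d) × Multiset (Fin d)) (x : E d) =>
      ∑ l, pdm (l ::ₘ p.1) F x * pdm (l ::ₘ p.2) F x) k x
    (fun p _ => diff_qterm hF p.1 p.2 x)
  refine ⟨h1.1, ?_⟩
  have h2 : pd k (fun x => Nfull (fun m => pdm m F x) m) x =
      (m.antidiagonal.map fun p => pd k (fun x =>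
        ∑ l, pdm (l ::ₘ p.1) F x * pdm (l ::ₘ p.2) F x) x).sum := h1.2
  rw [h2]
  unfold Nfull
  rw [qsum_cons, ← qsum_add]
  unfold qsum
  congr 1
  refine Multiset.map_congr rfl fun p _ => ?_
  beta_reduce
  rw [pd_sum univ (fun l x => pdm (l ::ₘ p.1) F x * pdm (l ::ₘ p.2) F x) k x
    (fun l _ => (diff_pdm hF _ x).mul (diff_pdm hF _ x)), ← sum_add_distrib]
  refine sum_congr rfl fun l _ => ?_
  rw [pd_mul k x (diff_pdm hF _ x) (diff_pdm hF _ x), Multiset.cons_swap l k p.1,
    Multiset.cons_swap l k p.2, pdm_cons hF k, pdm_cons hF k]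
  ring

theorem contDiff_Nfull (hF : ContDiff ℝ ∞ F) (m : Multiset (Fin d)) :
    ContDiff ℝ ∞ (fun x => Nfull (fun m => pdm m F x) m) := by
  have key : ∀ S : Multiset (Multiset (Fin d) × Multiset (Fin d)), ContDiff ℝ ∞ (fun x : E d =>
      (S.map fun p => ∑ l, pdm (l ::ₘ p.1) F x * pdm (l ::ₘ p.2) F x).sum) := by
    intro S
    induction S using Multiset.induction_on with
    | empty => simpa using contDiff_const
    | cons p S ih =>
      simp only [Multiset.map_cons, Multiset.sum_cons]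
      refine ContDiff.add ?_ ih
      exact ContDiff.sum fun l _ => (contDiff_pdm hF _).mul (contDiff_pdm hF _)
  exact key _

/-- The right-hand side of the Hamilton-Jacobi equation, differentiated. -/
def HJr (F : E d → ℝ) (m : Multiset (Fin d)) (x : E d) : ℝ :=
  2⁻¹ * ∑ l, pdm (l ::ₘ l ::ₘ m) F x - 2⁻¹ * Nfull (fun m => pdm m F x) m

theorem contDiff_HJr (hF : ContDiff ℝ ∞ F) (m : Multiset (Fin d)) : ContDiff ℝ ∞ (HJr F m) :=
  (contDiff_const.mul (ContDiff.sum fun _ _ => contDiff_pdm hF _)).sub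
    (contDiff_const.mul (contDiff_Nfull hF m))

theorem pd_HJr (hF : ContDiff ℝ ∞ F) (m : Multiset (Fin d)) (k : Fin d) :
    pd k (HJr F m) = HJr F (k ::ₘ m) := by
  funext x
  have h1 := pd_Nfull hF m k x
  have h2 : DifferentiableAt ℝ (fun x => ∑ l, pdm (l ::ₘ l ::ₘ m) F x) x :=
    DifferentiableAt.fun_sum fun l _ => diff_pdm hF _ x
  have h3 : pd k (fun x => ∑ l, pdm (l ::ₘ l ::ₘ m) F x) x =
      ∑ l, pdm (l ::ₘ l ::ₘ k ::ₘ m) F x := by
    rw [pd_sum _ _ k x (fun l _ => diff_pdm hF _ x)]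
    refine sum_congr rfl fun l _ => ?_
    rw [← pdm_cons hF, Multiset.cons_swap k l, Multiset.cons_swap k l]
  have h4 : pd k (HJr F m) x = 2⁻¹ * pd k (fun x => ∑ l, pdm (l ::ₘ l ::ₘ m) F x) x -
      2⁻¹ * pd k (fun x => Nfull (fun m => pdm m F x) m) x := by
    unfold pd HJr
    rw [fderiv_fun_sub (h2.const_mul _) (h1.1.const_mul _), fderiv_const_mul h2,
      fderiv_const_mul h1.1]
    simp
  rw [h4, h3, h1.2]
  rfl

theorem pdm_HJr (hF : ContDiff ℝ ∞ F) (m : Multiset (Fin d)) :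
    pdm m (HJr F 0) = HJr F m := by
  induction m using Multiset.induction_on with
  | empty => simp
  | cons k m ih => rw [pdm_cons (contDiff_HJr hF 0), ih, pd_HJr hF]

variable {J : Set ℝ} {u : ℝ → E d → ℝ}

/-- **Differentiated Hamilton-Jacobi equation**, time variable `t` (`∂ₜu = Δu/2 - |∇u|²/2`). -/
theorem hasDerivAt_pdm (hJ : IsOpen J)
    (hu : ContDiffOn ℝ ∞ (fun p : ℝ × E d => u p.1 p.2) (J ×ˢ univ))
    (hHJ : ∀ t ∈ J, ∀ x, dtf u t x = HJr (u t) 0 x) {t : ℝ} (ht : t ∈ J)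
    (m : Multiset (Fin d)) (x : E d) :
    HasDerivAt (fun s => pdm m (u s) x) (HJr (u t) m x) t := by
  have h1 := hasDerivAt_dtf (u := fun s => pdm m (u s)) hJ (joint_pdm hJ hu m) ht x
  rw [dtf_pdm hJ hu ht m] at h1
  have h2 : dtf u t = HJr (u t) 0 := funext fun y => hHJ t ht y
  rw [h2, pdm_HJr (joint_slice hu ht)] at h1
  exact h1


end HJ

end Crest.Agent.R285.AF
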