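import Mathlib
import Crest.Agent.Lib.PrekopaLeindler

/-!
# Row 285: Gibbs measures of strongly convex potentials, integrability
-/

set_option autoImplicit false

open MeasureTheory Set Filter Topology
open scoped ENNReal

namespace Crest.Agent.R285.Poin

variable {E : Type*} [NormedAddCommGroup E] [InnerProductSpace ℝ E] [FiniteDimensional ℝ E]
  [MeasurableSpace E] [BorelSpace E]

/-- The normalised Gibbs measure `exp (-H) dx / Z`. -/
noncomputable def gibbs (H : E → ℝ) : Measure E :=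
  ((volume : Measure E).withDensity (fun x => ENNReal.ofReal (Real.exp (-H x))) Set.univ)⁻¹ •
    (volume : Measure E).withDensity fun x => ENNReal.ofReal (Real.exp (-H x))

/-- Lower bound of a continuous strongly convex function. -/
lemma StrongConvexOn.lower {H : E → ℝ} {κ : ℝ} (hH : StrongConvexOn univ κ H)
    (hc : Continuous H) :
    ∃ C : ℝ, 0 ≤ C ∧ ∀ x, κ / 2 * ‖x‖ ^ 2 - C * (1 + ‖x‖) ≤ H x := by
  rw [strongConvexOn_iff_convex] at hH
  set G : E → ℝ := fun x => H x - κ / 2 * ‖x‖ ^ 2 with hG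
  have hGc : Continuous G := by fun_prop
  obtain ⟨M, hM⟩ := (isCompact_closedBall (0 : E) 1).exists_bound_of_continuousOn
    hGc.continuousOn
  have hM0 : |G 0| ≤ M := by
    have := hM 0 (by simp)
    simpa using this
  have hMnn : 0 ≤ M := (abs_nonneg _).trans hM0
  refine ⟨2 * M, by positivity, fun x => ?_⟩
  suffices h : -(2 * M) * (1 + ‖x‖) ≤ G x by
    simp only [hG] at h; linarith
  rcases le_or_gt ‖x‖ 1 with hx | hx
  · have := hM x (by simpa using hx)
    rw [Real.norm_eq_abs] at this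
    have h2 := neg_abs_le (G x)
    nlinarith [norm_nonneg x]
  · have hx0 : 0 < ‖x‖ := by linarith
    set u : E := ‖x‖⁻¹ • x with hu
    have hun : ‖u‖ = 1 := by
      rw [hu, norm_smul, norm_inv, norm_norm, inv_mul_cancel₀ hx0.ne']
    have hGu := hM u (by simp [hun])
    have hconv := hH.2 (mem_univ x) (mem_univ (0 : E)) (show 0 ≤ ‖x‖⁻¹ by positivity)
      (show 0 ≤ 1 - ‖x‖⁻¹ by rw [sub_nonneg]; exact inv_le_one_of_one_le₀ hx.le) (by ring)
    simp only [smul_zero, add_zero, smul_eq_mul] at hconv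
    have e1 : (fun x => H x - κ / 2 * ‖x‖ ^ 2) (‖x‖⁻¹ • x) = G u := rfl
    have e2 : H 0 - κ / 2 * ‖(0 : E)‖ ^ 2 = G 0 := rfl
    have e3 : H x - κ / 2 * ‖x‖ ^ 2 = G x := rfl
    have hconv' : G u ≤ ‖x‖⁻¹ * G x + (1 - ‖x‖⁻¹) * G 0 := hconv
    have h4 : ‖x‖ * G u ≤ G x + (‖x‖ - 1) * G 0 := by
      have := mul_le_mul_of_nonneg_left hconv' hx0.le
      have e : ‖x‖ * (‖x‖⁻¹ * G x + (1 - ‖x‖⁻¹) * G 0) = G x + (‖x‖ - 1) * G 0 := by
        field_simp
      linarith
    rw [Real.norm_eq_abs] at hGu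
    have h5 := neg_abs_le (G u)
    have h6 := le_abs_self (G 0)
    nlinarith

omit [NormedAddCommGroup E] [InnerProductSpace ℝ E] [FiniteDimensional ℝ E]
  [MeasurableSpace E] [BorelSpace E] in
lemma exp_bound_aux {κ C a : ℝ} (hκ : 0 < κ) (n : ℕ) :
    ∃ M : ℝ, 0 ≤ M ∧ ∀ r : ℝ, 0 ≤ r →
      (1 + r) ^ n * Real.exp (a * r) * Real.exp (-(κ / 2 * r ^ 2 - C * (1 + r)))
        ≤ M * Real.exp (-(κ / 4) * r ^ 2) := by
  -- (1+r)^n ≤ n! e^{1+r}
  refine ⟨n.factorial * Real.exp (1 + |C| + (1 + |a| + |C|) ^ 2 / κ), by positivity, fun r hr => ?_⟩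
  have h1 : (1 + r) ^ n ≤ n.factorial * Real.exp (1 + r) := by
    have := Real.pow_div_factorial_le_exp (1 + r) (by positivity) n
    rwa [div_le_iff₀ (by positivity), mul_comm] at this
  have h2 : Real.exp (a * r) * Real.exp (-(κ / 2 * r ^ 2 - C * (1 + r))) * Real.exp (1 + r)
      ≤ Real.exp (1 + |C| + (1 + |a| + |C|) ^ 2 / κ) * Real.exp (-(κ / 4) * r ^ 2) := by
    rw [← Real.exp_add, ← Real.exp_add, ← Real.exp_add, Real.exp_le_exp]
    have ha := le_abs_self a
    have hC := le_abs_self C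
    set s := 1 + |a| + |C| with hs
    have key : s * r ≤ κ / 4 * r ^ 2 + s ^ 2 / κ := by
      have : 0 ≤ (κ * r / 2 - s) ^ 2 / κ := by positivity
      have e : (κ * r / 2 - s) ^ 2 / κ = κ / 4 * r ^ 2 - s * r + s ^ 2 / κ := by
        field_simp; ring
      linarith
    have h3 : a * r ≤ |a| * r := by gcongr
    have h4 : C * r ≤ |C| * r := by gcongr
    nlinarith
  calc (1 + r) ^ n * Real.exp (a * r) * Real.exp (-(κ / 2 * r ^ 2 - C * (1 + r)))
      ≤ (n.factorial * Real.exp (1 + r)) * Real.exp (a * r) *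
        Real.exp (-(κ / 2 * r ^ 2 - C * (1 + r))) := by gcongr
    _ = n.factorial * (Real.exp (a * r) * Real.exp (-(κ / 2 * r ^ 2 - C * (1 + r)))
        * Real.exp (1 + r)) := by ring
    _ ≤ n.factorial * (Real.exp (1 + |C| + (1 + |a| + |C|) ^ 2 / κ)
        * Real.exp (-(κ / 4) * r ^ 2)) := by gcongr
    _ = _ := by ring

lemma integrable_gauss {b : ℝ} (hb : 0 < b) :
    Integrable (fun x : E => Real.exp (-b * ‖x‖ ^ 2)) := by
  have h := GaussianFourier.integrable_cexp_neg_mul_sq_norm_add (V := E) (b := (b : ℂ))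
    (by simpa using hb) 0 0
  have h2 := h.norm
  refine h2.congr (Eventually.of_forall fun x => ?_)
  simp only [zero_mul, add_zero, Complex.norm_exp]
  congr 1
  simp [← Complex.ofReal_pow]

/-- Polynomially/exponentially growing functions are integrable against `exp (-H)`. -/
lemma StrongConvexOn.integrable_mul {H : E → ℝ} {κ : ℝ} (hκ : 0 < κ)
    (hH : StrongConvexOn univ κ H) (hc : Continuous H) (n : ℕ) (a : ℝ) :
    Integrable (fun x : E => (1 + ‖x‖) ^ n * Real.exp (a * ‖x‖) * Real.exp (-H x)) := by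
  obtain ⟨C, hC0, hC⟩ := StrongConvexOn.lower hH hc
  obtain ⟨M, hM0, hM⟩ := exp_bound_aux (C := C) (a := a) hκ n
  refine Integrable.mono' ((integrable_gauss (E := E) (b := κ / 4) (by positivity)).const_mul M)
    (by fun_prop) (Eventually.of_forall fun x => ?_)
  rw [Real.norm_of_nonneg (by positivity)]
  refine le_trans ?_ (hM ‖x‖ (norm_nonneg x))
  gcongr
  exact hC x

lemma StrongConvexOn.integrable_exp {H : E → ℝ} {κ : ℝ} (hκ : 0 < κ)
    (hH : StrongConvexOn univ κ H) (hc : Continuous H) :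
    Integrable (fun x : E => Real.exp (-H x)) := by
  simpa using StrongConvexOn.integrable_mul hκ hH hc 0 0

/-- The mass `∫ exp (-H)`. -/
noncomputable def gZ (H : E → ℝ) : ℝ := ∫ x, Real.exp (-H x)

lemma withDensity_univ {H : E → ℝ} (hi : Integrable (fun x : E => Real.exp (-H x))) :
    (volume : Measure E).withDensity (fun x => ENNReal.ofReal (Real.exp (-H x))) Set.univ
      = ENNReal.ofReal (gZ H) := by
  rw [withDensity_apply _ MeasurableSet.univ, Measure.restrict_univ, gZ,
    ofReal_integral_eq_lintegral_ofReal hi (Eventually.of_forall fun x => (Real.exp_pos _).le)]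

lemma gZ_pos {H : E → ℝ} (hi : Integrable (fun x : E => Real.exp (-H x))) : 0 < gZ H := by
  rw [gZ]
  exact integral_exp_pos hi

lemma isProbabilityMeasure_gibbs {H : E → ℝ} (hi : Integrable (fun x : E => Real.exp (-H x))) :
    IsProbabilityMeasure (gibbs H) := by
  constructor
  rw [gibbs, Measure.smul_apply, withDensity_univ hi, smul_eq_mul]
  exact ENNReal.inv_mul_cancel (by simpa using gZ_pos hi) ENNReal.ofReal_ne_top


lemma integrable_gibbs_iff {F : Type*} [NormedAddCommGroup F] [NormedSpace ℝ F] {H : E → ℝ}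
    (hc : Continuous H) (hi : Integrable (fun x : E => Real.exp (-H x))) (f : E → F) :
    Integrable f (gibbs H) ↔ Integrable (fun x => Real.exp (-H x) • f x) := by
  rw [gibbs, integrable_smul_measure]
  · rw [integrable_withDensity_iff_integrable_smul' (by fun_prop)
      (Eventually.of_forall fun x => ENNReal.ofReal_lt_top)]
    simp only [ENNReal.toReal_ofReal (Real.exp_pos _).le]
  · rw [withDensity_univ hi]
    simp
  · rw [withDensity_univ hi]
    simpa using gZ_pos hi

lemma lintegral_gibbs {H : E → ℝ} (hc : Continuous H)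
    (hi : Integrable (fun x : E => Real.exp (-H x))) (f : E → ℝ≥0∞) :
    ∫⁻ x, f x ∂(gibbs H) =
      (ENNReal.ofReal (gZ H))⁻¹ * ∫⁻ x, ENNReal.ofReal (Real.exp (-H x)) * f x := by
  rw [gibbs, lintegral_smul_measure, withDensity_univ hi, smul_eq_mul,
    lintegral_withDensity_eq_lintegral_mul_non_measurable _ (by fun_prop)
      (Eventually.of_forall fun x => ENNReal.ofReal_lt_top)]
  rfl

/-- growth class -/
lemma StrongConvexOn.integrable_gibbs {H : E → ℝ} {κ : ℝ} (hκ : 0 < κ)
    (hH : StrongConvexOn univ κ H) (hc : Continuous H) {F : Type*} [NormedAddCommGroup F]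
    [NormedSpace ℝ F] {f : E → F} (hf : AEStronglyMeasurable f volume) {C : ℝ} {n : ℕ} {a : ℝ}
    (hb : ∀ x, ‖f x‖ ≤ C * ((1 + ‖x‖) ^ n * Real.exp (a * ‖x‖))) :
    Integrable f (gibbs H) := by
  rw [integrable_gibbs_iff hc (StrongConvexOn.integrable_exp hκ hH hc)]
  refine Integrable.mono' ((StrongConvexOn.integrable_mul hκ hH hc n a).const_mul C) ?_
    (Eventually.of_forall fun x => ?_)
  · exact (by fun_prop : AEStronglyMeasurable (fun x : E => Real.exp (-H x)) volume).smul hf
  · rw [norm_smul, Real.norm_of_nonneg (Real.exp_pos _).le]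
    calc Real.exp (-H x) * ‖f x‖ ≤ Real.exp (-H x) * (C * ((1 + ‖x‖) ^ n * Real.exp (a * ‖x‖))) := by
          gcongr; exact hb x
      _ = _ := by ring


end Crest.Agent.R285.Poin
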