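import Mathlib

/-!
Row 285 (S0430): FLAT SYSTEMS (note 6866).

`LF P ι` = linear forms in the atoms: hidden centre `c`, visible persistent vectors `p k` (`k : P`),
`G`-values `g i` (`i : ι`).  They form a real module, so that the quantities of the semantic scheme
(`y_j`, `X_j`, `bh_j`, `u`, `q`, `AA v`, …) can be written down directly as linear forms.

`FlatSys P ι` = scales `r i`, evaluation points `pt i : LF P ι`, output `out : LF P ι`.
`gval S G c p k i` = the `G`-values after `k` sweeps (`gval 0 = 0`),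
`point S G c p k i` = the evaluation points of sweep `k`, `outv S G c p k` = the output.

Seminorms on linear forms: `nz ρ σ f` (standard deviation of the noise when the centre has noise `ρ`
and the calls have noise `σ i`, all independent), `l1 w f = ∑ |β_i| w_i` (contraction), `tot f`.

Main result here: `FlatSys.point_sub_le`, `FlatSys.out_sub_le` (Picard iterates versus a point with small
defect, weighted sup norm, pathwise).
-/

set_option autoImplicit false
set_option linter.unusedSectionVars false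

open Finset

noncomputable section

namespace Crest.Agent.R285

/-- Linear forms in: the hidden centre, the visible persistent vectors (index type `P`), the
`G`-values (index type `ι`). -/
abbrev LF (P ι : Type) : Type := ℝ × (P → ℝ) × (ι → ℝ)

namespace LF

variable {P ι : Type} [Fintype P] [Fintype ι] {X : Type} [NormedAddCommGroup X] [NormedSpace ℝ X]

/-- the hidden centre -/
def hid : LF P ι := (1, 0, 0)
/-- the `k`-th visible persistent vector -/
def vis [DecidableEq P] (k : P) : LF P ι := (0, Pi.single k 1, 0)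
/-- the `i`-th `G`-value -/
def call [DecidableEq ι] (i : ι) : LF P ι := (0, 0, Pi.single i 1)

/-- Evaluation of a linear form. -/
def eval (c : X) (p : P → X) (g : ι → X) : LF P ι →ₗ[ℝ] X where
  toFun f := f.1 • c + ∑ k, f.2.1 k • p k + ∑ i, f.2.2 i • g i
  map_add' f f' := by
    simp only [Prod.fst_add, Prod.snd_add, Pi.add_apply, add_smul, Finset.sum_add_distrib]
    abel
  map_smul' a f := by
    simp only [Prod.smul_fst, Prod.smul_snd, Pi.smul_apply, smul_eq_mul, mul_smul,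
      Finset.smul_sum, smul_add, RingHom.id_apply]

theorem eval_apply (c : X) (p : P → X) (g : ι → X) (f : LF P ι) :
    eval c p g f = f.1 • c + ∑ k, f.2.1 k • p k + ∑ i, f.2.2 i • g i := rfl

@[simp] theorem eval_hid (c : X) (p : P → X) (g : ι → X) : eval c p g hid = c := by
  simp [eval_apply, hid]

@[simp] theorem eval_vis [DecidableEq P] (c : X) (p : P → X) (g : ι → X) (k : P) :
    eval c p g (vis k) = p k := by
  simp [eval_apply, vis, Pi.single_apply]

@[simp] theorem eval_call [DecidableEq ι] (c : X) (p : P → X) (g : ι → X) (i : ι) :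
    eval c p g (call i) = g i := by
  simp [eval_apply, call, Pi.single_apply]

/-- The vector of standard deviations of the noises of the atoms. -/
def nzv (ρ : ℝ) (σ : ι → ℝ) : LF P ι →ₗ[ℝ] EuclideanSpace ℝ (Option ι) where
  toFun f := WithLp.toLp 2 fun o => o.elim (f.1 * ρ) fun i => f.2.2 i * σ i
  map_add' f f' := by
    ext o
    cases o <;> simp [add_mul]
  map_smul' a f := by
    ext o
    cases o <;> simp [mul_assoc]

/-- The standard deviation of the noise of a linear form. -/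
def nz (ρ : ℝ) (σ : ι → ℝ) (f : LF P ι) : ℝ := ‖nzv ρ σ f‖

theorem nz_nonneg (ρ : ℝ) (σ : ι → ℝ) (f : LF P ι) : 0 ≤ nz ρ σ f := norm_nonneg _

theorem nz_sq (ρ : ℝ) (σ : ι → ℝ) (f : LF P ι) :
    nz ρ σ f ^ 2 = (f.1 * ρ) ^ 2 + ∑ i, (f.2.2 i * σ i) ^ 2 := by
  rw [nz, EuclideanSpace.norm_sq_eq]
  simp [Fintype.sum_option, nzv]











/-- Weighted `ℓ¹` seminorm of the call coefficients. -/
def l1 (w : ι → ℝ) (f : LF P ι) : ℝ := ∑ i, |f.2.2 i| * w i

theorem l1_nonneg {w : ι → ℝ} (hw : ∀ i, 0 ≤ w i) (f : LF P ι) : 0 ≤ l1 w f :=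
  Finset.sum_nonneg fun i _ => mul_nonneg (abs_nonneg _) (hw i)

theorem l1_add_le {w : ι → ℝ} (hw : ∀ i, 0 ≤ w i) (f f' : LF P ι) :
    l1 w (f + f') ≤ l1 w f + l1 w f' := by
  simp only [l1, ← Finset.sum_add_distrib, ← add_mul]
  exact Finset.sum_le_sum fun i _ => mul_le_mul_of_nonneg_right (abs_add_le _ _) (hw i)

theorem l1_smul (w : ι → ℝ) (a : ℝ) (f : LF P ι) : l1 w (a • f) = |a| * l1 w f := by
  simp only [l1, Prod.smul_snd, Pi.smul_apply, smul_eq_mul, abs_mul, Finset.mul_sum, mul_assoc]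

theorem l1_neg (w : ι → ℝ) (f : LF P ι) : l1 w (-f) = l1 w f := by
  simp only [l1, Prod.snd_neg, Pi.neg_apply, abs_neg]

theorem l1_sub_le {w : ι → ℝ} (hw : ∀ i, 0 ≤ w i) (f f' : LF P ι) :
    l1 w (f - f') ≤ l1 w f + l1 w f' := by
  rw [sub_eq_add_neg, ← l1_neg w f']; exact l1_add_le hw _ _

theorem l1_zero (w : ι → ℝ) : l1 w (0 : LF P ι) = 0 := by simp [l1]

theorem l1_sum_le {w : ι → ℝ} (hw : ∀ i, 0 ≤ w i) {κ : Type} (s : Finset κ) (f : κ → LF P ι) :
    l1 w (∑ i ∈ s, f i) ≤ ∑ i ∈ s, l1 w (f i) := by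
  classical
  induction s using Finset.induction_on with
  | empty => simp [l1_zero]
  | insert a s ha ih =>
    rw [Finset.sum_insert ha, Finset.sum_insert ha]
    exact (l1_add_le hw _ _).trans (by linarith)

@[simp] theorem l1_hid (w : ι → ℝ) : l1 w (hid : LF P ι) = 0 := by simp [l1, hid]

@[simp] theorem l1_vis [DecidableEq P] (w : ι → ℝ) (k : P) : l1 w (vis k : LF P ι) = 0 := by simp [l1, vis]

@[simp] theorem l1_call [DecidableEq ι] (w : ι → ℝ) (i : ι) : l1 w (call i : LF P ι) = w i := by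
  rw [l1, Finset.sum_eq_single i]
  · simp [call]
  · intro j _ hj; simp [call, Pi.single_eq_of_ne hj]
  · simp


/-- The noise is at most the `ℓ¹` noise. -/
theorem nz_le_l1 (ρ : ℝ) {σ : ι → ℝ} (hσ : ∀ i, 0 ≤ σ i) (f : LF P ι) :
    nz ρ σ f ≤ |f.1 * ρ| + l1 σ f := by
  have h0 : 0 ≤ |f.1 * ρ| + l1 σ f := add_nonneg (abs_nonneg _) (l1_nonneg hσ f)
  refine le_of_sq_le_sq ?_ h0
  rw [nz_sq]
  have h1 : ∑ i, (f.2.2 i * σ i) ^ 2 ≤ (l1 σ f) ^ 2 := by
    have : ∀ i, (f.2.2 i * σ i) ^ 2 = (|f.2.2 i| * σ i) ^ 2 := fun i => by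
      rw [mul_pow, mul_pow, sq_abs]
    simp_rw [this]
    exact Finset.sum_sq_le_sq_sum_of_nonneg fun i _ => mul_nonneg (abs_nonneg _) (hσ i)
  have h2 : (f.1 * ρ) ^ 2 = |f.1 * ρ| ^ 2 := (sq_abs _).symm
  nlinarith [abs_nonneg (f.1 * ρ), l1_nonneg hσ f]



/-- total `ℓ¹` norm of all coefficients -/
def tot (f : LF P ι) : ℝ := |f.1| + ∑ k, |f.2.1 k| + ∑ i, |f.2.2 i|


theorem tot_add_le (f f' : LF P ι) : tot (f + f') ≤ tot f + tot f' := by
  simp only [tot, Prod.fst_add, Prod.snd_add, Pi.add_apply]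
  have h1 := abs_add_le f.1 f'.1
  have h2 : ∑ k, |f.2.1 k + f'.2.1 k| ≤ ∑ k, |f.2.1 k| + ∑ k, |f'.2.1 k| := by
    rw [← Finset.sum_add_distrib]; exact Finset.sum_le_sum fun k _ => abs_add_le _ _
  have h3 : ∑ k, |f.2.2 k + f'.2.2 k| ≤ ∑ k, |f.2.2 k| + ∑ k, |f'.2.2 k| := by
    rw [← Finset.sum_add_distrib]; exact Finset.sum_le_sum fun k _ => abs_add_le _ _
  linarith

theorem tot_smul (a : ℝ) (f : LF P ι) : tot (a • f) = |a| * tot f := by
  simp only [tot, Prod.smul_fst, Prod.smul_snd, Pi.smul_apply, smul_eq_mul, abs_mul,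
    ← Finset.mul_sum]
  ring

theorem tot_neg (f : LF P ι) : tot (-f) = tot f := by
  have := tot_smul (-1) f; simpa using this

theorem tot_sub_le (f f' : LF P ι) : tot (f - f') ≤ tot f + tot f' := by
  rw [sub_eq_add_neg, ← tot_neg f']; exact tot_add_le _ _

theorem tot_sum_le {κ : Type} (s : Finset κ) (f : κ → LF P ι) :
    tot (∑ i ∈ s, f i) ≤ ∑ i ∈ s, tot (f i) := by
  classical
  induction s using Finset.induction_on with
  | empty => simp [tot]
  | insert a s ha ih =>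
    rw [Finset.sum_insert ha, Finset.sum_insert ha]
    exact (tot_add_le _ _).trans (by linarith)

@[simp] theorem tot_hid : tot (hid : LF P ι) = 1 := by simp [tot, hid]

@[simp] theorem tot_vis [DecidableEq P] (k : P) : tot (vis k : LF P ι) = 1 := by
  have : ∑ j, |(Pi.single k (1 : ℝ) : P → ℝ) j| = 1 := by
    rw [Finset.sum_eq_single k]
    · simp
    · intro j _ hj; simp [Pi.single_eq_of_ne hj]
    · simp
  simp [tot, vis, this]

@[simp] theorem tot_call [DecidableEq ι] (i : ι) : tot (call i : LF P ι) = 1 := by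
  have : ∑ j, |(Pi.single i (1 : ℝ) : ι → ℝ) j| = 1 := by
    rw [Finset.sum_eq_single i]
    · simp
    · intro j _ hj; simp [Pi.single_eq_of_ne hj]
    · simp
  simp [tot, call, this]

/-- Evaluation is bounded. -/
theorem norm_eval_le (c : X) (p : P → X) (g : ι → X) (f : LF P ι) {B : ℝ}
    (hc : ‖c‖ ≤ B) (hp : ∀ k, ‖p k‖ ≤ B) (hg : ∀ i, ‖g i‖ ≤ B) : ‖eval c p g f‖ ≤ tot f * B := by
  rw [eval_apply, tot, add_mul, add_mul, Finset.sum_mul, Finset.sum_mul]
  refine (norm_add_le _ _).trans (add_le_add ((norm_add_le _ _).trans (add_le_add ?_ ?_)) ?_)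
  · rw [norm_smul, Real.norm_eq_abs]; gcongr
  · refine (norm_sum_le _ _).trans (Finset.sum_le_sum fun k _ => ?_)
    rw [norm_smul, Real.norm_eq_abs]; gcongr; exact hp k
  · refine (norm_sum_le _ _).trans (Finset.sum_le_sum fun k _ => ?_)
    rw [norm_smul, Real.norm_eq_abs]; gcongr; exact hg k

/-- Dependence of the evaluation on the `G`-values. -/
theorem norm_eval_sub_le (c : X) (p : P → X) (g g' : ι → X) (f : LF P ι) :
    ‖eval c p g f - eval c p g' f‖ ≤ ∑ i, |f.2.2 i| * ‖g i - g' i‖ := by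
  have : eval c p g f - eval c p g' f = ∑ i, f.2.2 i • (g i - g' i) := by
    simp only [eval_apply, smul_sub, Finset.sum_sub_distrib]
    abel
  rw [this]
  refine (norm_sum_le _ _).trans (Finset.sum_le_sum fun k _ => ?_)
  rw [norm_smul, Real.norm_eq_abs]

end LF

/-- A flat system: `x_i = eval (pt i) (G_{r_j}(x_j))_j`. -/
structure FlatSys (P ι : Type) where
  /-- the scale of the call at the point `i` -/
  r : ι → ℝ
  /-- the evaluation points -/
  pt : ι → LF P ι
  /-- the output -/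
  out : LF P ι

namespace FlatSys

variable {P ι : Type} [Fintype P] [Fintype ι] {X : Type} [NormedAddCommGroup X] [NormedSpace ℝ X]

/-- The `G`-values after `k` sweeps (`0` at the beginning). -/
def gval (S : FlatSys P ι) (G : ℝ → X → X) (c : X) (p : P → X) : ℕ → ι → X
  | 0 => 0
  | k + 1 => fun i => G (S.r i) (LF.eval c p (gval S G c p k) (S.pt i))

/-- The evaluation points of sweep `k`. -/
def point (S : FlatSys P ι) (G : ℝ → X → X) (c : X) (p : P → X) (k : ℕ) (i : ι) : X :=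
  LF.eval c p (S.gval G c p k) (S.pt i)

/-- The output after `k` sweeps. -/
def outv (S : FlatSys P ι) (G : ℝ → X → X) (c : X) (p : P → X) (k : ℕ) : X :=
  LF.eval c p (S.gval G c p k) S.out

theorem gval_zero (S : FlatSys P ι) (G : ℝ → X → X) (c : X) (p : P → X) :
    S.gval G c p 0 = 0 := rfl

theorem gval_succ (S : FlatSys P ι) (G : ℝ → X → X) (c : X) (p : P → X) (k : ℕ) (i : ι) :
    S.gval G c p (k + 1) i = G (S.r i) (S.point G c p k i) := rfl

theorem point_zero (S : FlatSys P ι) (G : ℝ → X → X) (c : X) (p : P → X) (i : ι) :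
    S.point G c p 0 i = LF.eval c p 0 (S.pt i) := rfl

/-- The value of a linear form at a family of exact points. -/
def evalAt (S : FlatSys P ι) (G : ℝ → X → X) (c : X) (p : P → X) (x : ι → X) (f : LF P ι) : X :=
  LF.eval c p (fun j => G (S.r j) (x j)) f

/-- Weighted contraction. -/
structure Contr (S : FlatSys P ι) (Λ : ℝ) (w : ι → ℝ) (L : ℝ) : Prop where
  pos : ∀ i, 0 ≤ w i
  le : ∀ i, Λ * LF.l1 w (S.pt i) ≤ L * w i

/-- One step: comparison with a point of small defect. -/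
theorem point_succ_sub_le (S : FlatSys P ι) {G : ℝ → X → X} {Λ : ℝ} {w : ι → ℝ} {L : ℝ}
    (hS : S.Contr Λ w L) (hG : ∀ i x y, ‖G (S.r i) x - G (S.r i) y‖ ≤ Λ * ‖x - y‖)
    (c : X) (p : P → X) (x : ι → X) {δ e : ℝ} (hΛ : 0 ≤ Λ) (he : 0 ≤ e)
    (hdef : ∀ i, ‖x i - S.evalAt G c p x (S.pt i)‖ ≤ δ * w i) (k : ℕ)
    (hk : ∀ i, ‖S.point G c p k i - x i‖ ≤ e * w i) (i : ι) :
    ‖S.point G c p (k + 1) i - x i‖ ≤ (L * e + δ) * w i := by
  have h1 : S.point G c p (k + 1) i - x i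
      = (S.point G c p (k + 1) i - S.evalAt G c p x (S.pt i))
        - (x i - S.evalAt G c p x (S.pt i)) := by abel
  have h2 : ‖S.point G c p (k + 1) i - S.evalAt G c p x (S.pt i)‖ ≤ L * e * w i := by
    unfold point evalAt
    refine (LF.norm_eval_sub_le _ _ _ _ _).trans ?_
    have h3 : ∀ j, ‖S.gval G c p (k + 1) j - G (S.r j) (x j)‖ ≤ Λ * (e * w j) := fun j => by
      rw [gval_succ]
      exact (hG j _ _).trans (mul_le_mul_of_nonneg_left (hk j) hΛ)
    calc ∑ j, |(S.pt i).2.2 j| * ‖S.gval G c p (k + 1) j - G (S.r j) (x j)‖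
        ≤ ∑ j, |(S.pt i).2.2 j| * (Λ * (e * w j)) :=
          Finset.sum_le_sum fun j _ => mul_le_mul_of_nonneg_left (h3 j) (abs_nonneg _)
      _ = e * (Λ * LF.l1 w (S.pt i)) := by
          rw [LF.l1, Finset.mul_sum, Finset.mul_sum]
          exact Finset.sum_congr rfl fun j _ => by ring
      _ ≤ e * (L * w i) := mul_le_mul_of_nonneg_left (hS.le i) he
      _ = L * e * w i := by ring
  rw [h1]
  calc _ ≤ _ := norm_sub_le _ _
    _ ≤ L * e * w i + δ * w i := add_le_add h2 (hdef i)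
    _ = _ := by ring

/-- Picard iterates versus a point of small defect. -/
theorem point_sub_le (S : FlatSys P ι) {G : ℝ → X → X} {Λ : ℝ} {w : ι → ℝ} {L : ℝ}
    (hS : S.Contr Λ w L) (hL0 : 0 ≤ L) (hL : L ≤ 1 / 2)
    (hG : ∀ i x y, ‖G (S.r i) x - G (S.r i) y‖ ≤ Λ * ‖x - y‖) (hΛ : 0 ≤ Λ)
    (c : X) (p : P → X) (x : ι → X) {δ B : ℝ} (hδ : 0 ≤ δ) (hB : 0 ≤ B)
    (hdef : ∀ i, ‖x i - S.evalAt G c p x (S.pt i)‖ ≤ δ * w i)
    (h0 : ∀ i, ‖S.point G c p 0 i - x i‖ ≤ B * w i) (k : ℕ) (i : ι) :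
    ‖S.point G c p k i - x i‖ ≤ (L ^ k * B + 2 * δ) * w i := by
  induction k generalizing i with
  | zero =>
    refine (h0 i).trans (mul_le_mul_of_nonneg_right ?_ (hS.pos i))
    simp only [pow_zero, one_mul]; linarith
  | succ k ih =>
    have he : 0 ≤ L ^ k * B + 2 * δ := by positivity
    refine (S.point_succ_sub_le hS hG c p x hΛ he hdef k ih i).trans
      (mul_le_mul_of_nonneg_right ?_ (hS.pos i))
    rw [pow_succ]
    nlinarith

/-- The output after `k + 1` sweeps versus the exact output. -/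
theorem out_sub_le (S : FlatSys P ι) {G : ℝ → X → X} {Λ : ℝ} {w : ι → ℝ} {L : ℝ}
    (hS : S.Contr Λ w L) (hL0 : 0 ≤ L) (hL : L ≤ 1 / 2)
    (hG : ∀ i x y, ‖G (S.r i) x - G (S.r i) y‖ ≤ Λ * ‖x - y‖) (hΛ : 0 ≤ Λ)
    (c : X) (p : P → X) (x : ι → X) {δ B : ℝ} (hδ : 0 ≤ δ) (hB : 0 ≤ B)
    (hdef : ∀ i, ‖x i - S.evalAt G c p x (S.pt i)‖ ≤ δ * w i)
    (h0 : ∀ i, ‖S.point G c p 0 i - x i‖ ≤ B * w i) (k : ℕ) :
    ‖S.outv G c p (k + 1) - S.evalAt G c p x S.out‖
      ≤ Λ * LF.l1 w S.out * (L ^ k * B + 2 * δ) := by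
  unfold outv evalAt
  refine (LF.norm_eval_sub_le _ _ _ _ _).trans ?_
  rw [LF.l1, Finset.mul_sum, Finset.sum_mul]
  refine Finset.sum_le_sum fun j _ => ?_
  have h1 : ‖S.gval G c p (k + 1) j - G (S.r j) (x j)‖ ≤ Λ * ((L ^ k * B + 2 * δ) * w j) := by
    rw [gval_succ]
    exact (hG j _ _).trans
      (mul_le_mul_of_nonneg_left (S.point_sub_le hS hL0 hL hG hΛ c p x hδ hB hdef h0 k j) hΛ)
  calc _ ≤ |S.out.2.2 j| * (Λ * ((L ^ k * B + 2 * δ) * w j)) :=
        mul_le_mul_of_nonneg_left h1 (abs_nonneg _)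
    _ = _ := by ring

end FlatSys

end Crest.Agent.R285
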