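import Mathlib
import Crest.Agent.R285.Smooth
import Crest.Agent.R285.Curve

/-!
Row 285: the uncoupled flow `dη/dt = -s G_{s√(1-t²)}(c + s t η)` on `J = (-1, 1)`: regularity,
global existence and the law at time `t` when started from the standard Gaussian at time `0`.
-/

set_option autoImplicit false
set_option maxSynthPendingDepth 3
set_option linter.unusedSectionVars false

open MeasureTheory ProbabilityTheory Real Filter Topology Set
open scoped RealInnerProductSpace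

noncomputable section

namespace Crest.Agent.R285

/-- Liouville's theorem for log-densities. -/
theorem GoodOn.map_evol_exp {E : Type} [NormedAddCommGroup E] [NormedSpace ℝ E]
    [FiniteDimensional ℝ E] [MeasurableSpace E] [BorelSpace E] (μ : Measure E)
    [μ.IsAddHaarMeasure] {v : ℝ → E → E} {J : Set ℝ} (hv : GoodOn v J) {l : ℝ → E → ℝ}
    (hl : ContDiffOn ℝ 1 (fun p : ℝ × E => l p.1 p.2) (J ×ˢ univ))
    (hcont : ∀ t ∈ J, ∀ x, fderiv ℝ (fun p : ℝ × E => l p.1 p.2) (t, x) (1, v t x)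
      + dvg (v t) x = 0)
    {s t : ℝ} (hs : s ∈ J) (ht : t ∈ J) :
    (μ.withDensity fun x => ENNReal.ofReal (rexp (l s x))).map (evol v J s t)
      = μ.withDensity fun x => ENNReal.ofReal (rexp (l t x)) := by
  refine hv.map_evol μ (ρ := fun t x => rexp (l t x)) hl.exp (fun _ _ _ => (exp_pos _).le) ?_ hs ht
  intro t ht x
  have hd : DifferentiableAt ℝ (fun p : ℝ × E => l p.1 p.2) (t, x) :=
    (hl.differentiableOn one_ne_zero).differentiableAt
      ((hv.isOpen.prod isOpen_univ).mem_nhds ⟨ht, mem_univ x⟩)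
  rw [hd.hasFDerivAt.exp.fderiv]
  have := hcont t ht x
  simp only [_root_.smul_apply, smul_eq_mul]
  rw [← mul_add, this, mul_zero]

variable {V : Type} [NormedAddCommGroup V] [InnerProductSpace ℝ V] [FiniteDimensional ℝ V]
  [MeasurableSpace V] [BorelSpace V]

variable {h : ℝ} {U : V → ℝ}

/-- The full derivative of `Ub`. -/
theorem ub_fderiv (hU : PotP h U) (σ : ℝ) (x : V) (a : ℝ) (b : V) :
    fderiv ℝ (fun p : ℝ × V => Ub U p.1 p.2) (σ, x) (a, b) =
      a * (σ * (dvg (G U σ) x - ‖G U σ x‖ ^ 2)) + ⟪G U σ x, b⟫ := by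
  have hd : HasFDerivAt (fun p : ℝ × V => Ub U p.1 p.2) _ (σ, x) :=
    ((contDiff_ub hU).differentiable one_ne_zero (σ, x)).hasFDerivAt
  have h1 : HasDerivAt (fun σ' : ℝ => ((σ', x) : ℝ × V)) ((1 : ℝ), (0 : V)) σ :=
    (hasDerivAt_id σ).prodMk (hasDerivAt_const σ x)
  have h2 : HasFDerivAt (fun x' : V => ((σ, x') : ℝ × V)) (ContinuousLinearMap.inr ℝ ℝ V) x := by
    have h0 := (hasFDerivAt_const (𝕜 := ℝ) σ x).prodMk (hasFDerivAt_id (𝕜 := ℝ) x)
    exact h0
  have e1 : fderiv ℝ (fun p : ℝ × V => Ub U p.1 p.2) (σ, x) (1, 0) =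
      σ * (dvg (G U σ) x - ‖G U σ x‖ ^ 2) := by
    have h3 := hd.comp_hasDerivAt σ h1
    exact HasDerivAt.unique (f := fun σ' => Ub U σ' x) h3 (hasDerivAt_ub_σ hU σ x)
  have e2 : fderiv ℝ (fun p : ℝ × V => Ub U p.1 p.2) (σ, x) (0, b) = ⟪G U σ x, b⟫ := by
    have h3 := HasFDerivAt.unique (f := Ub U σ) (hd.comp x h2) (hasFDerivAt_ub_x hU σ x)
    have h4 := congrArg (fun L : V →L[ℝ] ℝ => L b) h3
    simp only [ContinuousLinearMap.comp_apply, ContinuousLinearMap.inr_apply] at h4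
    rw [h4, inner_gr hU]
  have e3 : ((a, b) : ℝ × V) = a • ((1 : ℝ), (0 : V)) + ((0 : ℝ), b) := by simp
  rw [e3, map_add, map_smul, e1, e2, smul_eq_mul]

/-- The uncoupled field. -/
def vY (U : V → ℝ) (c : V) (s : ℝ) (t : ℝ) (η : V) : V :=
  -(s • G U (s * √(1 - t ^ 2)) (c + (s * t) • η))

theorem one_sub_sq_pos {t : ℝ} (ht : t ∈ Ioo (-1 : ℝ) 1) : 0 < 1 - t ^ 2 := by
  nlinarith [ht.1, ht.2]

/-- The space-time map `(t, η) ↦ (s √(1-t²), c + s t η)`. -/
def thY (c : V) (s : ℝ) (p : ℝ × V) : ℝ × V := (s * √(1 - p.1 ^ 2), c + (s * p.1) • p.2)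

theorem thY_mem (c : V) {s : ℝ} (hs : 0 < s) {p : ℝ × V} (hp : p ∈ Ioo (-1 : ℝ) 1 ×ˢ (univ : Set V)) :
    thY c s p ∈ {q : ℝ × V | 0 < q.1} := by
  have : 0 < √(1 - p.1 ^ 2) := Real.sqrt_pos.2 (one_sub_sq_pos hp.1)
  exact mul_pos hs this

theorem contDiffOn_thY (c : V) (s : ℝ) :
    ContDiffOn ℝ (⊤ : ℕ∞) (thY c s) (Ioo (-1 : ℝ) 1 ×ˢ univ) := by
  unfold thY
  refine ContDiffOn.prodMk (contDiffOn_const.mul (ContDiffOn.sqrt (by fun_prop) ?_)) (by fun_prop)
  exact fun p hp => (one_sub_sq_pos hp.1).ne'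

theorem hasDerivAt_sig (s : ℝ) {t : ℝ} (ht : t ∈ Ioo (-1 : ℝ) 1) :
    HasDerivAt (fun t : ℝ => s * √(1 - t ^ 2)) (s * (-t / √(1 - t ^ 2))) t := by
  have h1 : HasDerivAt (fun t : ℝ => 1 - t ^ 2) (-(2 * t)) t := by
    simpa using ((hasDerivAt_id t).pow 2).const_sub 1
  refine ((h1.sqrt (one_sub_sq_pos ht).ne').const_mul s).congr_deriv ?_
  congr 1
  rw [show -(2 * t) = 2 * (-t) by ring, mul_div_mul_left _ _ (two_ne_zero)]

/-- Derivative of the space-time map. -/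
def thY' (s t : ℝ) (η : V) : ℝ × V →L[ℝ] ℝ × V :=
  ((s * (-t / √(1 - t ^ 2))) • ContinuousLinearMap.fst ℝ ℝ V).prod
    ((ContinuousLinearMap.fst ℝ ℝ V).smulRight (s • η) + (s * t) • ContinuousLinearMap.snd ℝ ℝ V)

theorem thY'_apply (s t : ℝ) (η : V) (a : ℝ) (b : V) :
    thY' s t η (a, b) = (s * (-t / √(1 - t ^ 2)) * a, a • s • η + (s * t) • b) := by
  simp [thY']

theorem hasFDerivAt_thY (c : V) (s : ℝ) {t : ℝ} (ht : t ∈ Ioo (-1 : ℝ) 1) (η : V) :
    HasFDerivAt (thY c s) (thY' s t η) (t, η) := by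
  unfold thY thY'
  refine HasFDerivAt.prodMk ?_ ?_
  · have h1 := (hasDerivAt_sig s ht).comp_hasFDerivAt (f := fun p : ℝ × V => p.1) (t, η)
      (hasFDerivAt_fst (𝕜 := ℝ) (p := (t, η)))
    exact h1
  · have h1 : HasFDerivAt (fun p : ℝ × V => s * p.1) (s • ContinuousLinearMap.fst ℝ ℝ V) (t, η) :=
      hasFDerivAt_fst.const_mul s
    have h2 := (h1.smul (hasFDerivAt_snd (𝕜 := ℝ) (p := (t, η)))).const_add c
    refine h2.congr_fderiv ?_
    ext a
    · simp [smul_smul]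
    · simp


theorem smOn_G (hU : PotP h U) (c : V) {s : ℝ} (hs : 0 < s) :
    SmOn (fun t η => G U (s * √(1 - t ^ 2)) (c + (s * t) • η)) (Ioo (-1 : ℝ) 1) :=
  ContDiffOn.comp (g := fun q : ℝ × V => G U q.1 q.2) (f := thY c s) (contDiffOn_gr_top hU)
    (contDiffOn_thY c s) fun _ hp => thY_mem c hs hp

theorem smOn_Ub (hU : PotP h U) (c : V) {s : ℝ} (hs : 0 < s) :
    SmOn (fun t η => Ub U (s * √(1 - t ^ 2)) (c + (s * t) • η)) (Ioo (-1 : ℝ) 1) :=
  ContDiffOn.comp (g := fun q : ℝ × V => Ub U q.1 q.2) (f := thY c s) (contDiffOn_ub_top hU)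
    (contDiffOn_thY c s) fun _ hp => thY_mem c hs hp

theorem smOn_vY (hU : PotP h U) (c : V) {s : ℝ} (hs : 0 < s) :
    SmOn (vY U c s) (Ioo (-1 : ℝ) 1) :=
  (contDiffOn_const.smul (smOn_G hU c hs)).neg

theorem vY_lip (hU : PotP h U) (c : V) {s : ℝ} (hs : 0 < s) {t : ℝ} (ht : t ∈ Ioo (-1 : ℝ) 1)
    (x y : V) : ‖vY U c s t x - vY U c s t y‖ ≤ h * s ^ 2 * ‖x - y‖ := by
  have h1 : vY U c s t x - vY U c s t y = s • (G U (s * √(1 - t ^ 2)) (c + (s * t) • y) -
      G U (s * √(1 - t ^ 2)) (c + (s * t) • x)) := by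
    unfold vY
    rw [smul_sub]
    abel
  have ht' : |t| ≤ 1 := abs_le.2 ⟨ht.1.le, ht.2.le⟩
  rw [h1, norm_smul, Real.norm_of_nonneg hs.le]
  have h2 := gr_lip hU (s * √(1 - t ^ 2)) (c + (s * t) • y) (c + (s * t) • x)
  have h3 : ‖c + (s * t) • y - (c + (s * t) • x)‖ ≤ s * ‖x - y‖ := by
    rw [add_sub_add_left_eq_sub, ← smul_sub, norm_smul, norm_mul, Real.norm_of_nonneg hs.le,
      Real.norm_eq_abs, norm_sub_rev]
    have := mul_le_mul_of_nonneg_left ht' hs.le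
    nlinarith [norm_nonneg (x - y)]
  calc s * _ ≤ s * (h * (s * ‖x - y‖)) := by
        refine mul_le_mul_of_nonneg_left (h2.trans ?_) hs.le
        exact mul_le_mul_of_nonneg_left h3 hU.hh
    _ = _ := by ring

theorem goodOn_vY (hU : PotP h U) (c : V) {s : ℝ} (hs : 0 < s) :
    GoodOn (vY U c s) (Ioo (-1 : ℝ) 1) :=
  GoodOn.of_lipschitz isOpen_Ioo ordConnected_Ioo
    ((smOn_vY hU c hs).of_le (by exact_mod_cast le_top)) fun _ ht => vY_lip hU c hs ht

/-- The log-density of the law at time `t`. -/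
def lY (U : V → ℝ) (c : V) (s : ℝ) (t : ℝ) (η : V) : ℝ :=
  -(‖η‖ ^ 2 / 2) - Ub U (s * √(1 - t ^ 2)) (c + (s * t) • η)

theorem dvg_vY (hU : PotP h U) (c : V) (s t : ℝ) (η : V) :
    dvg (vY U c s t) η = -(s ^ 2 * t * dvg (G U (s * √(1 - t ^ 2))) (c + (s * t) • η)) := by
  unfold dvg
  have h1 : HasFDerivAt (fun η : V => c + (s * t) • η) ((s * t) • ContinuousLinearMap.id ℝ V) η :=
    ((hasFDerivAt_id η).const_smul (s * t)).const_add c
  have h2 := ((hasFDerivAt_gr_x hU (s * √(1 - t ^ 2)) (c + (s * t) • η)).comp η h1)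
  have h3 : HasFDerivAt (vY U c s t) (-(s ^ 2 * t) • DGr U (s * √(1 - t ^ 2), c + (s * t) • η)) η := by
    refine ((h2.const_smul s).neg).congr_fderiv ?_
    ext v
    simp [smul_smul]
    congr 1
    ring
  rw [h3.fderiv, (hasFDerivAt_gr_x hU (s * √(1 - t ^ 2)) (c + (s * t) • η)).fderiv]
  rw [show ((-(s ^ 2 * t) • DGr U (s * √(1 - t ^ 2), c + (s * t) • η) : V →L[ℝ] V) : V →ₗ[ℝ] V) =
    (-(s ^ 2 * t)) • ((DGr U (s * √(1 - t ^ 2), c + (s * t) • η) : V →L[ℝ] V) : V →ₗ[ℝ] V) from rfl,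
    map_smul, smul_eq_mul]
  ring

theorem lY_continuity (hU : PotP h U) (c : V) {s : ℝ} {t : ℝ} (ht : t ∈ Ioo (-1 : ℝ) 1)
    (η : V) :
    fderiv ℝ (fun p : ℝ × V => lY U c s p.1 p.2) (t, η) (1, vY U c s t η) +
      dvg (vY U c s t) η = 0 := by
  have hd : HasFDerivAt (fun p : ℝ × V => Ub U p.1 p.2) _ (thY c s (t, η)) :=
    ((contDiff_ub hU).differentiable one_ne_zero _).hasFDerivAt
  have h1 := hd.comp (t, η) (hasFDerivAt_thY c s ht η)
  have h2 : HasFDerivAt (fun p : ℝ × V => ‖p.2‖ ^ 2 / 2)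
      ((innerSL ℝ η).comp (ContinuousLinearMap.snd ℝ ℝ V)) (t, η) := by
    have h3 : HasFDerivAt (fun η : V => ‖η‖ ^ 2 / 2) (innerSL ℝ η) η := by
      have h2 := ((hasStrictFDerivAt_norm_sq η).hasFDerivAt).mul_const (2 : ℝ)⁻¹
      refine (h2.congr_fderiv ?_).congr_of_eventuallyEq (Eventually.of_forall fun x => ?_)
      · ext v
        simp
      · simp only
        ring
    exact h3.comp (t, η) (hasFDerivAt_snd (𝕜 := ℝ) (p := (t, η)))
  have h4 : HasFDerivAt (fun p : ℝ × V => lY U c s p.1 p.2) _ (t, η) := (h2.neg).sub h1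
  rw [h4.fderiv, dvg_vY hU]
  simp only [_root_.sub_apply, _root_.neg_apply, ContinuousLinearMap.comp_apply, thY'_apply]
  rw [show thY c s (t, η) = (s * √(1 - t ^ 2), c + (s * t) • η) from rfl, ub_fderiv hU]
  set g := G U (s * √(1 - t ^ 2)) (c + (s * t) • η) with hg
  set D := dvg (G U (s * √(1 - t ^ 2))) (c + (s * t) • η)
  have hv : vY U c s t η = -(s • g) := rfl
  have hκ : √(1 - t ^ 2) ≠ 0 := (Real.sqrt_pos.2 (one_sub_sq_pos ht)).ne'
  have hκ2 : √(1 - t ^ 2) * √(1 - t ^ 2) = 1 - t ^ 2 :=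
    Real.mul_self_sqrt (one_sub_sq_pos ht).le
  rw [hv]
  simp only [ContinuousLinearMap.coe_snd', innerSL_apply_apply, inner_neg_right, inner_smul_right,
    inner_add_right, one_smul, smul_neg, real_inner_self_eq_norm_sq, mul_one]
  rw [real_inner_comm g η]
  field_simp
  ring

/-- **Law of the uncoupled flow.** -/
theorem map_evol_vY (hU : PotP h U) (c : V) {s : ℝ} (hs : 0 < s) {t : ℝ}
    (ht : t ∈ Ioo (-1 : ℝ) 1) :
    (stdGaussian V).map (evol (vY U c s) (Ioo (-1 : ℝ) 1) 0 t) =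
      (stdGaussian V).withDensity fun η => ENNReal.ofReal
        (rexp (Ub U s c - Ub U (s * √(1 - t ^ 2)) (c + (s * t) • η))) := by
  have hC : ContDiffOn ℝ 1 (fun p : ℝ × V => lY U c s p.1 p.2) (Ioo (-1 : ℝ) 1 ×ˢ univ) := by
    refine ContDiffOn.sub ?_ ((smOn_Ub hU c hs).of_le (by exact_mod_cast le_top))
    exact (((contDiff_norm_sq ℝ).comp contDiff_snd).div_const 2).neg.contDiffOn
  have h0 : (0 : ℝ) ∈ Ioo (-1 : ℝ) 1 := ⟨by norm_num, by norm_num⟩
  set K : ℝ := (2 * π) ^ (-(Module.finrank ℝ V : ℝ) / 2) with hK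
  have hK0 : 0 < K := by positivity
  have key := (goodOn_vY hU c hs).map_evol_exp (volume : Measure V)
    (l := fun t η => lY U c s t η + (Real.log K + Ub U s c)) (hC.add contDiffOn_const) (fun t ht η => ?_)
    h0 ht
  · have e1 : (volume : Measure V).withDensity (fun x => ENNReal.ofReal
        (rexp (lY U c s 0 x + (Real.log K + Ub U s c)))) = stdGaussian V := by
      rw [stdGaussian_eq_withDensity]
      congr 1
      ext x
      congr 1
      rw [gdens, ← hK, exp_add, exp_add, Real.exp_log hK0]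
      have : rexp (lY U c s 0 x) = rexp (-‖x‖ ^ 2 / 2) * rexp (-Ub U s c) := by
        rw [← exp_add, lY]
        congr 1
        simp
        ring
      rw [this]
      have e : rexp (-Ub U s c) * rexp (Ub U s c) = 1 := by rw [← exp_add]; simp
      calc _ = K * rexp (-‖x‖ ^ 2 / 2) * (rexp (-Ub U s c) * rexp (Ub U s c)) := by ring
        _ = _ := by rw [e, mul_one]
    rw [e1] at key
    rw [key, stdGaussian_eq_withDensity, ← withDensity_mul]
    · congr 1
      ext x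
      rw [Pi.mul_apply, ← ENNReal.ofReal_mul (gdens_pos x).le]
      congr 1
      rw [gdens, ← hK, exp_add, exp_add, Real.exp_log hK0, lY, exp_sub, exp_sub]
      rw [show -(‖x‖ ^ 2 / 2) = -‖x‖ ^ 2 / 2 by ring]
      ring
    · exact continuous_gdens.measurable.ennreal_ofReal
    · refine Measurable.ennreal_ofReal (Continuous.measurable ?_)
      refine Real.continuous_exp.comp (continuous_const.sub ?_)
      exact (contDiff_ub hU).continuous.comp
        (f := fun η : V => (s * √(1 - t ^ 2), c + (s * t) • η)) (by fun_prop)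
  · have h1 := lY_continuity hU c (s := s) ht η
    rw [← h1]
    congr 2
    have : (fun p : ℝ × V => lY U c s p.1 p.2 + (Real.log K + Ub U s c)) =
      fun p : ℝ × V => (fun p : ℝ × V => lY U c s p.1 p.2) p + (Real.log K + Ub U s c) := rfl
    rw [this, fderiv_add_const]

end Crest.Agent.R285
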