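import Crest.Agent.R285.DLip
import Crest.Agent.R285.Defs
import Crest.Agent.R285.GaussLaws

-- ▼ part R285/DLb
section

/-!
Row 285 (S0430): dual-Lipschitz closeness with BOUNDED 1-Lipschitz test functions.

`DLb P Q e` : `|∫ f dP - ∫ f dQ| ≤ e` for every bounded 1-Lipschitz `f`.  No moments are needed,
so that integrability of outputs of programs never has to be proved.  `DLb.toDLip` converts to
`DLip` as soon as `Q` has a first moment.
-/

set_option autoImplicit false
set_option linter.unusedSectionVars false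

open MeasureTheory Set Filter Topology
open scoped ENNReal NNReal

noncomputable section

namespace Crest.Agent.R285

/-- Dual bounded-Lipschitz closeness. -/
def DLb {X : Type} [PseudoMetricSpace X] [MeasurableSpace X] (P Q : Measure X) (e : ℝ) : Prop :=
  ∀ f : X → ℝ, LipschitzWith 1 f → (∃ M, ∀ x, |f x| ≤ M) → |∫ x, f x ∂P - ∫ x, f x ∂Q| ≤ e

section Basic

variable {X Y : Type} [PseudoMetricSpace X] [MeasurableSpace X]
  [PseudoMetricSpace Y] [MeasurableSpace Y]
variable {P Q S : Measure X} {e e' : ℝ}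

namespace DLb

theorem nonneg (h : DLb P Q e) : 0 ≤ e := by
  have := h (fun _ => 0) ((LipschitzWith.const (0 : ℝ)).weaken zero_le_one) ⟨0, by simp⟩
  simpa using this

theorem symm (h : DLb P Q e) : DLb Q P e := fun f hf hb => by
  rw [abs_sub_comm]; exact h f hf hb

theorem mono (h : DLb P Q e) (he : e ≤ e') : DLb P Q e' := fun f hf hb => (h f hf hb).trans he

theorem refl (P : Measure X) : DLb P P 0 := fun f _ _ => by simp

theorem of_eq (h : P = Q) (he : 0 ≤ e) : DLb P Q e := by
  subst h; exact (refl P).mono he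

theorem trans (h : DLb P Q e) (h' : DLb Q S e') : DLb P S (e + e') := fun f hf hb =>
  (abs_sub_le _ (∫ x, f x ∂Q) _).trans (add_le_add (h f hf hb) (h' f hf hb))

/-- Test functions with any Lipschitz constant. -/
theorem lip (h : DLb P Q e) {K : ℝ≥0} {f : X → ℝ} (hf : LipschitzWith K f)
    (hb : ∃ M, ∀ x, |f x| ≤ M) :
    |∫ x, f x ∂P - ∫ x, f x ∂Q| ≤ K * e := by
  obtain ⟨M, hM⟩ := hb
  rcases eq_or_ne K 0 with hK | hK
  · subst hK
    -- f is constant along distances 0; use scaled tests `n • f`
    have key : ∀ n : ℕ, (n : ℝ) * |∫ x, f x ∂P - ∫ x, f x ∂Q| ≤ e := by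
      intro n
      have hn : LipschitzWith 1 (fun x => (n : ℝ) * f x) := by
        refine LipschitzWith.of_dist_le_mul fun x y => ?_
        have h0 := hf.dist_le_mul x y
        have h1 : f x = f y := by
          rw [← dist_le_zero]; simpa using h0
        rw [h1, dist_self]; positivity
      have h1 := h _ hn ⟨n * M, fun x => by
        rw [abs_mul, Nat.abs_cast]
        exact mul_le_mul_of_nonneg_left (hM x) (Nat.cast_nonneg n)⟩
      rw [integral_const_mul, integral_const_mul, ← mul_sub, abs_mul, Nat.abs_cast] at h1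
      exact h1
    have h0 : |∫ x, f x ∂P - ∫ x, f x ∂Q| ≤ 0 := by
      by_contra hc
      push Not at hc
      obtain ⟨n, hn⟩ := exists_nat_gt (e / |∫ x, f x ∂P - ∫ x, f x ∂Q|)
      rw [div_lt_iff₀ hc] at hn
      exact absurd (key n) (not_le.mpr hn)
    simpa using h0
  · have hK0 : (0 : ℝ) < K := by positivity
    have h1 : LipschitzWith 1 (fun x => (K : ℝ)⁻¹ * f x) := by
      refine LipschitzWith.of_dist_le_mul fun x y => ?_
      have h0 := hf.dist_le_mul x y
      rw [Real.dist_eq] at h0 ⊢
      rw [← mul_sub, abs_mul, abs_of_pos (inv_pos.mpr hK0), inv_mul_le_iff₀ hK0]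
      simpa using h0
    have h2 := h _ h1 ⟨(K : ℝ)⁻¹ * M, fun x => by
      rw [abs_mul, abs_of_pos (inv_pos.mpr hK0)]
      exact mul_le_mul_of_nonneg_left (hM x) (inv_pos.mpr hK0).le⟩
    rw [integral_const_mul, integral_const_mul, ← mul_sub, abs_mul,
      abs_of_pos (inv_pos.mpr hK0), inv_mul_le_iff₀ hK0] at h2
    exact h2

/-- Images under Lipschitz maps. -/
theorem map [OpensMeasurableSpace X] [BorelSpace Y]
    (h : DLb P Q e) {K : ℝ≥0} {g : X → Y}
    (hg : LipschitzWith K g) : DLb (P.map g) (Q.map g) (K * e) := by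
  have hm : Measurable g := hg.continuous.measurable
  intro f hf hb
  obtain ⟨M, hM⟩ := hb
  rw [integral_map hm.aemeasurable hf.continuous.measurable.aestronglyMeasurable,
    integral_map hm.aemeasurable hf.continuous.measurable.aestronglyMeasurable]
  have := h.lip (hf.comp hg) ⟨M, fun x => hM (g x)⟩
  simpa using this

end DLb

/-- Bounded Lipschitz functions are integrable. -/
theorem integrable_of_bdd {X : Type} [PseudoMetricSpace X] [MeasurableSpace X]
    [OpensMeasurableSpace X] {P : Measure X} [IsFiniteMeasure P] {f : X → ℝ} {K : ℝ≥0}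
    (hf : LipschitzWith K f) {M : ℝ} (hM : ∀ x, |f x| ≤ M) : Integrable f P :=
  Integrable.mono' (integrable_const M) hf.continuous.measurable.aestronglyMeasurable
    (Eventually.of_forall fun x => by simpa using hM x)

/-- A pathwise coupling bounds the distance (no integrability of the variables needed). -/
theorem DLb.of_coupling {Ω : Type} [MeasurableSpace Ω] {μ : Measure Ω} [IsFiniteMeasure μ]
    {X : Type} [PseudoMetricSpace X] [MeasurableSpace X] [OpensMeasurableSpace X]
    {F G : Ω → X} (hF : AEMeasurable F μ) (hG : AEMeasurable G μ)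
    (hFG : Integrable (fun ω => dist (F ω) (G ω)) μ) {e : ℝ}
    (he : ∫ ω, dist (F ω) (G ω) ∂μ ≤ e) : DLb (μ.map F) (μ.map G) e := by
  intro f hf hb
  obtain ⟨M, hM⟩ := hb
  rw [integral_map hF hf.continuous.measurable.aestronglyMeasurable,
    integral_map hG hf.continuous.measurable.aestronglyMeasurable]
  have i1 : Integrable (fun ω => f (F ω)) μ :=
    Integrable.mono' (integrable_const M)
      ((hf.continuous.measurable.comp_aemeasurable hF).aestronglyMeasurable)
      (Eventually.of_forall fun x => by simpa using hM _)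
  have i2 : Integrable (fun ω => f (G ω)) μ :=
    Integrable.mono' (integrable_const M)
      ((hf.continuous.measurable.comp_aemeasurable hG).aestronglyMeasurable)
      (Eventually.of_forall fun x => by simpa using hM _)
  rw [← integral_sub i1 i2]
  refine (abs_integral_le_integral_abs).trans (le_trans ?_ he)
  refine integral_mono (i1.sub i2).abs hFG (fun ω => ?_)
  have := hf.dist_le_mul (F ω) (G ω)
  rw [Real.dist_eq] at this
  simpa using this


end Basic

section Hybrid

variable {X : Type} [PseudoMetricSpace X] [MeasurableSpace X] [OpensMeasurableSpace X]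
  [SecondCountableTopology X]

/-- **Hybrid lemma**: replace independent arguments one after the other. -/
theorem DLb.hybrid {m : ℕ} {P Q : Fin m → Measure X} [∀ i, IsProbabilityMeasure (P i)]
    [∀ i, IsProbabilityMeasure (Q i)] {e : Fin m → ℝ} (h : ∀ i, DLb (P i) (Q i) (e i))
    {Φ : (Fin m → X) → ℝ} {L : Fin m → ℝ≥0}
    (hΦ : ∀ x y, |Φ x - Φ y| ≤ ∑ i, L i * dist (x i) (y i)) {M : ℝ} (hM : ∀ x, |Φ x| ≤ M) :
    |∫ x, Φ x ∂(Measure.pi P) - ∫ x, Φ x ∂(Measure.pi Q)| ≤ ∑ i, L i * e i := by
  induction m with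
  | zero =>
    have : Measure.pi P = Measure.pi Q := by
      congr 1
      funext i
      exact i.elim0
    rw [this]
    simp
  | succ m ih =>
    have hcont : Continuous Φ := by
      have hL : LipschitzWith (∑ i, L i) Φ := by
        refine LipschitzWith.of_dist_le_mul fun x y => ?_
        rw [Real.dist_eq]
        refine (hΦ x y).trans ?_
        push_cast
        rw [Finset.sum_mul]
        refine Finset.sum_le_sum fun i _ => ?_
        exact mul_le_mul_of_nonneg_left (dist_le_pi_dist x y i) (L i).2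
      exact hL.continuous
    have hcons : ∀ y : X, Continuous fun x : Fin m → X => (Fin.cons y x : Fin (m + 1) → X) := by
      intro y
      refine continuous_pi fun i => ?_
      refine Fin.cases ?_ (fun j => ?_) i
      · simpa using continuous_const
      · simpa using continuous_apply j
    -- split off the first coordinate
    have key : ∀ (R : Fin (m + 1) → Measure X) [∀ i, IsProbabilityMeasure (R i)],
        ∫ x, Φ x ∂(Measure.pi R)
          = ∫ y, ∫ x, Φ (Fin.cons y x) ∂(Measure.pi fun i : Fin m => R i.succ) ∂(R 0) := by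
      intro R _
      have hmp := (measurePreserving_piFinSuccAbove R 0).symm
      have hint : Integrable Φ (Measure.pi R) :=
        Integrable.mono' (integrable_const M) hcont.measurable.aestronglyMeasurable
          (Eventually.of_forall fun x => by simpa using hM x)
      rw [← hmp.map_eq, integral_map hmp.measurable.aemeasurable
        (by rw [hmp.map_eq]; exact hint.aestronglyMeasurable)]
      have e1 : ∀ z : X × (Fin m → X), Φ ((MeasurableEquiv.piFinSuccAbove (fun _ => X) 0).symm z)
          = Φ (Fin.cons z.1 z.2) := by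
        intro z
        congr 1
        simp [MeasurableEquiv.piFinSuccAbove, Fin.insertNthEquiv]
      simp_rw [e1]
      have hint' : Integrable (fun z : X × (Fin m → X) => Φ (Fin.cons z.1 z.2))
          ((R 0).prod (Measure.pi fun i : Fin m => R (Fin.succAbove 0 i))) := by
        have := hmp.integrable_comp_of_integrable hint
        refine this.congr (Filter.Eventually.of_forall fun z => ?_)
        exact e1 z
      rw [integral_prod _ hint']
      rfl
    rw [key P, key Q]
    set ΨP : X → ℝ := fun y => ∫ x, Φ (Fin.cons y x) ∂(Measure.pi fun i : Fin m => P i.succ)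
    set ΨQ : X → ℝ := fun y => ∫ x, Φ (Fin.cons y x) ∂(Measure.pi fun i : Fin m => Q i.succ)
    have hΦt : ∀ y (x x' : Fin m → X),
        |Φ (Fin.cons y x) - Φ (Fin.cons y x')| ≤ ∑ i, L i.succ * dist (x i) (x' i) := by
      intro y x x'
      have := hΦ (Fin.cons y x) (Fin.cons y x')
      rw [Fin.sum_univ_succ] at this
      simpa using this
    have hΦ0 : ∀ y y' (x : Fin m → X),
        |Φ (Fin.cons y x) - Φ (Fin.cons y' x)| ≤ L 0 * dist y y' := by
      intro y y' x
      have := hΦ (Fin.cons y x) (Fin.cons y' x)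
      rw [Fin.sum_univ_succ] at this
      simpa using this
    have hint : ∀ (R : Fin m → Measure X) [∀ i, IsProbabilityMeasure (R i)] (y : X),
        Integrable (fun x => Φ (Fin.cons y x)) (Measure.pi R) := fun R _ y =>
      Integrable.mono' (integrable_const M)
        ((hcont.comp (hcons y)).measurable.aestronglyMeasurable)
        (Eventually.of_forall fun x => by simpa using hM _)
    have hlip : ∀ (R : Fin m → Measure X) [∀ i, IsProbabilityMeasure (R i)] (y y' : X),
        |∫ x, Φ (Fin.cons y x) ∂(Measure.pi R) - ∫ x, Φ (Fin.cons y' x) ∂(Measure.pi R)|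
          ≤ L 0 * dist y y' := by
      intro R _ y y'
      rw [← integral_sub (hint R y) (hint R y')]
      refine (abs_integral_le_integral_abs).trans ?_
      refine (integral_mono_of_nonneg (Filter.Eventually.of_forall fun ω => abs_nonneg _)
        (integrable_const (L 0 * dist y y')) (Filter.Eventually.of_forall fun x => hΦ0 y y' x)).trans
        ?_
      simp
    have hbd : ∀ (R : Fin m → Measure X) [∀ i, IsProbabilityMeasure (R i)] (y : X),
        |∫ x, Φ (Fin.cons y x) ∂(Measure.pi R)| ≤ M := by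
      intro R _ y
      refine (abs_integral_le_integral_abs).trans ?_
      refine (integral_mono_of_nonneg (Filter.Eventually.of_forall fun ω => abs_nonneg _)
        (integrable_const M) (Filter.Eventually.of_forall fun x => hM _)).trans ?_
      simp
    have hlP : LipschitzWith (L 0) ΨP := LipschitzWith.of_dist_le_mul fun y y' => by
      rw [Real.dist_eq]; exact hlip _ y y'
    have hlQ : LipschitzWith (L 0) ΨQ := LipschitzWith.of_dist_le_mul fun y y' => by
      rw [Real.dist_eq]; exact hlip _ y y'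
    have hd : ∀ y, |ΨP y - ΨQ y| ≤ ∑ i : Fin m, L i.succ * e i.succ := fun y =>
      ih (P := fun i => P i.succ) (Q := fun i => Q i.succ) (e := fun i => e i.succ)
        (fun i => h i.succ) (L := fun i => L i.succ) (hΦt y) (fun x => hM _)
    have iPQ : Integrable ΨP (Q 0) := integrable_of_bdd hlP (hbd _)
    have iQQ : Integrable ΨQ (Q 0) := integrable_of_bdd hlQ (hbd _)
    have s1 : |∫ y, ΨP y ∂(P 0) - ∫ y, ΨP y ∂(Q 0)| ≤ L 0 * e 0 :=
      (h 0).lip hlP ⟨M, hbd _⟩
    have s2 : |∫ y, ΨP y ∂(Q 0) - ∫ y, ΨQ y ∂(Q 0)| ≤ ∑ i : Fin m, L i.succ * e i.succ := by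
      rw [← integral_sub iPQ iQQ]
      refine (abs_integral_le_integral_abs).trans ?_
      refine (integral_mono_of_nonneg (Filter.Eventually.of_forall fun ω => abs_nonneg _)
        (integrable_const (∑ i : Fin m, (L i.succ : ℝ) * e i.succ))
        (Filter.Eventually.of_forall fun y => hd y)).trans ?_
      simp
    rw [Fin.sum_univ_succ]
    have : ∫ y, ΨP y ∂(P 0) - ∫ y, ΨQ y ∂(Q 0)
        = (∫ y, ΨP y ∂(P 0) - ∫ y, ΨP y ∂(Q 0)) + (∫ y, ΨP y ∂(Q 0) - ∫ y, ΨQ y ∂(Q 0)) := by
      ring
    rw [this]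
    exact (abs_add_le _ _).trans (add_le_add s1 s2)


end Hybrid

section ToDLip

variable {X : Type} [NormedAddCommGroup X] [MeasurableSpace X] [BorelSpace X]
  [SecondCountableTopology X]

/-- Truncation of a 1-Lipschitz function. -/
theorem lipschitz_trunc {f : X → ℝ} (hf : LipschitzWith 1 f) (M : ℝ) :
    LipschitzWith 1 (fun x => max (-M) (min (f x) M)) := by
  have h1 : LipschitzWith 1 (fun x => min (f x) M) := hf.min_const M
  have h2 := h1.const_max (-M)
  exact h2

theorem abs_trunc_le {a M : ℝ} (hM : 0 ≤ M) : |max (-M) (min a M)| ≤ M := by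
  rw [abs_le]
  exact ⟨le_max_left _ _, max_le (by linarith) (min_le_right _ _)⟩

theorem abs_trunc_le_abs {a M : ℝ} (hM : 0 ≤ M) : |max (-M) (min a M)| ≤ |a| := by
  rw [abs_le]
  rcases le_total 0 a with h | h
  · rw [abs_of_nonneg h]
    constructor
    · have : 0 ≤ max (-M) (min a M) := le_max_of_le_right (le_min h hM)
      linarith
    · exact max_le (by linarith) (min_le_left _ _)
  · rw [abs_of_nonpos h, neg_neg]
    constructor
    · refine le_max_of_le_right (le_min le_rfl (by linarith))
    · refine max_le (by linarith) ((min_le_left _ _).trans (by linarith))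

theorem tendsto_trunc (a : ℝ) :
    Tendsto (fun n : ℕ => max (-(n : ℝ)) (min a n)) atTop (𝓝 a) := by
  refine tendsto_atTop_of_eventually_const (i₀ := ⌈|a|⌉₊) (fun n hn => ?_)
  have h1 : |a| ≤ n := (Nat.le_ceil _).trans (by exact_mod_cast hn)
  rw [abs_le] at h1
  rw [min_eq_left h1.2, max_eq_right h1.1]

/-- From bounded tests to all 1-Lipschitz tests; `P` gets its first moment for free. -/
theorem DLb.toDLip {P Q : Measure X} [IsProbabilityMeasure P] [IsProbabilityMeasure Q] {e : ℝ}
    (h : DLb P Q e) (hQ : Integrable (fun x => ‖x‖) Q) : DLip P Q e := by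
  have he := h.nonneg
  -- first moment of P
  have hn1 : LipschitzWith 1 (fun x : X => ‖x‖) := lipschitzWith_one_norm
  have hP : Integrable (fun x => ‖x‖) P := by
    have hb : ∀ n : ℕ, ∫ x, max (-(n : ℝ)) (min ‖x‖ n) ∂P ≤ ∫ x, ‖x‖ ∂Q + e := by
      intro n
      have h1 := h _ (lipschitz_trunc hn1 n) ⟨n, fun x => abs_trunc_le (Nat.cast_nonneg n)⟩
      have h2 : ∫ x, max (-(n : ℝ)) (min ‖x‖ n) ∂Q ≤ ∫ x, ‖x‖ ∂Q := by
        refine integral_mono (integrable_of_bdd (lipschitz_trunc hn1 n)
          (fun x => abs_trunc_le (Nat.cast_nonneg n))) hQ (fun x => ?_)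
        exact max_le (by have := norm_nonneg x; have : (0:ℝ) ≤ n := Nat.cast_nonneg n; linarith)
          (min_le_left _ _)
      have h3 := (abs_le.1 h1).2
      linarith
    refine ⟨continuous_norm.aestronglyMeasurable, ?_⟩
    have hlim : ∫⁻ x, ‖(‖x‖ : ℝ)‖ₑ ∂P
        ≤ ENNReal.ofReal (∫ x, ‖x‖ ∂Q + e) := by
      have hmono : ∫⁻ x, ‖(‖x‖ : ℝ)‖ₑ ∂P
          = ∫⁻ x, ⨆ n : ℕ, ENNReal.ofReal (max (-(n : ℝ)) (min ‖x‖ n)) ∂P := by
        refine lintegral_congr fun x => ?_
        rw [← ofReal_norm, norm_norm]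
        apply le_antisymm
        · refine le_iSup_of_le ⌈‖x‖⌉₊ ?_
          refine ENNReal.ofReal_le_ofReal ?_
          exact le_max_of_le_right (le_min le_rfl (Nat.le_ceil _))
        · refine iSup_le fun n => ENNReal.ofReal_le_ofReal ?_
          exact max_le (by have := norm_nonneg x; have : (0:ℝ) ≤ n := Nat.cast_nonneg n; linarith)
            (min_le_left _ _)
      rw [hmono, lintegral_iSup]
      · refine iSup_le fun n => ?_
        rw [← ofReal_integral_eq_lintegral_ofReal]
        · exact ENNReal.ofReal_le_ofReal (hb n)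
        · exact integrable_of_bdd (lipschitz_trunc hn1 n)
            (fun x => abs_trunc_le (Nat.cast_nonneg n))
        · refine Eventually.of_forall fun x => ?_
          exact le_max_of_le_right (le_min (norm_nonneg x) (Nat.cast_nonneg n))
      · intro n
        exact (lipschitz_trunc hn1 n).continuous.measurable.ennreal_ofReal
      · intro n m hnm x
        refine ENNReal.ofReal_le_ofReal ?_
        have hc : (n : ℝ) ≤ m := by exact_mod_cast hnm
        refine max_le ?_ ?_
        · exact le_max_of_le_right (le_min (by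
            have := norm_nonneg x; have : (0:ℝ) ≤ n := Nat.cast_nonneg n; linarith)
            (by have : (0:ℝ) ≤ n := Nat.cast_nonneg n; have : (0:ℝ) ≤ m := Nat.cast_nonneg m
                linarith))
        · exact le_max_of_le_right (min_le_min le_rfl hc)
    exact lt_of_le_of_lt hlim ENNReal.ofReal_lt_top
  refine ⟨hP, hQ, fun f hf => ?_⟩
  have iP : Integrable f P := integrable_of_lipschitz hP hf
  have iQ : Integrable f Q := integrable_of_lipschitz hQ hf
  have lim : ∀ (S : Measure X) [IsProbabilityMeasure S], Integrable f S →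
      Tendsto (fun n : ℕ => ∫ x, max (-(n : ℝ)) (min (f x) n) ∂S) atTop (𝓝 (∫ x, f x ∂S)) := by
    intro S _ hR
    refine tendsto_integral_of_dominated_convergence (fun x => |f x|) ?_ hR.abs ?_ ?_
    · intro n
      exact (lipschitz_trunc hf n).continuous.aestronglyMeasurable
    · intro n
      refine Eventually.of_forall fun x => ?_
      rw [Real.norm_eq_abs]
      exact abs_trunc_le_abs (Nat.cast_nonneg n)
    · exact Eventually.of_forall fun x => tendsto_trunc (f x)
  have l := ((lim P iP).sub (lim Q iQ)).abs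
  refine le_of_tendsto l (Eventually.of_forall fun n => ?_)
  exact h _ (lipschitz_trunc hf n) ⟨n, fun x => abs_trunc_le (Nat.cast_nonneg n)⟩

end ToDLip

end Crest.Agent.R285
end
end

-- ▼ part R285/Draw

set_option autoImplicit false
set_option linter.unusedSectionVars false

open MeasureTheory ProbabilityTheory Set Filter
open Crest.OracleSampling (E Admissible)
open scoped NNReal ENNReal

noncomputable section

namespace Crest.Agent.R285

namespace Comp

/-! ### Laws of product measures -/

theorem pi_map_inj {ι κ : Type} [Fintype ι] [Fintype κ] {X : Type} [MeasurableSpace X]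
    (ν : Measure X) [IsProbabilityMeasure ν] {f : ι → κ} (hf : Function.Injective f) :
    (Measure.pi fun _ : κ => ν).map (fun y i => y (f i)) = Measure.pi fun _ : ι => ν := by
  have h1 : iIndepFun (fun (k : κ) (y : κ → X) => y k) (Measure.pi fun _ : κ => ν) :=
    iIndepFun_pi (X := fun _ x => x) (fun _ => aemeasurable_id)
  have h2 := h1.precomp hf
  rw [iIndepFun_iff_map_fun_eq_pi_map (fun i => (measurable_pi_apply _).aemeasurable)] at h2
  rw [h2]
  congr 1
  funext i
  exact (measurePreserving_eval (fun _ : κ => ν) (f i)).map_eq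

theorem pi_zip {ι : Type} [Fintype ι] {X Y : ι → Type} [∀ i, MeasurableSpace (X i)]
    [∀ i, MeasurableSpace (Y i)] (A : ∀ i, Measure (X i)) (B : ∀ i, Measure (Y i))
    [∀ i, IsProbabilityMeasure (A i)] [∀ i, IsProbabilityMeasure (B i)] :
    ((Measure.pi A).prod (Measure.pi B)).map (fun z i => (z.1 i, z.2 i))
      = Measure.pi fun i => (A i).prod (B i) := by
  symm
  refine Measure.pi_eq_generateFrom
    (C := fun i => image2 (· ×ˢ ·) {s : Set (X i) | MeasurableSet s} {t : Set (Y i) | MeasurableSet t})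
    (fun i => generateFrom_prod) (fun i => isPiSystem_prod)
    (fun i => (A i).toFiniteSpanningSetsIn.prod (B i).toFiniteSpanningSetsIn) ?_
  intro s hs
  choose u hu v hv huv using hs
  have hs' : s = fun i => u i ×ˢ v i := by
    funext i
    exact (huv i).symm
  subst hs'
  rw [Measure.map_apply (by fun_prop) (MeasurableSet.univ_pi fun i => (hu i).prod (hv i))]
  have : (fun (z : (∀ i, X i) × ∀ i, Y i) i => (z.1 i, z.2 i)) ⁻¹' (univ.pi fun i => u i ×ˢ v i)
      = (univ.pi u) ×ˢ (univ.pi v) := by
    ext z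
    simp only [mem_preimage, Set.mem_pi, mem_univ, forall_true_left, mem_prod]
    exact forall_and
  rw [this, Measure.prod_prod, Measure.pi_pi, Measure.pi_pi, ← Finset.prod_mul_distrib]
  refine Finset.prod_congr rfl fun i _ => ?_
  rw [Measure.prod_prod]

theorem pi_curry {ι : Type} [Fintype ι] {K : ι → Type} [∀ i, Fintype (K i)] {X : Type}
    [MeasurableSpace X] (ν : Measure X) [IsProbabilityMeasure ν] :
    (Measure.pi fun _ : (i : ι) × K i => ν).map (fun y i k => y ⟨i, k⟩)
      = Measure.pi fun i => Measure.pi fun _ : K i => ν := by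
  have h := Measure.infinitePi_map_piCurry (ι := ι) (κ := K) (X := fun _ _ => X)
    (fun _ _ => ν)
  rw [Measure.infinitePi_eq_pi] at h
  have h2 : (fun i : ι => Measure.infinitePi fun _ : K i => ν)
      = fun i => Measure.pi fun _ : K i => ν := by
    funext i
    rw [Measure.infinitePi_eq_pi]
  simp only [h2] at h
  rw [Measure.infinitePi_eq_pi] at h
  exact h


/-- Replacing independent arguments, general finite index type. -/
theorem hybridF {X : Type} [PseudoMetricSpace X] [MeasurableSpace X] [OpensMeasurableSpace X]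
    [SecondCountableTopology X] {ι : Type} [Fintype ι] {P Q : ι → Measure X}
    [∀ i, IsProbabilityMeasure (P i)]
    [∀ i, IsProbabilityMeasure (Q i)] {e : ι → ℝ} (h : ∀ i, DLb (P i) (Q i) (e i))
    {Φ : (ι → X) → ℝ} {L : ι → ℝ≥0}
    (hΦ : ∀ x y, |Φ x - Φ y| ≤ ∑ i, L i * dist (x i) (y i)) {M : ℝ} (hM : ∀ x, |Φ x| ≤ M) :
    |∫ x, Φ x ∂(Measure.pi P) - ∫ x, Φ x ∂(Measure.pi Q)| ≤ ∑ i, L i * e i := by
  let f : Fin (Fintype.card ι) ≃ ι := (Fintype.equivFin ι).symm
  have hf : ∀ x : Fin (Fintype.card ι) → X,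
      MeasurableEquiv.piCongrLeft (fun _ => X) f x = fun i => x (f.symm i) := by
    intro x
    funext i
    obtain ⟨k, rfl⟩ := f.surjective i
    rw [MeasurableEquiv.coe_piCongrLeft, Equiv.piCongrLeft_apply_apply, Equiv.symm_apply_apply]
  have key : ∀ (R : ι → Measure X) [∀ i, IsProbabilityMeasure (R i)],
      ∫ x, Φ x ∂(Measure.pi R)
        = ∫ x, Φ (fun i => x (f.symm i)) ∂(Measure.pi fun k => R (f k)) := by
    intro R _
    have := (measurePreserving_piCongrLeft (α := fun _ => X) R f).integral_comp'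
      (g := Φ)
    rw [← this]
    refine integral_congr_ae (Eventually.of_forall fun x => ?_)
    exact congrArg Φ (hf x)
  rw [key P, key Q]
  refine (DLb.hybrid (P := fun k => P (f k)) (Q := fun k => Q (f k)) (e := fun k => e (f k))
    (fun k => h (f k)) (Φ := fun x => Φ (fun i => x (f.symm i))) (L := fun k => L (f k))
    (fun x y => ?_) (M := M) (fun x => hM _)).trans ?_
  · refine (hΦ _ _).trans (le_of_eq ?_)
    rw [← Equiv.sum_comp f]
    simp only [Equiv.symm_apply_apply]
  · exact (Equiv.sum_comp f (fun i => (L i : ℝ) * e i)).le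

/-! ### Queries -/

section Q

variable {d : ℕ} {Ω β : Type} [MeasurableSpace Ω] [MeasurableSpace β]

theorem measurable_oracle {V : E d → ℝ} (hV : Admissible d V) :
    Measurable (Crest.OracleSampling.oracle V) := by
  have h1 : ContDiff ℝ 2 V := hV.1
  have h2 : Continuous (gradient V) := by
    have h3 : Continuous (fderiv ℝ V) := h1.continuous_fderiv (by norm_num)
    exact (InnerProductSpace.toDual ℝ (E d)).symm.continuous.comp h3
  exact (h1.continuous.prodMk h2).measurable

theorem isQ_piFin {n : ℕ} {q : Fin n → ℕ} {f : Fin n → (E d → ℝ) → Ω → β}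
    (hf : ∀ i, IsQ (q i) (f i)) : IsQ (∑ i, q i) (fun V ω => fun i => f i V ω) := by
  induction n with
  | zero =>
    have : IsQ (d := d) 0 (fun _ (_ : Ω) => (Fin.elim0 : Fin 0 → β)) := IsQ.const measurable_const
    rw [Fin.sum_univ_zero]
    refine this.congr (fun V ω => ?_)
    funext i
    exact i.elim0
  | succ n ih =>
    have h1 := ih (q := fun i => q (Fin.castSucc i)) (f := fun i => f (Fin.castSucc i))
      (fun i => hf _)
    have h2 := h1.pair (hf (Fin.last n))
    rw [← Fin.sum_univ_castSucc] at h2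
    have hm : Measurable fun p : Ω × ((Fin n → β) × β) => (Fin.snoc p.2.1 p.2.2 : Fin (n+1) → β) := by
      refine measurable_pi_lambda _ fun i => ?_
      refine Fin.lastCases ?_ (fun i => ?_) i
      · simp only [Fin.snoc_last]; exact measurable_snd.comp measurable_snd
      · simp only [Fin.snoc_castSucc]
        exact (measurable_pi_apply i).comp (measurable_fst.comp measurable_snd)
    refine (h2.map hm).congr (fun V ω => ?_)
    funext i
    refine Fin.lastCases ?_ (fun i => ?_) i
    · simp only [Fin.snoc_last]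
    · simp only [Fin.snoc_castSucc]

theorem isQ_piF {ι : Type} [Fintype ι] {q : ι → ℕ} {f : ι → (E d → ℝ) → Ω → β}
    (hf : ∀ i, IsQ (q i) (f i)) : IsQ (∑ i, q i) (fun V ω => fun i => f i V ω) := by
  let g : Fin (Fintype.card ι) ≃ ι := (Fintype.equivFin ι).symm
  have h := isQ_piFin (q := fun k => q (g k)) (f := fun k => f (g k)) (fun k => hf (g k))
  rw [Equiv.sum_comp g q] at h
  have hm : Measurable fun p : Ω × (Fin (Fintype.card ι) → β) => fun i : ι => p.2 (g.symm i) := by
    fun_prop
  refine (h.map hm).congr fun V ω => ?_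
  funext i
  simp only [Equiv.apply_symm_apply]

end Q

end Comp

/-! ### The contracts `Con` and `Draw` -/

variable {d : ℕ}

/-- Contract of a robust procedure: from `N` independent draws of `N(c, rin²)` around a hidden
centre `c` (and its own seed) it produces, with `q` queries, a point whose law is within
`D (√d + |c|)` of the target law `T V c`; it is pathwise `L`-Lipschitz in the draws. -/
def Con (rin : ℝ) (N q : ℕ) (L : ℝ≥0) (T : (E d → ℝ) → E d → Measure (E d)) (D : ℝ) : Prop :=
  ∃ (Ω : Type) (_ : MeasurableSpace Ω) (μ : Measure Ω) (_ : IsProbabilityMeasure μ)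
    (f : (E d → ℝ) → (Fin N → E d) × Ω → E d), IsQ q f ∧ ∀ V, Admissible d V →
      (∀ ω, LipschitzWith L fun x => f V (x, ω)) ∧
      ∀ c, DLb (((Measure.pi fun _ : Fin N => gN c rin).prod μ).map (f V)) (T V c)
        (D * (√(d : ℝ) + ‖c‖))

/-- A semantic value `v V c p` (a function of the hidden centre `c` and of the visible persistent
data `p`) that is accessible through fresh draws of `N(v, r²)`. -/
def Draw {P : Type} [PseudoMetricSpace P] [MeasurableSpace P] (rc : ℝ) (N q : ℕ) (L : ℝ≥0)
    (r : ℝ) (v : (E d → ℝ) → E d → P → E d) (err : E d → P → ℝ) : Prop :=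
  ∃ (Ω : Type) (_ : MeasurableSpace Ω) (μ : Measure Ω) (_ : IsProbabilityMeasure μ)
    (f : (E d → ℝ) → (P × (Fin N → E d)) × Ω → E d), IsQ q f ∧ ∀ V, Admissible d V →
      (∀ ω, LipschitzWith L fun y => f V (y, ω)) ∧
      ∀ c p, DLb (((Measure.pi fun _ : Fin N => gN c rc).prod μ).map
        fun y => f V ((p, y.1), y.2)) (gN (v V c p) r) (err c p)

/-! ### General procedures -/

/-- A general procedure with a hidden centre `c` (accessible through the independent draws of
`N(c, rc²)` indexed by `ι`), visible data `p : P` and output in a metric space `X`. -/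
def GD {P X : Type} [PseudoMetricSpace P] [MeasurableSpace P] [PseudoMetricSpace X]
    [MeasurableSpace X] (ι : Type) [Fintype ι] (rc : ℝ) (q : ℕ) (L : ℝ≥0)
    (T : (E d → ℝ) → E d → P → Measure X) (err : (E d → ℝ) → E d → P → ℝ) : Prop :=
  ∃ (Ω : Type) (_ : MeasurableSpace Ω) (μ : Measure Ω) (_ : IsProbabilityMeasure μ)
    (f : (E d → ℝ) → (P × (ι → E d)) × Ω → X), IsQ q f ∧ ∀ V, Admissible d V →
      (∀ ω, LipschitzWith L fun y => f V (y, ω)) ∧
      ∀ c p, DLb (((Measure.pi fun _ : ι => gN c rc).prod μ).map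
        fun y => f V ((p, y.1), y.2)) (T V c p) (err V c p)

open Crest.Agent.R285.Comp

variable {P P' X Y : Type} [PseudoMetricSpace P] [MeasurableSpace P]
  [PseudoMetricSpace P'] [MeasurableSpace P']
  [PseudoMetricSpace X] [MeasurableSpace X] [PseudoMetricSpace Y] [MeasurableSpace Y]
  {ι κ : Type} [Fintype ι] [Fintype κ] {rc : ℝ} {q q' : ℕ} {L L' : ℝ≥0}


/-- Change of the target law. -/
theorem GD.retarget {T T' : (E d → ℝ) → E d → P → Measure X}
    {err err' : (E d → ℝ) → E d → P → ℝ}
    (h : GD ι rc q L T err)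
    (h' : ∀ V, Admissible d V → ∀ c p, DLb (T V c p) (T' V c p) (err' V c p)) :
    GD ι rc q L T' (fun V c p => err V c p + err' V c p) := by
  obtain ⟨Ω, mΩ, μ, hμ, f, hf, H⟩ := h
  exact ⟨Ω, mΩ, μ, hμ, f, hf, fun V hV => ⟨(H V hV).1, fun c p =>
    ((H V hV).2 c p).trans (h' V hV c p)⟩⟩

/-- Monotonicity. -/
theorem GD.mono {T : (E d → ℝ) → E d → P → Measure X} {err err' : (E d → ℝ) → E d → P → ℝ}
    (h : GD ι rc q L T err) (hq : q ≤ q') (hL : L ≤ L')
    (he : ∀ V, Admissible d V → ∀ c p, err V c p ≤ err' V c p) : GD ι rc q' L' T err' := by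
  obtain ⟨Ω, mΩ, μ, hμ, f, hf, H⟩ := h
  exact ⟨Ω, mΩ, μ, hμ, f, hf.mono hq, fun V hV => ⟨fun ω => ((H V hV).1 ω).weaken hL, fun c p =>
    ((H V hV).2 c p).mono (he V hV c p)⟩⟩

/-- The target only matters for admissible potentials. -/
theorem GD.congr {T T' : (E d → ℝ) → E d → P → Measure X}
    {err : (E d → ℝ) → E d → P → ℝ}
    (h : GD ι rc q L T err) (h' : ∀ V, Admissible d V → ∀ c p, T V c p = T' V c p) :
    GD ι rc q L T' err := by
  obtain ⟨Ω, mΩ, μ, hμ, f, hf, H⟩ := h
  exact ⟨Ω, mΩ, μ, hμ, f, hf, fun V hV => ⟨(H V hV).1, fun c p => by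
    rw [← h' V hV c p]; exact (H V hV).2 c p⟩⟩

/-- Reindexing of the hidden draws; using only part of them. -/
theorem GD.reindex {T : (E d → ℝ) → E d → P → Measure X} {err : (E d → ℝ) → E d → P → ℝ}
    (h : GD ι rc q L T err) {g : ι → κ} (hg : Function.Injective g) : GD κ rc q L T err := by
  obtain ⟨Ω, mΩ, μ, hμ, f, hf, H⟩ := h
  have hm : Measurable fun z : (P × (κ → E d)) × Ω => ((z.1.1, fun i => z.1.2 (g i)), z.2) := by
    fun_prop
  refine ⟨Ω, mΩ, μ, hμ, fun V z => f V ((z.1.1, fun i => z.1.2 (g i)), z.2), hf.comap hm,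
    fun V hV => ⟨fun ω => ?_, fun c p => ?_⟩⟩
  · have h1 : LipschitzWith 1 fun y : P × (κ → E d) => (y.1, fun i => y.2 (g i)) := by
      refine LipschitzWith.of_dist_le_mul fun x y => ?_
      rw [NNReal.coe_one, one_mul, Prod.dist_eq, Prod.dist_eq]
      refine max_le_max le_rfl ?_
      rw [dist_pi_le_iff dist_nonneg]
      exact fun i => dist_le_pi_dist x.2 y.2 (g i)
    have h2 := ((H V hV).1 ω).comp h1
    rw [mul_one] at h2
    exact h2
  · have hfm : Measurable (f V) := hf.measurable (measurable_oracle hV)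
    have e1 : ((Measure.pi fun _ : κ => gN c rc).prod μ).map
        (fun y => f V ((p, fun i => y.1 (g i)), y.2))
        = ((Measure.pi fun _ : ι => gN c rc).prod μ).map fun y => f V ((p, y.1), y.2) := by
      have e2 : (Measure.pi fun _ : ι => gN c rc).prod μ
          = ((Measure.pi fun _ : κ => gN c rc).prod μ).map
            (Prod.map (fun y i => y (g i)) id) := by
        rw [← Measure.map_prod_map _ _ (by fun_prop) measurable_id, pi_map_inj _ hg,
          Measure.map_id]
      rw [e2, Measure.map_map (by fun_prop) (by fun_prop)]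
      rfl
    have := (H V hV).2 c p
    rw [← e1] at this
    exact this

/-- Deterministic functions of the visible data (possibly with queries). -/
theorem GD.det [OpensMeasurableSpace X] {g : (E d → ℝ) → P → X} (hg : IsQ q g)
    (hL : ∀ V, Admissible d V → LipschitzWith L (g V)) :
    GD ι rc q L (fun V _ p => Measure.dirac (g V p)) (fun _ _ _ => 0) := by
  have hm : Measurable fun z : (P × (ι → E d)) × Unit => z.1.1 := by fun_prop
  refine ⟨Unit, inferInstance, Measure.dirac (), inferInstance, fun V z => g V z.1.1,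
    hg.comap hm, fun V hV => ⟨fun ω => ?_, fun c p => ?_⟩⟩
  · have h2 := (hL V hV).comp (LipschitzWith.prod_fst (α := P) (β := ι → E d))
    rw [mul_one] at h2
    exact h2
  · change DLb (Measure.map (fun _ => g V p) _) (Measure.dirac (g V p)) 0
    rw [Measure.map_const, measure_univ, one_smul]
    exact DLb.refl _

/-- The hidden draw itself. -/
theorem GD.hid (i : ι) : GD (P := P) ι rc 0 1 (fun (_ : E d → ℝ) c _ => gN c rc)
    (fun _ _ _ => 0) := by
  have hm : Measurable fun z : (P × (ι → E d)) × Unit => z.1.2 i := by fun_prop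
  refine ⟨Unit, inferInstance, Measure.dirac (), inferInstance, fun V z => z.1.2 i,
    IsQ.const hm, fun V hV => ⟨fun ω => ?_, fun c p => ?_⟩⟩
  · refine LipschitzWith.of_dist_le_mul fun x y => ?_
    rw [NNReal.coe_one, one_mul, Prod.dist_eq]
    exact le_max_of_le_right (dist_le_pi_dist x.2 y.2 i)
  · have e1 : ((Measure.pi fun _ : ι => gN c rc).prod (Measure.dirac ())).map
        (fun y => y.1 i) = gN c rc := by
      have e2 : (fun y : (ι → E d) × Unit => y.1 i) = (fun y => y i) ∘ Prod.fst := rfl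
      rw [e2, ← Measure.map_map (by fun_prop) (by fun_prop), Measure.map_fst_prod]
      simp only [measure_univ, one_smul]
      exact (measurePreserving_eval (fun _ : ι => gN c rc) i).map_eq
    rw [e1]
    exact DLb.refl _

/-- Change of the visible data. -/
theorem GD.comap {T : (E d → ℝ) → E d → P → Measure X} {err : (E d → ℝ) → E d → P → ℝ}
    (h : GD ι rc q L T err) {g : P' → P} (hg : Measurable g) {K : ℝ≥0} (hK : LipschitzWith K g) :
    GD ι rc q (L * max K 1) (fun V c p => T V c (g p)) (fun V c p => err V c (g p)) := by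
  obtain ⟨Ω, mΩ, μ, hμ, f, hf, H⟩ := h
  have hm : Measurable fun z : (P' × (ι → E d)) × Ω => ((g z.1.1, z.1.2), z.2) := by
    fun_prop
  refine ⟨Ω, mΩ, μ, hμ, fun V z => f V ((g z.1.1, z.1.2), z.2), hf.comap hm,
    fun V hV => ⟨fun ω => ?_, fun c p => (H V hV).2 c (g p)⟩⟩
  have h1 : LipschitzWith (max K 1) fun y : P' × (ι → E d) => (g y.1, y.2) := by
    have := (hK.comp (LipschitzWith.prod_fst (α := P') (β := ι → E d))).prodMk
      (LipschitzWith.prod_snd (α := P') (β := ι → E d))
    simpa using this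
  exact ((H V hV).1 ω).comp h1

/-- The common part: the law of an output `F (z, w)` where `z` is computed with law close to
`A'` and `w` is a fresh seed. -/
theorem law_close {Z W : Type} [MeasurableSpace Z] [MeasurableSpace W] [OpensMeasurableSpace X]
    {A A' : Measure Z} {B : Measure W} [IsProbabilityMeasure A] [IsProbabilityMeasure A']
    [IsProbabilityMeasure B] {F : Z × W → X} (hF : Measurable F) {e : ℝ}
    (h : ∀ φ : X → ℝ, LipschitzWith 1 φ → (∃ M, ∀ x, |φ x| ≤ M) →
      |∫ z, (∫ w, φ (F (z, w)) ∂B) ∂A - ∫ z, (∫ w, φ (F (z, w)) ∂B) ∂A'| ≤ e) :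
    DLb ((A.prod B).map F) ((A'.prod B).map F) e := by
  intro φ hφ hb
  obtain ⟨M, hM⟩ := hb
  have hφm := hφ.continuous.measurable
  rw [integral_map hF.aemeasurable hφm.aestronglyMeasurable,
    integral_map hF.aemeasurable hφm.aestronglyMeasurable]
  have key : ∀ (S : Measure Z) [IsProbabilityMeasure S],
      ∫ z, φ (F z) ∂(S.prod B) = ∫ z, (∫ w, φ (F (z, w)) ∂B) ∂S := by
    intro S _
    refine integral_prod (fun z => φ (F z)) ?_
    exact Integrable.mono' (integrable_const M) (hφm.comp hF).aestronglyMeasurable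
      (Eventually.of_forall fun x => by simpa using hM _)
  rw [key A, key A']
  exact h φ hφ ⟨M, hM⟩

theorem prod4 {A B C D : Type} [MeasurableSpace A] [MeasurableSpace B] [MeasurableSpace C]
    [MeasurableSpace D] (α : Measure A) (β : Measure B) (γ : Measure C) (δ : Measure D)
    [IsProbabilityMeasure α] [IsProbabilityMeasure β] [IsProbabilityMeasure γ]
    [IsProbabilityMeasure δ] :
    ((α.prod β).prod (γ.prod δ)).map (fun z => ((z.1.1, z.2.1), (z.1.2, z.2.2)))
      = (α.prod γ).prod (β.prod δ) := by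
  symm
  refine Measure.prod_eq_generateFrom
    (C := image2 (· ×ˢ ·) {s : Set A | MeasurableSet s} {t : Set C | MeasurableSet t})
    (D := image2 (· ×ˢ ·) {s : Set B | MeasurableSet s} {t : Set D | MeasurableSet t})
    generateFrom_prod generateFrom_prod isPiSystem_prod isPiSystem_prod
    (α.toFiniteSpanningSetsIn.prod γ.toFiniteSpanningSetsIn)
    (β.toFiniteSpanningSetsIn.prod δ.toFiniteSpanningSetsIn) ?_
  rintro _ ⟨s, hs, t, ht, rfl⟩ _ ⟨u, hu, v, hv, rfl⟩
  rw [Set.mem_ofPred_eq] at hs ht hu hv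
  rw [Measure.map_apply (by fun_prop) ((hs.prod ht).prod (hu.prod hv))]
  have : (fun z : (A × B) × (C × D) => ((z.1.1, z.2.1), (z.1.2, z.2.2))) ⁻¹'
      ((s ×ˢ t) ×ˢ (u ×ˢ v)) = (s ×ˢ u) ×ˢ (t ×ˢ v) := by
    ext z
    simp only [mem_preimage, mem_prod]
    tauto
  rw [this, Measure.prod_prod, Measure.prod_prod, Measure.prod_prod, Measure.prod_prod,
    Measure.prod_prod]
  ring

theorem prod3 {A B C D : Type} [MeasurableSpace A] [MeasurableSpace B] [MeasurableSpace C]
    [MeasurableSpace D] (α : Measure A) (β : Measure B) (γ : Measure C)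
    [IsProbabilityMeasure α] [IsProbabilityMeasure β] [IsProbabilityMeasure γ]
    {F : A × B → D} (hF : Measurable F) :
    (α.prod (β.prod γ)).map (fun z => (F (z.1, z.2.1), z.2.2)) = ((α.prod β).map F).prod γ := by
  have h1 : α.prod (β.prod γ) = ((α.prod β).prod γ).map MeasurableEquiv.prodAssoc :=
    Measure.prodAssoc_prod.symm
  rw [h1, Measure.map_map (by fun_prop) (by fun_prop)]
  have h2 : ((α.prod β).map F).prod γ = ((α.prod β).map F).prod (γ.map id) := by
    rw [Measure.map_id]
  rw [h2, Measure.map_prod_map _ _ hF measurable_id]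
  rfl

/-- **Families**: independent runs of procedures `h j` and post-processing by `g` (which may use
`q'` further queries). -/
theorem GD.pi_post [OpensMeasurableSpace X] [SecondCountableTopology X] [OpensMeasurableSpace Y]
    {J : Type} [Fintype J] {K : J → Type} [∀ j, Fintype (K j)] {qq : J → ℕ} {LL : J → ℝ≥0}
    {T : J → (E d → ℝ) → E d → P → Measure X} {err : J → (E d → ℝ) → E d → P → ℝ}
    (hT : ∀ j V, Admissible d V → ∀ c p, IsProbabilityMeasure (T j V c p))
    (h : ∀ j, GD (K j) rc (qq j) (LL j) (T j) (err j))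
    {g : (E d → ℝ) → P × (J → X) → Y} (hg : IsQ q' g) {a : J → ℝ≥0} {b : ℝ≥0}
    (hgL : ∀ V, Admissible d V → ∀ p p' x x',
      dist (g V (p, x)) (g V (p', x')) ≤ b * dist p p' + ∑ j, a j * dist (x j) (x' j)) :
    GD ((j : J) × K j) rc (∑ j, qq j + q') (b + ∑ j, a j * LL j)
      (fun V c p => (Measure.pi fun j => T j V c p).map fun x => g V (p, x))
      (fun V c p => ∑ j, a j * err j V c p) := by
  choose Ω mΩ μ hμ f hf H using h
  have h1 : IsQ (∑ j, qq j) (fun (V : E d → ℝ) (z : (P × (((j : J) × K j) → E d)) × (∀ j, Ω j)) =>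
      fun j => f j V ((z.1.1, fun k => z.1.2 ⟨j, k⟩), z.2 j)) :=
    isQ_piF (fun j => (hf j).comap (by fun_prop))
  have h2 := h1.bind (g := fun V (w : ((P × (((j : J) × K j) → E d)) × (∀ j, Ω j)) × (J → X)) =>
    g V (w.1.1.1, w.2)) (hg.comap (g := fun w : ((P × (((j : J) × K j) → E d)) × (∀ j, Ω j)) ×
      (J → X) => (w.1.1.1, w.2)) (by fun_prop))
  refine ⟨∀ j, Ω j, inferInstance, Measure.pi μ, inferInstance, _, h2, fun V hV =>
    ⟨fun ω => ?_, fun c p => ?_⟩⟩
  · refine LipschitzWith.of_dist_le_mul fun y y' => ?_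
    refine (hgL V hV _ _ _ _).trans ?_
    push_cast
    rw [add_mul, Finset.sum_mul]
    refine add_le_add ?_ (Finset.sum_le_sum fun j _ => ?_)
    · exact mul_le_mul_of_nonneg_left (by rw [Prod.dist_eq]; exact le_max_left _ _) b.2
    · rw [mul_assoc]
      refine mul_le_mul_of_nonneg_left ?_ (a j).2
      refine (((H j V hV).1 (ω j)).dist_le_mul _ _).trans ?_
      refine mul_le_mul_of_nonneg_left ?_ (LL j).2
      rw [Prod.dist_eq, Prod.dist_eq]
      refine max_le_max le_rfl ?_
      rw [dist_pi_le_iff dist_nonneg]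
      exact fun k => dist_le_pi_dist y.2 y'.2 _
  · have hfm : ∀ j, Measurable (f j V) := fun j => (hf j).measurable (measurable_oracle hV)
    have hgm : Measurable (g V) := hg.measurable (measurable_oracle hV)
    let A : ∀ j, Measure X := fun j => ((Measure.pi fun _ : K j => gN c rc).prod (μ j)).map
      fun y => f j V ((p, y.1), y.2)
    have hfm' : ∀ j, Measurable fun y : (K j → E d) × Ω j => f j V ((p, y.1), y.2) := fun j =>
      (hfm j).comp (by fun_prop)
    have hA : ∀ j, IsProbabilityMeasure (A j) := fun j =>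
      Measure.isProbabilityMeasure_map (hfm' j).aemeasurable
    have e1 : ((Measure.pi fun _ : (j : J) × K j => gN c rc).prod (Measure.pi μ)).map
        (fun z j => f j V ((p, fun k => z.1 ⟨j, k⟩), z.2 j)) = Measure.pi A := by
      have e2 : Measure.pi A = (Measure.pi fun j => (Measure.pi fun _ : K j => gN c rc).prod
          (μ j)).map (fun x j => f j V ((p, (x j).1), (x j).2)) :=
        (Measure.pi_map_pi (f := fun j (y : (K j → E d) × Ω j) => f j V ((p, y.1), y.2))
          (fun j => (hfm' j).aemeasurable)).symm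
      rw [e2, ← pi_zip, ← pi_curry (gN c rc)]
      have e3 : (Measure.pi μ) = (Measure.pi μ).map id := by rw [Measure.map_id]
      conv_rhs => rw [e3]
      rw [Measure.map_prod_map _ _ (by fun_prop) measurable_id,
        Measure.map_map (by fun_prop) (by fun_prop), Measure.map_map (by fun_prop) (by fun_prop)]
      rfl
    have e4 : ((Measure.pi fun _ : (j : J) × K j => gN c rc).prod (Measure.pi μ)).map
        (fun z => g V (p, fun j => f j V ((p, fun k => z.1 ⟨j, k⟩), z.2 j)))
        = (Measure.pi A).map fun x => g V (p, x) := by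
      rw [← e1, Measure.map_map (by fun_prop) (by fun_prop)]
      rfl
    change DLb (((Measure.pi fun _ : (j : J) × K j => gN c rc).prod (Measure.pi μ)).map
        (fun z => g V (p, fun j => f j V ((p, fun k => z.1 ⟨j, k⟩), z.2 j)))) _ _
    rw [e4]
    intro φ hφ hb
    obtain ⟨M, hM⟩ := hb
    have hφm := hφ.continuous.measurable
    have hgm' : Measurable fun x : J → X => g V (p, x) := by fun_prop
    rw [integral_map hgm'.aemeasurable hφm.aestronglyMeasurable,
      integral_map hgm'.aemeasurable hφm.aestronglyMeasurable]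
    have hT' : ∀ j, IsProbabilityMeasure (T j V c p) := fun j => hT j V hV c p
    refine hybridF (fun j => (H j V hV).2 c p) (Φ := fun x => φ (g V (p, x))) (L := a)
      (fun x y => ?_) (M := M) (fun x => hM _)
    have h3 := hφ.dist_le_mul (g V (p, x)) (g V (p, y))
    rw [Real.dist_eq, NNReal.coe_one, one_mul] at h3
    refine h3.trans ((hgL V hV _ _ _ _).trans ?_)
    rw [dist_self, mul_zero, zero_add]

/-- **Calls**: a procedure `h'` with hidden centre `c'` is fed with the draws of the semantic
value `v V c p` produced by `h`. (Core version; `b` is the Lipschitz constant of `h'` in the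
visible data and `a` in the draws.) -/
theorem GD.call_core [OpensMeasurableSpace X]
    {Ω' : Type} [MeasurableSpace Ω'] {μ' : Measure Ω'} [IsProbabilityMeasure μ']
    {f' : (E d → ℝ) → (P × (κ → E d)) × Ω' → X} (hf' : IsQ q' f')
    {a b : ℝ≥0} (hL' : ∀ V, Admissible d V → ∀ ω p p' x x',
      dist (f' V ((p, x), ω)) (f' V ((p', x'), ω)) ≤ b * dist p p' + a * dist x x')
    {r : ℝ} {T' : (E d → ℝ) → E d → P → Measure X} {err' : (E d → ℝ) → E d → P → ℝ}
    (H' : ∀ V, Admissible d V → ∀ c p, DLb (((Measure.pi fun _ : κ => gN c r).prod μ').map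
        fun y => f' V ((p, y.1), y.2)) (T' V c p) (err' V c p))
    {v : (E d → ℝ) → E d → P → E d} {err : (E d → ℝ) → E d → P → ℝ}
    (h : GD ι rc q L (fun V c p => gN (v V c p) r) err) :
    GD (κ × ι) rc (Fintype.card κ * q + q') (b + a * L) (fun V c p => T' V (v V c p) p)
      (fun V c p => Fintype.card κ * (a * err V c p) + err' V (v V c p) p) := by
  obtain ⟨Ω, mΩ, μ, hμ, f, hf, H⟩ := h
  have h1 : IsQ (∑ _ : κ, q) (fun (V : E d → ℝ)
      (z : (P × (((_ : κ) × ι) → E d)) × ((κ → Ω) × Ω')) =>
      fun j : κ => f V ((z.1.1, fun k => z.1.2 ⟨j, k⟩), z.2.1 j)) :=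
    isQ_piF (fun j => hf.comap (by fun_prop))
  have h2 := h1.bind (g := fun V (w : ((P × (((_ : κ) × ι) → E d)) × ((κ → Ω) × Ω'))
      × (κ → E d)) => f' V ((w.1.1.1, w.2), w.1.2.2))
      (hf'.comap (g := fun w : ((P × (((_ : κ) × ι) → E d)) × ((κ → Ω) × Ω')) ×
        (κ → E d) => ((w.1.1.1, w.2), w.1.2.2)) (by fun_prop))
  rw [Finset.sum_const, Finset.card_univ, smul_eq_mul] at h2
  have h3 : GD ((_ : κ) × ι) rc (Fintype.card κ * q + q') (b + a * L)
      (fun V c p => T' V (v V c p) p)
      (fun V c p => Fintype.card κ * (a * err V c p) + err' V (v V c p) p) := by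
    refine ⟨(κ → Ω) × Ω', inferInstance, (Measure.pi fun _ => μ).prod μ', inferInstance, _, h2,
      fun V hV => ⟨fun ω => ?_, fun c p => ?_⟩⟩
    · refine LipschitzWith.of_dist_le_mul fun y y' => ?_
      refine (hL' V hV _ _ _ _ _).trans ?_
      push_cast
      rw [add_mul, mul_assoc]
      refine add_le_add ?_ ?_
      · exact mul_le_mul_of_nonneg_left (by rw [Prod.dist_eq]; exact le_max_left _ _) b.2
      · refine mul_le_mul_of_nonneg_left ?_ a.2
        rw [dist_pi_le_iff (by positivity)]
        intro j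
        refine (((H V hV).1 (ω.1 j)).dist_le_mul _ _).trans ?_
        refine mul_le_mul_of_nonneg_left ?_ L.2
        rw [Prod.dist_eq, Prod.dist_eq]
        refine max_le_max le_rfl ?_
        rw [dist_pi_le_iff dist_nonneg]
        exact fun k => dist_le_pi_dist y.2 y'.2 _
    · have hfm : Measurable (f V) := hf.measurable (measurable_oracle hV)
      have hgm : Measurable (f' V) := hf'.measurable (measurable_oracle hV)
      let A : Measure (E d) := ((Measure.pi fun _ : ι => gN c rc).prod μ).map
        fun y => f V ((p, y.1), y.2)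
      have hfm' : Measurable fun y : (ι → E d) × Ω => f V ((p, y.1), y.2) :=
        hfm.comp (by fun_prop)
      have hA : IsProbabilityMeasure A := Measure.isProbabilityMeasure_map hfm'.aemeasurable
      have e1 : ((Measure.pi fun _ : (_ : κ) × ι => gN c rc).prod
          (Measure.pi fun _ : κ => μ)).map
          (fun z j => f V ((p, fun k => z.1 ⟨j, k⟩), z.2 j)) = Measure.pi fun _ : κ => A := by
        have e2 : (Measure.pi fun _ : κ => A)
            = (Measure.pi fun _ : κ => (Measure.pi fun _ : ι => gN c rc).prod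
            μ).map (fun x j => f V ((p, (x j).1), (x j).2)) :=
          (Measure.pi_map_pi (f := fun _ (y : (ι → E d) × Ω) => f V ((p, y.1), y.2))
            (fun j => hfm'.aemeasurable)).symm
        rw [e2, ← pi_zip, ← pi_curry (gN c rc)]
        have e3 : (Measure.pi fun _ : κ => μ) = (Measure.pi fun _ : κ => μ).map id := by
          rw [Measure.map_id]
        conv_rhs => rw [e3]
        rw [Measure.map_prod_map _ _ (by fun_prop) measurable_id,
          Measure.map_map (by fun_prop) (by fun_prop), Measure.map_map (by fun_prop) (by fun_prop)]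
        rfl
      have e4 : ((Measure.pi fun _ : (_ : κ) × ι => gN c rc).prod
          ((Measure.pi fun _ : κ => μ).prod μ')).map
          (fun z => f' V ((p, fun j => f V ((p, fun k => z.1 ⟨j, k⟩), z.2.1 j)), z.2.2))
          = ((Measure.pi fun _ : κ => A).prod μ').map fun x => f' V ((p, x.1), x.2) := by
        rw [← e1, ← prod3 _ _ _ (F := fun z : (((_ : κ) × ι) → E d) × (κ → Ω) =>
            fun j => f V ((p, fun k => z.1 ⟨j, k⟩), z.2 j)) (by fun_prop),
          Measure.map_map (by fun_prop) (by fun_prop)]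
        rfl
      change DLb (((Measure.pi fun _ : (_ : κ) × ι => gN c rc).prod
          ((Measure.pi fun _ : κ => μ).prod μ')).map
          (fun z => f' V ((p, fun j => f V ((p, fun k => z.1 ⟨j, k⟩), z.2.1 j)), z.2.2))) _ _
      rw [e4]
      refine DLb.trans ?_ (H' V hV (v V c p) p)
      refine law_close (F := fun x : (κ → E d) × Ω' => f' V ((p, x.1), x.2)) (by fun_prop) ?_
      intro φ hφ hb
      obtain ⟨M, hM⟩ := hb
      have hφm := hφ.continuous.measurable
      have hi : ∀ x : κ → E d, Integrable (fun w => φ (f' V ((p, x), w))) μ' := fun x =>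
        Integrable.mono' (integrable_const M) (hφm.comp (by fun_prop)).aestronglyMeasurable
          (Eventually.of_forall fun x => by simpa using hM _)
      have := hybridF (fun _ : κ => (H V hV).2 c p)
        (Φ := fun x => ∫ w, φ (f' V ((p, x), w)) ∂μ') (L := fun _ => a)
        (fun x y => ?_) (M := M) (fun x => ?_)
      · refine this.trans (le_of_eq ?_)
        simp
      · rw [← integral_sub (hi x) (hi y)]
        refine (abs_integral_le_integral_abs).trans ?_
        have h5 : ∀ w, |φ (f' V ((p, x), w)) - φ (f' V ((p, y), w))| ≤ a * dist x y := by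
          intro w
          have h3 := hφ.dist_le_mul (f' V ((p, x), w)) (f' V ((p, y), w))
          rw [Real.dist_eq, NNReal.coe_one, one_mul] at h3
          refine h3.trans ((hL' V hV _ _ _ _ _).trans ?_)
          rw [dist_self, mul_zero, zero_add]
        refine (integral_mono ((hi x).sub (hi y)).abs (integrable_const _) h5).trans ?_
        simp only [integral_const, probReal_univ, one_smul]
        rw [← Finset.mul_sum]
        refine mul_le_mul_of_nonneg_left ?_ a.2
        rw [dist_pi_le_iff (Finset.sum_nonneg fun i _ => dist_nonneg)]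
        intro i
        exact Finset.single_le_sum (f := fun i => dist (x i) (y i)) (fun i _ => dist_nonneg)
          (Finset.mem_univ i)
      · refine (abs_integral_le_integral_abs).trans ?_
        refine (integral_mono (hi x).abs (integrable_const M) (fun w => hM _)).trans ?_
        simp
  exact GD.reindex h3 (g := fun s : (_ : κ) × ι => (s.1, s.2))
    (fun s t hst => by
      obtain ⟨s1, s2⟩ := s
      obtain ⟨t1, t2⟩ := t
      simp only [Prod.mk.injEq] at hst
      obtain ⟨rfl, rfl⟩ := hst
      rfl)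

/-- **Calls** of a procedure that may also look at the visible data. -/
theorem GD.call [OpensMeasurableSpace X] {r : ℝ} {T' : (E d → ℝ) → E d → P → Measure X}
    {err' : (E d → ℝ) → E d → P → ℝ} (h' : GD κ r q' L' T' err')
    {v : (E d → ℝ) → E d → P → E d} {err : (E d → ℝ) → E d → P → ℝ}
    (h : GD ι rc q L (fun V c p => gN (v V c p) r) err) :
    GD (κ × ι) rc (Fintype.card κ * q + q') (L' + L' * L) (fun V c p => T' V (v V c p) p)
      (fun V c p => Fintype.card κ * (L' * err V c p) + err' V (v V c p) p) := by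
  obtain ⟨Ω', mΩ', μ', hμ', f', hf', H'⟩ := h'
  refine GD.call_core hf' (fun V hV ω p p' x x' => ?_) (fun V hV => (H' V hV).2) h
  refine (((H' V hV).1 ω).dist_le_mul _ _).trans ?_
  rw [← mul_add]
  refine mul_le_mul_of_nonneg_left ?_ L'.2
  rw [Prod.dist_eq]
  exact max_le (by simp only [le_add_iff_nonneg_right]; exact dist_nonneg)
    (by simp only [le_add_iff_nonneg_left]; exact dist_nonneg)


theorem Comp.sum_draws (c : E d) (rc : ℝ) :
    (Measure.pi fun _ : κ ⊕ ι => gN c rc).map
        (fun y => ((fun k => y (Sum.inl k)), (fun i => y (Sum.inr i))))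
      = (Measure.pi fun _ : κ => gN c rc).prod (Measure.pi fun _ : ι => gN c rc) :=
  (measurePreserving_sumPiEquivProdPi (fun _ : κ ⊕ ι => gN c rc)).map_eq

/-- **Sequential composition**: the output of `h₁` becomes visible and is used by `h₂`. -/
theorem GD.seq [OpensMeasurableSpace X] [OpensMeasurableSpace Y] {q₁ q₂ : ℕ} {L₁ L₂ : ℝ≥0}
    {T₁ : (E d → ℝ) → E d → P → Measure X} {err₁ : (E d → ℝ) → E d → P → ℝ}
    (hT₁ : ∀ V, Admissible d V → ∀ c p, IsProbabilityMeasure (T₁ V c p))
    (h₁ : GD κ rc q₁ L₁ T₁ err₁)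
    {T₂ : (E d → ℝ) → E d → P × X → Measure Y} {err₂ : (E d → ℝ) → E d → P × X → ℝ}
    (h₂ : GD ι rc q₂ L₂ T₂ err₂)
    {T : (E d → ℝ) → E d → P → Measure Y} {e : (E d → ℝ) → E d → P → ℝ}
    (hT : ∀ V, Admissible d V → ∀ c p, ∀ φ : Y → ℝ, LipschitzWith 1 φ → (∃ M, ∀ y, |φ y| ≤ M) →
      Integrable (fun x => ∫ y, φ y ∂(T₂ V c (p, x))) (T₁ V c p) ∧
      ∫ x, (∫ y, φ y ∂(T₂ V c (p, x))) ∂(T₁ V c p) = ∫ y, φ y ∂(T V c p))
    (he : ∀ V, Admissible d V → ∀ c p, Integrable (fun x => err₂ V c (p, x)) (T₁ V c p) ∧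
      ∫ x, err₂ V c (p, x) ∂(T₁ V c p) ≤ e V c p) :
    GD (κ ⊕ ι) rc (q₁ + q₂) (L₂ * max 1 L₁) T (fun V c p => L₂ * err₁ V c p + e V c p) := by
  obtain ⟨Ω₁, mΩ₁, μ₁, hμ₁, f₁, hf₁, H₁⟩ := h₁
  obtain ⟨Ω₂, mΩ₂, μ₂, hμ₂, f₂, hf₂, H₂⟩ := h₂
  have h1 : IsQ q₁ (fun (V : E d → ℝ) (z : (P × ((κ ⊕ ι) → E d)) × (Ω₁ × Ω₂)) =>
      f₁ V ((z.1.1, fun k => z.1.2 (Sum.inl k)), z.2.1)) := hf₁.comap (by fun_prop)
  have h2 := h1.bind (g := fun V (w : ((P × ((κ ⊕ ι) → E d)) × (Ω₁ × Ω₂)) × X) =>
      f₂ V (((w.1.1.1, w.2), fun i => w.1.1.2 (Sum.inr i)), w.1.2.2))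
      (hf₂.comap (g := fun w : ((P × ((κ ⊕ ι) → E d)) × (Ω₁ × Ω₂)) × X =>
        (((w.1.1.1, w.2), fun i => w.1.1.2 (Sum.inr i)), w.1.2.2)) (by fun_prop))
  refine ⟨Ω₁ × Ω₂, inferInstance, μ₁.prod μ₂, inferInstance, _, h2,
    fun V hV => ⟨fun ω => ?_, fun c p => ?_⟩⟩
  · refine LipschitzWith.of_dist_le_mul fun y y' => ?_
    refine (((H₂ V hV).1 ω.2).dist_le_mul _ _).trans ?_
    push_cast
    rw [mul_assoc]
    refine mul_le_mul_of_nonneg_left ?_ L₂.2
    have hd : dist y y' ≤ max 1 (L₁ : ℝ) * dist y y' :=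
      le_mul_of_one_le_left dist_nonneg (le_max_left _ _)
    rw [Prod.dist_eq, Prod.dist_eq]
    refine max_le (max_le ?_ ?_) ?_
    · refine le_trans ?_ hd
      rw [Prod.dist_eq]; exact le_max_left _ _
    · refine (((H₁ V hV).1 ω.1).dist_le_mul _ _).trans ?_
      refine mul_le_mul (le_max_right _ _) ?_ dist_nonneg (by positivity)
      rw [Prod.dist_eq, Prod.dist_eq]
      refine max_le_max le_rfl ?_
      rw [dist_pi_le_iff dist_nonneg]
      exact fun k => dist_le_pi_dist y.2 y'.2 _
    · refine le_trans ?_ hd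
      rw [Prod.dist_eq]
      refine le_max_of_le_right ?_
      rw [dist_pi_le_iff dist_nonneg]
      exact fun k => dist_le_pi_dist y.2 y'.2 _
  · have hfm : Measurable (f₁ V) := hf₁.measurable (measurable_oracle hV)
    have hgm : Measurable (f₂ V) := hf₂.measurable (measurable_oracle hV)
    let A : Measure X := ((Measure.pi fun _ : κ => gN c rc).prod μ₁).map
      fun y => f₁ V ((p, y.1), y.2)
    have hfm' : Measurable fun y : (κ → E d) × Ω₁ => f₁ V ((p, y.1), y.2) :=
      hfm.comp (by fun_prop)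
    have hA : IsProbabilityMeasure A := Measure.isProbabilityMeasure_map hfm'.aemeasurable
    have hT₁' := hT₁ V hV c p
    let B : Measure ((ι → E d) × Ω₂) := (Measure.pi fun _ : ι => gN c rc).prod μ₂
    have e4 : ((Measure.pi fun _ : κ ⊕ ι => gN c rc).prod (μ₁.prod μ₂)).map
        (fun z => f₂ V (((p, f₁ V ((p, fun k => z.1 (Sum.inl k)), z.2.1)),
          fun i => z.1 (Sum.inr i)), z.2.2))
        = (A.prod B).map fun x => f₂ V (((p, x.1), x.2.1), x.2.2) := by
      have e5 : (A.prod B) = (((Measure.pi fun _ : κ => gN c rc).prod μ₁).prod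
          ((Measure.pi fun _ : ι => gN c rc).prod μ₂)).map
            (Prod.map (fun y => f₁ V ((p, y.1), y.2)) id) := by
        rw [← Measure.map_prod_map _ _ hfm' measurable_id, Measure.map_id]
      rw [e5, ← prod4, ← Comp.sum_draws]
      have e3 : (μ₁.prod μ₂) = (μ₁.prod μ₂).map id := by rw [Measure.map_id]
      conv_rhs => rw [e3]
      rw [Measure.map_prod_map _ _ (by fun_prop) measurable_id,
        Measure.map_map (by fun_prop) (by fun_prop), Measure.map_map (by fun_prop) (by fun_prop),
        Measure.map_map (by fun_prop) (by fun_prop)]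
      rfl
    change DLb (((Measure.pi fun _ : κ ⊕ ι => gN c rc).prod (μ₁.prod μ₂)).map
        (fun z => f₂ V (((p, f₁ V ((p, fun k => z.1 (Sum.inl k)), z.2.1)),
          fun i => z.1 (Sum.inr i)), z.2.2))) _ _
    rw [e4]
    have hF : Measurable fun x : X × ((ι → E d) × Ω₂) => f₂ V (((p, x.1), x.2.1), x.2.2) := by
      fun_prop
    refine DLb.trans (Q := (((T₁ V c p).prod B).map
      fun x => f₂ V (((p, x.1), x.2.1), x.2.2))) ?_ ?_
    · refine law_close hF ?_
      intro φ hφ hb
      obtain ⟨M, hM⟩ := hb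
      have hφm := hφ.continuous.measurable
      have hi : ∀ x : X, Integrable (fun w : (ι → E d) × Ω₂ => φ (f₂ V (((p, x), w.1), w.2))) B :=
        fun x => Integrable.mono' (integrable_const M) (hφm.comp (by fun_prop)).aestronglyMeasurable
          (Eventually.of_forall fun x => by simpa using hM _)
      refine ((H₁ V hV).2 c p).lip (f := fun x => ∫ w, φ (f₂ V (((p, x), w.1), w.2)) ∂B)
        (LipschitzWith.of_dist_le_mul fun x y => ?_) ⟨M, fun x => ?_⟩
      · rw [Real.dist_eq, ← integral_sub (hi x) (hi y)]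
        refine (abs_integral_le_integral_abs).trans ?_
        have h5 : ∀ w : (ι → E d) × Ω₂, |φ (f₂ V (((p, x), w.1), w.2))
            - φ (f₂ V (((p, y), w.1), w.2))| ≤ L₂ * dist x y := by
          intro w
          have h3 := hφ.dist_le_mul (f₂ V (((p, x), w.1), w.2)) (f₂ V (((p, y), w.1), w.2))
          rw [Real.dist_eq, NNReal.coe_one, one_mul] at h3
          refine h3.trans ((((H₂ V hV).1 w.2).dist_le_mul _ _).trans ?_)
          refine mul_le_mul_of_nonneg_left ?_ L₂.2
          rw [Prod.dist_eq, Prod.dist_eq, dist_self, dist_self]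
          simp
        refine (integral_mono ((hi x).sub (hi y)).abs (integrable_const _) h5).trans ?_
        simp
      · refine (abs_integral_le_integral_abs).trans ?_
        refine (integral_mono (hi x).abs (integrable_const M) (fun w => hM _)).trans ?_
        simp
    · intro φ hφ hb
      obtain ⟨M, hM⟩ := hb
      have hφm := hφ.continuous.measurable
      obtain ⟨hi1, hi2⟩ := hT V hV c p φ hφ ⟨M, hM⟩
      obtain ⟨he1, he2⟩ := he V hV c p
      rw [← hi2, integral_map hF.aemeasurable hφm.aestronglyMeasurable]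
      have hi0 : Integrable (fun z : X × ((ι → E d) × Ω₂) =>
          φ (f₂ V (((p, z.1), z.2.1), z.2.2))) ((T₁ V c p).prod B) :=
        Integrable.mono' (integrable_const M) (hφm.comp hF).aestronglyMeasurable
          (Eventually.of_forall fun x => by simpa using hM _)
      rw [integral_prod _ hi0, ← integral_sub hi0.integral_prod_left hi1]
      refine (abs_integral_le_integral_abs).trans ?_
      refine le_trans ?_ he2
      refine integral_mono (hi0.integral_prod_left.sub hi1).abs he1 (fun x => ?_)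
      have h6 := (H₂ V hV).2 c (p, x) φ hφ ⟨M, hM⟩
      have hm6 : Measurable fun y : (ι → E d) × Ω₂ => f₂ V (((p, x), y.1), y.2) := by fun_prop
      rw [integral_map hm6.aemeasurable hφm.aestronglyMeasurable] at h6
      exact h6

/-- **Post-processing with fresh randomness** (and `q'` queries). -/
theorem GD.post_rand [OpensMeasurableSpace X] [OpensMeasurableSpace Y]
    {T : (E d → ℝ) → E d → P → Measure X} {err : (E d → ℝ) → E d → P → ℝ}
    (hT : ∀ V, Admissible d V → ∀ c p, IsProbabilityMeasure (T V c p))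
    (h : GD ι rc q L T err) {W : Type} [MeasurableSpace W] (ν : Measure W)
    [IsProbabilityMeasure ν] {g : (E d → ℝ) → (P × X) × W → Y} (hg : IsQ q' g) {a b : ℝ≥0}
    (hgL : ∀ V, Admissible d V → ∀ w p p' x x',
      dist (g V ((p, x), w)) (g V ((p', x'), w)) ≤ b * dist p p' + a * dist x x') :
    GD ι rc (q + q') (b + a * L)
      (fun V c p => ((T V c p).prod ν).map fun z => g V ((p, z.1), z.2))
      (fun V c p => a * err V c p) := by
  obtain ⟨Ω, mΩ, μ, hμ, f, hf, H⟩ := h
  have h1 : IsQ q (fun (V : E d → ℝ) (z : (P × (ι → E d)) × (Ω × W)) => f V (z.1, z.2.1)) :=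
    hf.comap (by fun_prop)
  have h2 := h1.bind (g := fun V (w : ((P × (ι → E d)) × (Ω × W)) × X) =>
      g V ((w.1.1.1, w.2), w.1.2.2))
      (hg.comap (g := fun w : ((P × (ι → E d)) × (Ω × W)) × X =>
        ((w.1.1.1, w.2), w.1.2.2)) (by fun_prop))
  refine ⟨Ω × W, inferInstance, μ.prod ν, inferInstance, _, h2,
    fun V hV => ⟨fun ω => ?_, fun c p => ?_⟩⟩
  · refine LipschitzWith.of_dist_le_mul fun y y' => ?_
    refine (hgL V hV _ _ _ _ _).trans ?_
    push_cast
    rw [add_mul, mul_assoc]
    refine add_le_add ?_ ?_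
    · exact mul_le_mul_of_nonneg_left (by rw [Prod.dist_eq]; exact le_max_left _ _) b.2
    · refine mul_le_mul_of_nonneg_left ?_ a.2
      exact (((H V hV).1 ω.1).dist_le_mul _ _)
  · have hfm : Measurable (f V) := hf.measurable (measurable_oracle hV)
    have hgm : Measurable (g V) := hg.measurable (measurable_oracle hV)
    have hfm' : Measurable fun y : (ι → E d) × Ω => f V ((p, y.1), y.2) :=
      hfm.comp (by fun_prop)
    let A : Measure X := ((Measure.pi fun _ : ι => gN c rc).prod μ).map
      fun y => f V ((p, y.1), y.2)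
    have hA : IsProbabilityMeasure A := Measure.isProbabilityMeasure_map hfm'.aemeasurable
    have hT' := hT V hV c p
    have e4 : ((Measure.pi fun _ : ι => gN c rc).prod (μ.prod ν)).map
        (fun z => g V ((p, f V ((p, z.1), z.2.1)), z.2.2))
        = (A.prod ν).map fun x => g V ((p, x.1), x.2) := by
      rw [← prod3 _ _ _ (F := fun z : (ι → E d) × Ω => f V ((p, z.1), z.2)) (by fun_prop),
          Measure.map_map (by fun_prop) (by fun_prop)]
      rfl
    change DLb (((Measure.pi fun _ : ι => gN c rc).prod (μ.prod ν)).map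
        (fun z => g V ((p, f V ((p, z.1), z.2.1)), z.2.2))) _ _
    rw [e4]
    refine law_close (F := fun x : X × W => g V ((p, x.1), x.2)) (by fun_prop) ?_
    intro φ hφ hb
    obtain ⟨M, hM⟩ := hb
    have hφm := hφ.continuous.measurable
    have hi : ∀ x : X, Integrable (fun w => φ (g V ((p, x), w))) ν := fun x =>
      Integrable.mono' (integrable_const M) (hφm.comp (by fun_prop)).aestronglyMeasurable
        (Eventually.of_forall fun x => by simpa using hM _)
    refine ((H V hV).2 c p).lip (f := fun x => ∫ w, φ (g V ((p, x), w)) ∂ν)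
      (LipschitzWith.of_dist_le_mul fun x y => ?_) ⟨M, fun x => ?_⟩
    · rw [Real.dist_eq, ← integral_sub (hi x) (hi y)]
      refine (abs_integral_le_integral_abs).trans ?_
      have h5 : ∀ w, |φ (g V ((p, x), w)) - φ (g V ((p, y), w))| ≤ a * dist x y := by
        intro w
        have h3 := hφ.dist_le_mul (g V ((p, x), w)) (g V ((p, y), w))
        rw [Real.dist_eq, NNReal.coe_one, one_mul] at h3
        refine h3.trans ((hgL V hV _ _ _ _ _).trans ?_)
        rw [dist_self, mul_zero, zero_add]
      refine (integral_mono ((hi x).sub (hi y)).abs (integrable_const _) h5).trans ?_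
      simp
    · refine (abs_integral_le_integral_abs).trans ?_
      refine (integral_mono (hi x).abs (integrable_const M) (fun w => hM _)).trans ?_
      simp

/-- Adding fresh Gaussian noise to a draw. -/
theorem GD.addNoise {r R : ℝ} (hr : 0 ≤ r) (hR : r ≤ R) {v : (E d → ℝ) → E d → P → E d}
    {err : (E d → ℝ) → E d → P → ℝ} (h : GD ι rc q L (fun V c p => gN (v V c p) r) err) :
    GD ι rc q L (fun V c p => gN (v V c p) R) err := by
  have h1 := GD.post_rand (Y := E d) (q' := 0) (fun V hV c p => inferInstance) h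
    (stdGaussian (E d))
    (g := fun _ z => z.1.2 + Real.sqrt (R ^ 2 - r ^ 2) • z.2) (IsQ.const (by fun_prop))
    (a := 1) (b := 0) (fun V hV w p p' x x' => by simp)
  have h2 : (0 : ℝ≥0) + 1 * L = L := by simp
  rw [h2, add_zero] at h1
  refine (GD.congr h1 (fun V hV c p => gN_complete (v V c p) hr hR)).mono le_rfl le_rfl ?_
  intro V hV c p
  simp

/-- **Linear combinations** of independent draws plus a (query-)computed visible part. -/
theorem GD.lin {J : Type} [Fintype J] {K : J → Type} [∀ j, Fintype (K j)] {qq : J → ℕ}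
    {LL : J → ℝ≥0} {σ : J → ℝ} {v : J → (E d → ℝ) → E d → P → E d}
    {err : J → (E d → ℝ) → E d → P → ℝ}
    (h : ∀ j, GD (K j) rc (qq j) (LL j) (fun V c p => gN (v j V c p) (σ j)) (err j))
    (a : J → ℝ) {w : (E d → ℝ) → P → E d} (hw : IsQ q' w) {b : ℝ≥0}
    (hwL : ∀ V, Admissible d V → LipschitzWith b (w V)) {R : ℝ}
    (hR : Real.sqrt (∑ j, (a j * σ j) ^ 2) ≤ R) :
    GD ((j : J) × K j) rc (∑ j, qq j + q') (b + ∑ j, ‖a j‖₊ * LL j)
      (fun V c p => gN (w V p + ∑ j, a j • v j V c p) R)
      (fun V c p => ∑ j, |a j| * err j V c p) := by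
  have hg : IsQ q' (fun (V : E d → ℝ) (z : P × (J → E d)) => w V z.1 + ∑ j, a j • z.2 j) := by
    have h1 : IsQ q' (fun (V : E d → ℝ) (z : P × (J → E d)) => w V z.1) :=
      hw.comap measurable_fst
    exact h1.map (g := fun z : (P × (J → E d)) × E d => z.2 + ∑ j, a j • z.1.2 j) (by fun_prop)
  have h1 := GD.pi_post (fun j V hV c p => inferInstance) h hg (a := fun j => ‖a j‖₊) (b := b)
    (fun V hV p p' x x' => by
      refine (dist_add_add_le _ _ _ _).trans (add_le_add ((hwL V hV).dist_le_mul _ _) ?_)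
      rw [dist_eq_norm, ← Finset.sum_sub_distrib]
      refine (norm_sum_le _ _).trans (Finset.sum_le_sum fun j _ => ?_)
      rw [← smul_sub, norm_smul, dist_eq_norm]
      exact le_rfl)
  have h2 : GD ((j : J) × K j) rc (∑ j, qq j + q') (b + ∑ j, ‖a j‖₊ * LL j)
      (fun V c p => gN (w V p + ∑ j, a j • v j V c p) (Real.sqrt (∑ j, (a j * σ j) ^ 2)))
      (fun V c p => ∑ j, |a j| * err j V c p) := by
    refine GD.mono (GD.congr h1 (fun V hV c p => ?_)) le_rfl le_rfl ?_
    · have e1 : (fun x : J → E d => w V p + ∑ j, a j • x j)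
          = (fun y => w V p + y) ∘ (fun x => ∑ j, a j • x j) := rfl
      change (Measure.pi fun j => gN (v j V c p) (σ j)).map
        (fun x : J → E d => w V p + ∑ j, a j • x j) = _
      rw [e1, ← Measure.map_map (by fun_prop) (by fun_prop), gN_sum, gN_map_add_left]
    · intro V hV c p
      exact le_rfl
  exact GD.addNoise (Real.sqrt_nonneg _) hR h2

/-! ### Conversions -/

theorem Draw.toGD {N : ℕ} {r : ℝ} {v : (E d → ℝ) → E d → P → E d} {err : E d → P → ℝ}
    (h : Draw rc N q L r v err) :
    GD (Fin N) rc q L (fun V c p => gN (v V c p) r) (fun _ c p => err c p) := h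

theorem GD.toDraw {N : ℕ} {r : ℝ} {v : (E d → ℝ) → E d → P → E d}
    {err : (E d → ℝ) → E d → P → ℝ} (h : GD ι rc q L (fun V c p => gN (v V c p) r) err)
    (hN : Fintype.card ι ≤ N) {err' : E d → P → ℝ}
    (he : ∀ V, Admissible d V → ∀ c p, err V c p ≤ err' c p) : Draw rc N q L r v err' := by
  have h1 : GD (Fin N) rc q L (fun V c p => gN (v V c p) r) err :=
    GD.reindex h (g := fun i => Fin.castLE hN (Fintype.equivFin ι i))
      (fun i j hij => by simpa using hij)
  exact GD.mono h1 le_rfl le_rfl he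

theorem Con.toGD {N : ℕ} {T : (E d → ℝ) → E d → Measure (E d)} {D : ℝ}
    (h : Con rc N q L T D) :
    GD (P := P) (Fin N) rc q L (fun V c _ => T V c) (fun _ c _ => D * (√(d : ℝ) + ‖c‖)) := by
  obtain ⟨Ω, mΩ, μ, hμ, f, hf, H⟩ := h
  have h1 : IsQ q (fun (V : E d → ℝ) (z : (P × (Fin N → E d)) × Ω) => f V (z.1.2, z.2)) :=
    hf.comap (by fun_prop)
  refine ⟨Ω, mΩ, μ, hμ, _, h1, fun V hV => ⟨fun ω => ?_, fun c p => (H V hV).2 c⟩⟩
  have h2 := ((H V hV).1 ω).comp (LipschitzWith.prod_snd (α := P) (β := Fin N → E d))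
  rw [mul_one] at h2
  exact h2

theorem GD.toCon {N : ℕ} {T : (E d → ℝ) → E d → P → Measure (E d)}
    {err : (E d → ℝ) → E d → P → ℝ} (h : GD ι rc q L T err) (hN : Fintype.card ι ≤ N)
    (p₀ : P) {D : ℝ}
    (he : ∀ V, Admissible d V → ∀ c, err V c p₀ ≤ D * (√(d : ℝ) + ‖c‖)) :
    Con rc N q L (fun V c => T V c p₀) D := by
  have h1 : GD (Fin N) rc q L T err :=
    GD.reindex h (g := fun i => Fin.castLE hN (Fintype.equivFin ι i))
      (fun i j hij => by simpa using hij)
  obtain ⟨Ω, mΩ, μ, hμ, f, hf, H⟩ := h1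
  have h2 : IsQ q (fun (V : E d → ℝ) (z : (Fin N → E d) × Ω) => f V ((p₀, z.1), z.2)) :=
    hf.comap (by fun_prop)
  refine ⟨Ω, mΩ, μ, hμ, _, h2, fun V hV => ⟨fun ω => ?_, fun c =>
    ((H V hV).2 c p₀).mono (he V hV c)⟩⟩
  refine LipschitzWith.of_dist_le_mul fun x y => ?_
  refine (((H V hV).1 ω).dist_le_mul _ _).trans ?_
  rw [Prod.dist_eq, dist_self]
  simp

/-- A call of a contract. -/
theorem GD.callCon {N' : ℕ} {rin D' : ℝ} {T' : (E d → ℝ) → E d → Measure (E d)}
    (h' : Con rin N' q' L' T' D') {v : (E d → ℝ) → E d → P → E d}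
    {err : (E d → ℝ) → E d → P → ℝ} (h : GD ι rc q L (fun V c p => gN (v V c p) rin) err) :
    GD (Fin N' × ι) rc (N' * q + q') (L' * L) (fun V c p => T' V (v V c p))
      (fun V c p => N' * (L' * err V c p) + D' * (√(d : ℝ) + ‖v V c p‖)) := by
  obtain ⟨Ω', mΩ', μ', hμ', f', hf', H'⟩ := h'
  have h1 : IsQ q' (fun (V : E d → ℝ) (z : (P × (Fin N' → E d)) × Ω') => f' V (z.1.2, z.2)) :=
    hf'.comap (by fun_prop)
  have h2 := GD.call_core (b := 0) (a := L') (T' := fun V c _ => T' V c)
    (err' := fun _ c _ => D' * (√(d : ℝ) + ‖c‖)) h1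
    (fun V hV ω p p' x x' => by
      simp only [NNReal.coe_zero, zero_mul, zero_add]
      exact ((H' V hV).1 ω).dist_le_mul _ _) (fun V hV c p => (H' V hV).2 c) h
  rw [Fintype.card_fin, zero_add] at h2
  exact h2

/-! ### Closure properties of `Draw` -/

theorem Draw.mono {N N' : ℕ} {r : ℝ} {v : (E d → ℝ) → E d → P → E d} {err err' : E d → P → ℝ}
    (h : Draw rc N q L r v err) (hN : N ≤ N') (hq : q ≤ q') (hL : L ≤ L')
    (he : ∀ c p, err c p ≤ err' c p) : Draw rc N' q' L' r v err' :=
  GD.toDraw (GD.mono h.toGD hq hL (fun _ _ _ _ => le_rfl)) (by simpa using hN)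
    (fun V hV c p => he c p)

theorem Draw.congr {N : ℕ} {r : ℝ} {v v' : (E d → ℝ) → E d → P → E d} {err : E d → P → ℝ}
    (h : Draw rc N q L r v err) (hv : ∀ V, Admissible d V → ∀ c p, v V c p = v' V c p) :
    Draw rc N q L r v' err :=
  GD.congr (T' := fun V c p => gN (v' V c p) r) h.toGD (fun V hV c p => by rw [hv V hV c p])

theorem Draw.addNoise {N : ℕ} {r R : ℝ} {v : (E d → ℝ) → E d → P → E d} {err : E d → P → ℝ}
    (h : Draw rc N q L r v err) (hr : 0 ≤ r) (hR : r ≤ R) : Draw rc N q L R v err :=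
  GD.addNoise hr hR h.toGD

/-- A visible value, computed with queries. -/
theorem Draw.visQ {N : ℕ} {r : ℝ} (hr : 0 ≤ r) {w : (E d → ℝ) → P → E d} (hw : IsQ q w)
    (hL : ∀ V, Admissible d V → LipschitzWith L (w V)) :
    Draw rc N q L r (fun V _ p => w V p) (fun _ _ => 0) := by
  have h1 : GD (Fin N) rc q L (fun V _ p => gN (w V p) 0) (fun _ _ _ => 0) :=
    GD.congr (GD.det hw hL) (fun V hV c p => (gN_zero _).symm)
  exact GD.addNoise le_rfl hr h1

/-- A visible value. -/
theorem Draw.vis {N : ℕ} {r : ℝ} (hr : 0 ≤ r) {w : P → E d} (hw : Measurable w)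
    (hL : LipschitzWith L w) : Draw rc N 0 L r (fun _ _ p => w p) (fun _ _ => 0) :=
  Draw.visQ hr (IsQ.const hw) (fun _ _ => hL)

theorem Draw.zero {N : ℕ} {r : ℝ} (hr : 0 ≤ r) :
    Draw (P := P) rc N q L r (fun (_ : E d → ℝ) _ _ => 0) (fun _ _ => 0) :=
  Draw.mono (Draw.vis (L := 0) (N := N) hr measurable_const (LipschitzWith.const 0)) le_rfl
    (Nat.zero_le _) zero_le (fun _ _ => le_rfl)

/-- The hidden centre. -/
theorem Draw.hid {r : ℝ} (hrc : 0 ≤ rc) (hr : rc ≤ r) :
    Draw (P := P) rc 1 0 1 r (fun (_ : E d → ℝ) c _ => c) (fun _ _ => 0) :=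
  GD.addNoise hrc hr (GD.hid (0 : Fin 1))

/-- Change of the visible data. -/
theorem Draw.comap {N : ℕ} {r : ℝ} {v : (E d → ℝ) → E d → P → E d} {err : E d → P → ℝ}
    (h : Draw rc N q L r v err) {g : P' → P} (hg : Measurable g) {K : ℝ≥0}
    (hK : LipschitzWith K g) :
    Draw rc N q (L * max K 1) r (fun V c p => v V c (g p)) (fun c p => err c (g p)) :=
  GD.comap h.toGD hg hK

/-- **Linear combinations.** -/
theorem Draw.lin {J : Type} [Fintype J] {N qq : J → ℕ} {LL : J → ℝ≥0} {σ : J → ℝ}
    {v : J → (E d → ℝ) → E d → P → E d} {err : J → E d → P → ℝ}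
    (h : ∀ j, Draw rc (N j) (qq j) (LL j) (σ j) (v j) (err j)) (a : J → ℝ) {R : ℝ}
    (hR : Real.sqrt (∑ j, (a j * σ j) ^ 2) ≤ R) :
    Draw rc (∑ j, N j) (∑ j, qq j) (∑ j, ‖a j‖₊ * LL j) R
      (fun V c p => ∑ j, a j • v j V c p) (fun c p => ∑ j, |a j| * err j c p) := by
  have h1 := GD.lin (fun j => (h j).toGD) a (w := fun _ _ => (0 : E d)) (q' := 0)
    (IsQ.const measurable_const) (b := 0) (fun _ _ => LipschitzWith.const 0) hR
  have h2 : (0 : ℝ≥0) + ∑ j, ‖a j‖₊ * LL j = ∑ j, ‖a j‖₊ * LL j := zero_add _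
  rw [h2, add_zero] at h1
  refine Draw.congr (GD.toDraw h1 (by simp) (fun V hV c p => le_rfl)) (fun V hV c p => ?_)
  exact zero_add _

/-- **A call**: the semantic value of the argument is `v`, the called contract has a Gaussian
target. -/
theorem Draw.callF {N N' : ℕ} {rin σ D' : ℝ} {F : (E d → ℝ) → E d → E d}
    (hC : Con rin N' q' L' (fun V c => gN (F V c) σ) D') (hD : 0 ≤ D')
    {v : (E d → ℝ) → E d → P → E d} {err : E d → P → ℝ}
    (hv : Draw rc N q L rin v err) {vb : E d → P → ℝ}
    (hb : ∀ V, Admissible d V → ∀ c p, ‖v V c p‖ ≤ vb c p) :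
    Draw rc (N' * N) (N' * q + q') (L' * L) σ (fun V c p => F V (v V c p))
      (fun c p => N' * (L' * err c p) + D' * (√(d : ℝ) + vb c p)) :=
  GD.toDraw (GD.callCon hC hv.toGD) (by simp) (fun V hV c p => by
    have := hb V hV c p
    gcongr)

theorem Draw.call {N N' : ℕ} {rin r σ D' : ℝ}
    (hC : Con (d := d) rin N' q' L' (fun V c => gN (G V r c) σ) D') (hD : 0 ≤ D')
    {v : (E d → ℝ) → E d → P → E d} {err : E d → P → ℝ}
    (hv : Draw rc N q L rin v err) {vb : E d → P → ℝ}
    (hb : ∀ V, Admissible d V → ∀ c p, ‖v V c p‖ ≤ vb c p) :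
    Draw rc (N' * N) (N' * q + q') (L' * L) σ (fun V c p => G V r (v V c p))
      (fun c p => N' * (L' * err c p) + D' * (√(d : ℝ) + vb c p)) :=
  Draw.callF hC hD hv hb

end Crest.Agent.R285
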