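import Mathlib
import Crest.Agent.R285.Draw

-- ▼ part R285/Recursion
section

/-!
Row 285 (S0430), module RECURSION: the abstract exponent recursion.

`QP g e A` : noisy-gradient calls (`2 s / σ ≤ β ^ e`) can be answered to accuracy `β ^ A`
             with `C β ^ (-g)` queries;
`SP g a A` : restricted samplers (`s ^ 2 ≤ β ^ a`) are available to accuracy `β ^ A`
             with `C β ^ (-g)` queries.

The base lemmas and the step lemmas are the hypotheses.  The chain step `k` (`κ₁ = β ^ k`) may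
depend on the cost exponent `g`; every other sub-procedure is used at arbitrarily small cost
exponents.
-/

set_option autoImplicit false

namespace Crest.Agent.R285.Recursion

/-- Downward chain: from `e` large to `e`. -/
theorem chain {P : ℝ → Prop} {e₀ A k : ℝ} (hk : 0 < k) (base : ∀ e, A ≤ e → P e)
    (step : ∀ e, e₀ ≤ e → e < A → P (e + k) → P e) : ∀ e, e₀ ≤ e → P e := by
  have main : ∀ n : ℕ, ∀ e, e₀ ≤ e → A ≤ e + n * k → P e := by
    intro n
    induction n with
    | zero => intro e _ h; exact base e (by simpa using h)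
    | succ n ih =>
      intro e he h
      by_cases hA : A ≤ e
      · exact base e hA
      push Not at hA
      refine step e he hA (ih _ (by linarith) ?_)
      push_cast at h
      linarith
  intro e he
  obtain ⟨n, hn⟩ := exists_nat_ge ((A - e) / k)
  have := (div_le_iff₀ hk).1 hn
  exact main n e he (by linarith)

/-- The recursion. Outer induction: accuracy, in units of `1/16`; inner induction: the number of
outer (value) steps; innermost: the chain in `k`. -/
theorem recursion {QP SP : ℝ → ℝ → ℝ → Prop}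
    (baseQ : ∀ g e A : ℝ, 0 < g → 0 < e → A ≤ e → QP g e A)
    (baseS : ∀ g a A : ℝ, 0 < g → 1 ≤ a → 2 * A ≤ a → SP g a A)
    (stepS : ∀ γ A g : ℝ, 0 < γ → γ ≤ 1 / 64 → 0 < A → 0 < g →
      (∀ g', 0 < g' → QP g' (1 - γ) A) → ∃ k : ℝ, 0 < k ∧
      ∀ a : ℝ, 1 ≤ a → a < 2 * A → SP g (a + k) A → SP g a A)
    (stepQ : ∀ ψ γ A g : ℝ, 0 < ψ → ψ ≤ 1 / 4 → 0 < γ → γ ≤ ψ / 16 → 0 < A → 0 < g →
      ∃ k : ℝ, 0 < k ∧ ∀ e : ℝ, 1 / 4 ≤ e → e < A →
        (∀ g', 0 < g' → QP g' ((1 + ψ) * e - γ) A) →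
        (∀ g', 0 < g' → QP g' (min ((1 - ψ) * e) 1 - γ) (A - (1 + ψ) * e + γ)) →
        (∀ g', 0 < g' → QP g' (1 - γ) (A - e + γ)) →
        QP g (e + k) A → QP g e A) :
    ∀ A g : ℝ, 0 < g → SP g 1 A := by
  intro A₀ g₀ hg₀
  -- `M` is an upper bound for all the accuracies that occur
  obtain ⟨M, hM1, hMA⟩ : ∃ M : ℝ, 1 ≤ M ∧ A₀ + 1 ≤ M :=
    ⟨max 1 (A₀ + 1), le_max_left _ _, le_max_right _ _⟩
  -- the parameters
  obtain ⟨ψ, hψ0, hψ1, hψM⟩ : ∃ ψ : ℝ, 0 < ψ ∧ ψ ≤ 1 / 8 ∧ ψ * (8 * M) = 1 := by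
    refine ⟨1 / (8 * M), by positivity, ?_, ?_⟩
    · exact one_div_le_one_div_of_le (by norm_num) (by linarith)
    · field_simp
  obtain ⟨γ, hγ0, hγψ, hγ1⟩ : ∃ γ : ℝ, 0 < γ ∧ γ ≤ ψ / 16 ∧ γ ≤ 1 / 64 :=
    ⟨ψ / 16, by positivity, le_rfl, by linarith⟩
  have hγM : γ * (128 * M) ≤ 1 := by nlinarith
  -- `Q`: invariant  `1/4 * (1 + A / M) ≤ e`, written multiplicatively
  have mainQ : ∀ n : ℕ, ∀ e A : ℝ, M + A ≤ 4 * M * e → A ≤ M → 1 / 4 ≤ e →
      A ≤ 1 / 4 + n / 16 → ∀ g, 0 < g → QP g e A := by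
    intro n
    induction n with
    | zero =>
      intro e A _ _ he hA g hg
      exact baseQ g e A hg (by linarith) (by norm_num at hA; linarith)
    | succ n ihQ =>
      have hn0 : (0:ℝ) ≤ n / 16 := by positivity
      push_cast
      -- inner induction: number of value steps
      have inner : ∀ k : ℕ, ∀ e A : ℝ, M + A ≤ 4 * M * e → A ≤ M → 1 / 4 ≤ e →
          A ≤ 1 / 4 + (n + 1) / 16 → A ≤ e + k * (ψ / 16) → ∀ g, 0 < g → QP g e A := by
        intro k
        induction k with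
        | zero =>
          intro e A _ _ he _ hk g hg
          exact baseQ g e A hg (by linarith) (by norm_num at hk; linarith)
        | succ k ihk =>
          intro e₁ A hinv₁ hAM he₁ hA hk₁ g hg
          by_cases hb₁ : A ≤ e₁
          · exact baseQ g e₁ A hg (by linarith) hb₁
          push Not at hb₁
          obtain ⟨κ, hκ0, hκ⟩ := stepQ ψ γ A g hψ0 (by linarith) hγ0 hγψ (by linarith) hg
          refine chain (P := fun e => QP g e A) (e₀ := e₁) (A := A) hκ0
            (fun e he => baseQ g e A hg (by linarith) he) ?_ e₁ le_rfl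
          intro e hee₁ hb hchain
          have he : 1 / 4 ≤ e := by linarith
          have hinv : M + A ≤ 4 * M * e := by
            have : 4 * M * e₁ ≤ 4 * M * e := mul_le_mul_of_nonneg_left hee₁ (by linarith)
            linarith
          have hk : A ≤ e + (k + 1 : ℕ) * (ψ / 16) := by linarith
          have he0 : 0 < e := by linarith
          refine hκ e he hb ?_ ?_ ?_ hchain
          · -- value call
            have h1 : e + ψ / 16 ≤ (1 + ψ) * e - γ := by nlinarith
            refine ihk _ _ ?_ hAM (by linarith [hψ0]) hA ?_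
            · have : 4 * M * e ≤ 4 * M * ((1 + ψ) * e - γ) :=
                mul_le_mul_of_nonneg_left (by linarith) (by linarith)
              linarith
            · push_cast at hk
              linarith
          · -- relaxed call
            have hψe : 0 ≤ ψ * e := by positivity
            refine ihQ _ _ ?_ ?_ ?_ ?_
            · -- invariant
              rcases le_total ((1 - ψ) * e) 1 with h | h
              · rw [min_eq_left h]
                have e1 : 4 * M * ((1 - ψ) * e - γ) = 4 * M * e - (ψ * (8 * M)) * e / 2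
                    - 4 * M * γ := by ring
                rw [e1, hψM]
                nlinarith
              · rw [min_eq_right h]
                nlinarith
            · nlinarith
            · rcases le_total ((1 - ψ) * e) 1 with h | h
              · rw [min_eq_left h]
                have hA4 : 1 / 4 < A := by linarith
                have h2 : (4 * M - 1) * e ≥ M := by nlinarith
                have h3 : 4 * M * ((1 - ψ) * e - γ) ≥ 4 * M * (1 / 4) := by
                  have e1 : 4 * M * ((1 - ψ) * e - γ) = 4 * M * e - (ψ * (8 * M)) * e / 2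
                    - 4 * M * γ := by ring
                  rw [e1, hψM]
                  nlinarith
                have : 0 < 4 * M := by linarith
                exact le_of_mul_le_mul_left h3 this
              · rw [min_eq_right h]
                linarith
            · nlinarith
          · -- the `Y`-step
            refine ihQ _ _ ?_ (by linarith) (by linarith) (by linarith)
            nlinarith
      intro e A hinv hAM he hA
      obtain ⟨k, hk⟩ := exists_nat_ge ((A - e) / (ψ / 16))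
      refine inner k e A hinv hAM he hA ?_
      have hpos : 0 < ψ / 16 := by positivity
      have := (div_le_iff₀ hpos).1 hk
      linarith
  -- `S`
  by_cases hA1 : A₀ ≤ 1 / 2
  · exact baseS g₀ 1 A₀ hg₀ le_rfl (by linarith)
  push Not at hA1
  obtain ⟨n, hn⟩ := exists_nat_ge (16 * (A₀ + γ))
  obtain ⟨κ, hκ0, hκ⟩ := stepS γ A₀ g₀ hγ0 hγ1 (by linarith) hg₀
    (fun g' hg' => mainQ n _ _ (by nlinarith) (by linarith) (by linarith) (by linarith) g' hg')
  exact chain (P := fun a => SP g₀ a A₀) (e₀ := 1) (A := 2 * A₀) hκ0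
    (fun a ha => baseS g₀ a A₀ hg₀ (by linarith) ha) (fun a ha1 haA hch => hκ a ha1 haA hch) 1 le_rfl

end Crest.Agent.R285.Recursion
end

-- ▼ part R285/Rec

/-!
Row 285 (S0430), module RECURSION: the concrete predicates.

`bt x d = d ^ (-x)` is the small parameter `β`.  All scales satisfy `s ^ 2 ≤ β`.

* `QP x g e A` : for `2 s ≤ σ β ^ e` the law `N(G V s c, σ²)` can be produced from `N` draws of
  `N(c, (s/4)²)` with error `C β ^ A σ (√d + |c|)`, with `N, q ≤ C β ^ (-g)`, Lipschitz constant `C`;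
* `YP x g k A` : the Gaussian channel of the posterior, `y = κ² c + (1 - κ²) z + s κ √(1-κ²) g`,
  `κ = β ^ k`, `z ∼ post V c s` (this is `y_{ε₁}`, `ε₁ = √(1-κ²)`, of the flow), with error `C β ^ A s`;
* `SP x g a A` : for `s ^ 2 ≤ β ^ a` the posterior itself, with (absolute) error `C β ^ A`.
-/

set_option autoImplicit false

open MeasureTheory ProbabilityTheory Filter Topology
open Crest.OracleSampling (E Admissible)
open scoped NNReal

noncomputable section

namespace Crest.Agent.R285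

/-- The small parameter `β = d ^ (-x)`. -/
def bt (x : ℝ) (d : ℕ) : ℝ := (d : ℝ) ^ (-x)

/-- Robust noisy gradients. -/
def QP (x g e A : ℝ) : Prop :=
  ∃ C : ℝ, 0 < C ∧ ∀ᶠ d : ℕ in atTop, ∀ s σ : ℝ, 0 < s → 0 < σ → s ^ 2 ≤ bt x d →
    2 * s ≤ σ * bt x d ^ e →
    Con (d := d) (s / 4) ⌊C * bt x d ^ (-g)⌋₊ ⌊C * bt x d ^ (-g)⌋₊ C.toNNReal
      (fun V c => gN (G V s c) σ) (C * bt x d ^ A * σ)

/-- Robust posterior samples. -/
def SP (x g a A : ℝ) : Prop :=
  ∃ C : ℝ, 0 < C ∧ ∀ᶠ d : ℕ in atTop, ∀ s : ℝ, 0 < s → s ^ 2 ≤ bt x d ^ a →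
    Con (d := d) (s / 4) ⌊C * bt x d ^ (-g)⌋₊ ⌊C * bt x d ^ (-g)⌋₊ C.toNNReal
      (fun V c => post V c s) (C * bt x d ^ A)

/-- The law of the visible point `y = κ² c + (1 - κ²) z + s κ √(1-κ²) g`, `z ∼ post V c s`. -/
def TY {d : ℕ} (s κ : ℝ) (V : E d → ℝ) (c : E d) : Measure (E d) :=
  ((post V c s).prod (stdGaussian (E d))).map
    (fun p => κ ^ 2 • c + (1 - κ ^ 2) • p.1 + (s * κ * √(1 - κ ^ 2)) • p.2)

/-- Robust visible points. -/
def YP (x g k A : ℝ) : Prop :=
  ∃ C : ℝ, 0 < C ∧ ∀ᶠ d : ℕ in atTop, ∀ s : ℝ, 0 < s → s ^ 2 ≤ bt x d →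
    Con (d := d) (s / 4) ⌊C * bt x d ^ (-g)⌋₊ ⌊C * bt x d ^ (-g)⌋₊ C.toNNReal
      (TY s (bt x d ^ k)) (C * bt x d ^ A * s)

/-- The recursion, from the two base lemmas and the three step lemmas. -/
theorem recursion_concrete {x : ℝ}
    (baseQ : ∀ g e A : ℝ, 0 < g → 0 < e → A ≤ e → QP x g e A)
    (baseS : ∀ g a A : ℝ, 0 < g → 1 ≤ a → 2 * A ≤ a → SP x g a A)
    (stepY : ∀ γ A g : ℝ, 0 < γ → γ ≤ 1 / 64 → 0 < A → 0 < g →
      ∃ k₀ : ℝ, 0 < k₀ ∧ ∀ k : ℝ, 0 < k → k ≤ k₀ → ∀ A' : ℝ, A' ≤ A →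
        (∀ g', 0 < g' → QP x g' (1 - γ) A') → YP x g k A')
    (stepS : ∀ A g k : ℝ, 0 < A → 0 < g → 0 < k → YP x g k A →
      ∀ a : ℝ, 1 ≤ a → SP x g (a + 2 * k) A → SP x g a A)
    (stepQ : ∀ ψ γ A g : ℝ, 0 < ψ → ψ ≤ 1 / 4 → 0 < γ → γ ≤ ψ / 16 → 0 < A → 0 < g →
      ∃ k₀ : ℝ, 0 < k₀ ∧ ∀ k : ℝ, 0 < k → k ≤ k₀ → ∀ e : ℝ, 1 / 4 ≤ e → e < A →
        (∀ g', 0 < g' → QP x g' ((1 + ψ) * e - γ) A) →
        (∀ g', 0 < g' → QP x g' (min ((1 - ψ) * e) 1 - γ) (A - (1 + ψ) * e + γ)) →
        YP x g (2 * k) (A - e + γ) →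
        QP x g (e + k) A → QP x g e A) :
    ∀ A g : ℝ, 0 < g → SP x g 1 A := by
  refine Recursion.recursion (QP := QP x) (SP := SP x) baseQ baseS ?_ ?_
  · intro γ A g hγ hγ1 hA hg hQ
    obtain ⟨k, hk, h⟩ := stepY γ A g hγ hγ1 hA hg
    exact ⟨2 * k, by linarith, fun a ha _ hS =>
      stepS A g k hA hg hk (h k hk le_rfl A le_rfl hQ) a ha hS⟩
  · intro ψ γ A g hψ hψ1 hγ hγψ hA hg
    obtain ⟨k₁, hk₁, h₁⟩ := stepQ ψ γ A g hψ hψ1 hγ hγψ hA hg
    obtain ⟨k₂, hk₂, h₂⟩ := stepY γ A g hγ (by linarith) hA hg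
    have hk : 0 < min k₁ (k₂ / 2) := lt_min hk₁ (by linarith)
    refine ⟨min k₁ (k₂ / 2), hk, fun e he heA ho hi hY hc => ?_⟩
    refine h₁ _ hk (min_le_left _ _) e he heA ho hi ?_ hc
    exact h₂ _ (by linarith) (by linarith [min_le_right k₁ (k₂ / 2)]) _ (by linarith) hY

end Crest.Agent.R285
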