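import Crest.Agent.R285.SMInner
import Crest.Agent.R285.YSem
import Mathlib
import Crest.Agent.R285.Gauss
import Crest.Agent.R285.ExpFam
import Crest.Agent.R285.PoinBase
import Crest.Agent.R285.PDM
import Crest.Agent.R285.IBP
import Crest.Agent.R285.AFPot

-- ▼ part R285/SM1Y
section

/-!
Row 285 (S0430): the smoothness input `SM1Y` of the Y-system, from the flattening bounds
`SM.AFall c`.
-/

set_option autoImplicit false
set_option linter.unusedSectionVars false

open MeasureTheory ProbabilityTheory Real Filter Topology Set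
open Crest.OracleSampling (E Admissible)
open scoped RealInnerProductSpace ENNReal ContDiff

noncomputable section

namespace Crest.Agent.R285.SM

open Crest.Agent.R285 Crest.Agent.R285.YSys

/-- **SM1Y** from the flattening bounds. -/
theorem sm1Y {c : ℕ → ℝ} (hAF : AFall c) : SM1Y := by
  intro n
  obtain ⟨C, P, hC, H⟩ := exists_vY hAF n
  refine ⟨C + 1, (P : ℝ) + 1, by linarith, by positivity,
    fun d V hV s hs hs2 y t ht => ?_⟩
  have hP := PotP.of_admissible hV
  have ht' : t ∈ Ioo (-1 : ℝ) 1 := ⟨by linarith [ht.1], ht.2⟩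
  have h2 : (2 : ℝ) * s ^ 2 ≤ 1 := by nlinarith
  have h1 := H hP two_pos hs h2 y ht'
  rw [← flow_law hV y hs ht]
  have hc0 : Continuous ((Dv (vY V y s))^[n + 1] (vY V y s) t) := by
    rw [← continuousOn_univ]
    exact ((smOn_vY hP y hs).iterate_Dv isOpen_Ioo (smOn_vY hP y hs) (n + 1)).continuousOn.comp
      (f := fun x : E d => (t, x)) (by fun_prop) (fun x _ => ⟨ht', mem_univ _⟩)
  have hm : Measurable (evol (vY V y s) (Ioo (-1 : ℝ) 1) 0 t) :=
    ((goodOn_vY hP y hs).continuous_evol ⟨by norm_num, by norm_num⟩ ht').measurable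
  rw [eLpNorm_map_measure hc0.aestronglyMeasurable hm.aemeasurable]
  refine le_trans h1 (ENNReal.ofReal_le_ofReal ?_)
  refine mul_le_mul_of_nonneg_right ?_ (Real.sqrt_nonneg _)
  have hκ := kap_pos ht'
  have hκ1 := kap_le_one t
  have e1 : (√(1 - t ^ 2))⁻¹ ^ P ≤ (kap t ^ ((P : ℝ) + 1))⁻¹ := by
    have : (√(1 - t ^ 2))⁻¹ ^ P = (kap t ^ (P : ℝ))⁻¹ := by
      rw [Real.rpow_natCast, inv_pow]
      rfl
    rw [this]
    refine inv_anti₀ (Real.rpow_pos_of_pos hκ _) ?_
    exact Real.rpow_le_rpow_of_exponent_ge hκ hκ1 (by linarith)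
  have e2 : 0 ≤ (√(1 - t ^ 2))⁻¹ ^ P := by positivity
  calc 2 * s ^ 2 * (C * (√(1 - t ^ 2))⁻¹ ^ P)
      ≤ 1 * (C * (√(1 - t ^ 2))⁻¹ ^ P) := mul_le_mul_of_nonneg_right h2 (by positivity)
    _ = C * (√(1 - t ^ 2))⁻¹ ^ P := one_mul _
    _ ≤ (C + 1) * (kap t ^ ((P : ℝ) + 1))⁻¹ :=
        mul_le_mul (by linarith) e1 e2 (by linarith)

/-- The semantic theorem of the Y-system, from the flattening bounds. -/
theorem semY {c : ℕ → ℝ} (hAF : AFall c) : SEMY := semY_of_sm1 (sm1Y hAF)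

end Crest.Agent.R285.SM
end
end

-- ▼ part R285/AFDefs
section

/-!
# Row 285, module AF: the Gaussian average `hS δ Φ y = E Φ (y + √δ g)`
-/

set_option autoImplicit false

open MeasureTheory ProbabilityTheory

noncomputable section

namespace Crest.Agent.R285

/-- Gaussian average (heat semigroup at time `δ`). -/
def hS {V : Type} [NormedAddCommGroup V] [InnerProductSpace ℝ V] [FiniteDimensional ℝ V]
    [MeasurableSpace V] [BorelSpace V] {F : Type*} [NormedAddCommGroup F] [NormedSpace ℝ F]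
    (δ : ℝ) (Φ : V → F) (y : V) : F :=
  ∫ g, Φ (y + √δ • g) ∂(stdGaussian V)

end Crest.Agent.R285
end
end

-- ▼ part R285/AFKernel
section

/-!
# Row 285, module AF, step A1: derivative of posterior averages
-/

set_option autoImplicit false

open MeasureTheory ProbabilityTheory Real Filter Topology Set
open scoped InnerProductSpace

noncomputable section

namespace Crest.Agent.R285.AFK

variable {V : Type} [NormedAddCommGroup V] [InnerProductSpace ℝ V] [FiniteDimensional ℝ V]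
  [MeasurableSpace V] [BorelSpace V]
variable {F : Type} [NormedAddCommGroup F] [NormedSpace ℝ F]

/-- the exponential statistic -/
def TT (δ : ℝ) (x : V) : V →L[ℝ] ℝ := δ⁻¹ • innerSL ℝ x

/-- Gaussian weight times `Φ` -/
def PP (δ : ℝ) (Φ : V → F) (x : V) : F := rexp (-‖x‖ ^ 2 / (2 * δ)) • Φ x

/-- unnormalised posterior integral -/
def NN (δ : ℝ) (Φ : V → F) (y : V) : F := expInt volume (TT δ) (PP δ Φ) y

omit [FiniteDimensional ℝ V] [MeasurableSpace V] [BorelSpace V] in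
lemma TT_apply (δ : ℝ) (x v : V) : TT δ x v = δ⁻¹ * ⟪x, v⟫_ℝ := by simp [TT]

omit [FiniteDimensional ℝ V] [MeasurableSpace V] [BorelSpace V] in
lemma norm_TT {δ : ℝ} (hδ : 0 < δ) (x : V) : ‖TT δ x‖ = δ⁻¹ * ‖x‖ := by
  rw [TT, norm_smul, Real.norm_of_nonneg (by positivity), innerSL_apply_norm]

lemma meas_TT (δ : ℝ) : AEStronglyMeasurable (TT δ : V → V →L[ℝ] ℝ) volume := by
  have : Continuous (TT δ : V → V →L[ℝ] ℝ) := by
    unfold TT
    fun_prop
  exact this.aestronglyMeasurable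

omit [FiniteDimensional ℝ V] [MeasurableSpace V] [BorelSpace V] in
lemma strong_quad {δ : ℝ} : StrongConvexOn univ δ⁻¹ (fun x : V => ‖x‖ ^ 2 / (2 * δ)) := by
  rw [strongConvexOn_iff_convex]
  have : (fun x : V => ‖x‖ ^ 2 / (2 * δ) - δ⁻¹ / 2 * ‖x‖ ^ 2) = fun _ => (0 : ℝ) := by
    funext x
    rw [div_eq_mul_inv, mul_inv]
    ring
  rw [this]
  exact convexOn_const 0 convex_univ

lemma integrable_wt {δ : ℝ} (hδ : 0 < δ) (n : ℕ) (a : ℝ) :
    Integrable (fun x : V => (1 + ‖x‖) ^ n * rexp (a * ‖x‖) * rexp (-‖x‖ ^ 2 / (2 * δ))) := by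
  have h := Poin.StrongConvexOn.integrable_mul (E := V) (inv_pos.2 hδ) (strong_quad (δ := δ))
    (by fun_prop) n a
  refine h.congr (ae_of_all _ fun x => ?_)
  simp only [neg_div]

lemma expDom_PP {δ : ℝ} (hδ : 0 < δ) {Φ : V → F} (hΦ : AEStronglyMeasurable Φ volume)
    {C : ℝ} {n : ℕ} (hb : ∀ x, ‖Φ x‖ ≤ C * (1 + ‖x‖) ^ n) :
    ExpDom volume (TT δ) univ (PP δ Φ) := by
  have hC : 0 ≤ C := by
    have := (norm_nonneg _).trans (hb 0)
    simpa using this
  have hPm : AEStronglyMeasurable (PP δ Φ) volume := by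
    unfold PP
    exact (by fun_prop : Continuous fun x : V => rexp (-‖x‖ ^ 2 / (2 * δ))).aestronglyMeasurable.smul hΦ
  refine ⟨hPm, fun θ _ => ⟨1, one_pos, fun k => ?_⟩⟩
  have hint := (integrable_wt (V := V) hδ (k + n) (δ⁻¹ * (‖θ‖ + 1))).const_mul (δ⁻¹ ^ k * C)
  refine hint.mono' ?_ (ae_of_all _ fun x => ?_)
  · refine AEStronglyMeasurable.mul (AEStronglyMeasurable.mul ?_ hPm.norm) ?_
    · exact (continuous_pow k).comp_aestronglyMeasurable (meas_TT δ).norm
    · refine continuous_exp.comp_aestronglyMeasurable ?_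
      exact ((ContinuousLinearMap.apply ℝ ℝ θ).continuous.comp_aestronglyMeasurable
        (meas_TT δ)).add ((meas_TT δ).norm.const_mul 1)
  · rw [Real.norm_of_nonneg (by positivity), norm_TT hδ]
    have h1 : ‖PP δ Φ x‖ ≤ rexp (-‖x‖ ^ 2 / (2 * δ)) * (C * (1 + ‖x‖) ^ n) := by
      rw [PP, norm_smul, Real.norm_of_nonneg (exp_pos _).le]
      gcongr
      exact hb x
    have h2 : TT δ x θ + 1 * (δ⁻¹ * ‖x‖) ≤ δ⁻¹ * (‖θ‖ + 1) * ‖x‖ := by
      rw [TT_apply]
      have := real_inner_le_norm x θ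
      have h3 : δ⁻¹ * ⟪x, θ⟫_ℝ ≤ δ⁻¹ * (‖x‖ * ‖θ‖) := by gcongr
      nlinarith
    have h4 : (δ⁻¹ * ‖x‖) ^ k ≤ δ⁻¹ ^ k * (1 + ‖x‖) ^ k := by
      rw [mul_pow]
      gcongr
      linarith
    calc (δ⁻¹ * ‖x‖) ^ k * ‖PP δ Φ x‖ * rexp (TT δ x θ + 1 * (δ⁻¹ * ‖x‖))
        ≤ (δ⁻¹ ^ k * (1 + ‖x‖) ^ k) * (rexp (-‖x‖ ^ 2 / (2 * δ)) * (C * (1 + ‖x‖) ^ n))
          * rexp (δ⁻¹ * (‖θ‖ + 1) * ‖x‖) := by gcongr
      _ = _ := by rw [pow_add]; ring

/-- the constant -/
def cc (V : Type) [NormedAddCommGroup V] [InnerProductSpace ℝ V] (δ : ℝ) : ℝ :=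
  (√δ ^ Module.finrank ℝ V)⁻¹ * (2 * π) ^ (-(Module.finrank ℝ V : ℝ) / 2)

omit [FiniteDimensional ℝ V] [MeasurableSpace V] [BorelSpace V] in
lemma cc_pos {δ : ℝ} (hδ : 0 < δ) : 0 < cc V δ := by
  unfold cc
  positivity

lemma hS_eq {δ : ℝ} (hδ : 0 < δ) (Φ : V → F) (y : V) :
    hS δ Φ y = (cc V δ * rexp (-‖y‖ ^ 2 / (2 * δ))) • NN δ Φ y := by
  have hs : 0 < √δ := Real.sqrt_pos.2 hδ
  rw [hS, integral_stdGaussian]
  -- change of variables
  have h1 : ∫ g : V, gdens g • Φ (y + √δ • g)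
      = ∫ g : V, (fun x => gdens ((√δ)⁻¹ • (x - y)) • Φ x) (y + √δ • g) := by
    refine integral_congr_ae (ae_of_all _ fun g => ?_)
    simp only [add_sub_cancel_left, smul_smul]
    rw [inv_mul_cancel₀ hs.ne', one_smul]
  rw [h1]
  have h2 : ∫ g : V, (fun x => gdens ((√δ)⁻¹ • (x - y)) • Φ x) (y + √δ • g)
      = (√δ ^ Module.finrank ℝ V)⁻¹ • ∫ x : V, gdens ((√δ)⁻¹ • (x - y)) • Φ x := by
    have h3 := Measure.integral_comp_smul (volume : Measure V)
      (fun x => (fun x => gdens ((√δ)⁻¹ • (x - y)) • Φ x) (y + x)) √δ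
    rw [h3, abs_of_nonneg (by positivity)]
    congr 1
    exact integral_add_left_eq_self (fun x => gdens ((√δ)⁻¹ • (x - y)) • Φ x) y
  rw [h2, NN, expInt, ← integral_smul, ← integral_smul]
  refine integral_congr_ae (ae_of_all _ fun x => ?_)
  simp only [PP, smul_smul, TT_apply, gdens, cc]
  congr 1
  rw [norm_smul, norm_inv, Real.norm_of_nonneg hs.le, mul_pow, inv_pow, Real.sq_sqrt hδ.le,
    norm_sub_sq_real]
  have h4 : rexp (-(δ⁻¹ * (‖x‖ ^ 2 - 2 * ⟪x, y⟫_ℝ + ‖y‖ ^ 2)) / 2)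
      = rexp (-‖y‖ ^ 2 / (2 * δ)) * (rexp (δ⁻¹ * ⟪x, y⟫_ℝ) * rexp (-‖x‖ ^ 2 / (2 * δ))) := by
    rw [← Real.exp_add, ← Real.exp_add]
    congr 1
    field_simp
    ring
  rw [h4]
  ring

/-- derivative of the unnormalised integral, real valued -/
lemma hasFDerivAt_NN {δ : ℝ} (hδ : 0 < δ) {Φ : V → ℝ} (hΦ : AEStronglyMeasurable Φ volume)
    {C : ℝ} {n : ℕ} (hb : ∀ x, ‖Φ x‖ ≤ C * (1 + ‖x‖) ^ n) (y : V) :
    HasFDerivAt (NN δ Φ) (expInt volume (TT δ) (fun z => (TT δ z).smulRight (PP δ Φ z)) y) y :=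
  hasFDerivAt_expInt (meas_TT δ) (expDom_PP hδ hΦ hb) (mem_univ y)

lemma integrable_NN {δ : ℝ} (hδ : 0 < δ) {Φ : V → F} (hΦ : AEStronglyMeasurable Φ volume)
    {C : ℝ} {n : ℕ} (hb : ∀ x, ‖Φ x‖ ≤ C * (1 + ‖x‖) ^ n) (y : V) :
    Integrable (fun z => rexp (TT δ z y) • PP δ Φ z) :=
  (expDom_PP hδ hΦ hb).integrable (meas_TT δ) (mem_univ y)

lemma expInt_apply {δ : ℝ} (hδ : 0 < δ) {Φ : V → ℝ} (hΦ : AEStronglyMeasurable Φ volume)
    {C : ℝ} {n : ℕ} (hb : ∀ x, ‖Φ x‖ ≤ C * (1 + ‖x‖) ^ n) (y v : V) :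
    expInt volume (TT δ) (fun z => (TT δ z).smulRight (PP δ Φ z)) y v
      = δ⁻¹ * NN δ (fun x => Φ x * ⟪x, v⟫_ℝ) y := by
  rw [expInt, ContinuousLinearMap.integral_apply, NN, expInt, ← smul_eq_mul, ← integral_smul]
  · refine integral_congr_ae (ae_of_all _ fun x => ?_)
    simp only [FunLike.coe_smul, Pi.smul_apply, ContinuousLinearMap.smulRight_apply,
      TT_apply, PP, smul_eq_mul]
    ring
  · exact ((expDom_PP hδ hΦ hb).step (meas_TT δ)).integrable (meas_TT δ) (mem_univ y)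

omit [FiniteDimensional ℝ V] [MeasurableSpace V] [BorelSpace V] in
lemma growth_mul_inner {Φ : V → ℝ} {C : ℝ} {n : ℕ} (hb : ∀ x, ‖Φ x‖ ≤ C * (1 + ‖x‖) ^ n)
    (v : V) (x : V) : ‖Φ x * ⟪x, v⟫_ℝ‖ ≤ (C * ‖v‖) * (1 + ‖x‖) ^ (n + 1) := by
  rw [norm_mul]
  have hC : 0 ≤ C := by
    have := (norm_nonneg _).trans (hb 0)
    simpa using this
  calc ‖Φ x‖ * ‖⟪x, v⟫_ℝ‖ ≤ (C * (1 + ‖x‖) ^ n) * ((1 + ‖x‖) * ‖v‖) := by
        gcongr
        · exact hb x
        · refine (norm_inner_le_norm x v).trans ?_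
          gcongr
          linarith
    _ = _ := by ring

lemma hasFDerivAt_NN' {δ : ℝ} (hδ : 0 < δ) {Φ : V → ℝ} (hΦ : AEStronglyMeasurable Φ volume)
    {C : ℝ} {n : ℕ} (hb : ∀ x, ‖Φ x‖ ≤ C * (1 + ‖x‖) ^ n) (y : V) :
    ∃ L : V →L[ℝ] ℝ, HasFDerivAt (NN δ Φ) L y ∧
      ∀ v, L v = δ⁻¹ * NN δ (fun x => Φ x * ⟪x, v⟫_ℝ) y :=
  ⟨_, hasFDerivAt_NN hδ hΦ hb y, fun v => expInt_apply hδ hΦ hb y v⟩

lemma NN_pos {δ : ℝ} (hδ : 0 < δ) {H : V → ℝ} (hH : AEStronglyMeasurable H volume)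
    (hH0 : ∀ x, 0 < H x) {C : ℝ} {n : ℕ} (hb : ∀ x, ‖H x‖ ≤ C * (1 + ‖x‖) ^ n) (y : V) :
    0 < NN δ H y := by
  rw [NN, expInt, integral_pos_iff_support_of_nonneg]
  · have : Function.support (fun z => rexp (TT δ z y) • PP δ H z) = univ := by
      ext z
      simp only [PP, Function.mem_support, mem_univ, iff_true, smul_eq_mul]
      have := hH0 z
      positivity
    rw [this]
    exact Measure.measure_univ_pos.2 (NeZero.ne _)
  · intro z
    simp only [PP, smul_eq_mul, Pi.zero_apply]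
    have := hH0 z
    positivity
  · exact integrable_NN hδ hH hb y

lemma hS_pos {δ : ℝ} (hδ : 0 < δ) {H : V → ℝ} (hH : AEStronglyMeasurable H volume)
    (hH0 : ∀ x, 0 < H x) {C : ℝ} {n : ℕ} (hb : ∀ x, ‖H x‖ ≤ C * (1 + ‖x‖) ^ n) (y : V) :
    0 < hS δ H y := by
  rw [hS_eq hδ, smul_eq_mul]
  have h1 := NN_pos hδ hH hH0 hb y
  have h2 := cc_pos (V := V) hδ
  positivity

/-- Posterior expectation. -/
def EK (δ : ℝ) (H Φ : V → ℝ) (y : V) : ℝ := hS δ (fun x => Φ x * H x) y / hS δ H y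

lemma EK_eq {δ : ℝ} (hδ : 0 < δ) (H Φ : V → ℝ) (y : V) :
    EK δ H Φ y = NN δ (fun x => Φ x * H x) y / NN δ H y := by
  rw [EK, hS_eq hδ, hS_eq hδ, smul_eq_mul, smul_eq_mul, mul_div_mul_left]
  have := cc_pos (V := V) hδ
  positivity


section main

variable {δ : ℝ} {H : V → ℝ}

/-- **A1 (a)**: derivative of a posterior average, polynomial growth. -/
theorem hasFDerivAt_EK (hδ : 0 < δ) (hHm : AEStronglyMeasurable H volume) (hH0 : ∀ x, 0 < H x)
    (hH1 : ∀ x, H x ≤ 1) {Φ : V → ℝ} (hΦ : AEStronglyMeasurable Φ volume) {C : ℝ} {n : ℕ}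
    (hb : ∀ x, ‖Φ x‖ ≤ C * (1 + ‖x‖) ^ n) (y : V) :
    ∃ L : V →L[ℝ] ℝ, HasFDerivAt (EK δ H Φ) L y ∧ ∀ v, L v = δ⁻¹ *
      (EK δ H (fun x => Φ x * ⟪x, v⟫_ℝ) y - EK δ H Φ y * EK δ H (fun x => ⟪x, v⟫_ℝ) y) := by
  have hC : 0 ≤ C := by
    have := (norm_nonneg _).trans (hb 0)
    simpa using this
  have hHb : ∀ x, ‖H x‖ ≤ 1 * (1 + ‖x‖) ^ 0 := fun x => by
    rw [Real.norm_of_nonneg (hH0 x).le]; simpa using hH1 x
  have hΦHb : ∀ x, ‖Φ x * H x‖ ≤ C * (1 + ‖x‖) ^ n := fun x => by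
    rw [norm_mul, Real.norm_of_nonneg (hH0 x).le]
    calc ‖Φ x‖ * H x ≤ ‖Φ x‖ * 1 := by gcongr; exact hH1 x
      _ ≤ _ := by rw [mul_one]; exact hb x
  have hΦHm : AEStronglyMeasurable (fun x => Φ x * H x) volume := hΦ.mul hHm
  obtain ⟨L1, hL1, hL1v⟩ := hasFDerivAt_NN' hδ hΦHm hΦHb y
  obtain ⟨L2, hL2, hL2v⟩ := hasFDerivAt_NN' hδ hHm hHb y
  have hN : NN δ H y ≠ 0 := (NN_pos hδ hHm hH0 hHb y).ne'
  have hfun : EK δ H Φ = fun z => NN δ (fun x => Φ x * H x) z * (NN δ H z)⁻¹ := by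
    funext z
    rw [EK_eq hδ H Φ z, div_eq_mul_inv]
  have hd := hL1.mul ((hasDerivAt_inv hN).comp_hasFDerivAt y hL2)
  refine ⟨_, by rw [hfun]; exact hd, fun v => ?_⟩
  have e1 : (fun x => Φ x * H x * ⟪x, v⟫_ℝ) = fun x => Φ x * ⟪x, v⟫_ℝ * H x := by
    funext x; ring
  have e2 : (fun x => H x * ⟪x, v⟫_ℝ) = fun x => ⟪x, v⟫_ℝ * H x := by
    funext x; ring
  simp only [add_apply, FunLike.coe_smul, Pi.smul_apply,
    smul_eq_mul, Function.comp_apply, hL1v, hL2v, EK_eq hδ, e1, e2]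
  field_simp
  ring

/-- The posterior kernel `K(y) ∝ H(x) N(y, δ)(dx)`. -/
def KK (δ : ℝ) (H : V → ℝ) (y : V) : Measure V :=
  volume.withDensity fun x => ENNReal.ofReal (rexp (TT δ x y) * PP δ H x / NN δ H y)

lemma kk_dens_nonneg (hδ : 0 < δ) (hHm : Measurable H) (hH0 : ∀ x, 0 < H x)
    (hH1 : ∀ x, H x ≤ 1) (y x : V) : 0 ≤ rexp (TT δ x y) * PP δ H x / NN δ H y := by
  have hHb : ∀ x, ‖H x‖ ≤ 1 * (1 + ‖x‖) ^ 0 := fun x => by
    rw [Real.norm_of_nonneg (hH0 x).le]; simpa using hH1 x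
  have h1 := NN_pos hδ hHm.aestronglyMeasurable hH0 hHb y
  have h2 := hH0 x
  unfold PP
  simp only [smul_eq_mul]
  positivity

lemma kk_dens_meas (hHm : Measurable H) (y : V) :
    Measurable fun x => rexp (TT δ x y) * PP δ H x / NN δ H y := by
  have h1 : Measurable fun x : V => rexp (TT δ x y) := by
    simp only [TT_apply]
    fun_prop
  have h2 : Measurable fun x : V => PP δ H x := by
    unfold PP
    simp only [smul_eq_mul]
    exact (by fun_prop : Measurable fun x : V => rexp (-‖x‖ ^ 2 / (2 * δ))).mul hHm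
  exact (h1.mul h2).div_const _

lemma integral_KK (hδ : 0 < δ) (hHm : Measurable H) (hH0 : ∀ x, 0 < H x)
    (hH1 : ∀ x, H x ≤ 1) (y : V) (Φ : V → ℝ) : ∫ x, Φ x ∂(KK δ H y) = EK δ H Φ y := by
  rw [KK, integral_withDensity_eq_integral_toReal_smul (kk_dens_meas hHm y).ennreal_ofReal
    (ae_of_all _ fun x => ENNReal.ofReal_lt_top), EK_eq hδ]
  have h : NN δ (fun x => Φ x * H x) y
      = ∫ x, rexp (TT δ x y) • PP δ (fun x => Φ x * H x) x := rfl
  rw [h, div_eq_mul_inv, ← integral_mul_const]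
  refine integral_congr_ae (ae_of_all _ fun x => ?_)
  simp only []
  rw [ENNReal.toReal_ofReal (kk_dens_nonneg hδ hHm hH0 hH1 y x)]
  simp only [smul_eq_mul, PP]
  ring

lemma integrable_KK_iff (hδ : 0 < δ) (hHm : Measurable H) (hH0 : ∀ x, 0 < H x)
    (hH1 : ∀ x, H x ≤ 1) (y : V) (Φ : V → ℝ) :
    Integrable Φ (KK δ H y) ↔
      Integrable (fun x => rexp (TT δ x y) • PP δ (fun x => Φ x * H x) x) := by
  have hHb : ∀ x, ‖H x‖ ≤ 1 * (1 + ‖x‖) ^ 0 := fun x => by
    rw [Real.norm_of_nonneg (hH0 x).le]; simpa using hH1 x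
  have hN := NN_pos hδ hHm.aestronglyMeasurable hH0 hHb y
  rw [KK, integrable_withDensity_iff_integrable_smul' (kk_dens_meas hHm y).ennreal_ofReal
    (ae_of_all _ fun x => ENNReal.ofReal_lt_top)]
  rw [← integrable_const_mul_iff (c := NN δ H y) hN.ne'.isUnit]
  refine integrable_congr (ae_of_all _ fun x => ?_)
  simp only []
  rw [ENNReal.toReal_ofReal (kk_dens_nonneg hδ hHm hH0 hH1 y x)]
  simp only [smul_eq_mul, PP]
  field_simp

lemma integrable_KK (hδ : 0 < δ) (hHm : Measurable H) (hH0 : ∀ x, 0 < H x)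
    (hH1 : ∀ x, H x ≤ 1) (y : V) {Φ : V → ℝ} (hΦ : AEStronglyMeasurable Φ volume) {C : ℝ} {n : ℕ}
    (hb : ∀ x, ‖Φ x‖ ≤ C * (1 + ‖x‖) ^ n) : Integrable Φ (KK δ H y) := by
  rw [integrable_KK_iff hδ hHm hH0 hH1 y]
  refine integrable_NN (C := C) (n := n) hδ (hΦ.mul hHm.aestronglyMeasurable) (fun x => ?_) y
  rw [Pi.mul_apply, norm_mul, Real.norm_of_nonneg (hH0 x).le]
  calc ‖Φ x‖ * H x ≤ ‖Φ x‖ * 1 := by gcongr; exact hH1 x
    _ ≤ _ := by rw [mul_one]; exact hb x

lemma prob_KK (hδ : 0 < δ) (hHm : Measurable H) (hH0 : ∀ x, 0 < H x)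
    (hH1 : ∀ x, H x ≤ 1) (y : V) : IsProbabilityMeasure (KK δ H y) := by
  have hHb : ∀ x, ‖H x‖ ≤ 1 * (1 + ‖x‖) ^ 0 := fun x => by
    rw [Real.norm_of_nonneg (hH0 x).le]; simpa using hH1 x
  have hN := NN_pos hδ hHm.aestronglyMeasurable hH0 hHb y
  constructor
  rw [KK, withDensity_apply _ MeasurableSet.univ, Measure.restrict_univ,
    ← ofReal_integral_eq_lintegral_ofReal]
  · have : ∫ x, rexp (TT δ x y) * PP δ H x / NN δ H y = 1 := by
      simp_rw [div_eq_mul_inv]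
      rw [integral_mul_const]
      have : ∫ x, rexp (TT δ x y) * PP δ H x = NN δ H y := rfl
      rw [this, mul_inv_cancel₀ hN.ne']
    rw [this]
    simp
  · exact (integrable_NN hδ hHm.aestronglyMeasurable hHb y).div_const _
  · exact ae_of_all _ fun x => kk_dens_nonneg hδ hHm hH0 hH1 y x

/-- **A1**: the covariance bound `Cov_K ≤ δ` from convexity of `-log hS δ H`. -/
theorem var_KK_le (hδ : 0 < δ) (hHm : Measurable H) (hH0 : ∀ x, 0 < H x)
    (hH1 : ∀ x, H x ≤ 1) (hconv : ConvexOn ℝ univ fun y => -Real.log (hS δ H y)) (y v : V) :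
    EK δ H (fun x => ⟪x, v⟫_ℝ * ⟪x, v⟫_ℝ) y - EK δ H (fun x => ⟪x, v⟫_ℝ) y ^ 2
      ≤ δ * ‖v‖ ^ 2 := by
  have hHb : ∀ x, ‖H x‖ ≤ 1 * (1 + ‖x‖) ^ 0 := fun x => by
    rw [Real.norm_of_nonneg (hH0 x).le]; simpa using hH1 x
  have hNpos : ∀ z, 0 < NN δ H z := fun z => NN_pos hδ hHm.aestronglyMeasurable hH0 hHb z
  -- the convex function along the line
  set ψ : ℝ → ℝ := fun r => -Real.log (hS δ H (y + r • v)) with hψ
  have hψc : ConvexOn ℝ univ ψ := by
    refine ⟨convex_univ, fun r _ r' _ a b ha hb hab => ?_⟩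
    have h := hconv.2 (mem_univ (y + r • v)) (mem_univ (y + r' • v)) ha hb hab
    have e : a • (y + r • v) + b • (y + r' • v) = y + (a • r + b • r') • v := by
      have : a • y + b • y = y := by rw [← add_smul, hab, one_smul]
      calc a • (y + r • v) + b • (y + r' • v) = (a • y + b • y) + (a • r + b • r') • v := by
            simp only [smul_add, smul_smul, add_smul, smul_eq_mul]
            abel
        _ = _ := by rw [this]
    rw [e] at h
    exact h
  set φ : ℝ → ℝ := fun r =>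
    δ⁻¹ * ⟪y + r • v, v⟫_ℝ - δ⁻¹ * EK δ H (fun x => ⟪x, v⟫_ℝ) (y + r • v) with hφ
  have hline : ∀ r, HasDerivAt (fun r : ℝ => y + r • v) v r := fun r => by
    simpa using ((hasDerivAt_id r).smul_const v).const_add y
  have hψd : ∀ r, HasDerivAt ψ (φ r) r := by
    intro r
    have h1 : ψ = fun r => -Real.log (cc V δ) + ‖y + r • v‖ ^ 2 / (2 * δ)
        - Real.log (NN δ H (y + r • v)) := by
      funext r
      simp only [hψ]
      rw [hS_eq hδ, smul_eq_mul, Real.log_mul (by have := cc_pos (V := V) hδ; positivity)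
        (hNpos _).ne', Real.log_mul (cc_pos hδ).ne' (Real.exp_pos _).ne', Real.log_exp]
      ring
    rw [h1]
    obtain ⟨L, hL, hLv⟩ := hasFDerivAt_NN' hδ hHm.aestronglyMeasurable hHb (y + r • v)
    have h2 : HasDerivAt (fun r => Real.log (NN δ H (y + r • v)))
        (L v / NN δ H (y + r • v)) r :=
      (hL.comp_hasDerivAt r (hline r)).log (hNpos _).ne'
    have h3 : HasDerivAt (fun r : ℝ => ‖y + r • v‖ ^ 2) (2 * ⟪y + r • v, v⟫_ℝ) r :=
      (hline r).norm_sq
    have h4 := ((h3.div_const (2 * δ)).const_add (-Real.log (cc V δ))).sub h2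
    refine HasDerivAt.congr_deriv (f := fun r => -Real.log (cc V δ) + ‖y + r • v‖ ^ 2 / (2 * δ)
        - Real.log (NN δ H (y + r • v))) h4 ?_
    show _ = δ⁻¹ * ⟪y + r • v, v⟫_ℝ - δ⁻¹ * EK δ H (fun x => ⟪x, v⟫_ℝ) (y + r • v)
    rw [hLv, EK_eq hδ]
    have e2 : (fun x => H x * ⟪x, v⟫_ℝ) = fun x => ⟪x, v⟫_ℝ * H x := by
      funext x; ring
    rw [e2]
    field_simp
  have hmono : ∀ r, 0 < r → φ 0 ≤ φ r := by
    intro r hr
    exact (hψc.le_slope_of_hasDerivAt (mem_univ 0) (mem_univ r) hr (hψd 0)).trans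
      (hψc.slope_le_of_hasDerivAt (mem_univ 0) (mem_univ r) hr (hψd r))
  -- derivative of φ at 0
  have hinb : ∀ x : V, ‖⟪x, v⟫_ℝ‖ ≤ ‖v‖ * (1 + ‖x‖) ^ 1 := by
    intro x
    refine (norm_inner_le_norm x v).trans ?_
    nlinarith [norm_nonneg x, norm_nonneg v]
  obtain ⟨L, hL, hLv⟩ := hasFDerivAt_EK hδ hHm.aestronglyMeasurable hH0 hH1
    (Φ := fun x => ⟪x, v⟫_ℝ) (by fun_prop) hinb y
  have hφd : HasDerivAt φ (δ⁻¹ * ‖v‖ ^ 2 - δ⁻¹ * L v) 0 := by
    have h1 : HasDerivAt (fun r : ℝ => ⟪y + r • v, v⟫_ℝ) (‖v‖ ^ 2) 0 := by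
      have := (hline 0).inner ℝ (hasDerivAt_const 0 v)
      simpa [real_inner_self_eq_norm_sq] using this
    have h2 : HasDerivAt (fun r : ℝ => EK δ H (fun x => ⟪x, v⟫_ℝ) (y + r • v)) (L v) 0 := by
      have h3 : HasFDerivAt (EK δ H fun x => ⟪x, v⟫_ℝ) L (y + (0 : ℝ) • v) := by simpa using hL
      exact h3.comp_hasDerivAt 0 (hline 0)
    exact (h1.const_mul _).sub (h2.const_mul _)
  have hlim := hφd.tendsto_slope_zero_right
  have hge : 0 ≤ δ⁻¹ * ‖v‖ ^ 2 - δ⁻¹ * L v := by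
    refine ge_of_tendsto hlim ?_
    filter_upwards [self_mem_nhdsWithin] with r hr
    have hr' : 0 < r := hr
    have := hmono r hr'
    simp only [zero_add, smul_eq_mul]
    have h5 : 0 ≤ r⁻¹ := by positivity
    nlinarith
  rw [hLv v] at hge
  have h6 : EK δ H (fun x => ⟪x, v⟫_ℝ * ⟪x, v⟫_ℝ) y
      - EK δ H (fun x => ⟪x, v⟫_ℝ) y * EK δ H (fun x => ⟪x, v⟫_ℝ) y ≤ δ * ‖v‖ ^ 2 := by
    have h7 : 0 ≤ δ ^ 2 * (δ⁻¹ * ‖v‖ ^ 2 - δ⁻¹ * (δ⁻¹ *
      (EK δ H (fun x => ⟪x, v⟫_ℝ * ⟪x, v⟫_ℝ) y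
        - EK δ H (fun x => ⟪x, v⟫_ℝ) y * EK δ H (fun x => ⟪x, v⟫_ℝ) y))) :=
      mul_nonneg (by positivity) hge
    have h8 : δ ^ 2 * (δ⁻¹ * ‖v‖ ^ 2 - δ⁻¹ * (δ⁻¹ *
      (EK δ H (fun x => ⟪x, v⟫_ℝ * ⟪x, v⟫_ℝ) y
        - EK δ H (fun x => ⟪x, v⟫_ℝ) y * EK δ H (fun x => ⟪x, v⟫_ℝ) y)))
        = δ * ‖v‖ ^ 2 - (EK δ H (fun x => ⟪x, v⟫_ℝ * ⟪x, v⟫_ℝ) y
        - EK δ H (fun x => ⟪x, v⟫_ℝ) y * EK δ H (fun x => ⟪x, v⟫_ℝ) y) := by
      field_simp
    rw [h8] at h7
    linarith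
  rw [sq]
  exact h6


omit [FiniteDimensional ℝ V] [MeasurableSpace V] [BorelSpace V] in
lemma inner_growth (v x : V) : ‖⟪x, v⟫_ℝ‖ ≤ ‖v‖ * (1 + ‖x‖) ^ 1 := by
  refine (norm_inner_le_norm x v).trans ?_
  nlinarith [norm_nonneg x, norm_nonneg v]

/-- **A1 (a)**, `fderiv` form for bounded functions. -/
theorem fderiv_EK (hδ : 0 < δ) (hHm : Measurable H) (hH0 : ∀ x, 0 < H x)
    (hH1 : ∀ x, H x ≤ 1) {Φ : V → ℝ} (hΦ : Measurable Φ) {C : ℝ} {n : ℕ}
    (hb : ∀ x, ‖Φ x‖ ≤ C * (1 + ‖x‖) ^ n) (y v : V) :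
    DifferentiableAt ℝ (EK δ H Φ) y ∧ fderiv ℝ (EK δ H Φ) y v = δ⁻¹ *
      (EK δ H (fun x => Φ x * ⟪x, v⟫_ℝ) y - EK δ H Φ y * EK δ H (fun x => ⟪x, v⟫_ℝ) y) := by
  obtain ⟨L, hL, hLv⟩ := hasFDerivAt_EK hδ hHm.aestronglyMeasurable hH0 hH1
    hΦ.aestronglyMeasurable hb y
  exact ⟨hL.differentiableAt, by rw [hL.fderiv, hLv]⟩

/-- **A1 (b)**: the derivative of a Hilbert valued posterior average is bounded in
Hilbert–Schmidt norm by `δ^{-1/2} sup |F|`, in coordinates. -/
theorem sum_fderiv_EK_le (hδ : 0 < δ) (hHm : Measurable H) (hH0 : ∀ x, 0 < H x)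
    (hH1 : ∀ x, H x ≤ 1) (hconv : ConvexOn ℝ univ fun y => -Real.log (hS δ H y))
    {ι α : Type*} [Fintype ι] [Fintype α] (e : OrthonormalBasis ι ℝ V)
    {Φ : α → V → ℝ} (hΦ : ∀ i, Measurable (Φ i)) {M : ℝ} (hM0 : 0 ≤ M)
    (hM : ∀ x, ∑ i, Φ i x ^ 2 ≤ M ^ 2) (a : ι → α → ℝ) (y : V) :
    |∑ l, ∑ i, a l i * fderiv ℝ (EK δ H (Φ i)) y (e l)|
      ≤ (√δ)⁻¹ * M * √(∑ l, ∑ i, a l i ^ 2) := by
  have hp := prob_KK hδ hHm hH0 hH1 y
  set K := KK δ H y with hK
  have hΦM : ∀ i x, |Φ i x| ≤ M := by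
    intro i x
    have h1 : Φ i x ^ 2 ≤ M ^ 2 :=
      (Finset.single_le_sum (f := fun i => Φ i x ^ 2) (fun i _ => sq_nonneg _)
        (Finset.mem_univ i)).trans (hM x)
    exact abs_le_of_sq_le_sq h1 hM0
  have hΦb : ∀ i x, ‖Φ i x‖ ≤ M * (1 + ‖x‖) ^ 0 := fun i x => by simpa using hΦM i x
  set A : α → V := fun i => ∑ l, a l i • e l with hA
  have hAn : ∀ i, ‖A i‖ ^ 2 = ∑ l, a l i ^ 2 := by
    intro i
    have h1 : ∀ l, ⟪A i, e l⟫_ℝ = a l i := by
      intro l
      simp only [hA, sum_inner, real_inner_smul_left]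
      rw [Finset.sum_eq_single l]
      · rw [real_inner_self_eq_norm_sq, e.norm_eq_one]; ring
      · intro b _ hb
        rw [e.inner_eq_zero hb, mul_zero]
      · simp
    rw [← e.sum_sq_norm_inner_left (A i)]
    refine Finset.sum_congr rfl fun l _ => ?_
    rw [h1, Real.norm_eq_abs, sq_abs]
  set m : α → ℝ := fun i => EK δ H (fun x => ⟪x, A i⟫_ℝ) y with hm
  set W : α → V → ℝ := fun i x => ⟪x, A i⟫_ℝ - m i with hW
  have hWm : ∀ i, Measurable (W i) := fun i => by simp only [hW]; fun_prop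
  have hWb : ∀ i x, ‖W i x‖ ≤ (‖A i‖ + |m i|) * (1 + ‖x‖) ^ 1 := by
    intro i x
    simp only [hW]
    refine (norm_sub_le _ _).trans ?_
    have h1 := inner_growth (A i) x
    have h2 : ‖m i‖ ≤ |m i| * (1 + ‖x‖) ^ 1 := by
      rw [Real.norm_eq_abs]
      nlinarith [abs_nonneg (m i), norm_nonneg x]
    calc ‖⟪x, A i⟫_ℝ‖ + ‖m i‖ ≤ ‖A i‖ * (1 + ‖x‖) ^ 1 + |m i| * (1 + ‖x‖) ^ 1 := by gcongr
      _ = _ := by ring
  -- integrability
  have hΦi : ∀ i, Integrable (Φ i) K := fun i =>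
    integrable_KK hδ hHm hH0 hH1 y (hΦ i).aestronglyMeasurable (hΦb i)
  have hvi : ∀ v : V, Integrable (fun x => ⟪x, v⟫_ℝ) K := fun v =>
    integrable_KK hδ hHm hH0 hH1 y (by fun_prop) (inner_growth v)
  have hΦvi : ∀ i (v : V), Integrable (fun x => Φ i x * ⟪x, v⟫_ℝ) K := fun i v =>
    integrable_KK hδ hHm hH0 hH1 y ((hΦ i).mul (by fun_prop)).aestronglyMeasurable
      (growth_mul_inner (hΦb i) v)
  have hWi : ∀ i, Integrable (W i) K := fun i => (hvi (A i)).sub (integrable_const _)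
  have hW2b : ∀ i x, ‖W i x ^ 2‖ ≤ (‖A i‖ + |m i|) ^ 2 * (1 + ‖x‖) ^ 2 := by
    intro i x
    rw [norm_pow]
    calc ‖W i x‖ ^ 2 ≤ ((‖A i‖ + |m i|) * (1 + ‖x‖) ^ 1) ^ 2 := by gcongr; exact hWb i x
      _ = _ := by ring
  have hW2i : ∀ i, Integrable (fun x => W i x ^ 2) K := fun i =>
    integrable_KK hδ hHm hH0 hH1 y ((hWm i).pow_const 2).aestronglyMeasurable (hW2b i)
  have hΦWi : ∀ i, Integrable (fun x => Φ i x * W i x) K := fun i => by
    have := (hΦvi i (A i)).sub ((hΦi i).mul_const (m i))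
    refine this.congr (ae_of_all _ fun x => ?_)
    simp only [hW, Pi.sub_apply]
    ring
  -- the sum as an integral
  have hsum : ∑ l, ∑ i, a l i * fderiv ℝ (EK δ H (Φ i)) y (e l)
      = δ⁻¹ * ∫ x, ∑ i, Φ i x * W i x ∂K := by
    rw [Finset.sum_comm, integral_finsetSum _ fun i _ => hΦWi i, Finset.mul_sum]
    refine Finset.sum_congr rfl fun i _ => ?_
    have h1 : ∑ l, a l i * fderiv ℝ (EK δ H (Φ i)) y (e l)
        = fderiv ℝ (EK δ H (Φ i)) y (A i) := by
      simp only [hA, map_sum, map_smul, smul_eq_mul]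
    rw [h1, (fderiv_EK hδ hHm hH0 hH1 (hΦ i) (hΦb i) y (A i)).2]
    congr 1
    rw [← integral_KK hδ hHm hH0 hH1 y, ← integral_KK hδ hHm hH0 hH1 y (Φ i), ← hK,
      ← integral_mul_const, ← integral_sub (hΦvi i (A i)) ((hΦi i).mul_const _)]
    refine integral_congr_ae (ae_of_all _ fun x => ?_)
    simp only [hW, hm]
    ring
  -- variance
  have hvar : ∀ i, ∫ x, W i x ^ 2 ∂K ≤ δ * ∑ l, a l i ^ 2 := by
    intro i
    have h1 := var_KK_le hδ hHm hH0 hH1 hconv y (A i)
    rw [hAn] at h1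
    refine le_trans (le_of_eq ?_) h1
    have hii : Integrable (fun x => ⟪x, A i⟫_ℝ * ⟪x, A i⟫_ℝ) K :=
      integrable_KK hδ hHm hH0 hH1 y (by fun_prop) (growth_mul_inner (inner_growth (A i)) (A i))
    have h2 : ∀ x, W i x ^ 2 = ⟪x, A i⟫_ℝ * ⟪x, A i⟫_ℝ - 2 * m i * ⟪x, A i⟫_ℝ + m i ^ 2 := by
      intro x
      simp only [hW]
      ring
    simp_rw [h2]
    have hii2 : Integrable (fun x => ⟪x, A i⟫_ℝ * ⟪x, A i⟫_ℝ - 2 * m i * ⟪x, A i⟫_ℝ) K :=
      hii.sub ((hvi (A i)).const_mul _)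
    rw [integral_add hii2 (integrable_const _),
      integral_sub hii ((hvi (A i)).const_mul _), integral_const_mul,
      integral_KK hδ hHm hH0 hH1 y, integral_KK hδ hHm hH0 hH1 y]
    simp only [integral_const, probReal_univ, smul_eq_mul, one_mul]
    simp only [hm]
    ring
  -- Cauchy–Schwarz
  set X : V → ℝ := fun x => ∑ i, Φ i x * W i x with hX
  have hXi : Integrable X K := integrable_finsetSum _ fun i _ => hΦWi i
  have hX2 : ∀ x, X x ^ 2 ≤ M ^ 2 * ∑ i, W i x ^ 2 := by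
    intro x
    refine (Finset.sum_mul_sq_le_sq_mul_sq _ _ _).trans ?_
    have := hM x
    have h3 : 0 ≤ ∑ i, W i x ^ 2 := Finset.sum_nonneg fun i _ => sq_nonneg _
    gcongr
  have hsW : Integrable (fun x => M ^ 2 * ∑ i, W i x ^ 2) K :=
    (integrable_finsetSum _ fun i _ => hW2i i).const_mul _
  have hX2i : Integrable (fun x => X x ^ 2) K := by
    refine hsW.mono' ((hXi.aestronglyMeasurable.pow 2)) (ae_of_all _ fun x => ?_)
    rw [Real.norm_of_nonneg (sq_nonneg _)]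
    exact hX2 x
  have hJ : (∫ x, X x ∂K) ^ 2 ≤ ∫ x, X x ^ 2 ∂K := by
    set c := ∫ x, X x ∂K with hc
    have h1 : 0 ≤ ∫ x, (X x - c) ^ 2 ∂K := integral_nonneg fun x => sq_nonneg _
    have h2 : ∀ x, (X x - c) ^ 2 = X x ^ 2 - 2 * c * X x + c ^ 2 := fun x => by ring
    simp_rw [h2] at h1
    have hX3 : Integrable (fun x => X x ^ 2 - 2 * c * X x) K := hX2i.sub (hXi.const_mul _)
    rw [integral_add hX3 (integrable_const _),
      integral_sub hX2i (hXi.const_mul _), integral_const_mul, ← hc] at h1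
    simp only [integral_const, probReal_univ, smul_eq_mul, one_mul] at h1
    nlinarith
  have hfin : (∫ x, X x ∂K) ^ 2 ≤ M ^ 2 * (δ * ∑ l, ∑ i, a l i ^ 2) := by
    refine hJ.trans ?_
    calc ∫ x, X x ^ 2 ∂K ≤ ∫ x, M ^ 2 * ∑ i, W i x ^ 2 ∂K := integral_mono hX2i hsW hX2
      _ = M ^ 2 * ∑ i, ∫ x, W i x ^ 2 ∂K := by
          rw [integral_const_mul, integral_finsetSum _ fun i _ => hW2i i]
      _ ≤ M ^ 2 * ∑ i, δ * ∑ l, a l i ^ 2 := by
          gcongr with i
          exact hvar i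
      _ = M ^ 2 * (δ * ∑ l, ∑ i, a l i ^ 2) := by
          rw [← Finset.mul_sum, Finset.sum_comm]
  rw [hsum, abs_mul, abs_of_pos (inv_pos.2 hδ)]
  have h4 : |∫ x, X x ∂K| ≤ M * (√δ * √(∑ l, ∑ i, a l i ^ 2)) := by
    have h5 := Real.abs_le_sqrt hfin
    rwa [Real.sqrt_mul (sq_nonneg M), Real.sqrt_sq hM0, Real.sqrt_mul hδ.le] at h5
  have hs : 0 < √δ := Real.sqrt_pos.2 hδ
  calc δ⁻¹ * |∫ x, X x ∂K| ≤ δ⁻¹ * (M * (√δ * √(∑ l, ∑ i, a l i ^ 2))) := by gcongr
    _ = (√δ)⁻¹ * M * √(∑ l, ∑ i, a l i ^ 2) := by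
        have : δ⁻¹ * √δ = (√δ)⁻¹ := by
          nth_rewrite 1 [← Real.mul_self_sqrt hδ.le]
          field_simp
        rw [← this]
        ring

end main

end Crest.Agent.R285.AFK
end
end

-- ▼ part R285/AFCore
section

/-!
Row 285 (S0430), module AF: gradient bound of a function given by a Duhamel formula with
posterior kernels (helper635).
-/

set_option autoImplicit false

open Set MeasureTheory ProbabilityTheory
open Crest.OracleSampling (E)
open scoped ContDiff RealInnerProductSpace Topology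

noncomputable section

namespace Crest.Agent.R285.AF

open AFK

variable {d : ℕ}

theorem integrable_norm_std : Integrable (fun g : E d => ‖g‖) (stdGaussian (E d)) := by
  have h := (IsGaussian.memLp_id (stdGaussian (E d)) 1 (by simp)).integrable le_rfl
  simpa using h.norm

/-- Continuity in `s` of `hS (t - s) (Ψ s) y`. -/
theorem continuousOn_hS {r t : ℝ} (hr : 0 < r) {Ψ : ℝ → E d → ℝ}
    (hΨ : ContinuousOn (fun p : ℝ × E d => Ψ p.1 p.2) (Ioi 0 ×ˢ univ)) {C : ℝ}
    (hb : ∀ s ∈ Icc r t, ∀ x, |Ψ s x| ≤ C * (1 + ‖x‖)) (y : E d) :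
    ContinuousOn (fun s => hS (t - s) (Ψ s) y) (Icc r t) := by
  have hslice : ∀ s ∈ Icc r t, Continuous (Ψ s) := by
    intro s hs
    have hs0 : 0 < s := hr.trans_le hs.1
    have h1 : Continuous fun x : E d => ((s, x) : ℝ × E d) := by fun_prop
    have h2 := hΨ.comp_continuous h1 fun x => ⟨hs0, mem_univ _⟩
    exact h2
  unfold hS
  refine continuousOn_of_dominated (bound := fun g => C * (1 + ‖y‖ + √(t - r) * ‖g‖)) ?_ ?_ ?_ ?_
  · intro s hs
    exact ((hslice s hs).comp (by fun_prop)).aestronglyMeasurable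
  · intro s hs
    refine ae_of_all _ fun g => ?_
    refine (hb s hs _).trans ?_
    have hC : 0 ≤ C := by
      have := (abs_nonneg _).trans (hb s hs 0)
      simpa using this
    refine mul_le_mul_of_nonneg_left ?_ hC
    have h1 : ‖y + √(t - s) • g‖ ≤ ‖y‖ + √(t - s) * ‖g‖ := by
      refine (norm_add_le _ _).trans ?_
      rw [norm_smul, Real.norm_of_nonneg (Real.sqrt_nonneg _)]
    have h2 : √(t - s) ≤ √(t - r) := Real.sqrt_le_sqrt (by linarith [hs.1])
    have h3 := mul_le_mul_of_nonneg_right h2 (norm_nonneg g)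
    linarith
  · refine Integrable.const_mul ?_ C
    exact (integrable_const _).add (integrable_norm_std.const_mul _)
  · refine ae_of_all _ fun g => ?_
    have h1 : ContinuousOn (fun s : ℝ => ((s, y + √(t - s) • g) : ℝ × E d)) (Icc r t) := by
      fun_prop
    refine hΨ.comp h1 fun s hs => ⟨hr.trans_le hs.1, mem_univ _⟩

theorem integral_inv_sqrt {r t : ℝ} (hrt : r ≤ t) :
    IntervalIntegrable (fun s => (√(t - s))⁻¹) volume r t ∧
      ∫ s in r..t, (√(t - s))⁻¹ = 2 * √(t - r) := by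
  have e : ∀ x : ℝ, 0 ≤ x → (√x)⁻¹ = x ^ (-(1 / 2) : ℝ) := fun x hx => by
    rw [Real.rpow_neg hx, ← Real.sqrt_eq_rpow]
  have hI : IntervalIntegrable (fun x : ℝ => (√x)⁻¹) volume 0 (t - r) := by
    have h1 : IntervalIntegrable (fun x : ℝ => x ^ (-(1 / 2) : ℝ)) volume 0 (t - r) :=
      intervalIntegral.intervalIntegrable_rpow' (by norm_num)
    refine h1.congr ?_
    intro x hx
    rw [uIoc_of_le (by linarith)] at hx
    exact (e x hx.1.le).symm
  constructor
  · have h2 := hI.comp_sub_left t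
    simpa using h2.symm
  · have h3 : ∫ s in r..t, (√(t - s))⁻¹ = ∫ x in (t - t)..(t - r), (√x)⁻¹ :=
      intervalIntegral.integral_comp_sub_left (fun x => (√x)⁻¹) t
    rw [h3, sub_self]
    have h4 : ∫ x in (0 : ℝ)..(t - r), (√x)⁻¹ = ∫ x in (0 : ℝ)..(t - r), x ^ (-(1 / 2) : ℝ) := by
      refine intervalIntegral.integral_congr fun x hx => ?_
      rw [uIcc_of_le (by linarith)] at hx
      exact e x hx.1
    rw [h4, integral_rpow (Or.inl (by norm_num)), Real.sqrt_eq_rpow]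
    norm_num
    ring

/-- **Gradient bound from Duhamel's formula.** -/
theorem core {r t : ℝ} (hr : 0 < r) (hrt : r < t) {H : ℝ → E d → ℝ}
    (hHc : ContinuousOn (fun p : ℝ × E d => H p.1 p.2) (Ioi 0 ×ˢ univ))
    (hH0 : ∀ s, 0 < s → ∀ x, 0 < H s x) (hH1 : ∀ s, 0 < s → ∀ x, H s x ≤ 1)
    (hconv : ∀ s ∈ Ico r t, ConvexOn ℝ univ fun y => -Real.log (hS (t - s) (H s) y))
    {α : Type} [Fintype α] {w0 : α → E d → ℝ} (hw0 : ∀ i, Measurable (w0 i))
    {n : α → ℝ → E d → ℝ}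
    (hn : ∀ i, ContinuousOn (fun p : ℝ × E d => n i p.1 p.2) (Ioi 0 ×ˢ univ)) {M N : ℝ}
    (hM0 : 0 ≤ M) (hN0 : 0 ≤ N) (hM : ∀ x, ∑ i, w0 i x ^ 2 ≤ M ^ 2)
    (hN : ∀ s ∈ Icc r t, ∀ x, ∑ i, n i s x ^ 2 ≤ N ^ 2) {w : α → E d → ℝ}
    (hw : ∀ i y, w i y = EK (t - r) (H r) (w0 i) y -
      2⁻¹ * ∫ s in r..t, EK (t - s) (H s) (n i s) y) (y : E d)
    (hwd : ∀ i, DifferentiableAt ℝ (w i) y) (a : Fin d → α → ℝ) :
    |∑ l, ∑ i, a l i * pd l (w i) y| ≤
      ((√(t - r))⁻¹ * M + √(t - r) * N) * √(∑ l, ∑ i, a l i ^ 2) := by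
  classical
  have hslice : ∀ {Ψ : ℝ → E d → ℝ} (_ : ContinuousOn (fun p : ℝ × E d => Ψ p.1 p.2)
      (Ioi 0 ×ˢ univ)) {s : ℝ} (_ : 0 < s), Continuous (Ψ s) := by
    intro Ψ hΨ s hs
    have h1 : Continuous fun x : E d => ((s, x) : ℝ × E d) := by fun_prop
    exact hΨ.comp_continuous h1 fun x => ⟨hs, mem_univ _⟩
  have hHm : ∀ s, 0 < s → Measurable (H s) := fun s hs => (hslice hHc hs).measurable
  have hnb : ∀ i, ∀ s ∈ Icc r t, ∀ x, |n i s x| ≤ N := by
    intro i s hs x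
    refine abs_le_of_sq_le_sq (b := N) ((?_ : n i s x ^ 2 ≤ _).trans (hN s hs x)) hN0
    exact Finset.single_le_sum (f := fun i => n i s x ^ 2) (fun _ _ => sq_nonneg _)
      (Finset.mem_univ i)
  -- basis
  set e := EuclideanSpace.basisFun (Fin d) ℝ with he
  have hel : ∀ l, e l = ev l := fun l => by simp [he, ev]
  have hnorm : ∀ l : Fin d, ‖ev l‖ = 1 := fun l => by simp [ev]
  -- pointwise bound of one directional derivative of the kernel
  have hone : ∀ i (l : Fin d), ∀ s ∈ Ico r t, ∀ z, 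
      |fderiv ℝ (EK (t - s) (H s) (n i s)) z (ev l)| ≤ (√(t - s))⁻¹ * N := by
    intro i l s hs z
    have hs0 : 0 < s := hr.trans_le hs.1
    have h1 := sum_fderiv_EK_le (α := Unit) (δ := t - s) (by linarith [hs.2]) (hHm s hs0)
      (hH0 s hs0) (hH1 s hs0) (hconv s hs) e (Φ := fun _ => n i s)
      (fun _ => (hslice (hn i) hs0).measurable) hN0
      (fun x => by
        simp only [Finset.univ_unique, Finset.sum_const, Finset.card_singleton, one_smul]
        have h2 := hnb i s ⟨hs.1, hs.2.le⟩ x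
        exact sq_le_sq' (by linarith [(abs_le.1 h2).1]) (abs_le.1 h2).2)
      (fun k _ => if k = l then 1 else 0) z
    simpa [hel] using h1
  -- derivative of the time integral
  have hder : ∀ i (l : Fin d),
      IntervalIntegrable (fun s => fderiv ℝ (EK (t - s) (H s) (n i s)) y (ev l)) volume r t ∧
      HasDerivAt
      (fun ε : ℝ => ∫ s in r..t, EK (t - s) (H s) (n i s) (y + ε • ev l))
      (∫ s in r..t, fderiv ℝ (EK (t - s) (H s) (n i s)) y (ev l)) 0 := by
    intro i l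
    have hEKc : ∀ z, ContinuousOn (fun s => EK (t - s) (H s) (n i s) z) (Icc r t) := by
      intro z
      unfold EK
      refine ContinuousOn.div ?_ ?_ ?_
      · refine continuousOn_hS (C := N) hr (Ψ := fun s x => n i s x * H s x) ((hn i).mul hHc) ?_ z
        intro s hs x
        have hs0 : 0 < s := hr.trans_le hs.1
        rw [abs_mul, abs_of_pos (hH0 s hs0 x)]
        have h1 := hnb i s hs x
        have h2 := hH1 s hs0 x
        have h3 : |n i s x| * H s x ≤ N * 1 := mul_le_mul h1 h2 (hH0 s hs0 x).le hN0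
        nlinarith [norm_nonneg x]
      · refine continuousOn_hS (C := 1) hr hHc ?_ z
        intro s hs x
        have hs0 : 0 < s := hr.trans_le hs.1
        rw [abs_of_pos (hH0 s hs0 x)]
        linarith [hH1 s hs0 x, norm_nonneg x]
      · intro s hs
        have hs0 : 0 < s := hr.trans_le hs.1
        rcases eq_or_lt_of_le hs.2 with h | h
        · have : hS (t - s) (H s) z = H s z := by
            rw [h, sub_self]; unfold hS; simp
          rw [this]
          exact (hH0 s hs0 z).ne'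
        · exact (hS_pos (by linarith) (hHm s hs0).aestronglyMeasurable (hH0 s hs0) (C := 1) (n := 0)
            (fun x => by rw [Real.norm_of_nonneg (hH0 s hs0 x).le]; simpa using hH1 s hs0 x) z).ne'
    have hdiff : ∀ s ∈ Ioo r t, ∀ z, DifferentiableAt ℝ (EK (t - s) (H s) (n i s)) z ∧
        ∀ v, fderiv ℝ (EK (t - s) (H s) (n i s)) z v = (t - s)⁻¹ *
          (EK (t - s) (H s) (fun x => n i s x * ⟪x, v⟫) z -
            EK (t - s) (H s) (n i s) z * EK (t - s) (H s) (fun x => ⟪x, v⟫) z) := by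
      intro s hs z
      have hs0 : 0 < s := hr.trans hs.1
      have h1 := fun v => fderiv_EK (δ := t - s) (by linarith [hs.2]) (hHm s hs0) (hH0 s hs0)
        (hH1 s hs0) (Φ := n i s) (hslice (hn i) hs0).measurable (C := N) (n := 0)
        (fun x => by simpa using hnb i s ⟨hs.1.le, hs.2.le⟩ x) z v
      exact ⟨(h1 0).1, fun v => (h1 v).2⟩
    have hline : ∀ ε : ℝ, HasDerivAt (fun ε : ℝ => y + ε • ev l) (ev l) ε := fun ε => by
      simpa using ((hasDerivAt_id ε).smul_const (ev l)).const_add y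
    have key := intervalIntegral.hasDerivAt_integral_of_dominated_loc_of_deriv_le
      (μ := volume) (a := r) (b := t) (x₀ := (0 : ℝ)) (s := Metric.ball 0 1)
      (bound := fun s => (√(t - s))⁻¹ * N)
      (F := fun ε s => EK (t - s) (H s) (n i s) (y + ε • ev l))
      (F' := fun ε s => fderiv ℝ (EK (t - s) (H s) (n i s)) (y + ε • ev l) (ev l))
      (Metric.ball_mem_nhds 0 one_pos) ?_ ?_ ?_ ?_ ?_ ?_
    · simpa using key
    · refine Filter.Eventually.of_forall fun ε => ?_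
      rw [uIoc_of_le hrt.le]
      exact ((hEKc _).mono Ioc_subset_Icc_self).aestronglyMeasurable measurableSet_Ioc
    · refine ContinuousOn.intervalIntegrable ?_
      rw [uIcc_of_le hrt.le]
      exact hEKc _
    · rw [uIoc_of_le hrt.le, ← restrict_Ioo_eq_restrict_Ioc]
      have hc : ContinuousOn (fun s => (t - s)⁻¹ *
          (EK (t - s) (H s) (fun x => n i s x * ⟪x, ev l⟫) (y + (0 : ℝ) • ev l) -
            EK (t - s) (H s) (n i s) (y + (0 : ℝ) • ev l) *
            EK (t - s) (H s) (fun x => ⟪x, ev l⟫) (y + (0 : ℝ) • ev l))) (Ioo r t) := by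
        set z := y + (0 : ℝ) • ev l with hz
        have hden : ContinuousOn (fun s => hS (t - s) (H s) z) (Icc r t) := by
          refine continuousOn_hS (C := 1) hr hHc ?_ z
          intro s hs x
          have hs0 : 0 < s := hr.trans_le hs.1
          rw [abs_of_pos (hH0 s hs0 x)]
          linarith [hH1 s hs0 x, norm_nonneg x]
        have hden0 : ∀ s ∈ Ioo r t, hS (t - s) (H s) z ≠ 0 := by
          intro s hs
          have hs0 : 0 < s := hr.trans hs.1
          exact (hS_pos (by linarith [hs.2]) (hHm s hs0).aestronglyMeasurable (hH0 s hs0) (C := 1)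
            (n := 0) (fun x => by
              rw [Real.norm_of_nonneg (hH0 s hs0 x).le]; simpa using hH1 s hs0 x) z).ne'
        have hin : ContinuousOn (fun p : ℝ × E d => ⟪p.2, ev l⟫) (Ioi 0 ×ˢ univ) := by fun_prop
        have hinb : ∀ x : E d, |⟪x, ev l⟫| ≤ ‖x‖ := fun x => by
          have := abs_real_inner_le_norm x (ev l)
          rwa [hnorm, mul_one] at this
        have c1 : ContinuousOn (fun s => EK (t - s) (H s) (fun x => n i s x * ⟪x, ev l⟫) z)
            (Ioo r t) := by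
          unfold EK
          refine ContinuousOn.div ?_ (hden.mono Ioo_subset_Icc_self) hden0
          refine (continuousOn_hS (C := N) hr
            (Ψ := fun s x => (n i s x * ⟪x, ev l⟫) * H s x) (((hn i).mul hin).mul hHc) ?_ z).mono
            Ioo_subset_Icc_self
          intro s hs x
          have hs0 : 0 < s := hr.trans_le hs.1
          rw [abs_mul, abs_mul, abs_of_pos (hH0 s hs0 x)]
          have h1 := hnb i s hs x
          have h2 := hH1 s hs0 x
          have h4 := hinb x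
          have h5 : |n i s x| * |⟪x, ev l⟫| ≤ N * ‖x‖ :=
            mul_le_mul h1 h4 (abs_nonneg _) hN0
          have h3 : |n i s x| * |⟪x, ev l⟫| * H s x ≤ N * ‖x‖ * 1 :=
            mul_le_mul h5 h2 (hH0 s hs0 x).le (mul_nonneg hN0 (norm_nonneg _))
          nlinarith [norm_nonneg x]
        have c3 : ContinuousOn (fun s => EK (t - s) (H s) (fun x => ⟪x, ev l⟫) z)
            (Ioo r t) := by
          unfold EK
          refine ContinuousOn.div ?_ (hden.mono Ioo_subset_Icc_self) hden0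
          refine (continuousOn_hS (C := 1) hr
            (Ψ := fun s x => ⟪x, ev l⟫ * H s x) (hin.mul hHc) ?_ z).mono
            Ioo_subset_Icc_self
          intro s hs x
          have hs0 : 0 < s := hr.trans_le hs.1
          rw [abs_mul, abs_of_pos (hH0 s hs0 x)]
          have h2 := hH1 s hs0 x
          have h4 := hinb x
          have h3 : |⟪x, ev l⟫| * H s x ≤ ‖x‖ * 1 :=
            mul_le_mul h4 h2 (hH0 s hs0 x).le (norm_nonneg _)
          nlinarith [norm_nonneg x]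
        have c4 : ContinuousOn (fun s : ℝ => (t - s)⁻¹) (Ioo r t) := by
          refine ContinuousOn.inv₀ (by fun_prop) fun s hs => ?_
          have := hs.2
          intro h0
          linarith
        exact c4.mul (c1.sub (((hEKc z).mono Ioo_subset_Icc_self).mul c3))
      refine (hc.aestronglyMeasurable measurableSet_Ioo).congr ?_
      refine (ae_restrict_iff' measurableSet_Ioo).2 (ae_of_all _ fun s hs => ?_)
      exact ((hdiff s hs _).2 _).symm
    · have hne : ∀ᵐ s : ℝ ∂volume, s ≠ t := by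
        rw [ae_iff]; simp
      filter_upwards [hne] with s hst hs ε _
      rw [uIoc_of_le hrt.le] at hs
      exact hone i l s ⟨hs.1.le, lt_of_le_of_ne hs.2 hst⟩ _
    · exact (integral_inv_sqrt hrt.le).1.mul_const _
    · have hne : ∀ᵐ s : ℝ ∂volume, s ≠ t := by
        rw [ae_iff]; simp
      filter_upwards [hne] with s hst hs ε _
      rw [uIoc_of_le hrt.le] at hs
      exact ((hdiff s ⟨hs.1, lt_of_le_of_ne hs.2 hst⟩ _).1.hasFDerivAt).comp_hasDerivAt ε (hline ε)
  have hline : ∀ l (ε : ℝ), HasDerivAt (fun ε : ℝ => y + ε • ev l) (ev l) ε := fun l ε => by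
    simpa using ((hasDerivAt_id ε).smul_const (ev l)).const_add y
  have hw0b : ∀ i x, |w0 i x| ≤ M := fun i x => by
    refine abs_le_of_sq_le_sq (b := M) ((?_ : w0 i x ^ 2 ≤ _).trans (hM x)) hM0
    exact Finset.single_le_sum (f := fun i => w0 i x ^ 2) (fun _ _ => sq_nonneg _)
      (Finset.mem_univ i)
  have hpd : ∀ i l, pd l (w i) y = fderiv ℝ (EK (t - r) (H r) (w0 i)) y (ev l) -
      2⁻¹ * ∫ s in r..t, fderiv ℝ (EK (t - s) (H s) (n i s)) y (ev l) := by
    intro i l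
    have h0 : DifferentiableAt ℝ (EK (t - r) (H r) (w0 i)) (y + (0 : ℝ) • ev l) :=
      (fderiv_EK (δ := t - r) (by linarith) (hHm r hr) (hH0 r hr) (hH1 r hr) (hw0 i) (C := M)
        (n := 0) (fun x => by simpa using hw0b i x) _ 0).1
    have h1 := h0.hasFDerivAt.comp_hasDerivAt (0 : ℝ) (hline l 0)
    have h2 := h1.sub ((hder i l).2.const_mul (2⁻¹ : ℝ))
    have h3 : HasDerivAt (fun ε : ℝ => w i (y + ε • ev l)) (pd l (w i) y) 0 := by
      have h4 : HasFDerivAt (w i) (fderiv ℝ (w i) y) (y + (0 : ℝ) • ev l) := by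
        simpa using (hwd i).hasFDerivAt
      exact h4.comp_hasDerivAt (0 : ℝ) (hline l 0)
    have h5 : (fun ε : ℝ => w i (y + ε • ev l)) = (EK (t - r) (H r) (w0 i) ∘ fun ε : ℝ => y + ε • ev l) -
        fun ε : ℝ => 2⁻¹ * ∫ s in r..t, EK (t - s) (H s) (n i s) (y + ε • ev l) := by
      funext ε
      simp only [Pi.sub_apply, Function.comp_apply, hw]
    rw [h5] at h3
    have h6 := h3.unique h2
    rw [h6]
    simp
  have hsum : ∑ l, ∑ i, a l i * pd l (w i) y =
      ∑ l, ∑ i, a l i * fderiv ℝ (EK (t - r) (H r) (w0 i)) y (e l) -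
      2⁻¹ * ∫ s in r..t, ∑ l, ∑ i, a l i * fderiv ℝ (EK (t - s) (H s) (n i s)) y (e l) := by
    rw [intervalIntegral.integral_finsetSum]
    · rw [Finset.mul_sum, ← Finset.sum_sub_distrib]
      refine Finset.sum_congr rfl fun l _ => ?_
      rw [intervalIntegral.integral_finsetSum]
      · rw [Finset.mul_sum, ← Finset.sum_sub_distrib]
        refine Finset.sum_congr rfl fun i _ => ?_
        rw [hpd, intervalIntegral.integral_const_mul, hel]
        ring
      · intro i _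
        simp only [hel]
        exact (hder i l).1.const_mul _
    · intro l _
      have h7 := IntervalIntegrable.sum (μ := volume) (a := r) (b := t) Finset.univ
        (f := fun (i : α) (s : ℝ) => a l i * fderiv ℝ (EK (t - s) (H s) (n i s)) y (e l))
        (fun i _ => by simp only [hel]; exact (hder i l).1.const_mul _)
      refine h7.congr ?_
      intro s _
      simp only [Finset.sum_apply]
  rw [hsum]
  set A := √(∑ l, ∑ i, a l i ^ 2) with hA
  have hA0 : 0 ≤ A := Real.sqrt_nonneg _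
  have b1 : |∑ l, ∑ i, a l i * fderiv ℝ (EK (t - r) (H r) (w0 i)) y (e l)| ≤
      (√(t - r))⁻¹ * M * A :=
    sum_fderiv_EK_le (by linarith) (hHm r hr) (hH0 r hr) (hH1 r hr)
      (hconv r ⟨le_rfl, hrt⟩) e hw0 hM0 hM a y
  have b2 : |∫ s in r..t, ∑ l, ∑ i, a l i * fderiv ℝ (EK (t - s) (H s) (n i s)) y (e l)| ≤
      2 * √(t - r) * (N * A) := by
    rw [← Real.norm_eq_abs]
    have h1 := intervalIntegral.norm_integral_le_of_norm_le (μ := volume) hrt.le
      (f := fun s => ∑ l, ∑ i, a l i * fderiv ℝ (EK (t - s) (H s) (n i s)) y (e l))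
      (g := fun s => (√(t - s))⁻¹ * (N * A)) ?_ ?_
    · rw [intervalIntegral.integral_mul_const, (integral_inv_sqrt hrt.le).2] at h1
      exact h1
    · have hne : ∀ᵐ s : ℝ ∂volume, s ≠ t := by
        rw [ae_iff]; simp
      filter_upwards [hne] with s hst hs
      have hs0 : 0 < s := hr.trans hs.1
      have hst' : s < t := lt_of_le_of_ne hs.2 hst
      rw [Real.norm_eq_abs, ← mul_assoc]
      exact sum_fderiv_EK_le (by linarith) (hHm s hs0) (hH0 s hs0) (hH1 s hs0)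
        (hconv s ⟨hs.1.le, hst'⟩) e (fun i => (hslice (hn i) hs0).measurable) hN0
        (hN s ⟨hs.1.le, hs.2⟩) a y
    · exact (integral_inv_sqrt hrt.le).1.mul_const _
  refine (abs_sub _ _).trans ?_
  rw [abs_mul, abs_of_pos (by norm_num : (0 : ℝ) < 2⁻¹)]
  have b3 := mul_le_mul_of_nonneg_left b2 (by norm_num : (0 : ℝ) ≤ 2⁻¹)
  linarith

end Crest.Agent.R285.AF
end
end

-- ▼ part R285/AFDuhamel
section

/-!
Row 285 (S0430), module AF, part A2: Duhamel's formula for the heat equation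
`∂ₛ Φ - ½ ΔΦ = Ψ` with bounded `Φ`, `Ψ` (no growth condition on the derivatives), helper367.
-/

set_option autoImplicit false

open Finset Set MeasureTheory ProbabilityTheory Filter Topology
open Crest.OracleSampling (E)
open Crest.Agent.R285.AF Crest.Agent.R285.IBP
open scoped ContDiff RealInnerProductSpace

noncomputable section

namespace Crest.Agent.R285.AFD

variable {d : ℕ}

/-! ### coordinates -/

theorem inner_ev (x : E d) (l : Fin d) : ⟪x, ev l⟫ = x l := by
  unfold ev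
  rw [EuclideanSpace.inner_single_right]
  simp

theorem sum_ev (v : E d) : ∑ l, v l • ev l = v := by
  have h := (EuclideanSpace.basisFun (Fin d) ℝ).sum_repr v
  simpa [ev] using h

theorem fderiv_eq_sum (F : E d → ℝ) (x v : E d) : fderiv ℝ F x v = ∑ l, v l * pd l F x := by
  conv_lhs => rw [← sum_ev v, map_sum]
  refine sum_congr rfl fun l _ => ?_
  rw [map_smul, smul_eq_mul]
  rfl

theorem abs_coord_le (x : E d) (l : Fin d) : |x l| ≤ ‖x‖ := by
  rw [← inner_ev x l]
  refine (abs_real_inner_le_norm _ _).trans ?_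
  have : ‖(ev l : E d)‖ = 1 := by simp [ev]
  rw [this, mul_one]

/-! ### Gaussian integration by parts -/

theorem gauss_ibp {W : E d → ℝ} (hW : ContDiff ℝ 1 W) {B : ℝ} (hB : ∀ x, |W x| ≤ B) (l : Fin d)
    (hB' : ∀ x, |pd l W x| ≤ B) (σ : ℝ) (y : E d) :
    ∫ g, W (y + σ • g) * g l ∂(stdGaussian (E d)) =
      σ * ∫ g, pd l W (y + σ • g) ∂(stdGaussian (E d)) := by
  have hWd : Differentiable ℝ W := hW.differentiable one_ne_zero
  have hpc : Continuous (pd l W) := by
    unfold pd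
    exact (hW.continuous_fderiv one_ne_zero).clm_apply continuous_const
  have hline : ∀ g : E d, HasLineDerivAt ℝ (fun g => W (y + σ • g)) (σ * pd l W (y + σ • g)) g (ev l) := by
    intro g
    have h1 : HasFDerivAt (fun g : E d => y + σ • g) (σ • ContinuousLinearMap.id ℝ (E d)) g := by
      have := ((hasFDerivAt_id (𝕜 := ℝ) g).const_smul σ).const_add y
      simpa using this
    have h2 : HasFDerivAt (fun g : E d => W (y + σ • g)) _ g :=
      (hWd (y + σ • g)).hasFDerivAt.comp g h1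
    have h3 := h2.hasLineDerivAt (ev l)
    refine h3.congr_deriv ?_
    simp [pd]
  have key := ibp_dens (μ := (volume : Measure (E d))) (ρ := gdens (V := E d))
    (β := fun x => ⟪x, ev l⟫) RD.gdens (v := ev l) (fun x => hasLineDerivAt_gdens x (ev l))
    (PB.of_linear (C := 1) fun x => by
      rw [Real.norm_eq_abs, inner_ev]
      linarith [abs_coord_le x l, norm_nonneg x])
    (by fun_prop)
    (F := fun g => W (y + σ • g)) (F' := fun g => σ * pd l W (y + σ • g))
    (G := fun _ => 1) (G' := fun _ => 0) hline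
    (fun x => (hasDerivAt_const (0 : ℝ) (1 : ℝ) : HasDerivAt (fun _ : ℝ => (1 : ℝ)) 0 0))
    (PB.of_bound (C := B) fun x => hB _)
    (PB.of_bound (C := |σ| * B) fun x => by
      rw [Real.norm_eq_abs, abs_mul]
      exact mul_le_mul_of_nonneg_left (hB' _) (abs_nonneg _))
    (PB.const 1) (PB.const 0)
    (hW.continuous.comp (by fun_prop)) (continuous_const.mul (hpc.comp (by fun_prop)))
    continuous_const continuous_const
  rw [← stdGaussian_eq_dens] at key
  simp only [mul_one, sub_zero] at key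
  rw [integral_const_mul] at key
  rw [key]
  refine integral_congr_ae (ae_of_all _ fun g => ?_)
  simp only [inner_ev]

/-! ### integrability -/

theorem integrable_norm_std : Integrable (fun g : E d => ‖g‖) (stdGaussian (E d)) := by
  rw [stdGaussian_eq_dens]
  exact PB.integrable_dens RD.gdens (PB.id.norm) (by fun_prop)

/-- first absolute moment -/
def C1 (d : ℕ) : ℝ := ∫ g : E d, ‖g‖ ∂(stdGaussian (E d))

theorem C1_nonneg : 0 ≤ C1 d := integral_nonneg fun _ => norm_nonneg _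

theorem integrable_bdd {f : E d → ℝ} (hf : Continuous f) {M : ℝ} (hM : ∀ x, |f x| ≤ M) :
    Integrable f (stdGaussian (E d)) := by
  refine Integrable.mono' (integrable_const M) hf.aestronglyMeasurable (ae_of_all _ fun x => ?_)
  exact hM x

theorem integrable_hS {f : E d → ℝ} (hf : Continuous f) {M : ℝ} (hM : ∀ x, |f x| ≤ M) (σ : ℝ)
    (y : E d) : Integrable (fun g => f (y + σ • g)) (stdGaussian (E d)) :=
  integrable_bdd (hf.comp (by fun_prop)) fun _ => hM _

theorem abs_hS_le {f : E d → ℝ} {M : ℝ} (hM : ∀ x, |f x| ≤ M) (δ : ℝ)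
    (y : E d) : |hS δ f y| ≤ M := by
  unfold hS
  have := norm_integral_le_of_norm_le_const (μ := stdGaussian (E d))
    (f := fun g => f (y + √δ • g)) (ae_of_all _ fun g => by exact hM (y + √δ • g))
  simpa using this

/-! ### continuity in time -/

theorem continuousOn_hS {r t M : ℝ} {G : ℝ → E d → ℝ}
    (hG : ContinuousOn (fun p : ℝ × E d => G p.1 p.2) (Icc r t ×ˢ univ))
    (hM : ∀ s ∈ Icc r t, ∀ x, |G s x| ≤ M) (y : E d) :
    ContinuousOn (fun s => hS (t - s) (G s) y) (Icc r t) := by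
  unfold hS
  refine continuousOn_of_dominated (bound := fun _ => M) ?_ ?_ (integrable_const M) ?_
  · intro s hs
    have h1 : Continuous (G s) := by
      have h2 : Continuous fun x : E d => ((s, x) : ℝ × E d) := by fun_prop
      exact hG.comp_continuous h2 fun x => ⟨hs, mem_univ _⟩
    exact (h1.comp (by fun_prop)).aestronglyMeasurable
  · intro s hs
    exact ae_of_all _ fun g => hM s hs _
  · refine ae_of_all _ fun g => ?_
    have h2 : ContinuousOn (fun s : ℝ => ((s, y + √(t - s) • g) : ℝ × E d)) (Icc r t) := by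
      fun_prop
    exact hG.comp h2 fun s hs => ⟨hs, mem_univ _⟩

/-! ### compactly supported case -/

section cpt

variable {J : Set ℝ} {F : ℝ → E d → ℝ} {ρ : ℝ}

theorem bdd_of_supp {W : Type*} [NormedAddCommGroup W] {r t : ℝ} {G : ℝ × E d → W}
    (hG : ContinuousOn G (J ×ˢ univ)) (hsub : Icc r t ⊆ J)
    (hs : ∀ s ∈ J, ∀ x : E d, ρ < ‖x‖ → G (s, x) = 0) :
    ∃ B : ℝ, 0 ≤ B ∧ ∀ s ∈ Icc r t, ∀ x, ‖G (s, x)‖ ≤ B := by
  have hK : IsCompact (Icc r t ×ˢ Metric.closedBall (0 : E d) ρ) :=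
    isCompact_Icc.prod (isCompact_closedBall _ _)
  obtain ⟨B, hB⟩ := hK.exists_bound_of_continuousOn
    (hG.mono (prod_mono hsub (subset_univ _)))
  refine ⟨max B 0, le_max_right _ _, fun s hs' x => ?_⟩
  by_cases hx : ‖x‖ ≤ ρ
  · exact (hB (s, x) ⟨hs', by simpa using hx⟩).trans (le_max_left _ _)
  · rw [hs s (hsub hs') x (not_le.mp hx), norm_zero]
    exact le_max_right _ _

theorem supp_fderiv (hJ : IsOpen J) (hs : ∀ s ∈ J, ∀ x : E d, ρ < ‖x‖ → F s x = 0) :
    ∀ s ∈ J, ∀ x : E d, ρ < ‖x‖ → fderiv ℝ (fun p : ℝ × E d => F p.1 p.2) (s, x) = 0 := by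
  intro s hsJ x hx
  have hO : IsOpen (J ×ˢ {x : E d | ρ < ‖x‖}) := hJ.prod (isOpen_lt continuous_const continuous_norm)
  have : (fun p : ℝ × E d => F p.1 p.2) =ᶠ[𝓝 (s, x)] fun _ => 0 := by
    filter_upwards [hO.mem_nhds ⟨hsJ, hx⟩] with p hp
    exact hs p.1 hp.1 p.2 hp.2
  rw [this.fderiv_eq]
  simp

theorem supp_pd (hs : ∀ s ∈ J, ∀ x : E d, ρ < ‖x‖ → F s x = 0) (l : Fin d) :
    ∀ s ∈ J, ∀ x : E d, ρ < ‖x‖ → pd l (F s) x = 0 := by
  intro s hsJ x hx
  have hO : IsOpen {x : E d | ρ < ‖x‖} := isOpen_lt continuous_const continuous_norm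
  have : F s =ᶠ[𝓝 x] fun _ => 0 := by
    filter_upwards [hO.mem_nhds hx] with p hp
    exact hs s hsJ p hp
  unfold pd
  rw [this.fderiv_eq]
  simp

theorem supp_dtf (hJ : IsOpen J) (hs : ∀ s ∈ J, ∀ x : E d, ρ < ‖x‖ → F s x = 0) :
    ∀ s ∈ J, ∀ x : E d, ρ < ‖x‖ → dtf F s x = 0 := by
  intro s hsJ x hx
  have : (fun s => F s x) =ᶠ[𝓝 s] fun _ => 0 := by
    filter_upwards [hJ.mem_nhds hsJ] with p hp
    exact hs p hp x hx
  unfold dtf
  rw [this.deriv_eq]
  simp

/-- heat operator -/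
def heatOp (F : ℝ → E d → ℝ) (s : ℝ) (x : E d) : ℝ :=
  dtf F s x - 2⁻¹ * ∑ l, pd l (pd l (F s)) x

theorem joint_heatOp (hJ : IsOpen J)
    (hF : ContDiffOn ℝ ∞ (fun p : ℝ × E d => F p.1 p.2) (J ×ˢ univ)) :
    ContDiffOn ℝ ∞ (fun p : ℝ × E d => heatOp F p.1 p.2) (J ×ˢ univ) := by
  unfold heatOp
  refine (joint_dtf hJ hF).sub (contDiffOn_const.mul (ContDiffOn.sum fun l _ => ?_))
  exact joint_pd (u := fun s => pd l (F s)) hJ (joint_pd hJ hF l) l

theorem hasDerivAt_path (hJ : IsOpen J)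
    (hF : ContDiffOn ℝ ∞ (fun p : ℝ × E d => F p.1 p.2) (J ×ˢ univ)) {s t : ℝ} (hs : s ∈ J)
    (hst : s < t) (y g : E d) :
    HasDerivAt (fun s => F s (y + √(t - s) • g))
      (fderiv ℝ (fun p : ℝ × E d => F p.1 p.2) (s, y + √(t - s) • g)
        (1, -(2 * √(t - s))⁻¹ • g)) s := by
  have h1 := (joint_diffAt hJ hF hs (y + √(t - s) • g)).hasFDerivAt
  have h2 : HasDerivAt (fun s : ℝ => √(t - s)) (-(2 * √(t - s))⁻¹) s := by
    have h3 : HasDerivAt (fun s : ℝ => t - s) (-1) s := by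
      simpa using (hasDerivAt_id s).const_sub t
    have h4 := h3.sqrt (sub_pos.mpr hst).ne'
    refine h4.congr_deriv ?_
    rw [neg_div, one_div]
  have h5 : HasDerivAt (fun s : ℝ => ((s, y + √(t - s) • g) : ℝ × E d))
      ((1 : ℝ), -(2 * √(t - s))⁻¹ • g) s :=
    (hasDerivAt_id s).prodMk ((h2.smul_const g).const_add y)
  exact h1.comp_hasDerivAt s h5

theorem fderiv_path_eq (hJ : IsOpen J)
    (hF : ContDiffOn ℝ ∞ (fun p : ℝ × E d => F p.1 p.2) (J ×ˢ univ)) {s : ℝ} (hs : s ∈ J)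
    (z g : E d) (c : ℝ) :
    fderiv ℝ (fun p : ℝ × E d => F p.1 p.2) (s, z) (1, c • g) =
      dtf F s z + c * ∑ l, pd l (F s) z * g l := by
  have h1 : ((1, c • g) : ℝ × E d) = (1, 0) + (0, c • g) := by simp
  rw [h1, map_add, ← dtf_eq hJ hF hs, ← fderiv_slice hJ hF hs, map_smul, smul_eq_mul,
    fderiv_eq_sum]
  congr 2
  exact sum_congr rfl fun l _ => mul_comm _ _

theorem hasDerivAt_hS (hJ : IsOpen J)
    (hF : ContDiffOn ℝ ∞ (fun p : ℝ × E d => F p.1 p.2) (J ×ˢ univ))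
    (hsupp : ∀ s ∈ J, ∀ x : E d, ρ < ‖x‖ → F s x = 0) {r s t : ℝ} (hsub : Icc r t ⊆ J)
    (hrs : r < s) (hst : s < t) (y : E d) :
    HasDerivAt (fun s => hS (t - s) (F s) y) (hS (t - s) (heatOp F s) y) s := by
  have hsI : s ∈ Icc r t := ⟨hrs.le, hst.le⟩
  have hsJ := hsub hsI
  -- bounds
  obtain ⟨B, hB0, hB⟩ := bdd_of_supp (ρ := ρ)
    (G := fderiv ℝ (fun p : ℝ × E d => F p.1 p.2))
    ((hF.fderiv_of_isOpen (joint_open hJ) (m := 0) (by simp)).continuousOn) hsub
    (supp_fderiv hJ hsupp)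
  obtain ⟨B0, -, hB0'⟩ := bdd_of_supp (ρ := ρ) (G := fun p : ℝ × E d => F p.1 p.2)
    hF.continuousOn hsub hsupp
  obtain ⟨B1, -, hB1⟩ := bdd_of_supp (ρ := ρ) (G := fun p : ℝ × E d => dtf F p.1 p.2)
    (joint_dtf hJ hF).continuousOn hsub (supp_dtf hJ hsupp)
  have hcont : ∀ s ∈ J, Continuous (F s) := fun s hs => (joint_slice hF hs).continuous
  -- neighbourhood
  set m := (s + t) / 2 with hm
  have hsm : s < m := by rw [hm]; linarith
  have hmt : m < t := by rw [hm]; linarith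
  set c := (2 * √(t - m))⁻¹ with hc
  have hcpos : 0 < c := by
    rw [hc]
    have : 0 < √(t - m) := Real.sqrt_pos.mpr (sub_pos.mpr hmt)
    positivity
  have hcle : ∀ s' ∈ Ioo r m, (2 * √(t - s'))⁻¹ ≤ c := by
    intro s' hs'
    rw [hc]
    have h0 : 0 < √(t - m) := Real.sqrt_pos.mpr (sub_pos.mpr hmt)
    have h1 : √(t - m) ≤ √(t - s') := Real.sqrt_le_sqrt (by linarith [hs'.2])
    gcongr
  have key := hasDerivAt_integral_of_dominated_loc_of_deriv_le (μ := stdGaussian (E d))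
    (F := fun s g => F s (y + √(t - s) • g))
    (F' := fun s g => fderiv ℝ (fun p : ℝ × E d => F p.1 p.2) (s, y + √(t - s) • g)
        (1, -(2 * √(t - s))⁻¹ • g)) (x₀ := s) (s := Ioo r m)
    (bound := fun g => B * (1 + c * ‖g‖)) (Ioo_mem_nhds hrs hsm) ?_ ?_ ?_ ?_ ?_ ?_
  · have h2 := key.2
    refine h2.congr_deriv ?_
    -- identify the derivative
    have hδ : 0 < √(t - s) := Real.sqrt_pos.mpr (sub_pos.mpr hst)
    set σ := √(t - s) with hσ
    have e1 : ∀ g : E d, fderiv ℝ (fun p : ℝ × E d => F p.1 p.2) (s, y + σ • g)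
        (1, -(2 * σ)⁻¹ • g) = dtf F s (y + σ • g) +
          (-(2 * σ)⁻¹) * ∑ l, pd l (F s) (y + σ • g) * g l := fun g =>
      fderiv_path_eq hJ hF hsJ _ g _
    have hFs : ContDiff ℝ ∞ (F s) := joint_slice hF hsJ
    have hbd : ∀ l, ∃ B, (∀ x, |pd l (F s) x| ≤ B) ∧ ∀ x, |pd l (pd l (F s)) x| ≤ B := by
      intro l
      obtain ⟨b1, -, h1⟩ := bdd_of_supp (ρ := ρ) (G := fun p : ℝ × E d => pd l (F p.1) p.2)
        (joint_pd hJ hF l).continuousOn hsub (supp_pd hsupp l)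
      obtain ⟨b2, -, h2⟩ := bdd_of_supp (ρ := ρ) (G := fun p : ℝ × E d => pd l (pd l (F p.1)) p.2)
        (joint_pd (u := fun s => pd l (F s)) hJ (joint_pd hJ hF l) l).continuousOn hsub
        (supp_pd (F := fun s => pd l (F s)) (supp_pd hsupp l) l)
      exact ⟨max b1 b2, fun x => (h1 s hsI x).trans (le_max_left _ _),
        fun x => (h2 s hsI x).trans (le_max_right _ _)⟩
    have hint1 : ∀ l, Integrable (fun g : E d => pd l (F s) (y + σ • g) * g l)
        (stdGaussian (E d)) := by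
      intro l
      obtain ⟨b, hb1, -⟩ := hbd l
      refine (integrable_norm_std.const_mul b).mono' ?_ (ae_of_all _ fun g => ?_)
      · have h3 : Continuous (pd l (F s)) := (contDiff_pd hFs l).continuous
        refine Continuous.aestronglyMeasurable ?_
        exact (h3.comp (by fun_prop)).mul (by fun_prop)
      · rw [Real.norm_eq_abs, abs_mul]
        exact mul_le_mul (hb1 _) (abs_coord_le g l) (abs_nonneg _) ((abs_nonneg _).trans (hb1 0))
    have hint0 : Integrable (fun g : E d => dtf F s (y + σ • g)) (stdGaussian (E d)) := by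
      refine integrable_hS (M := B1) ?_ (fun x => hB1 s hsI x) σ y
      have h4 : Continuous fun x : E d => ((s, x) : ℝ × E d) := by fun_prop
      exact (joint_dtf hJ hF).continuousOn.comp_continuous h4 fun x => ⟨hsJ, mem_univ _⟩
    have hint2 : ∀ l, Integrable (fun g : E d => pd l (pd l (F s)) (y + σ • g))
        (stdGaussian (E d)) := by
      intro l
      obtain ⟨b, -, hb2⟩ := hbd l
      exact integrable_hS (contDiff_pd (contDiff_pd hFs l) l).continuous hb2 σ y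
    simp_rw [e1]
    rw [integral_add hint0 ((integrable_finsetSum _ fun l _ => hint1 l).const_mul _),
      integral_const_mul, integral_finsetSum _ fun l _ => hint1 l]
    have e2 : ∀ l, ∫ g, pd l (F s) (y + σ • g) * g l ∂(stdGaussian (E d)) =
        σ * ∫ g, pd l (pd l (F s)) (y + σ • g) ∂(stdGaussian (E d)) := by
      intro l
      obtain ⟨b, hb1, hb2⟩ := hbd l
      exact gauss_ibp ((contDiff_pd hFs l).of_le (by norm_cast)) hb1 l hb2 σ y
    simp_rw [e2]
    unfold hS heatOp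
    rw [integral_sub hint0 ((integrable_finsetSum _ fun l _ => hint2 l).const_mul _),
      integral_const_mul, integral_finsetSum _ fun l _ => hint2 l, ← mul_sum]
    field_simp
    ring
  · -- measurability of F
    filter_upwards [Ioo_mem_nhds hrs hst] with s' hs'
    exact ((hcont s' (hsub ⟨hs'.1.le, hs'.2.le⟩)).comp (by fun_prop)).aestronglyMeasurable
  · exact integrable_hS (hcont s hsJ) (fun x => hB0' s hsI x) _ y
  · -- measurability of F'
    refine Continuous.aestronglyMeasurable ?_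
    have h6 : ContinuousOn (fderiv ℝ (fun p : ℝ × E d => F p.1 p.2)) (J ×ˢ univ) :=
      (hF.fderiv_of_isOpen (joint_open hJ) (m := 0) (by simp)).continuousOn
    have h7 : Continuous fun g : E d => ((s, y + √(t - s) • g) : ℝ × E d) := by fun_prop
    exact (h6.comp_continuous h7 fun x => ⟨hsJ, mem_univ _⟩).clm_apply (by fun_prop)
  · refine ae_of_all _ fun g s' hs' => ?_
    have hs'' : s' ∈ Icc r t := ⟨hs'.1.le, (hs'.2.trans hmt).le⟩
    refine (ContinuousLinearMap.le_opNorm _ _).trans ?_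
    refine mul_le_mul (hB s' hs'' _) ?_ (norm_nonneg _) hB0
    rw [Prod.norm_def, norm_one, norm_smul, norm_neg, Real.norm_of_nonneg (by positivity)]
    have h8 := hcle s' hs'
    have h9 : (2 * √(t - s'))⁻¹ * ‖g‖ ≤ c * ‖g‖ := mul_le_mul_of_nonneg_right h8 (norm_nonneg _)
    refine max_le ?_ ?_
    · have : 0 ≤ c * ‖g‖ := by positivity
      linarith
    · linarith
  · exact ((integrable_const (1 : ℝ)).add (integrable_norm_std.const_mul c)).const_mul B
  · refine ae_of_all _ fun g s' hs' => ?_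
    exact hasDerivAt_path hJ hF (hsub ⟨hs'.1.le, (hs'.2.trans hmt).le⟩) (hs'.2.trans hmt) y g

theorem hS_zero (f : E d → ℝ) (y : E d) : hS 0 f y = f y := by
  unfold hS
  simp

theorem duhamel_cpt (hJ : IsOpen J)
    (hF : ContDiffOn ℝ ∞ (fun p : ℝ × E d => F p.1 p.2) (J ×ˢ univ))
    (hsupp : ∀ s ∈ J, ∀ x : E d, ρ < ‖x‖ → F s x = 0) {r t : ℝ} (hrt : r ≤ t) (hsub : Icc r t ⊆ J)
    (y : E d) :
    F t y = hS (t - r) (F r) y + ∫ s in r..t, hS (t - s) (heatOp F s) y := by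
  obtain ⟨B0, -, hB0'⟩ := bdd_of_supp (ρ := ρ) (G := fun p : ℝ × E d => F p.1 p.2)
    hF.continuousOn hsub hsupp
  have hsup2 : ∀ s ∈ J, ∀ x : E d, ρ < ‖x‖ → heatOp F s x = 0 := by
    intro s hs x hx
    unfold heatOp
    rw [supp_dtf hJ hsupp s hs x hx, Finset.sum_eq_zero fun l _ =>
      supp_pd (F := fun s => pd l (F s)) (supp_pd hsupp l) l s hs x hx]
    simp
  obtain ⟨B1, -, hB1⟩ := bdd_of_supp (ρ := ρ) (G := fun p : ℝ × E d => heatOp F p.1 p.2)
    (joint_heatOp hJ hF).continuousOn hsub hsup2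
  have hc0 := continuousOn_hS (hF.continuousOn.mono (prod_mono hsub (subset_univ _)))
    (fun s hs x => hB0' s hs x) y
  have hc1 := continuousOn_hS
    ((joint_heatOp hJ hF).continuousOn.mono (prod_mono hsub (subset_univ _)))
    (fun s hs x => hB1 s hs x) y
  have key := intervalIntegral.integral_eq_sub_of_hasDerivAt_of_le hrt hc0
    (fun s hs => hasDerivAt_hS hJ hF hsupp hsub hs.1 hs.2 y)
    (hc1.intervalIntegrable_of_Icc hrt)
  rw [key, sub_self, hS_zero]
  ring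

end cpt

/-! ### cutoff -/

/-- the basic bump -/
def chi (d : ℕ) : ContDiffBump (0 : E d) := ⟨1, 2, one_pos, one_lt_two⟩

/-- cutoff at radius `R` -/
def cut (R : ℝ) (x : E d) : ℝ := chi d (R⁻¹ • x)

theorem contDiff_scale (c : ℝ) : ContDiff ℝ ∞ (fun x : E d => c • x) := contDiff_const_smul c

theorem contDiff_cut (R : ℝ) : ContDiff ℝ ∞ (cut (d := d) R) :=
  have h : ContDiff ℝ ∞ (chi d : E d → ℝ) := (chi d).contDiff
  h.comp (contDiff_scale R⁻¹)

theorem cut_nonneg (R : ℝ) (x : E d) : 0 ≤ cut R x := (chi d).nonneg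

theorem cut_le_one (R : ℝ) (x : E d) : cut R x ≤ 1 := (chi d).le_one

theorem cut_eq_zero {R : ℝ} (hR : 0 < R) {x : E d} (hx : 2 * R < ‖x‖) : cut R x = 0 := by
  refine (chi d).zero_of_le_dist ?_
  rw [dist_zero_right, norm_smul, norm_inv, Real.norm_of_nonneg hR.le]
  change (2 : ℝ) ≤ _
  rw [inv_mul_eq_div, le_div_iff₀ hR]
  exact hx.le

theorem one_sub_cut_le {R : ℝ} (hR : 0 < R) (x : E d) : |1 - cut R x| ≤ ‖x‖ / R := by
  by_cases hx : ‖x‖ ≤ R
  · have : cut R x = 1 := by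
      refine (chi d).one_of_mem_closedBall ?_
      rw [mem_closedBall_zero_iff, norm_smul, norm_inv, Real.norm_of_nonneg hR.le]
      change _ ≤ (1 : ℝ)
      rw [inv_mul_eq_div, div_le_one hR]
      exact hx
    rw [this, sub_self, abs_zero]
    positivity
  · rw [abs_of_nonneg (sub_nonneg.mpr (cut_le_one R x))]
    have h1 : 1 ≤ ‖x‖ / R := by
      rw [one_le_div hR]
      exact (not_le.mp hx).le
    linarith [cut_nonneg R x]

theorem pd_comp_smul {f : E d → ℝ} (hf : Differentiable ℝ f) (c : ℝ) (l : Fin d) (x : E d) :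
    pd l (fun x => f (c • x)) x = c * pd l f (c • x) := by
  have h1 : HasFDerivAt (fun g : E d => c • g) (c • ContinuousLinearMap.id ℝ (E d)) x :=
    (hasFDerivAt_id (𝕜 := ℝ) x).const_smul c
  have h2 : HasFDerivAt (fun g : E d => f (c • g)) _ x := (hf (c • x)).hasFDerivAt.comp x h1
  unfold pd
  rw [h2.fderiv]
  simp

theorem chi_contDiff : ContDiff ℝ ∞ (chi d : E d → ℝ) := (chi d).contDiff

theorem pd_cut (R : ℝ) (l : Fin d) (x : E d) :
    pd l (cut R) x = R⁻¹ * pd l (chi d) (R⁻¹ • x) :=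
  pd_comp_smul (chi_contDiff.differentiable (by simp)) _ l x

theorem pd_pd_cut (R : ℝ) (l : Fin d) (x : E d) :
    pd l (pd l (cut R)) x = R⁻¹ * (R⁻¹ * pd l (pd l (chi d)) (R⁻¹ • x)) := by
  have h1 : pd l (cut (d := d) R) = fun x => R⁻¹ * pd l (chi d) (R⁻¹ • x) := funext (pd_cut R l)
  have h2 : ContDiff ℝ ∞ (pd l (chi d : E d → ℝ)) := contDiff_pd chi_contDiff l
  have h3 := pd_comp_smul (h2.differentiable (by simp)) R⁻¹ l x
  have h4 : DifferentiableAt ℝ (fun x => pd l (chi d) (R⁻¹ • x)) x :=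
    ((h2.comp (contDiff_scale R⁻¹)).differentiable (by simp)) x
  rw [h1, ← h3]
  have h5 : fderiv ℝ (fun x => R⁻¹ * pd l (chi d) (R⁻¹ • x)) x =
      R⁻¹ • fderiv ℝ (fun x => pd l (chi d) (R⁻¹ • x)) x := fderiv_const_mul h4 _
  change fderiv ℝ (fun x => R⁻¹ * pd l (chi d) (R⁻¹ • x)) x (ev l) = _
  rw [h5]
  rfl

theorem exists_cut_bound (d : ℕ) : ∃ B : ℝ, 0 ≤ B ∧ ∀ R : ℝ, 1 ≤ R → ∀ (l : Fin d) (x : E d),
    |pd l (cut R) x| ≤ B / R ∧ |pd l (pd l (cut R)) x| ≤ B / R := by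
  have h0 : ∀ s ∈ (univ : Set ℝ), ∀ x : E d, (2 : ℝ) < ‖x‖ → (chi d : E d → ℝ) x = 0 := by
    intro s _ x hx
    refine (chi d).zero_of_le_dist ?_
    rw [dist_zero_right]
    exact hx.le
  have key : ∀ l : Fin d, ∃ B : ℝ, 0 ≤ B ∧ ∀ x : E d, |pd l (chi d) x| ≤ B ∧
      |pd l (pd l (chi d)) x| ≤ B := by
    intro l
    have hc1 : ContDiff ℝ ∞ (pd l (chi d : E d → ℝ)) := contDiff_pd chi_contDiff l
    have hc2 : ContDiff ℝ ∞ (pd l (pd l (chi d : E d → ℝ))) := contDiff_pd hc1 l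
    have s1 := supp_pd (J := univ) (F := fun _ : ℝ => (chi d : E d → ℝ)) h0 l
    have s2 := supp_pd (J := univ) (F := fun _ : ℝ => pd l (chi d : E d → ℝ)) s1 l
    obtain ⟨b1, h1, hb1⟩ := bdd_of_supp (J := univ) (ρ := 2) (r := 0) (t := 0)
      (G := fun p : ℝ × E d => pd l (chi d : E d → ℝ) p.2)
      (hc1.continuous.comp continuous_snd).continuousOn (subset_univ _) s1
    obtain ⟨b2, h2, hb2⟩ := bdd_of_supp (J := univ) (ρ := 2) (r := 0) (t := 0)
      (G := fun p : ℝ × E d => pd l (pd l (chi d : E d → ℝ)) p.2)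
      (hc2.continuous.comp continuous_snd).continuousOn (subset_univ _) s2
    exact ⟨max b1 b2, h1.trans (le_max_left _ _), fun x =>
      ⟨(hb1 0 (by simp) x).trans (le_max_left _ _), (hb2 0 (by simp) x).trans (le_max_right _ _)⟩⟩
  choose B hB0 hB using key
  refine ⟨∑ l, B l, Finset.sum_nonneg fun l _ => hB0 l, fun R hR l x => ?_⟩
  have hR0 : 0 < R := by linarith
  have hle : B l ≤ ∑ l, B l := Finset.single_le_sum (fun l _ => hB0 l) (Finset.mem_univ l)
  have hRi : R⁻¹ ≤ 1 := inv_le_one_of_one_le₀ hR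
  constructor
  · rw [pd_cut, abs_mul, abs_of_pos (inv_pos.mpr hR0), div_eq_inv_mul]
    exact mul_le_mul_of_nonneg_left (((hB l _).1).trans hle) (inv_pos.mpr hR0).le
  · rw [pd_pd_cut, abs_mul, abs_mul, abs_of_pos (inv_pos.mpr hR0), div_eq_inv_mul]
    refine mul_le_mul_of_nonneg_left ?_ (inv_pos.mpr hR0).le
    calc R⁻¹ * |pd l (pd l (chi d)) (R⁻¹ • x)| ≤ 1 * B l :=
          mul_le_mul hRi (hB l _).2 (abs_nonneg _) zero_le_one
      _ ≤ _ := by linarith

/-! ### the bounded case -/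

theorem norm_shift_integral_le (y : E d) (σ : ℝ) (hσ : 0 ≤ σ) :
    ∫ g : E d, ‖y + σ • g‖ ∂(stdGaussian (E d)) ≤ ‖y‖ + σ * C1 d := by
  have h1 : ∫ g : E d, ‖y + σ • g‖ ∂(stdGaussian (E d)) ≤
      ∫ g : E d, (‖y‖ + σ * ‖g‖) ∂(stdGaussian (E d)) := by
    refine integral_mono_of_nonneg (ae_of_all _ fun g => norm_nonneg _)
      ((integrable_const _).add (integrable_norm_std.const_mul σ)) (ae_of_all _ fun g => ?_)
    refine (norm_add_le _ _).trans ?_
    rw [norm_smul, Real.norm_of_nonneg hσ]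
  refine h1.trans (le_of_eq ?_)
  rw [integral_add (integrable_const _) (integrable_norm_std.const_mul σ), integral_const_mul]
  simp [C1]

theorem hS_cut_sub_le {R : ℝ} (hR : 0 < R) {ψ : E d → ℝ} (hψ : Continuous ψ) {N : ℝ}
    (hN : ∀ x, |ψ x| ≤ N) (δ : ℝ) (y : E d) :
    |hS δ (fun x => cut R x * ψ x) y - hS δ ψ y| ≤ N / R * (‖y‖ + √δ * C1 d) := by
  have hN0 : 0 ≤ N := (abs_nonneg _).trans (hN 0)
  have hc : Continuous (cut (d := d) R) := (contDiff_cut R).continuous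
  have hb : ∀ x : E d, |cut R x * ψ x| ≤ N := by
    intro x
    rw [abs_mul, abs_of_nonneg (cut_nonneg R x)]
    calc cut R x * |ψ x| ≤ 1 * N := mul_le_mul (cut_le_one R x) (hN x) (abs_nonneg _) zero_le_one
      _ = N := one_mul N
  unfold hS
  rw [← integral_sub (integrable_hS (f := fun x => cut R x * ψ x) (hc.mul hψ) hb _ y)
    (integrable_hS hψ hN _ y)]
  have hcn : Continuous fun g : E d => ‖y + √δ • g‖ := by fun_prop
  have hint : Integrable (fun g : E d => ‖y + √δ • g‖) (stdGaussian (E d)) := by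
    refine (((integrable_const ‖y‖).add (integrable_norm_std.const_mul (√δ)))).mono'
      hcn.aestronglyMeasurable (ae_of_all _ fun g => ?_)
    rw [norm_norm]
    refine (norm_add_le _ _).trans ?_
    rw [norm_smul, Real.norm_of_nonneg (Real.sqrt_nonneg δ)]
    rfl
  have h1 := norm_integral_le_of_norm_le (μ := stdGaussian (E d))
    (f := fun g => cut R (y + √δ • g) * ψ (y + √δ • g) - ψ (y + √δ • g))
    (g := fun g => N / R * ‖y + √δ • g‖) (hint.const_mul _) (ae_of_all _ fun g => by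
      have e : cut R (y + √δ • g) * ψ (y + √δ • g) - ψ (y + √δ • g) =
        -((1 - cut R (y + √δ • g)) * ψ (y + √δ • g)) := by ring
      rw [e, norm_neg, Real.norm_eq_abs, abs_mul]
      calc _ ≤ ‖y + √δ • g‖ / R * N :=
            mul_le_mul (one_sub_cut_le hR _) (hN _) (abs_nonneg _) (by positivity)
        _ = _ := by ring)
  rw [integral_const_mul] at h1
  refine h1.trans ?_
  exact mul_le_mul_of_nonneg_left (norm_shift_integral_le y _ (Real.sqrt_nonneg δ)) (by positivity)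

theorem hS_pd_le {W : E d → ℝ} (hW : ContDiff ℝ 1 W) {A : ℝ} (hA : ∀ x, |W x| ≤ A) (l : Fin d)
    {B : ℝ} (hB : ∀ x, |pd l W x| ≤ B) {δ : ℝ} (hδ : 0 < δ) (y : E d) :
    |hS δ (pd l W) y| ≤ (√δ)⁻¹ * (A * C1 d) := by
  have hs : 0 < √δ := Real.sqrt_pos.mpr hδ
  have hA0 : 0 ≤ A := (abs_nonneg _).trans (hA 0)
  have h1 := gauss_ibp hW (B := max A B) (fun x => (hA x).trans (le_max_left _ _)) l
    (fun x => (hB x).trans (le_max_right _ _)) (√δ) y
  have h2 : hS δ (pd l W) y = (√δ)⁻¹ * ∫ g, W (y + √δ • g) * g l ∂(stdGaussian (E d)) := by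
    rw [h1]
    unfold hS
    field_simp
  rw [h2, abs_mul, abs_of_pos (inv_pos.mpr hs)]
  refine mul_le_mul_of_nonneg_left ?_ (inv_pos.mpr hs).le
  have h3 := norm_integral_le_of_norm_le (μ := stdGaussian (E d))
    (f := fun g => W (y + √δ • g) * g l) (g := fun g => A * ‖g‖)
    (integrable_norm_std.const_mul A) (ae_of_all _ fun g => by
      rw [Real.norm_eq_abs, abs_mul]
      exact mul_le_mul (hA _) (abs_coord_le g l) (abs_nonneg _) hA0)
  rw [integral_const_mul] at h3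
  exact h3

theorem heatOp_cut {J : Set ℝ} (hJ : IsOpen J) {Φ : ℝ → E d → ℝ}
    (hΦ : ContDiffOn ℝ ∞ (fun p : ℝ × E d => Φ p.1 p.2) (J ×ˢ univ)) {s : ℝ} (hs : s ∈ J)
    (R : ℝ) (x : E d) :
    heatOp (fun s x => cut R x * Φ s x) s x = cut R x * heatOp Φ s x -
      (∑ l, pd l (fun x => pd l (cut R) x * Φ s x) x) +
      2⁻¹ * ∑ l, pd l (pd l (cut R)) x * Φ s x := by
  have hΦs : ContDiff ℝ ∞ (Φ s) := joint_slice hΦ hs
  have hΦd : Differentiable ℝ (Φ s) := hΦs.differentiable (by simp)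
  have hcd : Differentiable ℝ (cut (d := d) R) := (contDiff_cut R).differentiable (by simp)
  have h1 : dtf (fun s x => cut R x * Φ s x) s x = cut R x * dtf Φ s x := by
    have h2 := (hasDerivAt_dtf hJ hΦ hs x).const_mul (cut R x)
    unfold dtf at h2 ⊢
    exact h2.deriv
  have h3 : ∀ l, pd l (pd l (fun x => cut R x * Φ s x)) x = cut R x * pd l (pd l (Φ s)) x +
      2 * (pd l (fun x => pd l (cut R) x * Φ s x) x) - pd l (pd l (cut R)) x * Φ s x := by
    intro l
    have hp1 : Differentiable ℝ (pd l (cut (d := d) R)) :=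
      (contDiff_pd (contDiff_cut R) l).differentiable (by simp)
    have hp2 : Differentiable ℝ (pd l (Φ s)) := (contDiff_pd hΦs l).differentiable (by simp)
    have e1 : pd l (fun x => cut R x * Φ s x) =
        fun x => pd l (cut R) x * Φ s x + cut R x * pd l (Φ s) x :=
      funext fun x => pd_mul l x (hcd x) (hΦd x)
    have e2 : pd l (fun x => pd l (cut R) x * Φ s x + cut R x * pd l (Φ s) x) x =
        pd l (fun x => pd l (cut R) x * Φ s x) x + pd l (fun x => cut R x * pd l (Φ s) x) x := by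
      unfold pd
      exact congrArg (fun L => L (ev l))
        (fderiv_fun_add (((hp1 x).mul (hΦd x))) (((hcd x).mul (hp2 x))))
    rw [e1, e2, pd_mul l x (hp1 x) (hΦd x), pd_mul l x (hcd x) (hp2 x)]
    ring
  unfold heatOp
  rw [h1]
  simp_rw [h3]
  rw [sum_sub_distrib, sum_add_distrib, ← mul_sum, ← mul_sum]
  ring

/-- **Duhamel's formula** for bounded data. -/
theorem duhamel {J : Set ℝ} (hJ : IsOpen J) {Φ Ψ : ℝ → E d → ℝ}
    (hΦ : ContDiffOn ℝ ∞ (fun p : ℝ × E d => Φ p.1 p.2) (J ×ˢ univ)) {r t M N : ℝ} (hrt : r ≤ t)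
    (hsub : Icc r t ⊆ J) (hM : ∀ s ∈ Icc r t, ∀ x, |Φ s x| ≤ M)
    (hN : ∀ s ∈ Icc r t, ∀ x, |Ψ s x| ≤ N)
    (heq : ∀ s ∈ Icc r t, ∀ x, heatOp Φ s x = Ψ s x) (y : E d) :
    Φ t y = hS (t - r) (Φ r) y + ∫ s in r..t, hS (t - s) (Ψ s) y := by
  obtain ⟨B, hB0, hB⟩ := exists_cut_bound d
  have hM0 : 0 ≤ M := (abs_nonneg _).trans (hM r ⟨le_rfl, hrt⟩ 0)
  have hN0 : 0 ≤ N := (abs_nonneg _).trans (hN r ⟨le_rfl, hrt⟩ 0)
  have hC1 : 0 ≤ C1 d := C1_nonneg
  have hΨc : ContinuousOn (fun p : ℝ × E d => Ψ p.1 p.2) (Icc r t ×ˢ univ) := by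
    refine ((joint_heatOp hJ hΦ).continuousOn.mono (prod_mono hsub (subset_univ _))).congr ?_
    rintro ⟨s, x⟩ ⟨hs, -⟩
    exact (heq s hs x).symm
  have hΨs : ∀ s ∈ Icc r t, Continuous (Ψ s) := by
    intro s hs
    have h2 : Continuous fun x : E d => ((s, x) : ℝ × E d) := by fun_prop
    exact hΨc.comp_continuous h2 fun x => ⟨hs, mem_univ _⟩
  -- the integrable majorant
  set D : ℝ := (d : ℝ) with hD
  set g : ℝ → ℝ := fun s => (N * (‖y‖ + √(t - r) * C1 d) + D * (B * M)) +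
    (D * (B * M * C1 d)) * (t - s) ^ (-(1 / 2) : ℝ) with hg
  have hgi : IntervalIntegrable g volume r t := by
    have h0 : IntervalIntegrable (fun x : ℝ => x ^ (-(1 / 2) : ℝ)) volume (t - r) (t - t) :=
      intervalIntegral.intervalIntegrable_rpow' (by norm_num)
    have h1 := h0.comp_sub_left t
    simp only [sub_sub_cancel] at h1
    exact (intervalIntegrable_const).add (h1.const_mul _)
  have main : ∀ R : ℝ, 1 ≤ R →
      |Φ t y - (hS (t - r) (Φ r) y + ∫ s in r..t, hS (t - s) (Ψ s) y)| ≤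
      (M * ‖y‖ + M * (‖y‖ + √(t - r) * C1 d) + ∫ s in r..t, g s) / R := by
    intro R hR
    have hR0 : 0 < R := by linarith
    have hF : ContDiffOn ℝ ∞ (fun p : ℝ × E d => cut R p.2 * Φ p.1 p.2) (J ×ˢ univ) :=
      (((contDiff_cut R).comp contDiff_snd).contDiffOn).mul hΦ
    have hFs : ∀ s ∈ J, ∀ x : E d, 2 * R < ‖x‖ → cut R x * Φ s x = 0 := by
      intro s _ x hx
      rw [cut_eq_zero hR0 hx, zero_mul]
    have e0 := duhamel_cpt (F := fun s x => cut R x * Φ s x) hJ hF hFs hrt hsub y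
    have hJi : ∀ s ∈ Ico r t, |hS (t - s) (heatOp (fun s x => cut R x * Φ s x) s) y -
        hS (t - s) (Ψ s) y| ≤ g s / R := by
      intro s hs
      have hsI : s ∈ Icc r t := ⟨hs.1, hs.2.le⟩
      have hsJ := hsub hsI
      have hδ : 0 < t - s := sub_pos.mpr hs.2
      have hΦs : ContDiff ℝ ∞ (Φ s) := joint_slice hΦ hsJ
      have hpc : ∀ l : Fin d, ContDiff ℝ ∞ (fun x => pd l (cut R) x * Φ s x) := fun l =>
        (contDiff_pd (contDiff_cut R) l).mul hΦs
      have hA : ∀ l : Fin d, ∀ x, |pd l (cut R) x * Φ s x| ≤ B / R * M := by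
        intro l x
        rw [abs_mul]
        exact mul_le_mul (hB R hR l x).1 (hM s hsI x) (abs_nonneg _) (by positivity)
      have hA2 : ∀ l : Fin d, ∀ x, |pd l (pd l (cut R)) x * Φ s x| ≤ B / R * M := by
        intro l x
        rw [abs_mul]
        exact mul_le_mul (hB R hR l x).2 (hM s hsI x) (abs_nonneg _) (by positivity)
      have hbd : ∀ l : Fin d, ∃ b, ∀ x, |pd l (fun x => pd l (cut R) x * Φ s x) x| ≤ b := by
        intro l
        have s0 : ∀ s' ∈ (univ : Set ℝ), ∀ x : E d, 2 * R < ‖x‖ → cut R x = 0 :=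
          fun _ _ x hx => cut_eq_zero hR0 hx
        have s1 := supp_pd (J := univ) (F := fun _ : ℝ => cut (d := d) R) s0 l
        have s2 : ∀ s' ∈ (univ : Set ℝ), ∀ x : E d, 2 * R < ‖x‖ →
            (fun _ : ℝ => fun x => pd l (cut R) x * Φ s x) s' x = 0 := by
          intro s' hs' x hx
          simp only
          rw [s1 s' hs' x hx, zero_mul]
        have s3 := supp_pd (J := univ) (F := fun _ : ℝ => fun x => pd l (cut R) x * Φ s x) s2 l
        obtain ⟨b, -, hb⟩ := bdd_of_supp (J := univ) (ρ := 2 * R) (r := 0) (t := 0)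
          (G := fun p : ℝ × E d => pd l (fun x => pd l (cut R) x * Φ s x) p.2)
          ((contDiff_pd (hpc l) l).continuous.comp continuous_snd).continuousOn
          (subset_univ _) s3
        exact ⟨b, fun x => hb 0 (by simp) x⟩
      have hcutΨ : Continuous fun x : E d => cut R x * Ψ s x :=
        (contDiff_cut R).continuous.mul (hΨs s hsI)
      have hcutb : ∀ x : E d, |cut R x * Ψ s x| ≤ N := by
        intro x
        rw [abs_mul, abs_of_nonneg (cut_nonneg R x)]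
        calc cut R x * |Ψ s x| ≤ 1 * N :=
              mul_le_mul (cut_le_one R x) (hN s hsI x) (abs_nonneg _) zero_le_one
          _ = N := one_mul N
      have split : hS (t - s) (heatOp (fun s x => cut R x * Φ s x) s) y =
          hS (t - s) (fun x => cut R x * Ψ s x) y -
            (∑ l, hS (t - s) (pd l (fun x => pd l (cut R) x * Φ s x)) y) +
            2⁻¹ * ∑ l, hS (t - s) (fun x => pd l (pd l (cut R)) x * Φ s x) y := by
        have e1 : heatOp (fun s x => cut R x * Φ s x) s = fun x => cut R x * Ψ s x -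
            (∑ l, pd l (fun x => pd l (cut R) x * Φ s x) x) +
            2⁻¹ * ∑ l, pd l (pd l (cut R)) x * Φ s x := by
          funext x
          rw [heatOp_cut hJ hΦ hsJ R x, heq s hsI x]
        rw [e1]
        unfold hS
        have i1 := integrable_hS hcutΨ hcutb (√(t - s)) y
        have i2 : ∀ l : Fin d, Integrable (fun g : E d =>
            pd l (fun x => pd l (cut R) x * Φ s x) (y + √(t - s) • g)) (stdGaussian (E d)) := by
          intro l
          obtain ⟨b, hb⟩ := hbd l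
          exact integrable_hS (contDiff_pd (hpc l) l).continuous hb _ y
        have i3 : ∀ l : Fin d, Integrable (fun g : E d =>
            pd l (pd l (cut R)) (y + √(t - s) • g) * Φ s (y + √(t - s) • g))
              (stdGaussian (E d)) := by
          intro l
          exact integrable_hS (f := fun x => pd l (pd l (cut R)) x * Φ s x)
            ((contDiff_pd (contDiff_pd (contDiff_cut R) l) l).continuous.mul hΦs.continuous)
            (hA2 l) _ y
        have j2 := integrable_finsetSum (univ : Finset (Fin d)) fun l _ => i2 l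
        have j3 := integrable_finsetSum (univ : Finset (Fin d)) fun l _ => i3 l
        have q1 := integral_add (i1.sub j2) (j3.const_mul 2⁻¹)
        have q2 := integral_sub i1 j2
        have q3 : ∫ g, 2⁻¹ * (∑ l, pd l (pd l (cut R)) (y + √(t - s) • g) *
            Φ s (y + √(t - s) • g)) ∂(stdGaussian (E d)) = _ := integral_const_mul _ _
        rw [integral_finsetSum _ fun l _ => i2 l] at q2
        rw [integral_finsetSum _ fun l _ => i3 l] at q3
        rw [← q2, ← q3]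
        exact q1
      have b1 := hS_cut_sub_le hR0 (hΨs s hsI) (hN s hsI) (t - s) y
      have b2 : |∑ l, hS (t - s) (pd l (fun x => pd l (cut R) x * Φ s x)) y| ≤
          D * ((√(t - s))⁻¹ * (B / R * M * C1 d)) := by
        refine (Finset.abs_sum_le_sum_abs _ _).trans ?_
        have : ∀ l ∈ (univ : Finset (Fin d)),
            |hS (t - s) (pd l (fun x => pd l (cut R) x * Φ s x)) y| ≤
              (√(t - s))⁻¹ * (B / R * M * C1 d) := by
          intro l _
          obtain ⟨b, hb⟩ := hbd l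
          exact hS_pd_le ((hpc l).of_le (by norm_cast)) (hA l) l hb hδ y
        refine (Finset.sum_le_sum this).trans (le_of_eq ?_)
        simp [hD]
      have b3 : |2⁻¹ * ∑ l, hS (t - s) (fun x => pd l (pd l (cut R)) x * Φ s x) y| ≤
          D * (B / R * M) := by
        rw [abs_mul]
        have h5 : |∑ l, hS (t - s) (fun x => pd l (pd l (cut R)) x * Φ s x) y| ≤
            D * (B / R * M) := by
          refine (Finset.abs_sum_le_sum_abs _ _).trans ?_
          refine (Finset.sum_le_sum fun l _ => abs_hS_le (hA2 l) (t - s) y).trans (le_of_eq ?_)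
          simp [hD]
        have h6 : |(2⁻¹ : ℝ)| ≤ 1 := by rw [abs_of_pos (by norm_num)]; norm_num
        calc _ ≤ 1 * (D * (B / R * M)) := mul_le_mul h6 h5 (abs_nonneg _) zero_le_one
          _ = _ := one_mul _
      have e2 : (√(t - s))⁻¹ = (t - s) ^ (-(1 / 2) : ℝ) := by
        rw [Real.rpow_neg hδ.le, Real.sqrt_eq_rpow]
      have h7 : √(t - s) ≤ √(t - r) := Real.sqrt_le_sqrt (by linarith [hs.1])
      have b1' : N / R * (‖y‖ + √(t - s) * C1 d) ≤ N / R * (‖y‖ + √(t - r) * C1 d) := by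
        gcongr
      rw [split]
      have tri : ∀ a b c e : ℝ, |a - b + c - e| ≤ |a - e| + |b| + |c| := by
        intro a b c e
        have : a - b + c - e = (a - e) + (-b) + c := by ring
        rw [this]
        refine (abs_add_three _ _ _).trans ?_
        rw [abs_neg]
      refine (tri _ _ _ _).trans ?_
      refine (add_le_add (add_le_add (b1.trans b1') b2) b3).trans (le_of_eq ?_)
      rw [e2, hg]
      field_simp
      ring
    -- integrate
    have hci1 : IntervalIntegrable (fun s => hS (t - s) (Ψ s) y) volume r t :=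
      (continuousOn_hS hΨc hN y).intervalIntegrable_of_Icc hrt
    have hci2 : IntervalIntegrable
        (fun s => hS (t - s) (heatOp (fun s x => cut R x * Φ s x) s) y) volume r t := by
      have hsup2 : ∀ s ∈ J, ∀ x : E d, 2 * R < ‖x‖ → heatOp (fun s x => cut R x * Φ s x) s x = 0 := by
        intro s hs x hx
        unfold heatOp
        rw [supp_dtf hJ hFs s hs x hx, Finset.sum_eq_zero fun l _ =>
          supp_pd (F := fun s => pd l (fun x => cut R x * Φ s x)) (supp_pd hFs l) l s hs x hx]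
        simp
      obtain ⟨B1, -, hB1⟩ := bdd_of_supp (ρ := 2 * R)
        (G := fun p : ℝ × E d => heatOp (fun s x => cut R x * Φ s x) p.1 p.2)
        (joint_heatOp hJ hF).continuousOn hsub hsup2
      exact (continuousOn_hS
        ((joint_heatOp hJ hF).continuousOn.mono (prod_mono hsub (subset_univ _)))
        (fun s hs x => hB1 s hs x) y).intervalIntegrable_of_Icc hrt
    have hdiff : |(∫ s in r..t, hS (t - s) (heatOp (fun s x => cut R x * Φ s x) s) y) -
        ∫ s in r..t, hS (t - s) (Ψ s) y| ≤ (∫ s in r..t, g s) / R := by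
      rw [← intervalIntegral.integral_sub hci2 hci1, ← intervalIntegral.integral_div]
      rw [← Real.norm_eq_abs]
      refine intervalIntegral.norm_integral_le_of_norm_le hrt ?_ (hgi.div_const R)
      have hne : ∀ᵐ s ∂(volume : Measure ℝ), s ≠ t := by
        simp [ae_iff, measure_singleton]
      filter_upwards [hne] with s hst hs
      exact hJi s ⟨hs.1.le, lt_of_le_of_ne hs.2 hst⟩
    have c1 : |cut R y * Φ t y - Φ t y| ≤ M * ‖y‖ / R := by
      have e : cut R y * Φ t y - Φ t y = -((1 - cut R y) * Φ t y) := by ring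
      rw [e, abs_neg, abs_mul]
      calc _ ≤ ‖y‖ / R * M := mul_le_mul (one_sub_cut_le hR0 y) (hM t ⟨hrt, le_rfl⟩ y)
            (abs_nonneg _) (by positivity)
        _ = _ := by ring
    have c2 := hS_cut_sub_le hR0 (joint_slice hΦ (hsub ⟨le_rfl, hrt⟩)).continuous
      (hM r ⟨le_rfl, hrt⟩) (t - r) y
    have e3 : Φ t y - (hS (t - r) (Φ r) y + ∫ s in r..t, hS (t - s) (Ψ s) y) =
        -(cut R y * Φ t y - Φ t y) +
        (hS (t - r) (fun x => cut R x * Φ r x) y - hS (t - r) (Φ r) y) +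
        ((∫ s in r..t, hS (t - s) (heatOp (fun s x => cut R x * Φ s x) s) y) -
          ∫ s in r..t, hS (t - s) (Ψ s) y) := by
      rw [e0]
      ring
    rw [e3]
    refine (abs_add_three _ _ _).trans ?_
    rw [abs_neg]
    refine (add_le_add (add_le_add c1 c2) hdiff).trans (le_of_eq ?_)
    field_simp
  -- let `R → ∞`
  set K := M * ‖y‖ + M * (‖y‖ + √(t - r) * C1 d) + ∫ s in r..t, g s with hK
  have hlim : Tendsto (fun R : ℝ => K / R) atTop (𝓝 0) := tendsto_const_nhds.div_atTop tendsto_id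
  have hle : |Φ t y - (hS (t - r) (Φ r) y + ∫ s in r..t, hS (t - s) (Ψ s) y)| ≤ 0 := by
    refine ge_of_tendsto hlim ?_
    filter_upwards [eventually_ge_atTop 1] with R hR
    exact main R hR
  have := abs_eq_zero.mp (le_antisymm hle (abs_nonneg _))
  linarith

end Crest.Agent.R285.AFD
end
end

-- ▼ part R285/AFRepr
section

/-!
Row 285 (S0430), module AF: the heat semigroup representation of the derivatives of the coarse
potentials (helper635).
-/

set_option autoImplicit false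

open Set MeasureTheory ProbabilityTheory
open Crest.OracleSampling (E)
open scoped ContDiff RealInnerProductSpace Topology

noncomputable section

namespace Crest.Agent.R285.AF

open AFK

variable {d : ℕ} {h : ℝ} {U : E d → ℝ}

/-- `exp (- uT U t)` -/
def Hf (U : E d → ℝ) (t : ℝ) (x : E d) : ℝ := Real.exp (-uT U t x)

theorem Hf_pos (U : E d → ℝ) (t : ℝ) (x : E d) : 0 < Hf U t x := Real.exp_pos _

theorem Hf_le_one (hU : PotP h U) (t : ℝ) (x : E d) : Hf U t x ≤ 1 := by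
  unfold Hf uT
  rw [ub_eq, neg_neg, Real.exp_log (zp_pos hU _)]
  exact zp_le_one hU _

theorem joint_Hf (hU : PotP h U) :
    ContDiffOn ℝ ∞ (fun p : ℝ × E d => Hf U p.1 p.2) (Ioi 0 ×ˢ univ) :=
  (joint_uT hU).neg.exp

theorem pd_Hf (hU : PotP h U) {t : ℝ} (ht : 0 < t) (l : Fin d) :
    pd l (Hf U t) = fun x => -(Hf U t x * pd l (uT U t) x) := by
  funext x
  have h1 : HasFDerivAt (uT U t) (fderiv ℝ (uT U t) x) x :=
    ((contDiff_uT hU ht).differentiable (by simp) x).hasFDerivAt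
  have h2 : HasFDerivAt (Hf U t) _ x := h1.neg.exp
  unfold pd
  rw [h2.fderiv]
  simp [Hf]

theorem dtf_Hf (hU : PotP h U) {t : ℝ} (ht : 0 < t) (x : E d) :
    dtf (Hf U) t x = -(Hf U t x * dtf (uT U) t x) := by
  have h1 := hasDerivAt_dtf isOpen_Ioi (joint_uT hU) (mem_Ioi.2 ht) x
  have h2 : HasDerivAt (fun s => Hf U s x) _ t := h1.neg.exp
  unfold dtf at h2 ⊢
  rw [h2.deriv]
  simp only [Pi.neg_apply, Hf]
  ring

theorem HJr_zero' {F : E d → ℝ} (hF : ContDiff ℝ ∞ F) (x : E d) :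
    HJr F 0 x = 2⁻¹ * ∑ l, pd l (pd l F) x - 2⁻¹ * ∑ l, pd l F x ^ 2 := by
  rw [HJr_zero hF, dvg_gradient hF, norm_sq_gradient]
  ring

/-- The source term of the transported equation. -/
def src (U : E d → ℝ) (D : ℝ → E d → ℝ) (t : ℝ) (x : E d) : ℝ :=
  ∑ l, pd l (pd l (D t)) x - 2 * ∑ l, pd l (uT U t) x * pd l (D t) x - 2 * dtf D t x

theorem joint_src (hU : PotP h U) {D : ℝ → E d → ℝ}
    (hD : ContDiffOn ℝ ∞ (fun p : ℝ × E d => D p.1 p.2) (Ioi 0 ×ˢ univ)) :
    ContDiffOn ℝ ∞ (fun p : ℝ × E d => src U D p.1 p.2) (Ioi 0 ×ˢ univ) := by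
  unfold src
  refine ContDiffOn.sub (ContDiffOn.sub ?_ ?_) ?_
  · refine ContDiffOn.sum fun l _ => ?_
    exact joint_pd (u := fun t => pd l (D t)) isOpen_Ioi (joint_pd isOpen_Ioi hD l) l
  · refine contDiffOn_const.mul (ContDiffOn.sum fun l _ => ?_)
    exact (joint_pd isOpen_Ioi (joint_uT hU) l).mul (joint_pd isOpen_Ioi hD l)
  · exact contDiffOn_const.mul (joint_dtf isOpen_Ioi hD)

theorem pde_mul (hU : PotP h U) {D : ℝ → E d → ℝ}
    (hD : ContDiffOn ℝ ∞ (fun p : ℝ × E d => D p.1 p.2) (Ioi 0 ×ˢ univ)) {t : ℝ} (ht : 0 < t)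
    (x : E d) :
    dtf (fun s x => D s x * Hf U s x) t x -
      2⁻¹ * ∑ l, pd l (pd l (fun x => D t x * Hf U t x)) x = -2⁻¹ * (src U D t x * Hf U t x) := by
  have ht' : t ∈ Ioi (0 : ℝ) := mem_Ioi.2 ht
  have hDs := joint_slice hD ht'
  have hHs := joint_slice (joint_Hf hU) ht'
  have hus := joint_slice (joint_uT hU) ht'
  have h1 : dtf (fun s x => D s x * Hf U s x) t x = dtf D t x * Hf U t x + D t x * dtf (Hf U) t x :=
    ((hasDerivAt_dtf isOpen_Ioi hD ht' x).mul
      (hasDerivAt_dtf isOpen_Ioi (joint_Hf hU) ht' x)).deriv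
  have dd : ∀ {F : E d → ℝ}, ContDiff ℝ ∞ F → ∀ x, DifferentiableAt ℝ F x := fun hF x =>
    hF.differentiable (by simp) x
  have h2 : ∀ l, pd l (fun x => D t x * Hf U t x) = fun x =>
      pd l (D t) x * Hf U t x + D t x * pd l (Hf U t) x := fun l => by
    funext x
    exact pd_mul l x (dd hDs x) (dd hHs x)
  have h3 : ∀ l, pd l (pd l (fun x => D t x * Hf U t x)) x =
      (pd l (pd l (D t)) x * Hf U t x + pd l (D t) x * pd l (Hf U t) x) +
      (pd l (D t) x * pd l (Hf U t) x + D t x * pd l (pd l (Hf U t)) x) := fun l => by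
    rw [h2 l]
    have a1 := dd ((contDiff_pd hDs l).mul hHs) x
    have a2 := dd (hDs.mul (contDiff_pd hHs l)) x
    have e1 : pd l (fun x => pd l (D t) x * Hf U t x + D t x * pd l (Hf U t) x) x =
        pd l (fun x => pd l (D t) x * Hf U t x) x + pd l (fun x => D t x * pd l (Hf U t) x) x := by
      unfold pd at a1 a2 ⊢
      rw [fderiv_fun_add a1 a2]
      rfl
    rw [e1, pd_mul l x (dd (contDiff_pd hDs l) x) (dd hHs x),
      pd_mul l x (dd hDs x) (dd (contDiff_pd hHs l) x)]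
  have h4 : ∀ l, pd l (pd l (Hf U t)) x =
      Hf U t x * (pd l (uT U t) x ^ 2 - pd l (pd l (uT U t)) x) := fun l => by
    rw [pd_Hf hU ht l]
    have a1 := dd (hHs.mul (contDiff_pd hus l)) x
    have e1 : pd l (fun x => -(Hf U t x * pd l (uT U t) x)) x =
        -pd l (fun x => Hf U t x * pd l (uT U t) x) x := by
      unfold pd
      rw [fderiv_fun_neg]
      rfl
    rw [e1, pd_mul l x (dd hHs x) (dd (contDiff_pd hus l) x), pd_Hf hU ht l]
    ring
  have h5 : ∀ l, pd l (Hf U t) x = -(Hf U t x * pd l (uT U t) x) := fun l => by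
    rw [pd_Hf hU ht l]
  have h6 : dtf (uT U) t x = 2⁻¹ * ∑ l, pd l (pd l (uT U t)) x - 2⁻¹ * ∑ l, pd l (uT U t) x ^ 2 := by
    rw [hj_uT hU t ht' x, HJr_zero' hus]
  rw [h1, dtf_Hf hU ht, h6]
  have h7 : ∑ l, pd l (pd l (fun x => D t x * Hf U t x)) x =
      Hf U t x * ∑ l, pd l (pd l (D t)) x - 2 * Hf U t x * ∑ l, pd l (uT U t) x * pd l (D t) x +
      D t x * Hf U t x * (∑ l, pd l (uT U t) x ^ 2 - ∑ l, pd l (pd l (uT U t)) x) := by
    rw [← Finset.sum_sub_distrib, Finset.mul_sum, Finset.mul_sum, Finset.mul_sum,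
      ← Finset.sum_sub_distrib, ← Finset.sum_add_distrib]
    refine Finset.sum_congr rfl fun l _ => ?_
    rw [h3, h4, h5]
    ring
  rw [h7]
  unfold src
  ring

/-- Duhamel's formula, the form used here. -/
theorem duh {r t : ℝ} (hr : 0 < r) (hrt : r < t) {Φ Ψ : ℝ → E d → ℝ}
    (hΦ : ContDiffOn ℝ ∞ (fun p : ℝ × E d => Φ p.1 p.2) (Ioi 0 ×ˢ univ))
    {M : ℝ} (hbΦ : ∀ s ∈ Icc r t, ∀ x, |Φ s x| ≤ M) (hbΨ : ∀ s ∈ Icc r t, ∀ x, |Ψ s x| ≤ M)
    (hpde : ∀ s, 0 < s → ∀ x, dtf Φ s x - 2⁻¹ * ∑ l, pd l (pd l (Φ s)) x = Ψ s x) (y : E d) :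
    Φ t y = hS (t - r) (Φ r) y + ∫ s in r..t, hS (t - s) (Ψ s) y :=
  AFD.duhamel isOpen_Ioi hΦ hrt.le (fun _ hs => hr.trans_le hs.1) hbΦ hbΨ
    (fun s hs x => hpde s (hr.trans_le hs.1) x) y

theorem joint_one : ContDiffOn ℝ ∞ (fun _ : ℝ × E d => (1 : ℝ)) (Ioi 0 ×ˢ univ) :=
  contDiffOn_const

theorem src_one (U : E d → ℝ) (t : ℝ) (x : E d) :
    src U (fun _ _ => 1) t x = 0 := by
  have e1 : ∀ l : Fin d, pd l (fun _ : E d => (1 : ℝ)) = fun _ => 0 := fun l => by
    funext x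
    simp [pd]
  have e2 : ∀ l : Fin d, pd l (fun _ : E d => (0 : ℝ)) = fun _ => 0 := fun l => by
    funext x
    simp [pd]
  simp [src, e1, e2, dtf]

/-- The semigroup property. -/
theorem hS_Hf (hU : PotP h U) {r t : ℝ} (hr : 0 < r) (hrt : r ≤ t) (y : E d) :
    hS (t - r) (Hf U r) y = Hf U t y := by
  rcases hrt.eq_or_lt with rfl | hrt
  · rw [sub_self]; unfold hS; simp
  have h1 := duh hr hrt (Φ := fun s x => 1 * Hf U s x) (Ψ := fun s x => -2⁻¹ * (src U (fun _ _ => 1) s x * Hf U s x))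
    (joint_one.mul (joint_Hf hU)) (M := 1)
    (fun s _ x => by
      rw [one_mul, abs_of_pos (Hf_pos U s x)]
      exact Hf_le_one hU s x)
    (fun s _ x => by
      rw [src_one]
      simp)
    (fun s hs x => pde_mul hU joint_one hs x) y
  have h2 : ∫ s in r..t, hS (t - s) (fun x => -2⁻¹ * (src U (fun _ _ => 1) s x * Hf U s x)) y = 0 := by
    refine (intervalIntegral.integral_congr (g := fun _ => (0 : ℝ)) fun s hs => ?_).trans (by simp)
    rw [uIcc_of_le hrt.le] at hs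
    simp only [src_one, zero_mul, mul_zero]
    unfold hS
    simp
  rw [h2, add_zero] at h1
  simpa using h1.symm

theorem conv_hS (hU : PotP h U) {r t : ℝ} (hr : 0 < r) (hrt : r ≤ t) :
    ConvexOn ℝ univ fun y => -Real.log (hS (t - r) (Hf U r) y) := by
  have : (fun y => -Real.log (hS (t - r) (Hf U r) y)) = uT U t := by
    funext y
    rw [hS_Hf hU hr hrt, Hf, Real.log_exp, neg_neg]
  rw [this]
  exact ub_convex hU _

/-- **Representation.** -/
theorem repr_EK (hU : PotP h U) {r t : ℝ} (hr : 0 < r) (hrt : r < t) {D : ℝ → E d → ℝ}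
    (hD : ContDiffOn ℝ ∞ (fun p : ℝ × E d => D p.1 p.2) (Ioi 0 ×ˢ univ)) {M : ℝ}
    (hb : ∀ s ∈ Icc r t, ∀ x, |D s x| ≤ M) (hb' : ∀ s ∈ Icc r t, ∀ x, |src U D s x| ≤ M)
    (y : E d) :
    D t y = EK (t - r) (Hf U r) (D r) y -
      2⁻¹ * ∫ s in r..t, EK (t - s) (Hf U s) (src U D s) y := by
  have hM0 : 0 ≤ M := (abs_nonneg _).trans (hb r ⟨le_rfl, hrt.le⟩ 0)
  have h1 := duh hr hrt (Φ := fun s x => D s x * Hf U s x)
    (Ψ := fun s x => -2⁻¹ * (src U D s x * Hf U s x))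
    (hD.mul (joint_Hf hU)) (M := M)
    (fun s hs x => by
      rw [abs_mul, abs_of_pos (Hf_pos U s x)]
      have := mul_le_mul (hb s hs x) (Hf_le_one hU s x) (Hf_pos U s x).le hM0
      linarith)
    (fun s hs x => by
      rw [abs_mul, abs_mul, abs_of_pos (Hf_pos U s x)]
      have := mul_le_mul (hb' s hs x) (Hf_le_one hU s x) (Hf_pos U s x).le hM0
      rw [abs_of_nonpos (by norm_num : (-2⁻¹ : ℝ) ≤ 0)]
      linarith)
    (fun s hs x => pde_mul hU hD hs x) y
  have hHt := Hf_pos U t y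
  have e1 : EK (t - r) (Hf U r) (D r) y = hS (t - r) (fun x => D r x * Hf U r x) y / Hf U t y := by
    rw [EK, hS_Hf hU hr hrt.le]
  have e2 : ∫ s in r..t, EK (t - s) (Hf U s) (src U D s) y =
      (∫ s in r..t, hS (t - s) (fun x => src U D s x * Hf U s x) y) / Hf U t y := by
    rw [← intervalIntegral.integral_div]
    refine intervalIntegral.integral_congr fun s hs => ?_
    rw [uIcc_of_le hrt.le] at hs
    have hs0 : 0 < s := hr.trans_le hs.1
    simp only [EK]
    rw [hS_Hf hU hs0 hs.2]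
  have e3 : ∫ s in r..t, hS (t - s) (fun x => -2⁻¹ * (src U D s x * Hf U s x)) y =
      -2⁻¹ * ∫ s in r..t, hS (t - s) (fun x => src U D s x * Hf U s x) y := by
    rw [← intervalIntegral.integral_const_mul]
    refine intervalIntegral.integral_congr fun s _ => ?_
    simp only [hS]
    rw [← integral_const_mul]
  rw [e3] at h1
  rw [e1, e2]
  field_simp
  linarith

end Crest.Agent.R285.AF
end
end

-- ▼ part R285/AF
section

/-!
Row 285 (S0430), module AF: bounds of all flattenings of the derivatives of the coarse potentials,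
with the factor `h`, uniform in the dimension (helper635).
-/

set_option autoImplicit false
set_option linter.unusedSectionVars false

open Set MeasureTheory ProbabilityTheory
open Crest.OracleSampling (E)
open scoped ContDiff RealInnerProductSpace Topology

noncomputable section

namespace Crest.Agent.R285.AF

open AFK

/-- change of index types in the multiset form of a flattening bound -/
theorem FB_equiv {ι : Type} [Fintype ι] [DecidableEq ι] {α α' β β' : Type} [Fintype α] [Fintype α']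
    [Fintype β] [Fintype β'] [DecidableEq α] [DecidableEq α'] [DecidableEq β] [DecidableEq β']
    (e : α ≃ α') (f : β ≃ β') {D : Multiset ι → ℝ} {K : ℝ}
    (h : FB (fun (I : α' → ι) (J : β' → ι) => D (ms I + ms J)) K) :
    FB (fun (I : α → ι) (J : β → ι) => D (ms I + ms J)) K := by
  have h2 := h.reindex (e.arrowCongr (Equiv.refl ι)) (f.arrowCongr (Equiv.refl ι))
  refine fun a b => le_of_eq_of_le ?_ (h2 a b)
  congr 1
  refine Finset.sum_congr rfl fun p _ => Finset.sum_congr rfl fun q _ => ?_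
  congr 1
  show D (ms p + ms q) = D (ms (e.arrowCongr (Equiv.refl ι) p) + ms (f.arrowCongr (Equiv.refl ι) q))
  rw [← ms_equiv e (e.arrowCongr (Equiv.refl ι) p), ← ms_equiv f (f.arrowCongr (Equiv.refl ι) q)]
  congr 3
  · funext i; simp
  · funext i; simp

variable {d : ℕ} {h : ℝ} {U : E d → ℝ}

theorem pd_pd_uT (hU : PotP h U) {t : ℝ} (ht : 0 < t) (l k : Fin d) (y : E d) :
    pd l (pd k (uT U t)) y = Ub2 U (√t, y) (ev l) (ev k) := by
  rw [pd_pd (contDiff_uT hU ht)]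
  have h1 : fderiv ℝ (uT U t) = fun x => Ub1 U (√t, x) :=
    funext fun x => (hasFDerivAt_ub_x hU √t x).fderiv
  rw [h1, (hasFDerivAt_ub1_x hU √t y).fderiv]

theorem nr_eq_norm (a : Fin d → ℝ) : ‖∑ i, a i • ev i‖ = nr a := by
  have e1 : ∑ i, a i • ev i = (WithLp.toLp 2 a : E d) := by
    ext j
    simp [ev, Pi.single_apply]
  rw [e1, EuclideanSpace.norm_eq]
  simp [nr]

set_option maxSynthPendingDepth 3 in
theorem FB_bil {B : E d →L[ℝ] E d →L[ℝ] ℝ} (hB : ‖B‖ ≤ h) :
    FB (fun i j => B (ev i) (ev j)) h := by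
  intro a b
  have h1 : ∑ i, ∑ j, B (ev i) (ev j) * (a i * b j) =
      B (∑ i, a i • ev i) (∑ j, b j • ev j) := by
    have e1 : B (∑ i, a i • ev i) = ∑ i, a i • B (ev i) := by
      rw [map_sum]
      exact Finset.sum_congr rfl fun i _ => map_smul _ _ _
    rw [e1, _root_.sum_apply]
    refine Finset.sum_congr rfl fun i _ => ?_
    rw [_root_.smul_apply, map_sum, smul_eq_mul, Finset.mul_sum]
    refine Finset.sum_congr rfl fun j _ => ?_
    rw [map_smul, smul_eq_mul]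
    ring
  rw [h1, ← Real.norm_eq_abs]
  refine (B.le_opNorm₂ _ _).trans ?_
  rw [nr_eq_norm, nr_eq_norm, mul_assoc]
  exact mul_le_mul_of_nonneg_right hB (mul_nonneg (nr_nonneg _) (nr_nonneg _))

/-- second derivatives -/
theorem base (hU : PotP h U) {t : ℝ} (ht : 0 < t) (y : E d) (α β : Type) [Fintype α] [Fintype β]
    [DecidableEq α] [DecidableEq β] (hα : Fintype.card α = 1) (hβ : Fintype.card β = 1) :
    FB (fun (I : α → Fin d) (J : β → Fin d) => pdm (ms I + ms J) (uT U t) y) h := by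
  have e : α ≃ Unit := Fintype.equivOfCardEq (by simp [hα])
  have f : β ≃ Unit := Fintype.equivOfCardEq (by simp [hβ])
  refine FB_equiv (D := fun m => pdm m (uT U t) y) e f ?_
  have hus := contDiff_uT hU ht
  have key : FB (fun (i j : Fin d) => pd i (pd j (uT U t)) y) h := by
    have h1 : (fun (i j : Fin d) => pd i (pd j (uT U t)) y) =
        fun i j => Ub2 U (√t, y) (ev i) (ev j) := by
      funext i j
      exact pd_pd_uT hU ht i j y
    rw [h1]
    exact FB_bil (ub2_norm hU _)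
  have h2 := key.reindex (Equiv.funUnique Unit (Fin d)) (Equiv.funUnique Unit (Fin d))
  refine fun a b => le_of_eq_of_le ?_ (h2 a b)
  congr 1
  refine Finset.sum_congr rfl fun p _ => Finset.sum_congr rfl fun q _ => ?_
  congr 1
  have e1 : ms p + ms q = p () ::ₘ {q ()} := by
    simp [ms]
  beta_reduce
  rw [e1, pdm_cons hus, pdm_single hus]
  rfl

/-- the contracted derivative -/
def cw {β : Type} [Fintype β] [DecidableEq β] {α : Type} [Fintype α] (U : E d → ℝ)
    (b : (β → Fin d) → ℝ) (I : α → Fin d) (t : ℝ) (x : E d) : ℝ :=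
  ∑ J, pdm (ms I + ms J) (uT U t) x * b J

/-- the contracted quadratic term -/
def cn {β : Type} [Fintype β] [DecidableEq β] {α : Type} [Fintype α] (U : E d → ℝ)
    (b : (β → Fin d) → ℝ) (I : α → Fin d) (t : ℝ) (x : E d) : ℝ :=
  ∑ J, Nq (fun m => pdm m (uT U t) x) (ms I + ms J) * b J

section

variable {α β : Type} [Fintype α] [Fintype β] [DecidableEq α] [DecidableEq β]

theorem joint_cw (hU : PotP h U) (b : (β → Fin d) → ℝ) (I : α → Fin d) :
    ContDiffOn ℝ ∞ (fun p : ℝ × E d => cw U b I p.1 p.2) (Ioi 0 ×ˢ univ) := by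
  unfold cw
  exact ContDiffOn.sum fun J _ => (joint_pdm_uT hU _).mul contDiffOn_const

theorem pd_cw (hU : PotP h U) (b : (β → Fin d) → ℝ) (I : α → Fin d) {t : ℝ} (ht : 0 < t)
    (l : Fin d) : pd l (cw U b I t) = fun x => ∑ J, pdm (l ::ₘ (ms I + ms J)) (uT U t) x * b J := by
  have hus := contDiff_uT hU ht
  funext x
  have h1 : pd l (cw U b I t) x = ∑ J, pd l (fun x => pdm (ms I + ms J) (uT U t) x * b J) x :=
    pd_sum Finset.univ (fun J x => pdm (ms I + ms J) (uT U t) x * b J) l x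
      (fun J _ => (diff_pdm hus _ x).mul_const _)
  rw [h1]
  refine Finset.sum_congr rfl fun J _ => ?_
  unfold pd
  rw [fderiv_mul_const (diff_pdm hus _ x), pdm_cons hus]
  simp [pd, mul_comm]

theorem src_cw [Nonempty α] (hU : PotP h U) (b : (β → Fin d) → ℝ) (I : α → Fin d) {t : ℝ}
    (ht : 0 < t) (x : E d) : src U (cw U b I) t x = cn U b I t x := by
  have hus := contDiff_uT hU ht
  have h1 : ∀ l, pd l (pd l (cw U b I t)) x =
      ∑ J, pdm (l ::ₘ l ::ₘ (ms I + ms J)) (uT U t) x * b J := by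
    intro l
    rw [pd_cw hU b I ht]
    have h2 := pd_sum Finset.univ (fun J x => pdm (l ::ₘ (ms I + ms J)) (uT U t) x * b J) l x
      (fun J _ => (diff_pdm hus _ x).mul_const _)
    rw [h2]
    refine Finset.sum_congr rfl fun J _ => ?_
    unfold pd
    rw [fderiv_mul_const (diff_pdm hus _ x), pdm_cons hus l (l ::ₘ _)]
    simp [pd, mul_comm]
  have h3 : dtf (cw U b I) t x = ∑ J, HJr (uT U t) (ms I + ms J) x * b J := by
    have h4 : HasDerivAt (fun s => cw U b I s x) (∑ J, HJr (uT U t) (ms I + ms J) x * b J) t := by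
      unfold cw
      exact HasDerivAt.fun_sum fun J _ => (hasDerivAt_pdm_uT hU ht (ms I + ms J) x).mul_const _
    exact h4.deriv
  have h5 : ∀ l, pd l (cw U b I t) x = ∑ J, pdm (l ::ₘ (ms I + ms J)) (uT U t) x * b J := fun l => by
    rw [pd_cw hU b I ht]
  unfold src cn
  rw [h3]
  simp only [h1, h5]
  have h6 : ∀ J : β → Fin d, Nq (fun m => pdm m (uT U t) x) (ms I + ms J) =
      ∑ l, pdm (l ::ₘ l ::ₘ (ms I + ms J)) (uT U t) x -
      2 * ∑ l, pd l (uT U t) x * pdm (l ::ₘ (ms I + ms J)) (uT U t) x -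
      2 * HJr (uT U t) (ms I + ms J) x := by
    intro J
    have hne : ms I + ms J ≠ 0 := by
      intro h0
      have h7 := congrArg Multiset.card h0
      rw [Multiset.card_add, card_ms, card_ms, Multiset.card_zero] at h7
      have := Fintype.card_pos (α := α)
      omega
    have h8 := Nfull_eq (fun m => pdm m (uT U t) x) hne
    simp only [pdm_single hus] at h8
    unfold HJr
    linarith
  simp only [h6, sub_mul, Finset.sum_sub_distrib, Finset.sum_mul, Finset.mul_sum, mul_assoc]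
  congr 1
  congr 1
  · exact Finset.sum_comm
  · exact Finset.sum_comm

theorem joint_cn [Nonempty α] (hU : PotP h U) (b : (β → Fin d) → ℝ) (I : α → Fin d) :
    ContDiffOn ℝ ∞ (fun p : ℝ × E d => cn U b I p.1 p.2) (Ioi 0 ×ˢ univ) := by
  refine (joint_src hU (joint_cw hU b I)).congr ?_
  rintro ⟨t, x⟩ ⟨ht, -⟩
  exact (src_cw hU b I ht x).symm

/-- bound hypothesis up to level `k` -/
def Bd (h : ℝ) (U : E d → ℝ) (k : ℕ) (C : ℝ) : Prop :=
  ∀ t, 0 < t → h * t ≤ 1 → ∀ (y : E d) (α β : Type) [Fintype α] [Fintype β] [DecidableEq α]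
    [DecidableEq β] [Nonempty α] [Nonempty β], Fintype.card α + Fintype.card β ≤ k →
    FB (fun (I : α → Fin d) (J : β → Fin d) => pdm (ms I + ms J) (uT U t) y)
      (C * (h * t / √t ^ (Fintype.card α + Fintype.card β)))

theorem pow_anti {r t : ℝ} (hr : 0 < r) (hrt : r ≤ t) {j : ℕ} (hj : 2 ≤ j) :
    t / √t ^ j ≤ r / √r ^ j := by
  obtain ⟨i, rfl⟩ := Nat.exists_eq_add_of_le hj
  have key : ∀ s : ℝ, 0 < s → s / √s ^ (2 + i) = 1 / √s ^ i := by
    intro s hs
    have h0 : √s ≠ 0 := (Real.sqrt_pos.2 hs).ne'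
    have h1 : √s ^ 2 = s := Real.sq_sqrt hs.le
    rw [pow_add, h1]
    field_simp
  rw [key t (hr.trans_le hrt), key r hr]
  have h1 : √r ≤ √t := Real.sqrt_le_sqrt hrt
  have h2 : 0 < √r := Real.sqrt_pos.2 hr
  gcongr

set_option maxHeartbeats 1000000 in
theorem step [Nonempty α] [Nonempty β] (hU : PotP h U) {k : ℕ} {C : ℝ} (hC : 0 ≤ C)
    (ih : Bd h U k C) {t : ℝ} (ht : 0 < t) (hht : h * t ≤ 1) (y : E d)
    (hcard : Fintype.card α + Fintype.card β = k) :
    FB (fun (I : Option α → Fin d) (J : β → Fin d) => pdm (ms I + ms J) (uT U t) y)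
      (√2 ^ (k + 1) * (C + 2 ^ k * C ^ 2) * (h * t / √t ^ (k + 1))) := by
  have hh := hU.hh
  have pα : 0 < Fintype.card α := Fintype.card_pos
  have pβ : 0 < Fintype.card β := Fintype.card_pos
  have hk : 2 ≤ k := by omega
  set r := t / 2 with hr
  have hr0 : 0 < r := by positivity
  have hrt : r < t := by linarith
  have htr : t - r = r := by rw [hr]; ring
  have hsr : 0 < √r := Real.sqrt_pos.2 hr0
  -- letters
  set K : ℕ → ℝ := fun j => C * (h * r / √r ^ j) with hK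
  have hK0 : ∀ j, 0 ≤ K j := fun j => by simp only [hK]; positivity
  have letter : ∀ s ∈ Icc r t, ∀ (x : E d) (α' β' : Type) [Fintype α'] [Fintype β']
      [DecidableEq α'] [DecidableEq β'] [Nonempty α'] [Nonempty β'],
      Fintype.card α' + Fintype.card β' ≤ k →
      FB (fun (I : α' → Fin d) (J : β' → Fin d) => pdm (ms I + ms J) (uT U s) x)
        (K (Fintype.card α' + Fintype.card β')) := by
    intro s hs x α' β' _ _ _ _ _ _ hc
    have hs0 : 0 < s := hr0.trans_le hs.1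
    have pα' : 0 < Fintype.card α' := Fintype.card_pos
    have pβ' : 0 < Fintype.card β' := Fintype.card_pos
    refine (ih s hs0 ((mul_le_mul_of_nonneg_left hs.2 hh).trans hht) x α' β' hc).mono ?_
    have h1 := pow_anti hr0 hs.1 (j := Fintype.card α' + Fintype.card β') (by omega)
    simp only [hK]
    rw [mul_div_assoc, mul_div_assoc]
    gcongr
  set K' : ℝ := C ^ 2 * ((h * r) ^ 2 / √r ^ (k + 2)) with hK'
  have hK'0 : 0 ≤ K' := by simp only [hK']; positivity
  have quad : ∀ s ∈ Icc r t, ∀ x : E d,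
      FB (fun (I : α → Fin d) (J : β → Fin d) =>
        Nq (fun m => pdm m (uT U s) x) (ms I + ms J)) (2 ^ k * K') := by
    intro s hs x
    refine FB_Nq (D := fun m => pdm m (uT U s) x) hK0 ?_ ?_ α β hcard hK'0
    case refine_2 => exact letter s hs x
    intro i j _ _ hij
    simp only [hK, hK']
    rw [← hij, pow_add]
    refine le_of_eq ?_
    field_simp
  intro a b
  have hnb := nr_nonneg b
  set M : ℝ := K k * nr b with hM
  have hM0 : 0 ≤ M := mul_nonneg (hK0 _) hnb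
  set N : ℝ := 2 ^ k * K' * nr b with hN
  have hN0 : 0 ≤ N := by positivity
  have bw : ∀ s ∈ Icc r t, ∀ x, ∑ I : α → Fin d, cw U b I s x ^ 2 ≤ M ^ 2 := by
    intro s hs x
    have h1 := (letter s hs x α β hcard.le).op' (hK0 _) b
    rw [hcard] at h1
    have h2 := pow_le_pow_left₀ (nr_nonneg _) h1 2
    rw [nr_sq] at h2
    exact h2
  have bn : ∀ s ∈ Icc r t, ∀ x, ∑ I : α → Fin d, cn U b I s x ^ 2 ≤ N ^ 2 := by
    intro s hs x
    have h1 := (quad s hs x).op' (by positivity) b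
    have h2 := pow_le_pow_left₀ (nr_nonneg _) h1 2
    rw [nr_sq] at h2
    exact h2
  have one : ∀ {κ : Type} [Fintype κ] (f : κ → ℝ) {B : ℝ} (_ : 0 ≤ B) (_ : ∑ i, f i ^ 2 ≤ B ^ 2)
      (i : κ), |f i| ≤ B := by
    intro κ _ f B hB h1 i
    refine abs_le_of_sq_le_sq ((?_ : f i ^ 2 ≤ _).trans h1) hB
    exact Finset.single_le_sum (f := fun i => f i ^ 2) (fun _ _ => sq_nonneg _)
      (Finset.mem_univ i)
  have hrepr : ∀ (I : α → Fin d) (z : E d), cw U b I t z = EK (t - r) (Hf U r) (cw U b I r) z -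
      2⁻¹ * ∫ s in r..t, EK (t - s) (Hf U s) (cn U b I s) z := by
    intro I z
    have h1 := repr_EK hU hr0 hrt (joint_cw hU b I) (M := M + N)
      (fun s hs x => (one _ hM0 (bw s hs x) I).trans (by linarith))
      (fun s hs x => by
        rw [src_cw hU b I (hr0.trans_le hs.1)]
        exact (one _ hN0 (bn s hs x) I).trans (by linarith)) z
    rw [h1]
    congr 2
    refine intervalIntegral.integral_congr fun s hs => ?_
    rw [uIcc_of_le hrt.le] at hs
    have hs0 : 0 < s := hr0.trans_le hs.1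
    have e1 : src U (cw U b I) s = cn U b I s := funext fun x => src_cw hU b I hs0 x
    simp only [e1]
  have main := core hr0 hrt (H := Hf U) (joint_Hf hU).continuousOn
    (fun s _ x => Hf_pos U s x) (fun s _ x => Hf_le_one hU s x)
    (fun s hs => conv_hS hU (hr0.trans_le hs.1) hs.2.le)
    (w0 := fun I : α → Fin d => cw U b I r)
    (fun I => (joint_slice (joint_cw hU b I) (mem_Ioi.2 hr0)).continuous.measurable)
    (n := fun I => cn U b I) (fun I => (joint_cn hU b I).continuousOn) hM0 hN0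
    (fun x => bw r ⟨le_rfl, hrt.le⟩ x) (fun s hs x => bn s hs x)
    (w := fun I => cw U b I t) hrepr y
    (fun I => (joint_slice (joint_cw hU b I) (mem_Ioi.2 ht)).differentiable (by simp) y)
    (fun l I => a ((Equiv.piOptionEquivProd (β := fun _ => Fin d)).symm (l, I)))
  have e1 : ∑ I : Option α → Fin d, ∑ J : β → Fin d, pdm (ms I + ms J) (uT U t) y * (a I * b J) =
      ∑ l, ∑ I : α → Fin d, a ((Equiv.piOptionEquivProd (β := fun _ => Fin d)).symm (l, I)) *
        pd l (cw U b I t) y := by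
    rw [← Equiv.sum_comp (Equiv.piOptionEquivProd (α := α) (β := fun _ => Fin d)).symm,
      Fintype.sum_prod_type]
    refine Finset.sum_congr rfl fun l _ => Finset.sum_congr rfl fun I _ => ?_
    rw [pd_cw hU b I ht, Finset.mul_sum]
    refine Finset.sum_congr rfl fun J _ => ?_
    rw [ms_option, Multiset.cons_add]
    show pdm (l ::ₘ (ms I + ms J)) (uT U t) y * _ = _
    ring
  have e2 : ∑ l, ∑ I : α → Fin d,
      a ((Equiv.piOptionEquivProd (β := fun _ => Fin d)).symm (l, I)) ^ 2 = ∑ I, a I ^ 2 := by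
    rw [← Equiv.sum_comp (Equiv.piOptionEquivProd (α := α) (β := fun _ => Fin d)).symm
      (fun I => a I ^ 2), Fintype.sum_prod_type]
  rw [e1]
  rw [e2, htr] at main
  refine main.trans ?_
  change _ * nr a ≤ _
  have h3 : (√r)⁻¹ * M + √r * N ≤
      √2 ^ (k + 1) * (C + 2 ^ k * C ^ 2) * (h * t / √t ^ (k + 1)) * nr b := by
    have e3 : (√r)⁻¹ * M = C * (h * r / √r ^ (k + 1)) * nr b := by
      simp only [hM, hK]
      rw [pow_succ]
      field_simp
    have e4 : √r * N = 2 ^ k * C ^ 2 * (h * r) * (h * r / √r ^ (k + 1)) * nr b := by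
      simp only [hN, hK']
      rw [pow_succ, pow_succ]
      field_simp
      ring
    have h4 : h * r ≤ 1 := (mul_le_mul_of_nonneg_left hrt.le hh).trans hht
    have h5 : 0 ≤ h * r / √r ^ (k + 1) := by positivity
    have h6 : h * r / √r ^ (k + 1) ≤ √2 ^ (k + 1) * (h * t / √t ^ (k + 1)) := by
      have e5 : √r = √t / √2 := by rw [hr, Real.sqrt_div ht.le]
      have hst : 0 < √t := Real.sqrt_pos.2 ht
      rw [e5, div_pow, div_div_eq_mul_div, mul_comm (h * r), mul_div_assoc]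
      gcongr
    rw [e3, e4]
    have h7 : 2 ^ k * C ^ 2 * (h * r) ≤ 2 ^ k * C ^ 2 * 1 :=
      mul_le_mul_of_nonneg_left h4 (by positivity)
    calc C * (h * r / √r ^ (k + 1)) * nr b + 2 ^ k * C ^ 2 * (h * r) * (h * r / √r ^ (k + 1)) * nr b
        ≤ C * (h * r / √r ^ (k + 1)) * nr b + 2 ^ k * C ^ 2 * 1 * (h * r / √r ^ (k + 1)) * nr b := by
          gcongr
      _ = (C + 2 ^ k * C ^ 2) * (h * r / √r ^ (k + 1)) * nr b := by ring
      _ ≤ (C + 2 ^ k * C ^ 2) * (√2 ^ (k + 1) * (h * t / √t ^ (k + 1))) * nr b := by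
          gcongr
      _ = _ := by ring
  calc ((√r)⁻¹ * M + √r * N) * nr a ≤
      (√2 ^ (k + 1) * (C + 2 ^ k * C ^ 2) * (h * t / √t ^ (k + 1)) * nr b) * nr a :=
        mul_le_mul_of_nonneg_right h3 (nr_nonneg _)
    _ = _ := by ring

end

theorem Bd_succ (hU : PotP h U) {k : ℕ} {C : ℝ} (hC : 0 ≤ C) (hk : 2 ≤ k) (ih : Bd h U k C) :
    Bd h U (k + 1) (C + √2 ^ (k + 1) * (C + 2 ^ k * C ^ 2)) := by
  intro t ht hht y α β _ _ _ _ _ _ hcard
  have hh := hU.hh
  have pα : 0 < Fintype.card α := Fintype.card_pos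
  have pβ : 0 < Fintype.card β := Fintype.card_pos
  have hD0 : 0 ≤ √2 ^ (k + 1) * (C + 2 ^ k * C ^ 2) := by positivity
  rcases Nat.lt_or_ge (Fintype.card α + Fintype.card β) (k + 1) with h1 | h1
  · refine (ih t ht hht y α β (by omega)).mono ?_
    gcongr
    linarith
  · have h2 : Fintype.card α + Fintype.card β = k + 1 := le_antisymm hcard h1
    rw [h2]
    have key : ∀ (α β : Type) [Fintype α] [Fintype β] [DecidableEq α] [DecidableEq β]
        [Nonempty α] [Nonempty β], Fintype.card α + Fintype.card β = k + 1 →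
        2 ≤ Fintype.card α →
        FB (fun (I : α → Fin d) (J : β → Fin d) => pdm (ms I + ms J) (uT U t) y)
          ((C + √2 ^ (k + 1) * (C + 2 ^ k * C ^ 2)) * (h * t / √t ^ (k + 1))) := by
      intro α β _ _ _ _ _ _ hc h3
      obtain ⟨n, hn⟩ : ∃ n, Fintype.card α = n + 1 + 1 := ⟨Fintype.card α - 2, by omega⟩
      have e : α ≃ Option (Fin (n + 1)) := Fintype.equivOfCardEq (by simp [hn])
      refine FB_equiv (D := fun m => pdm m (uT U t) y) e (Equiv.refl β) ?_
      refine (step (α := Fin (n + 1)) (β := β) hU hC ih ht hht y ?_).mono ?_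
      · rw [Fintype.card_fin]; omega
      · gcongr
        linarith
    rcases Nat.lt_or_ge (Fintype.card α) 2 with h3 | h3
    · have h4 := (key β α (by omega) (by omega)).symm
      refine fun a b => le_of_eq_of_le ?_ (h4 a b)
      congr 1
      refine Finset.sum_congr rfl fun I _ => Finset.sum_congr rfl fun J _ => ?_
      beta_reduce
      rw [add_comm (ms I)]
    · exact key α β h2 h3

theorem Bd_two (hU : PotP h U) : Bd h U 2 1 := by
  intro t ht _ y α β _ _ _ _ _ _ hcard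
  have pα : 0 < Fintype.card α := Fintype.card_pos
  have pβ : 0 < Fintype.card β := Fintype.card_pos
  have h1 := base hU ht y α β (by omega) (by omega)
  refine h1.mono (le_of_eq ?_)
  have h2 : Fintype.card α + Fintype.card β = 2 := by omega
  rw [h2, Real.sq_sqrt ht.le]
  field_simp

/-- the constants -/
def afc : ℕ → ℝ
  | 0 => 1
  | 1 => 1
  | 2 => 1
  | k + 3 => afc (k + 2) + √2 ^ (k + 3) * (afc (k + 2) + 2 ^ (k + 2) * afc (k + 2) ^ 2)

theorem one_le_afc : ∀ k, 1 ≤ afc k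
  | 0 => le_rfl
  | 1 => le_rfl
  | 2 => le_rfl
  | k + 3 => by
    have h1 := one_le_afc (k + 2)
    have h2 : 0 ≤ √2 ^ (k + 3) * (afc (k + 2) + 2 ^ (k + 2) * afc (k + 2) ^ 2) := by positivity
    rw [afc]
    linarith

theorem afc_pos (k : ℕ) : 0 < afc k := one_pos.trans_le (one_le_afc k)

theorem Bd_all (hU : PotP h U) : ∀ k, Bd h U k (afc k)
  | 0 => fun t ht hht y α β _ _ _ _ _ _ hc => by
    have pα : 0 < Fintype.card α := Fintype.card_pos
    omega
  | 1 => fun t ht hht y α β _ _ _ _ _ _ hc => by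
    have pα : 0 < Fintype.card α := Fintype.card_pos
    have pβ : 0 < Fintype.card β := Fintype.card_pos
    omega
  | 2 => Bd_two hU
  | k + 3 => Bd_succ hU (afc_pos _).le (by omega) (Bd_all hU (k + 2))

/-- **Main theorem of module AF**: flattening bound of `D^m u_t`, `h t ≤ 1`. -/
theorem AF_FB (hU : PotP h U) {t : ℝ} (ht : 0 < t) (hht : h * t ≤ 1) (y : E d) (α β : Type)
    [Fintype α] [Fintype β] [DecidableEq α] [DecidableEq β] [Nonempty α] [Nonempty β] :
    FB (fun (I : α → Fin d) (J : β → Fin d) => pdm (ms I + ms J) (uT U t) y)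
      (afc (Fintype.card α + Fintype.card β) *
        (h * t / √t ^ (Fintype.card α + Fintype.card β))) :=
  Bd_all hU _ t ht hht y α β le_rfl

/-- The same for `Ub U σ`. -/
theorem AF_FB_Ub (hU : PotP h U) {σ : ℝ} (hσ : 0 < σ) (hhσ : h * σ ^ 2 ≤ 1) (y : E d)
    (α β : Type) [Fintype α] [Fintype β] [DecidableEq α] [DecidableEq β] [Nonempty α]
    [Nonempty β] :
    FB (fun (I : α → Fin d) (J : β → Fin d) => pdm (ms I + ms J) (Ub U σ) y)
      (afc (Fintype.card α + Fintype.card β) *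
        (h * σ ^ 2 / σ ^ (Fintype.card α + Fintype.card β))) := by
  have h1 := AF_FB hU (t := σ ^ 2) (by positivity) hhσ y α β
  unfold uT at h1
  rwa [Real.sqrt_sq hσ.le] at h1

/-- Operator form for `Sob.Sett.AF` / `InstFix.fixSett`: `T = h⁻¹ D^m (Ub f σ)`, `κ ≤ σ ≤ 1`. -/
theorem AF_op {f : E d → ℝ} (hf : PotP h f) (hh : 0 < h) (hh1 : h ≤ 1) {κ σ : ℝ} (hκ : 0 < κ)
    (hκσ : κ ≤ σ) (hσ : σ ≤ 1) (p q : ℕ) (y : E d) (x : (Fin (p + 1) → Fin d) → ℝ) :
    ∑ j : Fin (q + 1) → Fin d, (∑ k : Fin (p + 1) → Fin d,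
      h⁻¹ * pdm ((Finset.univ : Finset (Fin (p + 1))).val.map k +
        (Finset.univ : Finset (Fin (q + 1))).val.map j) (Ub f σ) y * x k) ^ 2 ≤
      (afc (p + q + 2) * κ⁻¹ ^ (p + q)) ^ 2 * ∑ k, x k ^ 2 := by
  have hσ0 : 0 < σ := hκ.trans_le hκσ
  have h2 : h * σ ^ 2 ≤ 1 := by
    have : σ ^ 2 ≤ 1 := pow_le_one₀ hσ0.le hσ
    nlinarith
  have h3 := (AF_FB_Ub hf hσ0 h2 y (Fin (p + 1)) (Fin (q + 1))).symm
  simp only [Fintype.card_fin] at h3
  have e1 : p + 1 + (q + 1) = p + q + 2 := by ring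
  rw [e1] at h3
  have h4 := (h3.smul h⁻¹).op' (by
    have := afc_pos (p + q + 2)
    positivity) x
  have h5 := pow_le_pow_left₀ (nr_nonneg _) h4 2
  rw [nr_sq, mul_pow, nr_sq] at h5
  refine h5.trans ?_
  refine mul_le_mul_of_nonneg_right ?_ (Finset.sum_nonneg fun _ _ => sq_nonneg _)
  have h6 : |h⁻¹| * (afc (p + q + 2) * (h * σ ^ 2 / σ ^ (p + q + 2))) =
      afc (p + q + 2) * σ⁻¹ ^ (p + q) := by
    rw [abs_of_pos (by positivity), inv_pow, pow_add σ (p + q) 2]
    field_simp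
  rw [h6]
  have := afc_pos (p + q + 2)
  have h7 : σ⁻¹ ≤ κ⁻¹ := inv_anti₀ hκ hκσ
  gcongr

/-- exactly the hypothesis `AF` of `InstFix.fixSett` with `K = κ⁻¹`, `τ = h`. -/
theorem AF_op' {f : E d → ℝ} (hf : PotP h f) (hh : 0 < h) (hh1 : h ≤ 1) {κ σ : ℝ} (hκ : 0 < κ)
    (hκσ : κ ≤ σ) (hσ : σ ≤ 1) (p q : ℕ) (y : E d) (x : (Fin (p + 1) → Fin d) → ℝ) :
    ∑ j : Fin (q + 1) → Fin d, (∑ k : Fin (p + 1) → Fin d,
      h⁻¹ * pdm ((Finset.univ : Finset (Fin (p + 1))).val.map k +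
        (Finset.univ : Finset (Fin (q + 1))).val.map j) (Ub f σ) y * x k) ^ 2 ≤
      (afc (p + q + 2) * κ⁻¹ ^ (p + q + 2)) ^ 2 * ∑ k, x k ^ 2 := by
  refine (AF_op hf hh hh1 hκ hκσ hσ p q y x).trans ?_
  have := afc_pos (p + q + 2)
  have h1 : 1 ≤ κ⁻¹ := (one_le_inv₀ hκ).2 (hκσ.trans hσ)
  have h2 : κ⁻¹ ^ (p + q) ≤ κ⁻¹ ^ (p + q + 2) := pow_le_pow_right₀ h1 (by omega)
  refine mul_le_mul_of_nonneg_right ?_ (Finset.sum_nonneg fun _ _ => sq_nonneg _)
  gcongr

end Crest.Agent.R285.AF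
end
private theorem rz_7ca4b12922 : type_of% @_root_.Crest.Agent.R285.AF.afc.eq_def := @_root_.Crest.Agent.R285.AF.afc.eq_def -- L399
private theorem rz_3cd73aa45f : type_of% @_root_.Crest.Agent.R285.AF.afc.eq_1 := @_root_.Crest.Agent.R285.AF.afc.eq_1 -- L399
end

-- ▼ part R285/AFAll

/-!
Row 285 (S0430), module AF: the hypothesis `SM.AFall` and boundedness lemmas (helper635).
-/

set_option autoImplicit false

open Crest.OracleSampling (E)

noncomputable section

namespace Crest.Agent.R285.AF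

/-- **AFall.** -/
theorem AFall_afc : SM.AFall afc := by
  intro d f τ κ hf hτ hτ1 hκ hκ1 p q y x
  exact AF_op' hf hτ hτ1 hκ le_rfl hκ1 p q y x


variable {d : ℕ} {h : ℝ} {U : E d → ℝ}



end Crest.Agent.R285.AF
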