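import Crest.Agent.R285.Gauss
import Crest.Agent.R285.GaussLaws

/-!
Row 285, module CHANNEL (helper582): posterior laws, mixtures, Gaussian channels.

`U : V → ℝ` is any measurable non-negative function (`Pot h U` gives this: `Pot.nonneg'`).
With `s² = r² + t²`:
* `post_eq`          : `post U c s = (∫ e^{-U} dN(c,s²))⁻¹ • e^{-U} N(c,s²)`;
* `wt_semigroup`     : `Ub (Ub U t) r = Ub U s`;
* `lintegral_post_post`, `integral_post_post`, `post_bind` :
                       `post U c s = ∫ post U y t  d(post (Ub U t) c r)(y)`;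
* `channel`          : if `z ∼ post U c s`, `g ∼ γ` then
                       `c + (r²/s²)(z - c) + (r t/s) g ∼ post (Ub U t) c r`;
* `post_affine`, `Ub_affine` : rescaling to `c = 0`, `s = 1`.
-/

set_option autoImplicit false
set_option linter.unusedSectionVars false

open MeasureTheory ProbabilityTheory Real
open scoped RealInnerProductSpace ENNReal

noncomputable section

namespace Crest.Agent.R285

variable {V : Type} [NormedAddCommGroup V] [InnerProductSpace ℝ V] [FiniteDimensional ℝ V]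
  [MeasurableSpace V] [BorelSpace V]

namespace Chan

/-- Lintegrals against `gN`. -/
theorem lintegral_gN (c : V) (σ : ℝ) {f : V → ℝ≥0∞} (hf : Measurable f) :
    ∫⁻ z, f z ∂(gN c σ) = ∫⁻ g, f (c + σ • g) ∂(stdGaussian V) := by
  rw [gN, lintegral_map hf (measurable_aff c σ)]

theorem integral_gN {F : Type*} [NormedAddCommGroup F] [NormedSpace ℝ F] (c : V) (σ : ℝ)
    {f : V → F} (hf : AEStronglyMeasurable f (gN c σ)) :
    ∫ z, f z ∂(gN c σ) = ∫ g, f (c + σ • g) ∂(stdGaussian V) := by
  rw [gN, integral_map (measurable_aff c σ).aemeasurable hf]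

/-- Lintegral against `gN` as a function of the centre is measurable. -/
theorem measurable_lintegral_gN {α : Type*} [MeasurableSpace α] {f : α × V → ℝ≥0∞}
    (hf : Measurable f) {c : α → V} (hc : Measurable c) (σ : ℝ) :
    Measurable fun y => ∫⁻ z, f (y, z) ∂(gN (c y) σ) := by
  have : ∀ y, ∫⁻ z, f (y, z) ∂(gN (c y) σ) = ∫⁻ g, f (y, c y + σ • g) ∂(stdGaussian V) := fun y =>
    lintegral_gN _ _ (hf.comp (by fun_prop))
  simp_rw [this]
  have h2 : Measurable fun p : α × V => f (p.1, c p.1 + σ • p.2) :=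
    hf.comp (measurable_fst.prodMk ((hc.comp measurable_fst).add (measurable_snd.const_smul σ)))
  exact h2.lintegral_prod_right'

/-- The semigroup property of the Gaussian laws. -/
theorem lintegral_gN_gN (c : V) {r t s : ℝ} (hs : 0 ≤ s) (h : r ^ 2 + t ^ 2 = s ^ 2)
    {f : V → ℝ≥0∞} (hf : Measurable f) :
    ∫⁻ y, ∫⁻ z, f z ∂(gN y t) ∂(gN c r) = ∫⁻ z, f z ∂(gN c s) := by
  have h1 := gN_lin2 c (0 : V) r 1 1 t
  simp only [one_smul, smul_zero, add_zero, one_mul, mul_one, gN_one] at h1
  rw [h, Real.sqrt_sq hs] at h1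
  rw [← h1, lintegral_map hf (by fun_prop), lintegral_prod _ (by
    exact (hf.comp (by fun_prop)).aemeasurable)]
  refine lintegral_congr fun y => ?_
  rw [lintegral_gN _ _ hf]

/-- The partition function `∫ e^{-U} dN(x,σ²)`. -/
def wt (U : V → ℝ) (σ : ℝ) (x : V) : ℝ := ∫ g, rexp (-U (x + σ • g)) ∂(stdGaussian V)

/-- Standing hypotheses on a potential. -/
structure Nice (U : V → ℝ) : Prop where
  meas : Measurable U
  nonneg : ∀ x, 0 ≤ U x

variable {U : V → ℝ}

theorem Nice.integrable (hU : Nice U) (σ : ℝ) (x : V) :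
    Integrable (fun g => rexp (-U (x + σ • g))) (stdGaussian V) := by
  refine Integrable.mono' (integrable_const (1 : ℝ)) ?_ (ae_of_all _ fun g => ?_)
  · exact (Real.measurable_exp.comp (hU.meas.comp (measurable_aff x σ)).neg).aestronglyMeasurable
  · rw [Real.norm_eq_abs, abs_of_pos (Real.exp_pos _)]
    exact Real.exp_le_one_iff.2 (neg_nonpos.2 (hU.nonneg _))

theorem Nice.wt_pos (hU : Nice U) (σ : ℝ) (x : V) : 0 < wt U σ x :=
  integral_exp_pos (hU.integrable σ x)

theorem Nice.wt_le_one (hU : Nice U) (σ : ℝ) (x : V) : wt U σ x ≤ 1 := by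
  have h1 : wt U σ x ≤ ∫ _, (1 : ℝ) ∂(stdGaussian V) :=
    integral_mono (hU.integrable σ x) (integrable_const _) fun g =>
      Real.exp_le_one_iff.2 (neg_nonpos.2 (hU.nonneg _))
  simpa using h1

theorem Nice.measurable_dens (hU : Nice U) : Measurable fun z => ENNReal.ofReal (rexp (-U z)) :=
  ENNReal.measurable_ofReal.comp (Real.measurable_exp.comp hU.meas.neg)

theorem Nice.lintegral_gN (hU : Nice U) (σ : ℝ) (x : V) :
    ∫⁻ z, ENNReal.ofReal (rexp (-U z)) ∂(gN x σ) = ENNReal.ofReal (wt U σ x) := by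
  rw [Chan.lintegral_gN _ _ hU.measurable_dens, wt,
    ofReal_integral_eq_lintegral_ofReal (hU.integrable σ x)
      (ae_of_all _ fun g => (Real.exp_pos _).le)]

theorem Nice.exp_neg_Ub (hU : Nice U) (σ : ℝ) (x : V) : rexp (-Ub U σ x) = wt U σ x := by
  rw [Ub, neg_neg]
  exact Real.exp_log (hU.wt_pos σ x)

theorem Nice.measurable_wt (hU : Nice U) (σ : ℝ) : Measurable (wt U σ) := by
  have h2 : StronglyMeasurable fun p : V × V => rexp (-U (p.1 + σ • p.2)) :=
    (Real.measurable_exp.comp (hU.meas.comp (by fun_prop)).neg).stronglyMeasurable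
  exact h2.integral_prod_right'.measurable

theorem Nice.Ub (hU : Nice U) (σ : ℝ) : Nice (Ub U σ) := by
  refine ⟨?_, fun x => ?_⟩
  · exact (Real.measurable_log.comp (hU.measurable_wt σ)).neg
  · have h1 := Real.log_nonpos (hU.wt_pos σ x).le (hU.wt_le_one σ x)
    change 0 ≤ -Real.log (wt U σ x)
    linarith

/-- Semigroup property of the coarse potentials. -/
theorem wt_semigroup (hU : Nice U) {r t s : ℝ} (hs : 0 ≤ s) (h : r ^ 2 + t ^ 2 = s ^ 2) (c : V) :
    wt (R285.Ub U t) r c = wt U s c := by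
  have h1 := (hU.Ub t).lintegral_gN r c
  have h2 := hU.lintegral_gN s c
  rw [← lintegral_gN_gN c hs h hU.measurable_dens] at h2
  simp_rw [hU.lintegral_gN, ← hU.exp_neg_Ub] at h2
  rw [h1] at h2
  rw [← hU.exp_neg_Ub s c]
  exact (ENNReal.ofReal_eq_ofReal_iff ((hU.Ub t).wt_pos r c).le (Real.exp_pos _).le).1 h2

end Chan

open Chan

theorem Ub_semigroup {U : V → ℝ} (hU : Nice U) {r t s : ℝ} (hs : 0 ≤ s)
    (h : r ^ 2 + t ^ 2 = s ^ 2) (c : V) : Ub (Ub U t) r c = Ub U s c := by
  have := wt_semigroup hU hs h c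
  unfold wt at this
  rw [Ub, this, ← Ub]


namespace Chan

theorem map_volume_aff (c : V) {s : ℝ} (hs : 0 < s) :
    (volume : Measure V).map (fun g => c + s • g) =
      ENNReal.ofReal ((s ^ Module.finrank ℝ V)⁻¹) • (volume : Measure V) := by
  have h1 : (fun g : V => c + s • g) = (fun x => c + x) ∘ (fun g => s • g) := rfl
  rw [h1, ← Measure.map_map (by fun_prop) (by fun_prop), Measure.map_addHaar_smul _ hs.ne',
    Measure.map_smul, map_add_left_eq_self, abs_of_pos (by positivity)]

theorem lintegral_comp_aff (c : V) {s : ℝ} (hs : 0 < s) {f : V → ℝ≥0∞} (hf : Measurable f) :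
    ∫⁻ g, f (c + s • g) = ENNReal.ofReal ((s ^ Module.finrank ℝ V)⁻¹) * ∫⁻ z, f z := by
  rw [← lintegral_map hf (measurable_aff c s), map_volume_aff c hs, lintegral_smul_measure,
    smul_eq_mul]

/-- The normalising constant of the Gaussian density. -/
def gK (V : Type) [NormedAddCommGroup V] [InnerProductSpace ℝ V] (s : ℝ) : ℝ :=
  (2 * π) ^ (-(Module.finrank ℝ V : ℝ) / 2) * (s ^ Module.finrank ℝ V)⁻¹

theorem gK_pos {s : ℝ} (hs : 0 < s) : 0 < gK V s := by unfold gK; positivity

/-- Density of `gN c s`. -/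
theorem gN_eq_withDensity (c : V) {s : ℝ} (hs : 0 < s) :
    gN c s = (volume : Measure V).withDensity
      fun z => ENNReal.ofReal (gK V s * rexp (-(‖z - c‖ ^ 2 / (2 * s ^ 2)))) := by
  have hm : Measurable fun z : V => ENNReal.ofReal (gK V s * rexp (-(‖z - c‖ ^ 2 / (2 * s ^ 2)))) := by
    fun_prop
  refine Measure.ext_of_lintegral _ fun f hf => ?_
  rw [lintegral_gN _ _ hf, stdGaussian_eq_withDensity,
    lintegral_withDensity_eq_lintegral_mul _ continuous_gdens.measurable.ennreal_ofReal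
      (g := fun g => f (c + s • g)) (hf.comp (measurable_aff c s)),
    lintegral_withDensity_eq_lintegral_mul _ hm hf]
  have hs' : s ^ Module.finrank ℝ V * (s ^ Module.finrank ℝ V)⁻¹ = 1 :=
    mul_inv_cancel₀ (by positivity)
  have h1 : ∀ g : V, ((fun x : V => ENNReal.ofReal (gdens x)) * fun g : V => f (c + s • g)) g =
      (fun z => ENNReal.ofReal (s ^ Module.finrank ℝ V) *
        (ENNReal.ofReal (gK V s * rexp (-(‖z - c‖ ^ 2 / (2 * s ^ 2)))) * f z)) (c + s • g) := by
    intro g
    simp only [Pi.mul_apply]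
    rw [← mul_assoc, ← ENNReal.ofReal_mul (by positivity)]
    congr 2
    simp only [gdens, gK]
    rw [ add_sub_cancel_left, norm_smul, Real.norm_eq_abs, abs_of_pos hs]
    have h2 : -‖g‖ ^ 2 / 2 = -((s * ‖g‖) ^ 2 / (2 * s ^ 2)) := by field_simp
    rw [h2]
    calc _ = (s ^ Module.finrank ℝ V * (s ^ Module.finrank ℝ V)⁻¹) *
          ((2 * π) ^ (-(Module.finrank ℝ V : ℝ) / 2) *
            rexp (-((s * ‖g‖) ^ 2 / (2 * s ^ 2)))) := by rw [hs', one_mul]
      _ = _ := by ring
  rw [lintegral_congr h1]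
  have h3 := lintegral_comp_aff c hs (f := fun z => ENNReal.ofReal (s ^ Module.finrank ℝ V) *
        (ENNReal.ofReal (gK V s * rexp (-(‖z - c‖ ^ 2 / (2 * s ^ 2)))) * f z))
        ((hm.mul hf).const_mul _)
  refine h3.trans ?_
  have h4 := lintegral_const_mul (μ := (volume : Measure V)) (ENNReal.ofReal (s ^ Module.finrank ℝ V))
    (hm.mul hf)
  simp only [Pi.mul_apply] at h4 ⊢
  rw [h4, ← mul_assoc, ← ENNReal.ofReal_mul (by positivity),
    mul_comm _ (s ^ Module.finrank ℝ V), hs', ENNReal.ofReal_one, one_mul]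

end Chan

/-- The posterior law as a tilted Gaussian. -/
theorem post_eq {U : V → ℝ} (hU : Nice U) (c : V) {s : ℝ} (hs : 0 < s) :
    post U c s = (ENNReal.ofReal (wt U s c))⁻¹ •
      (gN c s).withDensity fun z => ENNReal.ofReal (rexp (-U z)) := by
  have hm : Measurable fun z : V => ENNReal.ofReal (gK V s * rexp (-(‖z - c‖ ^ 2 / (2 * s ^ 2)))) := by
    fun_prop
  have hm2 : Measurable fun z : V =>
      ENNReal.ofReal (rexp (-(U z + ‖z - c‖ ^ 2 / (2 * s ^ 2)))) := by
    refine ENNReal.measurable_ofReal.comp (Real.measurable_exp.comp ?_)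
    exact (hU.meas.add (by fun_prop)).neg
  have hK := gK_pos (V := V) hs
  have e1 : (gN c s).withDensity (fun z => ENNReal.ofReal (rexp (-U z))) =
      ENNReal.ofReal (gK V s) • (volume : Measure V).withDensity fun z =>
        ENNReal.ofReal (rexp (-(U z + ‖z - c‖ ^ 2 / (2 * s ^ 2)))) := by
    rw [gN_eq_withDensity c hs, ← withDensity_mul _ hm hU.measurable_dens,
      ← withDensity_smul _ hm2]
    congr 1
    funext z
    simp only [Pi.mul_apply, Pi.smul_apply, smul_eq_mul]
    rw [← ENNReal.ofReal_mul (by positivity), ← ENNReal.ofReal_mul hK.le]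
    congr 1
    rw [neg_add, Real.exp_add]
    ring
  have e2 : ENNReal.ofReal (wt U s c) =
      (gN c s).withDensity (fun z => ENNReal.ofReal (rexp (-U z))) Set.univ := by
    rw [withDensity_apply _ MeasurableSet.univ, Measure.restrict_univ, hU.lintegral_gN]
  rw [e2, e1, Measure.smul_apply, smul_eq_mul, smul_smul]
  have hk0 : ENNReal.ofReal (gK V s) ≠ 0 := by simpa using hK
  have hk1 : ENNReal.ofReal (gK V s) ≠ ∞ := ENNReal.ofReal_ne_top
  have e3 : (ENNReal.ofReal (gK V s) *
      ((volume : Measure V).withDensity fun z =>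
        ENNReal.ofReal (rexp (-(U z + ‖z - c‖ ^ 2 / (2 * s ^ 2))))) Set.univ)⁻¹ *
      ENNReal.ofReal (gK V s) = (((volume : Measure V).withDensity fun z =>
        ENNReal.ofReal (rexp (-(U z + ‖z - c‖ ^ 2 / (2 * s ^ 2))))) Set.univ)⁻¹ := by
    rw [ENNReal.mul_inv (Or.inl hk0) (Or.inl hk1), mul_comm _ (ENNReal.ofReal (gK V s)),
      ← mul_assoc, ENNReal.mul_inv_cancel hk0 hk1, one_mul]
  rw [e3, post]

theorem lintegral_post {U : V → ℝ} (hU : Nice U) (c : V) {s : ℝ} (hs : 0 < s)
    {f : V → ℝ≥0∞} (hf : Measurable f) :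
    ∫⁻ z, f z ∂(post U c s) = (ENNReal.ofReal (wt U s c))⁻¹ *
      ∫⁻ z, ENNReal.ofReal (rexp (-U z)) * f z ∂(gN c s) := by
  rw [post_eq hU c hs, lintegral_smul_measure, smul_eq_mul,
    lintegral_withDensity_eq_lintegral_mul _ hU.measurable_dens hf]
  rfl

theorem ofReal_wt_ne_zero {U : V → ℝ} (hU : Nice U) (σ : ℝ) (x : V) :
    ENNReal.ofReal (wt U σ x) ≠ 0 := by
  simpa using hU.wt_pos σ x

theorem isProbabilityMeasure_post {U : V → ℝ} (hU : Nice U) (c : V) {s : ℝ} (hs : 0 < s) :
    IsProbabilityMeasure (post U c s) := by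
  refine ⟨?_⟩
  have h1 := lintegral_post hU c hs (f := fun _ => 1) measurable_const
  simp only [lintegral_const, one_mul, mul_one] at h1
  rw [h1, hU.lintegral_gN]
  exact ENNReal.inv_mul_cancel (ofReal_wt_ne_zero hU s c) ENNReal.ofReal_ne_top


theorem measurable_lintegral_post {U : V → ℝ} (hU : Nice U) {t : ℝ} (ht : 0 < t)
    {α : Type*} [MeasurableSpace α] {f : α × V → ℝ≥0∞} (hf : Measurable f)
    {c : α → V} (hc : Measurable c) :
    Measurable fun y => ∫⁻ z, f (y, z) ∂(post U (c y) t) := by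
  have h1 : ∀ y, ∫⁻ z, f (y, z) ∂(post U (c y) t) = (ENNReal.ofReal (wt U t (c y)))⁻¹ *
      ∫⁻ z, (fun p : α × V => ENNReal.ofReal (rexp (-U p.2)) * f p) (y, z) ∂(gN (c y) t) :=
    fun y => lintegral_post hU (c y) ht (f := fun z => f (y, z)) (hf.comp (by fun_prop))
  simp_rw [h1]
  refine Measurable.mul ?_ ?_
  · exact (ENNReal.measurable_ofReal.comp ((hU.measurable_wt t).comp hc)).inv
  · exact measurable_lintegral_gN
      ((hU.measurable_dens.comp measurable_snd).mul hf) hc t

theorem measurable_post {U : V → ℝ} (hU : Nice U) {t : ℝ} (ht : 0 < t) :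
    Measurable fun y => post U y t := by
  refine Measure.measurable_of_measurable_coe _ fun B hB => ?_
  have h1 := measurable_lintegral_post hU ht
    (f := fun p : V × V => B.indicator (fun _ => (1 : ℝ≥0∞)) p.2)
    ((measurable_const.indicator hB).comp measurable_snd) measurable_id
  have h2 : ∀ y, ∫⁻ z, B.indicator (fun _ => (1 : ℝ≥0∞)) z ∂(post U y t) = post U y t B := fun y => by
    rw [lintegral_indicator_const hB, one_mul]
  simpa only [id, h2] using h1

/-- The posterior laws as a Markov kernel. -/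
def postK (U : V → ℝ) (hU : Nice U) (t : ℝ) (ht : 0 < t) : Kernel V V :=
  ⟨fun y => post U y t, measurable_post hU ht⟩

@[simp] theorem postK_apply (U : V → ℝ) (hU : Nice U) (t : ℝ) (ht : 0 < t) (y : V) :
    postK U hU t ht y = post U y t := rfl

instance instMarkovPostK (U : V → ℝ) (hU : Nice U) (t : ℝ) (ht : 0 < t) :
    IsMarkovKernel (postK U hU t ht) :=
  ⟨fun y => isProbabilityMeasure_post hU y ht⟩

/-- Disintegration of the posterior at scale `s` over the intermediate value at scale `t`. -/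
theorem lintegral_post_post {U : V → ℝ} (hU : Nice U) {r t s : ℝ} (hr : 0 < r) (ht : 0 < t)
    (hs : 0 < s) (h : r ^ 2 + t ^ 2 = s ^ 2) (c : V) {f : V → ℝ≥0∞} (hf : Measurable f) :
    ∫⁻ y, ∫⁻ z, f z ∂(post U y t) ∂(post (Ub U t) c r) = ∫⁻ z, f z ∂(post U c s) := by
  have hm : Measurable fun y => ∫⁻ z, f z ∂(post U y t) :=
    measurable_lintegral_post hU ht (f := fun p : V × V => f p.2) (hf.comp measurable_snd)
      measurable_id
  rw [lintegral_post (hU.Ub t) c hr hm, lintegral_post hU c hs hf, wt_semigroup hU hs.le h]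
  congr 1
  have h3 := lintegral_gN_gN c hs.le h (hU.measurable_dens.mul hf)
  simp only [Pi.mul_apply] at h3
  rw [← h3]
  refine lintegral_congr fun y => ?_
  rw [lintegral_post hU y ht hf, hU.exp_neg_Ub, ← mul_assoc,
    ENNReal.mul_inv_cancel (ofReal_wt_ne_zero hU t y) ENNReal.ofReal_ne_top, one_mul]

theorem post_bind {U : V → ℝ} (hU : Nice U) {r t s : ℝ} (hr : 0 < r) (ht : 0 < t)
    (hs : 0 < s) (h : r ^ 2 + t ^ 2 = s ^ 2) (c : V) :
    (post (Ub U t) c r).bind (fun y => post U y t) = post U c s := by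
  refine Measure.ext_of_lintegral _ fun f hf => ?_
  rw [Measure.lintegral_bind (measurable_post hU ht).aemeasurable hf.aemeasurable,
    lintegral_post_post hU hr ht hs h c hf]

theorem integral_post_post {U : V → ℝ} (hU : Nice U) {r t s : ℝ} (hr : 0 < r) (ht : 0 < t)
    (hs : 0 < s) (h : r ^ 2 + t ^ 2 = s ^ 2) (c : V) {F : Type*} [NormedAddCommGroup F]
    [NormedSpace ℝ F] {f : V → F} (hf : Integrable f (post U c s)) :
    ∫ y, ∫ z, f z ∂(post U y t) ∂(post (Ub U t) c r) = ∫ z, f z ∂(post U c s) := by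
  have h1 := post_bind hU hr ht hs h c
  have h2 : (postK U hU t ht ∘ₖ Kernel.const Unit (post (Ub U t) c r)) () = post U c s := by
    rw [Kernel.comp_apply, Kernel.const_apply]
    exact h1
  rw [← h2] at hf ⊢
  rw [Kernel.integral_comp hf]
  rfl


namespace Chan

/-- Rotation invariance of `γ ⊗ γ`. -/
theorem lintegral_rotate {a b : ℝ} (h : a ^ 2 + b ^ 2 = 1) {Φ : V × V → ℝ≥0∞}
    (hΦ : Measurable Φ) :
    ∫⁻ p, Φ (a • p.1 - b • p.2, b • p.1 + a • p.2) ∂((stdGaussian V).prod (stdGaussian V)) =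
      ∫⁻ p, Φ p ∂((stdGaussian V).prod (stdGaussian V)) := by
  obtain ⟨θ, hθ1, hθ2⟩ : ∃ θ : ℝ, Real.cos θ = a ∧ Real.sin θ = -b := by
    have h1 : ‖(⟨a, -b⟩ : ℂ)‖ = 1 := by
      rw [Complex.norm_def, Complex.normSq_mk, Real.sqrt_eq_one]
      nlinarith
    refine ⟨Complex.arg ⟨a, -b⟩, ?_, ?_⟩
    · have h0 : (⟨a, -b⟩ : ℂ) ≠ 0 := by
        intro h0; rw [h0] at h1; simp at h1
      rw [Complex.cos_arg h0, h1, div_one]
    · rw [Complex.sin_arg, h1, div_one]
  have hrot := IsGaussian.map_rotation_eq_self (μ := stdGaussian V)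
    (by simp) θ
  conv_rhs => rw [← hrot]
  rw [lintegral_map hΦ (ContinuousLinearMap.continuous _).measurable]
  refine lintegral_congr fun p => ?_
  rw [ContinuousLinearMap.rotation_apply, hθ1, hθ2]
  simp only [neg_neg, neg_smul, sub_eq_add_neg]

end Chan

/-- The Gaussian channel: going back up in noise. -/
theorem channel {U : V → ℝ} (hU : Nice U) {r t s : ℝ} (hr : 0 < r) (ht : 0 < t)
    (hs : 0 < s) (h : r ^ 2 + t ^ 2 = s ^ 2) (c : V) :
    ((post U c s).prod (stdGaussian V)).map
      (fun p => c + (r ^ 2 / s ^ 2) • (p.1 - c) + (r * t / s) • p.2) = post (Ub U t) c r := by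
  have hP := isProbabilityMeasure_post hU c hs
  refine Measure.ext_of_lintegral _ fun F hF => ?_
  have hT : Measurable fun p : V × V => c + (r ^ 2 / s ^ 2) • (p.1 - c) + (r * t / s) • p.2 := by
    fun_prop
  have hFT : Measurable fun p : V × V =>
      F (c + (r ^ 2 / s ^ 2) • (p.1 - c) + (r * t / s) • p.2) := hF.comp hT
  rw [lintegral_map hF hT, lintegral_prod _ hFT.aemeasurable,
    lintegral_post hU c hs hFT.lintegral_prod_right',
    lintegral_post (hU.Ub t) c hr hF, wt_semigroup hU hs.le h]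
  congr 1
  have hm1 : Measurable fun z => ENNReal.ofReal (rexp (-U z)) *
      ∫⁻ g, F (c + (r ^ 2 / s ^ 2) • (z - c) + (r * t / s) • g) ∂(stdGaussian V) :=
    hU.measurable_dens.mul hFT.lintegral_prod_right'
  have hm2 : Measurable fun y => ENNReal.ofReal (rexp (-Ub U t y)) * F y :=
    (hU.Ub t).measurable_dens.mul hF
  refine (lintegral_gN c s hm1).trans ?_
  rw [lintegral_gN c r hm2]
  set Φ : V × V → ℝ≥0∞ := fun p => ENNReal.ofReal (rexp (-U (c + s • p.1))) *
    F (c + (r ^ 2 / s) • p.1 + (r * t / s) • p.2) with hΦ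
  have hΦm : Measurable Φ :=
    (hU.measurable_dens.comp (by fun_prop)).mul (hF.comp (by fun_prop))
  have e1 : ∀ g : V, ENNReal.ofReal (rexp (-U (c + s • g))) *
      ∫⁻ g', F (c + (r ^ 2 / s ^ 2) • (c + s • g - c) + (r * t / s) • g') ∂(stdGaussian V) =
      ∫⁻ g', Φ (g, g') ∂(stdGaussian V) := by
    intro g
    rw [hΦ]
    simp only
    have hm3 : Measurable fun g' : V => F (c + (r ^ 2 / s) • g + (r * t / s) • g') :=
      hF.comp (by fun_prop)
    rw [lintegral_const_mul _ hm3]
    have e2 : (r ^ 2 / s ^ 2) • (c + s • g - c) = (r ^ 2 / s) • g := by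
      rw [add_sub_cancel_left, smul_smul]
      congr 1
      field_simp
    rw [e2]
  rw [lintegral_congr e1, ← lintegral_prod _ hΦm.aemeasurable,
    ← lintegral_rotate (a := r / s) (b := t / s) (by field_simp; exact h) hΦm,
    lintegral_prod _ (by exact (hΦm.comp (by fun_prop)).aemeasurable)]
  refine lintegral_congr fun x => ?_
  have e3 : ∀ g' : V, Φ ((r / s) • x - (t / s) • g', (t / s) • x + (r / s) • g') =
      ENNReal.ofReal (rexp (-U (c + r • x + (-t) • g'))) * F (c + r • x) := by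
    intro g'
    rw [hΦ]
    simp only
    have h1 : r ^ 2 / s * (r / s) + r * t / s * (t / s) = r := by
      have : r ^ 2 / s * (r / s) + r * t / s * (t / s) = r * (r ^ 2 + t ^ 2) / s ^ 2 := by
        field_simp
      rw [this, h]
      field_simp
    have h2 : r ^ 2 / s * (t / s) = r * t / s * (r / s) := by field_simp
    have h3 : c + s • ((r / s) • x - (t / s) • g') = c + r • x + (-t) • g' := by
      rw [smul_sub, smul_smul, smul_smul, show s * (r / s) = r by field_simp,
        show s * (t / s) = t by field_simp, neg_smul]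
      abel
    have h4 : c + (r ^ 2 / s) • ((r / s) • x - (t / s) • g') +
        (r * t / s) • ((t / s) • x + (r / s) • g') = c + r • x := by
      rw [add_assoc]
      congr 1
      rw [smul_sub, smul_add, smul_smul, smul_smul, smul_smul, smul_smul, h2]
      calc (r ^ 2 / s * (r / s)) • x - (r * t / s * (r / s)) • g' +
            ((r * t / s * (t / s)) • x + (r * t / s * (r / s)) • g')
          = (r ^ 2 / s * (r / s) + r * t / s * (t / s)) • x := by rw [add_smul]; abel
        _ = r • x := by rw [h1]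
    rw [h3, h4]
  have hm4 : Measurable fun g' : V => ENNReal.ofReal (rexp (-U (c + r • x + (-t) • g'))) :=
    hU.measurable_dens.comp (by fun_prop)
  rw [lintegral_congr e3, lintegral_mul_const _ hm4, hU.exp_neg_Ub]
  congr 1
  rw [← lintegral_gN (c + r • x) (-t) hU.measurable_dens, gN_neg, hU.lintegral_gN]



namespace Chan

/-- `e^{-U} ≤ 1`: the posterior is dominated by the Gaussian. -/
theorem post_le {U : V → ℝ} (hU : Nice U) (c : V) {s : ℝ} (hs : 0 < s) :
    post U c s ≤ (ENNReal.ofReal (wt U s c))⁻¹ • gN c s := by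
  rw [post_eq hU c hs]
  refine Measure.le_iff.2 fun B hB => ?_
  rw [Measure.smul_apply, Measure.smul_apply, smul_eq_mul, smul_eq_mul,
    withDensity_apply _ hB]
  gcongr
  calc ∫⁻ a in B, ENNReal.ofReal (rexp (-U a)) ∂(gN c s) ≤ ∫⁻ _ in B, 1 ∂(gN c s) := by
        refine lintegral_mono fun z => ?_
        rw [ENNReal.ofReal_le_one]
        exact Real.exp_le_one_iff.2 (neg_nonpos.2 (hU.nonneg z))
    _ = gN c s B := by simp

theorem integrable_post {U : V → ℝ} (hU : Nice U) {c : V} {s : ℝ} (hs : 0 < s)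
    {F : Type*} [NormedAddCommGroup F] {f : V → F} (hf : Integrable f (gN c s)) :
    Integrable f (post U c s) :=
  (hf.smul_measure (ENNReal.inv_ne_top.2 (ofReal_wt_ne_zero hU s c))).mono_measure
    (post_le hU c hs)

theorem integral_post {U : V → ℝ} (hU : Nice U) (c : V) {s : ℝ} (hs : 0 < s)
    {F : Type*} [NormedAddCommGroup F] [NormedSpace ℝ F] (f : V → F) :
    ∫ z, f z ∂(post U c s) = (wt U s c)⁻¹ • ∫ z, rexp (-U z) • f z ∂(gN c s) := by
  have e1 : (fun z => ENNReal.ofReal (rexp (-U z))) =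
      fun z => (((rexp (-U z)).toNNReal : NNReal) : ℝ≥0∞) := rfl
  have hm : Measurable fun z => (rexp (-U z)).toNNReal :=
    (Real.measurable_exp.comp hU.meas.neg).real_toNNReal
  rw [post_eq hU c hs, integral_smul_measure, e1, integral_withDensity_eq_integral_smul hm,
    ENNReal.toReal_inv, ENNReal.toReal_ofReal (hU.wt_pos s c).le]
  congr 1
  refine integral_congr_ae (ae_of_all _ fun z => ?_)
  simp only [NNReal.smul_def, Real.coe_toNNReal _ (Real.exp_pos _).le]

/-- Polynomial moments of `gN`. -/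
theorem integrable_norm_pow_gN (c : V) (s : ℝ) (n : ℕ) :
    Integrable (fun z => ‖z‖ ^ n) (gN c s) := by
  have h1 : MemLp (id : V → V) n (stdGaussian V) := IsGaussian.memLp_id _ _ (by simp)
  have h2 : MemLp (fun g : V => c + s • g) n (stdGaussian V) :=
    (memLp_const c).add (h1.const_smul s)
  have h3 := h2.integrable_norm_pow'
  rw [gN, integrable_map_measure (by fun_prop) (measurable_aff c s).aemeasurable]
  exact h3

theorem integrable_norm_pow_post {U : V → ℝ} (hU : Nice U) (c : V) {s : ℝ} (hs : 0 < s) (n : ℕ) :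
    Integrable (fun z => ‖z‖ ^ n) (post U c s) :=
  integrable_post hU hs (integrable_norm_pow_gN c s n)

theorem integrable_norm_post {U : V → ℝ} (hU : Nice U) (c : V) {s : ℝ} (hs : 0 < s) :
    Integrable (fun z => ‖z‖) (post U c s) := by
  simpa using integrable_norm_pow_post hU c hs 1

end Chan




end Crest.Agent.R285
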