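import Crest.Agent.R285.Defs
import Crest.Agent.R285.Flat

-- ▼ part R285/Conv
section

/-!
Row 285 (S0430): rescaled units and original units.

In rescaled units (`s = 1`, `c = 0`) the potential is `f w = V (c + s w)`; `Ub`, `G` of `f`:
`Ub f σ y = Ub V (s σ) (c + s y)`, `G f σ y = s • G V (s σ) (c + s y)`.
A flat system in rescaled units, whose visible vectors are `p~ k = a k • (p k - e k • c)`
(position: `a = s⁻¹, e = 1`; gradient-like: `a = s, e = 0`; unit Gaussian: `a = 1, e = 0`),
becomes a flat system `FlatSys.orig` in original units: `point_orig = c + s • point_rescaled`.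
-/

set_option autoImplicit false
set_option linter.unusedSectionVars false

open MeasureTheory ProbabilityTheory
open scoped NNReal

noncomputable section

namespace Crest.Agent.R285

section pot

variable {V : Type} [NormedAddCommGroup V] [InnerProductSpace ℝ V] [FiniteDimensional ℝ V]
  [MeasurableSpace V] [BorelSpace V]

/-- The rescaled potential. -/
def resc (U : V → ℝ) (c : V) (s : ℝ) : V → ℝ := fun w => U (c + s • w)

theorem Ub_resc (U : V → ℝ) (c : V) (s σ : ℝ) (y : V) :
    Ub (resc U c s) σ y = Ub U (s * σ) (c + s • y) := by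
  unfold Ub resc
  congr 2
  refine integral_congr_ae (Filter.Eventually.of_forall fun g => ?_)
  simp only [smul_add, smul_smul, ← add_assoc]

theorem G_resc (U : V → ℝ) (c : V) (s : ℝ) (σ : ℝ) (y : V) :
    G (resc U c s) σ y = s • G U (s * σ) (c + s • y) := by
  unfold G
  have h1 : Ub (resc U c s) σ = fun y => Ub U (s * σ) (c + s • y) := funext fun y => Ub_resc U c s σ y
  rw [h1]
  -- derivative of a composition with an affine bijection
  have h2 : (fun y => Ub U (s * σ) (c + s • y)) = (fun y => Ub U (s * σ) (c + y)) ∘ (s • ·) := rfl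
  have h3 : fderiv ℝ (fun y => Ub U (s * σ) (c + s • y)) y
      = s • fderiv ℝ (Ub U (s * σ)) (c + s • y) := by
    rw [h2]
    have h4 : fderiv ℝ ((fun y => Ub U (s * σ) (c + y)) ∘ (s • ·)) y
        = s • fderiv ℝ (fun y => Ub U (s * σ) (c + y)) (s • y) := by
      have := fderiv_comp_smul (f := fun y => Ub U (s * σ) (c + y)) (c := s) (x := y)
      simpa [Function.comp_def] using this
    rw [h4, fderiv_comp_add_left]
  rw [gradient, gradient, h3, map_smul]

end pot

namespace LF

variable {P ι : Type} [Fintype P] [Fintype ι] {X : Type} [NormedAddCommGroup X] [NormedSpace ℝ X]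

/-- Substitution: centre `0`, visible atoms `a k • (p k - e k • c)`, calls `s • g i`. -/
def conv (s : ℝ) (a e : P → ℝ) (f : LF P ι) : LF P ι :=
  (-(∑ k, f.2.1 k * a k * e k), fun k => f.2.1 k * a k, fun i => f.2.2 i * s)

theorem eval_conv (s : ℝ) (a e : P → ℝ) (f : LF P ι) (c : X) (p : P → X) (g : ι → X) :
    eval c p g (conv s a e f)
      = eval 0 (fun k => a k • (p k - e k • c)) (fun i => s • g i) f := by
  simp only [eval_apply, conv, smul_zero, zero_add, smul_sub, smul_smul, neg_smul,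
    Finset.sum_sub_distrib, ← Finset.sum_smul, mul_assoc]
  abel

/-- Position-like quantities: `c + s • x`. -/
def pos (s : ℝ) (a e : P → ℝ) (f : LF P ι) : LF P ι := hid + s • conv s a e f

theorem eval_pos (s : ℝ) (a e : P → ℝ) (f : LF P ι) (c : X) (p : P → X) (g : ι → X) :
    eval c p g (pos s a e f)
      = c + s • eval 0 (fun k => a k • (p k - e k • c)) (fun i => s • g i) f := by
  rw [pos, map_add, map_smul, eval_hid, eval_conv]

/-- Gradient-like quantities: `s⁻¹ • x`. -/
def grd (s : ℝ) (a e : P → ℝ) (f : LF P ι) : LF P ι := s⁻¹ • conv s a e f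

theorem eval_grd (s : ℝ) (a e : P → ℝ) (f : LF P ι) (c : X) (p : P → X) (g : ι → X) :
    eval c p g (grd s a e f)
      = s⁻¹ • eval 0 (fun k => a k • (p k - e k • c)) (fun i => s • g i) f := by
  rw [grd, map_smul, eval_conv]

theorem pos_fst (s : ℝ) (a e : P → ℝ) (f : LF P ι) :
    (pos s a e f).1 = 1 - s * ∑ k, f.2.1 k * a k * e k := by
  simp [pos, conv, hid, sub_eq_add_neg]

theorem pos_vis (s : ℝ) (a e : P → ℝ) (f : LF P ι) (k : P) :
    (pos s a e f).2.1 k = s * (f.2.1 k * a k) := by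
  simp [pos, conv, hid]

theorem pos_call (s : ℝ) (a e : P → ℝ) (f : LF P ι) (i : ι) :
    (pos s a e f).2.2 i = s ^ 2 * f.2.2 i := by
  simp [pos, conv, hid]; ring

theorem grd_fst (s : ℝ) (a e : P → ℝ) (f : LF P ι) :
    (grd s a e f).1 = -(s⁻¹ * ∑ k, f.2.1 k * a k * e k) := by
  simp [grd, conv]

theorem grd_vis (s : ℝ) (a e : P → ℝ) (f : LF P ι) (k : P) :
    (grd s a e f).2.1 k = s⁻¹ * (f.2.1 k * a k) := by
  simp [grd, conv]

theorem grd_call {s : ℝ} (hs : s ≠ 0) (a e : P → ℝ) (f : LF P ι) (i : ι) :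
    (grd s a e f).2.2 i = f.2.2 i := by
  simp only [grd, conv, Prod.smul_mk, Pi.smul_apply, smul_eq_mul]
  field_simp

end LF

namespace FlatSys

variable {P ι : Type} [Fintype P] [Fintype ι] {X : Type} [NormedAddCommGroup X] [NormedSpace ℝ X]

/-- The flat system in original units (with a given output form). -/
def orig (S : FlatSys P ι) (s : ℝ) (a e : P → ℝ) (o : LF P ι) : FlatSys P ι where
  r i := s * S.r i
  pt i := LF.pos s a e (S.pt i)
  out := o

variable (S : FlatSys P ι) (s : ℝ) (a e : P → ℝ) (o : LF P ι) (Gf : ℝ → X → X) (c : X) (p : P → X)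





end FlatSys

end Crest.Agent.R285
end
end

-- ▼ part R285/Conv3

/-!
Row 285 (S0430): the three visible vectors of the Q-system, `p = ![y₁, x₁, q]` in original units:
`y₁` a point, `x₁` a gradient value, `q` a unit Gaussian vector.  In rescaled units
`p~ = ![s⁻¹ (y₁ - c), s x₁, q]`.  Bounds of the noise, of the call coefficients and of the total
coefficients of `LF.pos s a3 e3 f` and `LF.grd s a3 e3 f` in terms of the rescaled form `f`.
-/

set_option autoImplicit false
set_option linter.unusedSectionVars false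

open MeasureTheory ProbabilityTheory
open scoped NNReal

noncomputable section

namespace Crest.Agent.R285

namespace LF

variable {ι : Type} [Fintype ι] {X : Type} [NormedAddCommGroup X] [NormedSpace ℝ X]

/-- scale factors of the visible vectors `![y₁, x₁, q]` -/
def a3 (s : ℝ) : Fin 3 → ℝ := ![s⁻¹, s, 1]
/-- centring of the visible vectors `![y₁, x₁, q]` -/
def e3 : Fin 3 → ℝ := ![1, 0, 0]

/-- the rescaled visible vectors -/
theorem resc3 (s : ℝ) (c : X) (p : Fin 3 → X) :
    (fun k => a3 s k • (p k - e3 k • c)) = ![s⁻¹ • (p 0 - c), s • p 1, p 2] := by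
  funext k
  fin_cases k <;> simp [a3, e3]

theorem pos3_fst {s : ℝ} (hs : s ≠ 0) (f : LF (Fin 3) ι) :
    (pos s (a3 s) e3 f).1 = 1 - f.2.1 0 := by
  rw [pos_fst, Fin.sum_univ_three]
  simp only [a3, e3, Matrix.cons_val_zero, Matrix.cons_val_one, Matrix.cons_val_two,
    Matrix.tail_cons, Matrix.head_cons, mul_one, mul_zero, add_zero]
  field_simp

theorem sum_call_pos (s : ℝ) (a e : Fin 3 → ℝ) (f : LF (Fin 3) ι) :
    ∑ i, |(pos s a e f).2.2 i| = s ^ 2 * ∑ i, |f.2.2 i| := by
  rw [Finset.mul_sum]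
  refine Finset.sum_congr rfl fun i _ => ?_
  rw [pos_call, abs_mul, abs_of_nonneg (sq_nonneg s)]

/-- Noise of a position. -/
theorem nz_pos3_le {s rc : ℝ} (hs : 0 < s) (hrc : 0 ≤ rc) {σ : ι → ℝ} (hσ : ∀ i, 0 ≤ σ i)
    (f : LF (Fin 3) ι) :
    nz rc σ (pos s (a3 s) e3 f) ≤ s * (|1 - f.2.1 0| * (rc / s) + l1 (fun i => s * σ i) f) := by
  refine (nz_le_l1 rc hσ _).trans (le_of_eq ?_)
  rw [pos3_fst hs.ne', abs_mul, abs_of_nonneg hrc]
  simp only [l1, pos_call, abs_mul, abs_of_nonneg (sq_nonneg s)]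
  rw [mul_add, Finset.mul_sum]
  congr 1
  · field_simp
  · exact Finset.sum_congr rfl fun i _ => by ring

/-- Total coefficients of a position. -/
theorem tot_pos3 {s : ℝ} (hs : 0 < s) (f : LF (Fin 3) ι) :
    tot (pos s (a3 s) e3 f)
      = |1 - f.2.1 0| + (|f.2.1 0| + s ^ 2 * |f.2.1 1| + s * |f.2.1 2|)
        + s ^ 2 * ∑ i, |f.2.2 i| := by
  rw [tot, pos3_fst hs.ne', sum_call_pos, Fin.sum_univ_three]
  simp only [pos_vis, a3, Matrix.cons_val_zero, Matrix.cons_val_one, Matrix.cons_val_two,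
    Matrix.tail_cons, Matrix.head_cons, mul_one, abs_mul, abs_of_pos hs, abs_inv]
  congr 2
  field_simp

/-- Total coefficients of a gradient-like quantity that does not use `y₁` and `q`. -/
theorem grd3_out {s : ℝ} (hs : 0 < s) (f : LF (Fin 3) ι) (h0 : f.2.1 0 = 0) (h1 : f.2.1 1 = 1)
    (h2 : f.2.1 2 = 0) :
    (grd s (a3 s) e3 f) = (0, ![0, 1, 0], f.2.2) := by
  refine Prod.ext ?_ (Prod.ext ?_ ?_)
  · rw [grd_fst, Fin.sum_univ_three]
    simp [a3, e3, h0]
  · funext k
    rw [grd_vis]
    fin_cases k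
    · simp [h0]
    · simp [h1, a3, hs.ne']
    · simp [h2]
  · funext i
    exact grd_call hs.ne' _ _ _ _

theorem tot_out3 (β : ι → ℝ) : tot ((0, ![0, 1, 0], β) : LF (Fin 3) ι) = 1 + ∑ i, |β i| := by
  simp [tot, Fin.sum_univ_three]

theorem nz_out3_le (rc : ℝ) {σ : ι → ℝ} (hσ : ∀ i, 0 ≤ σ i) (β : ι → ℝ) :
    nz rc σ ((0, ![0, 1, 0], β) : LF (Fin 3) ι) ≤ ∑ i, |β i| * σ i := by
  refine (nz_le_l1 rc hσ _).trans (le_of_eq ?_)
  simp [l1]

end LF

end Crest.Agent.R285
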