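import Crest.Agent.R285.Curve

/-!
Row 285: polynomial expressions in smooth functions along a field: if the total derivative `Dv v` of every
generator is the value of `D (X g)` for a derivation `D` of `MvPolynomial Gen ℝ`, then `Dv v` of (the value of)
every polynomial `f` is the value of `D f`; iterates; vector valued functions given by coordinates.
-/

set_option autoImplicit false
set_option linter.unusedSectionVars false

open Set Filter Topology MeasureTheory

noncomputable section

namespace Crest.Agent.R285.PolyDv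

open Crest.Agent.R285

variable {Gen : Type} {W : Type} [NormedAddCommGroup W] [NormedSpace ℝ W]

/-- Evaluation of polynomials at the point `(t, x)`. -/
def evp (val : Gen → ℝ → W → ℝ) (t : ℝ) (x : W) : MvPolynomial Gen ℝ →ₐ[ℝ] ℝ :=
  MvPolynomial.aeval (fun g => val g t x)

@[simp] theorem evp_X (val : Gen → ℝ → W → ℝ) (t : ℝ) (x : W) (g : Gen) :
    evp val t x (MvPolynomial.X g) = val g t x := by
  simp [evp]

@[simp] theorem evp_C (val : Gen → ℝ → W → ℝ) (t : ℝ) (x : W) (a : ℝ) :
    evp val t x (MvPolynomial.C a) = a := by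
  simp [evp]

variable {val : Gen → ℝ → W → ℝ} {J : Set ℝ} {v : ℝ → W → W}



variable {F : Type*} [NormedAddCommGroup F] [NormedSpace ℝ F]

/-- `Dv` only depends on the values on `J × W`, `J` open. -/
theorem Dv_congr (hJ : IsOpen J) {f g : ℝ → W → F} (h : ∀ t ∈ J, ∀ x, f t x = g t x) :
    ∀ t ∈ J, ∀ x, Dv v f t x = Dv v g t x := by
  intro t ht x
  have e : (fun p : ℝ × W => f p.1 p.2) =ᶠ[𝓝 (t, x)] fun p : ℝ × W => g p.1 p.2 := by
    filter_upwards [(hJ.prod isOpen_univ).mem_nhds (show (t, x) ∈ J ×ˢ (univ : Set W) from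
      ⟨ht, mem_univ _⟩)] with p hp using h p.1 hp.1 p.2
  simp only [Dv]
  rw [e.fderiv_eq]

theorem iterate_Dv_congr (hJ : IsOpen J) {f g : ℝ → W → F} (h : ∀ t ∈ J, ∀ x, f t x = g t x)
    (n : ℕ) : ∀ t ∈ J, ∀ x, (Dv v)^[n] f t x = (Dv v)^[n] g t x := by
  induction n with
  | zero => exact h
  | succ n ih =>
    rw [Function.iterate_succ_apply', Function.iterate_succ_apply']
    exact Dv_congr hJ ih


/-- `Dv` commutes with continuous linear maps. -/
theorem Dv_clm {F' : Type*} [NormedAddCommGroup F'] [NormedSpace ℝ F'] (L : F →L[ℝ] F')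
    {f : ℝ → W → F} {t : ℝ} {x : W}
    (hf : DifferentiableAt ℝ (fun p : ℝ × W => f p.1 p.2) (t, x)) :
    Dv v (fun t x => L (f t x)) t x = L (Dv v f t x) := by
  have h := (L.hasFDerivAt.comp (t, x) hf.hasFDerivAt).fderiv
  simp only [Dv]
  have e : (fun p : ℝ × W => L (f p.1 p.2)) = L ∘ fun p : ℝ × W => f p.1 p.2 := rfl
  rw [e, h]
  rfl

theorem iterate_Dv_clm {F' : Type*} [NormedAddCommGroup F'] [NormedSpace ℝ F'] (L : F →L[ℝ] F')
    (hJ : IsOpen J) {f : ℝ → W → F} (hf : SmOn f J) (hv : SmOn v J) (n : ℕ) :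
    ∀ t ∈ J, ∀ x, (Dv v)^[n] (fun t x => L (f t x)) t x = L ((Dv v)^[n] f t x) := by
  induction n with
  | zero => intro t _ x; rfl
  | succ n ih =>
    intro t ht x
    rw [Function.iterate_succ_apply', Function.iterate_succ_apply']
    rw [Dv_congr hJ ih t ht x]
    exact Dv_clm L ((hf.iterate_Dv hJ hv n).differentiableAt hJ ht x)


end Crest.Agent.R285.PolyDv
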