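import Crest.Agent.R285.InstEv
import Crest.Agent.R285.InstFix
import Crest.Agent.R285.AFPot
import Crest.Agent.R285.PolyDv
import Crest.Agent.R285.Flow1

-- ▼ part R285/InstFlow
section

/-!
Row 285 (S0430): the concrete potential `uT f s = Ub f √s` in the formal ring: joint smoothness of the
values of the generators at `(t, (η, b))`, and the derivative of the values of `T m` along curves.
-/

set_option autoImplicit false
set_option linter.unusedSectionVars false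

open Set Filter Topology
open Crest.OracleSampling (E)
open Crest.Agent.R285.AF (uT pdm joint_uT hj_uT HJr)
open Crest.Agent.R285.InstFix (gval)
open scoped ContDiff

noncomputable section

namespace Crest.Agent.R285.Inst

variable {d : ℕ}

/-- Evaluation with arbitrary coordinates of the quadratic identity: the formal derivative of `T m`. -/
theorem evt_XX_T {W : Type} [NormedAddCommGroup W] [NormedSpace ℝ W] {tau et : ℝ}
    {u : ℝ → E d → ℝ} {a : E d} {H B : ℝ → W → E d} (htau : tau ≠ 0) (t : ℝ) (x : W)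
    (m : Multiset (Fin d)) :
    evt tau u a H B t x (XX tau et (gT m)) = tau⁻¹ *
      (-(2 * t) * AF.HJr (u (1 - t ^ 2)) m (a + t • H t x) +
        ∑ l, (H t x l + t * evt tau u a H B t x (XX tau et (gη l))) *
          AF.pdm (l ::ₘ m) (u (1 - t ^ 2)) (a + t • H t x)) := by
  set s := 1 - t ^ 2 with hs
  set y := a + t • H t x with hy
  rw [XX_T]
  simp only [map_add, map_sub, map_mul, map_sum, evt_RR, evt_e, evt_η, evt_b, evt_T, evt_C]
  have e4 : ∀ l, H t x l + t * evt tau u a H B t x (XX tau et (gη l)) =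
      H t x l - t * AF.pdm {l} (u s) y +
      t * (et * ∑ k, B t x k * (tau⁻¹ * AF.pdm {k, l} (u s) y)) := by
    intro l
    rw [XX_η]
    simp only [map_add, map_neg, map_mul, map_sum, evt_b, evt_T, evt_C]
    rw [← hs, ← hy]
    field_simp
    ring
  simp only [e4]
  rw [← hs, ← hy, AF.HJr]
  set D : Multiset (Fin d) → ℝ := fun m => AF.pdm m (u s) y with hD
  have eD : ∀ m, AF.pdm m (u s) y = D m := fun _ => rfl
  have f1 : ∑ l, (H t x l - t * D {l} + t * (et * ∑ k, B t x k * (tau⁻¹ * D {k, l}))) *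
      D (l ::ₘ m) = (∑ l, H t x l * D (l ::ₘ m)) - t * (∑ l, D {l} * D (l ::ₘ m)) +
        t * et * (∑ k, ∑ l, B t x k * (tau⁻¹ * D {k, l}) * D (l ::ₘ m)) := by
    rw [Finset.sum_comm (s := Finset.univ) (t := Finset.univ)
      (f := fun k l => B t x k * (tau⁻¹ * D {k, l}) * D (l ::ₘ m)), Finset.mul_sum,
      Finset.mul_sum, ← Finset.sum_sub_distrib, ← Finset.sum_add_distrib]
    refine Finset.sum_congr rfl fun l _ => ?_
    rw [← Finset.sum_mul]
    ring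
  have f2 : ∑ l, (H t x l - tau * t * (tau⁻¹ * D {l})) * (tau⁻¹ * D (l ::ₘ m)) =
      tau⁻¹ * ((∑ l, H t x l * D (l ::ₘ m)) - t * (∑ l, D {l} * D (l ::ₘ m))) := by
    rw [Finset.mul_sum, ← Finset.sum_sub_distrib, Finset.mul_sum]
    refine Finset.sum_congr rfl fun l _ => ?_
    field_simp
  have f3 : ∑ k, ∑ l, B t x k * (tau⁻¹ * D {k, l}) * (tau⁻¹ * D (l ::ₘ m)) =
      tau⁻¹ * ∑ k, ∑ l, B t x k * (tau⁻¹ * D {k, l}) * D (l ::ₘ m) := by
    rw [Finset.mul_sum]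
    refine Finset.sum_congr rfl fun k _ => ?_
    rw [Finset.mul_sum]
    refine Finset.sum_congr rfl fun l _ => ?_
    ring
  simp only [eD]
  rw [f1, f2, f3, ← Finset.mul_sum]
  field_simp
  ring

/-- At a fixed time the evaluation is the one of `InstFix`. -/
theorem evt_eq_evp (tau : ℝ) (f : E d → ℝ) (a : E d) (t : ℝ) (x : E d × E d) :
    evt tau (uT f) a (fun _ x => x.1) (fun _ x => x.2) t x =
      PolyEv.evp (gval f √(1 - t ^ 2) a t tau) x := by
  refine MvPolynomial.algHom_ext fun g => ?_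
  rw [PolyEv.evp_X, PolyEv.evp_X]
  cases g <;> rfl

/-- With general coordinates. -/
theorem evt_eq_evp' {W : Type} [NormedAddCommGroup W] [NormedSpace ℝ W] (tau : ℝ) (f : E d → ℝ)
    (a : E d) (H B : ℝ → W → E d) (t : ℝ) (x : W) :
    evt tau (uT f) a H B t x = PolyEv.evp (gval f √(1 - t ^ 2) a t tau) (H t x, B t x) := by
  refine MvPolynomial.algHom_ext fun g => ?_
  rw [PolyEv.evp_X, PolyEv.evp_X]
  cases g <;> rfl

variable {f : E d → ℝ} {h : ℝ}


/-- (e2-T) derivative of the values of `T m` along a curve. -/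
theorem hasDerivAt_gT (hf : PotP h f) (a : E d) {tau et : ℝ} (htau : tau ≠ 0) {t : ℝ}
    (ht : t ∈ Ioo (-1 : ℝ) 1) {η : ℝ → E d} {η' b : E d} (hη : HasDerivAt η η' t)
    (hη' : ∀ i, η' i = PolyEv.evp (gval f √(1 - t ^ 2) a t tau) (η t, b) (XX tau et (gη i)))
    (m : Multiset (Fin d)) :
    HasDerivAt (fun s => tau⁻¹ * pdm m (Ub f √(1 - s ^ 2)) (a + s • η s))
      (PolyEv.evp (gval f √(1 - t ^ 2) a t tau) (η t, b) (XX tau et (gT m))) t := by
  have ht0 : (1 - t ^ 2) ∈ Ioi (0 : ℝ) := by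
    simp only [mem_Ioi]
    nlinarith [ht.1, ht.2]
  have hj := AF.joint_pdm isOpen_Ioi (joint_uT hf) m
  have hd : DifferentiableAt ℝ (fun p : ℝ × E d => AF.pdm m (uT f p.1) p.2)
      (1 - t ^ 2, a + t • η t) :=
    AF.joint_diffAt (u := fun s => AF.pdm m (uT f s)) isOpen_Ioi hj ht0 _
  have h1 : HasDerivAt (fun s : ℝ => 1 - s ^ 2) (-(2 * t)) t := by
    simpa using ((hasDerivAt_id t).pow 2).const_sub 1
  have h2 : HasDerivAt (fun s : ℝ => a + s • η s) (η t + t • η') t := by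
    have := ((hasDerivAt_id t).smul hη).const_add a
    simpa [add_comm] using this
  have h3 := hd.hasFDerivAt.comp_hasDerivAt t (h1.prodMk h2)
  rw [fderiv_pdm isOpen_Ioi (joint_uT hf) (hj_uT hf) ht0 m] at h3
  have h4 := h3.const_mul tau⁻¹
  refine HasDerivAt.congr_deriv (f := fun s => tau⁻¹ * pdm m (Ub f √(1 - s ^ 2)) (a + s • η s)) h4 ?_
  rw [← evt_eq_evp, evt_XX_T htau]
  congr 2
  refine Finset.sum_congr rfl fun l _ => ?_
  rw [evt_eq_evp]
  have e5 : (η t + t • η') l = η t l + t * η' l := rfl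
  rw [e5, hη' l]

end Crest.Agent.R285.Inst
end
end

-- ▼ part R285/CoupGen

/-!
Row 285 (S0430): the coupled flow in `(η, X)`-coordinates at unit scale and the formal ring.

State `x = (η, X)`, `b = ρ⁻¹ (X - G)`, `G = ∇u_t(a + t η)`, `A = D²u_t(a + t η)`;
field `η' = -G + ρ⁻¹ A b`, `X' = t ρ⁻¹ A A b`.
-/

set_option autoImplicit false
set_option linter.unusedSectionVars false
set_option maxSynthPendingDepth 3

open Set Filter Topology
open Crest.OracleSampling (E)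
open Crest.Agent.R285.AF (uT pdm joint_uT hj_uT HJr pd)
open Crest.Agent.R285.InstFix (gval)
open scoped ContDiff RealInnerProductSpace

noncomputable section

namespace Crest.Agent.R285.Inst

variable {d : ℕ} {f : E d → ℝ} {h : ℝ}

theorem coord_eq_inner (x : E d) (i : Fin d) : x i = ⟪x, AF.ev i⟫ := by
  rw [AF.ev, EuclideanSpace.inner_single_right]
  simp

theorem G_coord (hf : PotP h f) {κ : ℝ} (hκ : 0 < κ) (y : E d) (i : Fin d) :
    G f κ y i = pdm {i} (Ub f κ) y := by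
  rw [coord_eq_inner, inner_gr hf, AF.pdm_single (AF.contDiff_Ub hf hκ), pd,
    (hasFDerivAt_ub_x hf κ y).fderiv]

theorem pdm_pair (hf : PotP h f) {κ : ℝ} (hκ : 0 < κ) (y : E d) (k i : Fin d) :
    pdm {k, i} (Ub f κ) y = Ub2 f (κ, y) (AF.ev k) (AF.ev i) := by
  have h1 : ({k, i} : Multiset (Fin d)) = k ::ₘ {i} := rfl
  have h2 : pd i (Ub f κ) = fun y => Ub1 f (κ, y) (AF.ev i) := by
    funext y
    rw [pd, (hasFDerivAt_ub_x hf κ y).fderiv]
  rw [h1, AF.pdm_cons (AF.contDiff_Ub hf hκ), AF.pdm_single (AF.contDiff_Ub hf hκ), h2, pd]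
  have h3 : HasFDerivAt (fun y => Ub1 f (κ, y) (AF.ev i)) _ y :=
    (hasFDerivAt_ub1_x hf κ y).clm_apply (hasFDerivAt_const (AF.ev i) y)
  rw [h3.fderiv]
  simp

theorem DGr_coord (hf : PotP h f) {κ : ℝ} (hκ : 0 < κ) (y b : E d) (i : Fin d) :
    DGr f (κ, y) b i = ∑ k, b k * pdm {k, i} (Ub f κ) y := by
  rw [coord_eq_inner, DGr, ContinuousLinearMap.comp_apply, inner_rz]
  have hb : b = ∑ l, b l • AF.ev l := by
    have := (EuclideanSpace.basisFun (Fin d) ℝ).sum_repr b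
    simpa [AF.ev] using this.symm
  conv_lhs => rw [hb]
  rw [map_sum, sum_apply]
  refine Finset.sum_congr rfl fun k _ => ?_
  rw [map_smul, pdm_pair hf hκ]
  rfl

/-- The `b`-coordinate. -/
def bC (f : E d → ℝ) (a : E d) (ρ : ℝ) (t : ℝ) (x : E d × E d) : E d :=
  ρ⁻¹ • (x.2 - G f √(1 - t ^ 2) (a + t • x.1))

/-- The coupled field. -/
def vC (f : E d → ℝ) (a : E d) (ρ : ℝ) (t : ℝ) (x : E d × E d) : E d × E d :=
  (-G f √(1 - t ^ 2) (a + t • x.1) + ρ⁻¹ • DGr f (√(1 - t ^ 2), a + t • x.1) (bC f a ρ t x),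
   (t * ρ⁻¹) • DGr f (√(1 - t ^ 2), a + t • x.1)
     (DGr f (√(1 - t ^ 2), a + t • x.1) (bC f a ρ t x)))

theorem kap_pos {t : ℝ} (ht : t ∈ Ioo (-1 : ℝ) 1) : 0 < √(1 - t ^ 2) :=
  Real.sqrt_pos.2 (by nlinarith [ht.1, ht.2])

theorem smOn_G1 (hf : PotP h f) (a : E d) :
    SmOn (fun t (x : E d × E d) => G f √(1 - t ^ 2) (a + t • x.1)) (Ioo (-1 : ℝ) 1) := by
  have h1 := smOn_G hf a one_pos
  have h2 : ContDiffOn ℝ ∞ (fun p : ℝ × (E d × E d) => ((p.1, p.2.1) : ℝ × E d))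
      (Ioo (-1 : ℝ) 1 ×ˢ univ) :=
    (contDiff_fst.prodMk (contDiff_fst.comp contDiff_snd)).contDiffOn
  have h3 := h1.comp h2 fun p hp => ⟨hp.1, mem_univ _⟩
  refine h3.congr fun p _ => ?_
  simp [Function.comp]

theorem smOn_bC (hf : PotP h f) (a : E d) (ρ : ℝ) : SmOn (bC f a ρ) (Ioo (-1 : ℝ) 1) := by
  have h1 : ContDiffOn ℝ ∞ (fun p : ℝ × (E d × E d) =>
      p.2.2 - G f √(1 - p.1 ^ 2) (a + p.1 • p.2.1)) (Ioo (-1 : ℝ) 1 ×ˢ univ) :=
    ContDiffOn.sub (contDiff_snd.comp contDiff_snd).contDiffOn (smOn_G1 hf a)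
  have h2 : ContDiffOn ℝ ∞ (fun _ : ℝ × (E d × E d) => ρ⁻¹) (Ioo (-1 : ℝ) 1 ×ˢ univ) :=
    contDiffOn_const
  exact h2.smul h1

theorem smOn_fst : SmOn (fun _ (x : E d × E d) => x.1) (Ioo (-1 : ℝ) 1) :=
  (contDiff_fst.comp contDiff_snd).contDiffOn

theorem Dv_fst (v : ℝ → E d × E d → E d × E d) (t : ℝ) (x : E d × E d) :
    Dv v (fun _ (x : E d × E d) => x.1) t x = (v t x).1 := by
  unfold Dv
  have : HasFDerivAt (fun p : ℝ × (E d × E d) => p.2.1) _ (t, x) :=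
    ((ContinuousLinearMap.fst ℝ (E d) (E d)).comp
      (ContinuousLinearMap.snd ℝ ℝ (E d × E d))).hasFDerivAt
  rw [this.fderiv]
  rfl

theorem Dv_snd (v : ℝ → E d × E d → E d × E d) (t : ℝ) (x : E d × E d) :
    Dv v (fun _ (x : E d × E d) => x.2) t x = (v t x).2 := by
  unfold Dv
  have : HasFDerivAt (fun p : ℝ × (E d × E d) => p.2.2) _ (t, x) :=
    ((ContinuousLinearMap.snd ℝ (E d) (E d)).comp
      (ContinuousLinearMap.snd ℝ ℝ (E d × E d))).hasFDerivAt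
  rw [this.fderiv]
  rfl

/-- `hvH` for the coupled flow. -/
theorem vC_fst (hf : PotP h f) (a : E d) {τ ρ : ℝ} (hτ : τ ≠ 0) {t : ℝ}
    (ht : t ∈ Ioo (-1 : ℝ) 1) (x : E d × E d) (i : Fin d) :
    (vC f a ρ t x).1 i = PolyEv.evp (gval f √(1 - t ^ 2) a t τ) (x.1, bC f a ρ t x)
      (XX τ (τ / ρ) (gη i)) := by
  have hκ := kap_pos ht
  rw [← evt_eq_evp' τ f a (fun _ x => x.1) (fun t x => bC f a ρ t x) t x, XX_η]
  simp only [map_add, map_neg, map_mul, map_sum, evt_b, evt_T, evt_C]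
  have e1 : (vC f a ρ t x).1 i = -(G f √(1 - t ^ 2) (a + t • x.1) i) +
      ρ⁻¹ * DGr f (√(1 - t ^ 2), a + t • x.1) (bC f a ρ t x) i := rfl
  rw [e1, G_coord hf hκ, DGr_coord hf hκ]
  have e2 : ∀ m, pdm m (Ub f √(1 - t ^ 2)) (a + t • x.1) =
      pdm m (uT f (1 - t ^ 2)) (a + t • x.1) := fun _ => rfl
  simp only [e2]
  rw [Finset.mul_sum, Finset.mul_sum]
  congr 1
  · field_simp
  · refine Finset.sum_congr rfl fun k _ => ?_
    field_simp

/-- Line curve through a state. -/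
theorem Dv_eq_line {F : Type} [NormedAddCommGroup F] [NormedSpace ℝ F]
    {W : Type} [NormedAddCommGroup W] [NormedSpace ℝ W]
    {v : ℝ → W → W} {g : ℝ → W → F} {t : ℝ} {x : W} {g' : F}
    (hg : DifferentiableAt ℝ (fun p : ℝ × W => g p.1 p.2) (t, x))
    (hd : HasDerivAt (fun s => g s (x + (s - t) • v t x)) g' t) : Dv v g t x = g' := by
  have h1 : HasDerivAt (fun s : ℝ => ((s, x + (s - t) • v t x) : ℝ × W)) (1, v t x) t := by
    refine (hasDerivAt_id t).prodMk ?_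
    have := (((hasDerivAt_id t).sub_const t).smul_const (v t x)).const_add x
    simpa using this
  have h2 : HasFDerivAt (fun p : ℝ × W => g p.1 p.2)
      (fderiv ℝ (fun p : ℝ × W => g p.1 p.2) (t, x)) (t, x + (t - t) • v t x) := by
    simpa using hg.hasFDerivAt
  have h3 := HasFDerivAt.comp_hasDerivAt (f := fun s : ℝ => ((s, x + (s - t) • v t x) : ℝ × W)) t
    h2 h1
  exact h3.unique hd

/-- Derivative of the coordinates of `G` along the coupled field. -/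
theorem Dv_G1 (hf : PotP h f) (a : E d) {τ ρ : ℝ} (hτ : τ ≠ 0) {t : ℝ}
    (ht : t ∈ Ioo (-1 : ℝ) 1) (x : E d × E d) (i : Fin d) :
    Dv (vC f a ρ) (fun t (x : E d × E d) => G f √(1 - t ^ 2) (a + t • x.1)) t x i =
      τ * PolyEv.evp (gval f √(1 - t ^ 2) a t τ) (x.1, bC f a ρ t x)
      (XX τ (τ / ρ) (gT {i})) := by
  have hd := (smOn_G1 hf a).differentiableAt isOpen_Ioo ht x
  have h1 := Dv_clm (v := vC f a ρ)
    (f := fun t (x : E d × E d) => G f √(1 - t ^ 2) (a + t • x.1)) hd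
    (EuclideanSpace.proj i : E d →L[ℝ] ℝ)
  have e1 : Dv (vC f a ρ) (fun t (x : E d × E d) => G f √(1 - t ^ 2) (a + t • x.1)) t x i =
      (EuclideanSpace.proj i : E d →L[ℝ] ℝ)
        (Dv (vC f a ρ) (fun t (x : E d × E d) => G f √(1 - t ^ 2) (a + t • x.1)) t x) := rfl
  rw [e1, ← h1]
  refine Dv_eq_line (g := fun t (x : E d × E d) => (EuclideanSpace.proj i : E d →L[ℝ] ℝ)
    (G f √(1 - t ^ 2) (a + t • x.1)))
    ((EuclideanSpace.proj i : E d →L[ℝ] ℝ).differentiableAt.comp _ hd) ?_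
  have hη : HasDerivAt (fun s : ℝ => x.1 + (s - t) • (vC f a ρ t x).1) (vC f a ρ t x).1 t := by
    have := (((hasDerivAt_id t).sub_const t).smul_const (vC f a ρ t x).1).const_add x.1
    simpa using this
  have e0 : x.1 + (t - t) • (vC f a ρ t x).1 = x.1 := by simp
  have h2 := hasDerivAt_gT (et := τ / ρ) (b := bC f a ρ t x) hf a hτ ht hη
    (fun i => by beta_reduce; rw [e0]; exact vC_fst hf a hτ ht x i) {i}
  beta_reduce at h2
  rw [e0] at h2
  have h3 := h2.const_mul τ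
  refine h3.congr_of_eventuallyEq ?_
  filter_upwards [isOpen_Ioo.mem_nhds ht] with s hs
  have e2 : (EuclideanSpace.proj i : E d →L[ℝ] ℝ)
      (G f √(1 - s ^ 2) (a + s • (x + (s - t) • vC f a ρ t x).1)) =
      G f √(1 - s ^ 2) (a + s • (x.1 + (s - t) • (vC f a ρ t x).1)) i := rfl
  change (EuclideanSpace.proj i : E d →L[ℝ] ℝ)
      (G f √(1 - s ^ 2) (a + s • (x + (s - t) • vC f a ρ t x).1)) = _
  rw [e2, G_coord hf (kap_pos hs)]
  field_simp

/-- `hvB` for the coupled flow. -/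
theorem Dv_bC (hf : PotP h f) (a : E d) {τ ρ : ℝ} (hτ : τ ≠ 0) (hρ : ρ ≠ 0) {t : ℝ}
    (ht : t ∈ Ioo (-1 : ℝ) 1) (x : E d × E d) (i : Fin d) :
    Dv (vC f a ρ) (bC f a ρ) t x i =
      PolyEv.evp (gval f √(1 - t ^ 2) a t τ) (x.1, bC f a ρ t x) (XX τ (τ / ρ) (gb i)) := by
  have hκ := kap_pos ht
  have hd := (smOn_G1 hf a).differentiableAt isOpen_Ioo ht x
  have h2d : DifferentiableAt ℝ (fun p : ℝ × (E d × E d) => p.2.2) (t, x) := by fun_prop
  have e1 : Dv (vC f a ρ) (bC f a ρ) t x = ρ⁻¹ • ((vC f a ρ t x).2 -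
      Dv (vC f a ρ) (fun t (x : E d × E d) => G f √(1 - t ^ 2) (a + t • x.1)) t x) := by
    rw [← Dv_snd (vC f a ρ) t x]
    have h3 : HasFDerivAt (fun p : ℝ × (E d × E d) => bC f a ρ p.1 p.2) _ (t, x) :=
      (h2d.hasFDerivAt.sub hd.hasFDerivAt).const_smul ρ⁻¹
    unfold Dv
    rw [h3.fderiv]
    rfl
  have e2 : Dv (vC f a ρ) (bC f a ρ) t x i = ρ⁻¹ * ((vC f a ρ t x).2 i -
      Dv (vC f a ρ) (fun t (x : E d × E d) => G f √(1 - t ^ 2) (a + t • x.1)) t x i) := by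
    rw [e1]; rfl
  have e3 : (vC f a ρ t x).2 i = (t * ρ⁻¹) * ∑ l, (∑ k, bC f a ρ t x k *
      pdm {k, l} (Ub f √(1 - t ^ 2)) (a + t • x.1)) *
        pdm {l, i} (Ub f √(1 - t ^ 2)) (a + t • x.1) := by
    have : (vC f a ρ t x).2 i = (t * ρ⁻¹) * DGr f (√(1 - t ^ 2), a + t • x.1)
      (DGr f (√(1 - t ^ 2), a + t • x.1) (bC f a ρ t x)) i := rfl
    rw [this, DGr_coord hf hκ]
    congr 1
    refine Finset.sum_congr rfl fun l _ => ?_
    rw [DGr_coord hf hκ]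
  rw [e2, Dv_G1 hf a hτ ht, e3]
  have e4 : ∀ m, pdm m (Ub f √(1 - t ^ 2)) (a + t • x.1) =
      pdm m (uT f (1 - t ^ 2)) (a + t • x.1) := fun _ => rfl
  simp only [e4]
  rw [← evt_eq_evp' τ f a (fun _ x => x.1) (fun t x => bC f a ρ t x) t x]
  have h5 : XX τ (τ / ρ) (gT ({i} : Multiset (Fin d))) =
      (∑ l, (gw τ l * gT {l, i} - dη l (gT {l, i}))) +
      (τ / ρ) • (ge * ∑ k, ∑ l, gb k * (gT {k, l} * gT {l, i})) := by
    rw [XX_T', RR_singleton]
    have e : ∀ l, (l ::ₘ ({i} : Multiset (Fin d))) = {l, i} := fun _ => rfl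
    simp only [e, sub_self, mul_zero, smul_zero, add_zero]
  rw [h5, XX_b']
  set S := ∑ l, (gw τ l * gT {l, i} - dη l (gT ({l, i} : Multiset (Fin d)))) with hS
  simp only [map_add, map_neg, map_smul, map_mul, map_sum, evt_b, evt_T, evt_e, smul_eq_mul]
  have h6 : ∑ l, (∑ k, bC f a ρ t x k * pdm {k, l} (uT f (1 - t ^ 2)) (a + t • x.1)) *
        pdm {l, i} (uT f (1 - t ^ 2)) (a + t • x.1) = τ ^ 2 * ∑ k, ∑ l, bC f a ρ t x k *
        ((τ⁻¹ * pdm {k, l} (uT f (1 - t ^ 2)) (a + t • x.1)) *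
        (τ⁻¹ * pdm {l, i} (uT f (1 - t ^ 2)) (a + t • x.1))) := by
    rw [Finset.sum_comm, Finset.mul_sum]
    refine Finset.sum_congr rfl fun l _ => ?_
    rw [Finset.sum_mul, Finset.mul_sum]
    refine Finset.sum_congr rfl fun k _ => ?_
    field_simp
  rw [h6]
  field_simp
  ring


/-- Joint smoothness of the values of words along the coupled flow. -/
theorem smOn_word (hf : PotP h f) (a : E d) (τ ρ : ℝ) (w : A (Fin d)) :
    SmOn (fun t (x : E d × E d) =>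
      PolyEv.evp (gval f √(1 - t ^ 2) a t τ) (x.1, bC f a ρ t x) w) (Ioo (-1 : ℝ) 1) := by
  have h1 := smOn_evt (tau := τ) (u := uT f) (a := a) (H := fun _ (x : E d × E d) => x.1)
    (B := bC f a ρ) (joint_uT hf) subset_rfl smOn_fst (smOn_bC hf a ρ) w
  refine h1.congr fun p _ => ?_
  beta_reduce
  rw [evt_eq_evp' τ f a (fun _ x => x.1) (bC f a ρ) p.1 p.2]

/-- The words of `A b` and `A A b`. -/
noncomputable def wAb (i : Fin d) : A (Fin d) := ∑ k, gT {i, k} * gb k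
noncomputable def wAAb (i : Fin d) : A (Fin d) := ∑ l, gT {i, l} * ∑ k, gT {l, k} * gb k

theorem evp_gT' (f : E d → ℝ) (a : E d) (τ : ℝ) {t : ℝ} (y : E d × E d) (m : Multiset (Fin d)) :
    PolyEv.evp (gval f √(1 - t ^ 2) a t τ) y (gT m) =
      τ⁻¹ * pdm m (Ub f √(1 - t ^ 2)) (a + t • y.1) := by
  rw [InstFix.evp_gT]
  rfl

theorem pdm_swap (i k : Fin d) (F : E d → ℝ) : pdm {i, k} F = pdm {k, i} F := by
  have : ({i, k} : Multiset (Fin d)) = {k, i} := Multiset.cons_swap i k 0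
  rw [this]

theorem DGr_word (hf : PotP h f) (a : E d) {τ : ℝ} (hτ : τ ≠ 0) {t : ℝ}
    (ht : t ∈ Ioo (-1 : ℝ) 1) (y : E d × E d) (i : Fin d) :
    DGr f (√(1 - t ^ 2), a + t • y.1) y.2 i =
      τ * PolyEv.evp (gval f √(1 - t ^ 2) a t τ) y (wAb i) := by
  rw [DGr_coord hf (kap_pos ht), wAb, map_sum, Finset.mul_sum]
  refine Finset.sum_congr rfl fun k _ => ?_
  rw [map_mul, evp_gT' f, InstFix.evp_gb, pdm_swap i k]
  field_simp

theorem DGr_DGr_word (hf : PotP h f) (a : E d) {τ : ℝ} (hτ : τ ≠ 0) {t : ℝ}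
    (ht : t ∈ Ioo (-1 : ℝ) 1) (y : E d × E d) (i : Fin d) :
    DGr f (√(1 - t ^ 2), a + t • y.1) (DGr f (√(1 - t ^ 2), a + t • y.1) y.2) i =
      τ ^ 2 * PolyEv.evp (gval f √(1 - t ^ 2) a t τ) y (wAAb i) := by
  rw [DGr_coord hf (kap_pos ht), wAAb, map_sum, Finset.mul_sum]
  refine Finset.sum_congr rfl fun l _ => ?_
  have e : (∑ k, gT {l, k} * gb k : A (Fin d)) = wAb l := rfl
  rw [map_mul, e, DGr_word hf a hτ ht, evp_gT' f, pdm_swap i l]
  field_simp

theorem G_word (hf : PotP h f) (a : E d) {τ : ℝ} (hτ : τ ≠ 0) {t : ℝ}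
    (ht : t ∈ Ioo (-1 : ℝ) 1) (y : E d × E d) (i : Fin d) :
    G f √(1 - t ^ 2) (a + t • y.1) i =
      τ * PolyEv.evp (gval f √(1 - t ^ 2) a t τ) y (gT {i}) := by
  rw [G_coord hf (kap_pos ht), evp_gT' f]
  field_simp

theorem smOn_of_coord {W : Type} [NormedAddCommGroup W] [NormedSpace ℝ W] {g : ℝ → W → E d}
    {J : Set ℝ} (h : ∀ i, SmOn (fun t x => g t x i) J) : SmOn g J := by
  have : ContDiffOn ℝ ∞ (fun p : ℝ × W => g p.1 p.2) (J ×ˢ univ) := by
    rw [contDiffOn_euclidean]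
    exact h
  exact this

theorem smOn_vC (hf : PotP h f) (a : E d) (ρ : ℝ) : SmOn (vC f a ρ) (Ioo (-1 : ℝ) 1) := by
  have hA : SmOn (fun t (x : E d × E d) => DGr f (√(1 - t ^ 2), a + t • x.1) (bC f a ρ t x))
      (Ioo (-1 : ℝ) 1) := by
    refine smOn_of_coord fun i => ?_
    refine (smOn_word hf a 1 ρ (wAb i)).congr fun p hp => ?_
    have := DGr_word hf a one_ne_zero hp.1 (p.2.1, bC f a ρ p.1 p.2) i
    rw [one_mul] at this
    exact this
  have hAA : SmOn (fun t (x : E d × E d) => DGr f (√(1 - t ^ 2), a + t • x.1)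
      (DGr f (√(1 - t ^ 2), a + t • x.1) (bC f a ρ t x))) (Ioo (-1 : ℝ) 1) := by
    refine smOn_of_coord fun i => ?_
    refine (smOn_word hf a 1 ρ (wAAb i)).congr fun p hp => ?_
    have := DGr_DGr_word hf a one_ne_zero hp.1 (p.2.1, bC f a ρ p.1 p.2) i
    rw [one_pow, one_mul] at this
    exact this
  have h1 : ContDiffOn ℝ ∞ (fun _ : ℝ × (E d × E d) => ρ⁻¹) (Ioo (-1 : ℝ) 1 ×ˢ univ) :=
    contDiffOn_const
  have h2 : ContDiffOn ℝ ∞ (fun p : ℝ × (E d × E d) => p.1 * ρ⁻¹) (Ioo (-1 : ℝ) 1 ×ˢ univ) :=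
    contDiffOn_fst.mul contDiffOn_const
  exact ContDiffOn.prodMk ((smOn_G1 hf a).neg.add (h1.smul hA)) (h2.smul hAA)

end Crest.Agent.R285.Inst
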