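import Mathlib

/-!
Row 285 (S0430): dual-Lipschitz closeness of laws.

`DLip P Q e` : `P` and `Q` have finite first moments and `|∫ f dP - ∫ f dQ| ≤ e` for every
1-Lipschitz `f`.  (Used for probability measures on a normed space.)
-/

set_option autoImplicit false
set_option linter.unusedSectionVars false

open MeasureTheory Set Filter Topology
open scoped ENNReal NNReal

noncomputable section

namespace Crest.Agent.R285

/-- Dual-Lipschitz closeness. -/
structure DLip {X : Type} [NormedAddCommGroup X] [MeasurableSpace X] (P Q : Measure X) (e : ℝ) :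
    Prop where
  intP : Integrable (fun x => ‖x‖) P
  intQ : Integrable (fun x => ‖x‖) Q
  le : ∀ f : X → ℝ, LipschitzWith 1 f → |∫ x, f x ∂P - ∫ x, f x ∂Q| ≤ e

variable {X Y Ω : Type} [NormedAddCommGroup X] [MeasurableSpace X] [BorelSpace X]
  [NormedAddCommGroup Y] [MeasurableSpace Y] [BorelSpace Y] [MeasurableSpace Ω]
  [SecondCountableTopology X] [SecondCountableTopology Y]

/-- Lipschitz functions are integrable against a finite measure with finite first moment. -/
theorem integrable_of_lipschitz {P : Measure X} [IsFiniteMeasure P]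
    (hP : Integrable (fun x => ‖x‖) P) {Z : Type} [NormedAddCommGroup Z]
    {f : X → Z} {K : ℝ≥0} (hf : LipschitzWith K f) : Integrable f P := by
  have h1 : Integrable (fun x => ‖f 0‖ + K * ‖x‖) P := (integrable_const _).add (hP.const_mul _)
  refine h1.mono' ?_ (Eventually.of_forall fun x => ?_)
  · exact hf.continuous.stronglyMeasurable.aestronglyMeasurable
  · have h2 := hf.dist_le_mul x 0
    rw [dist_zero_right, dist_eq_norm] at h2
    calc ‖f x‖ = ‖f 0 + (f x - f 0)‖ := by congr 1; abel
      _ ≤ ‖f 0‖ + ‖f x - f 0‖ := norm_add_le _ _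
      _ ≤ _ := by gcongr

namespace DLip

variable {P Q R : Measure X} {e e' : ℝ}

theorem nonneg (h : DLip P Q e) : 0 ≤ e := by
  have := h.le (fun _ => 0) ((LipschitzWith.const (0 : ℝ)).weaken zero_le_one)
  simpa using this

theorem symm (h : DLip P Q e) : DLip Q P e :=
  ⟨h.intQ, h.intP, fun f hf => by rw [abs_sub_comm]; exact h.le f hf⟩

theorem mono (h : DLip P Q e) (he : e ≤ e') : DLip P Q e' :=
  ⟨h.intP, h.intQ, fun f hf => (h.le f hf).trans he⟩

theorem refl (hP : Integrable (fun x => ‖x‖) P) : DLip P P 0 :=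
  ⟨hP, hP, fun f _ => by simp⟩

theorem trans (h : DLip P Q e) (h' : DLip Q R e') : DLip P R (e + e') :=
  ⟨h.intP, h'.intQ, fun f hf =>
    (abs_sub_le _ (∫ x, f x ∂Q) _).trans (add_le_add (h.le f hf) (h'.le f hf))⟩

/-- Test functions with any Lipschitz constant. -/
theorem lip (h : DLip P Q e) {K : ℝ≥0} {f : X → ℝ} (hf : LipschitzWith K f) :
    |∫ x, f x ∂P - ∫ x, f x ∂Q| ≤ K * e := by
  rcases eq_or_ne K 0 with hK | hK
  · subst hK
    -- f is constant; use scaled tests `n • f`
    have key : ∀ n : ℕ, (n : ℝ) * |∫ x, f x ∂P - ∫ x, f x ∂Q| ≤ e := by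
      intro n
      have hn : LipschitzWith 1 (fun x => (n : ℝ) * f x) := by
        refine LipschitzWith.of_dist_le_mul fun x y => ?_
        have h0 := hf.dist_le_mul x y
        have h1 : f x = f y := by
          rw [← dist_le_zero]; simpa using h0
        rw [h1, dist_self]; positivity
      have h1 := h.le _ hn
      rw [integral_const_mul, integral_const_mul, ← mul_sub, abs_mul, Nat.abs_cast] at h1
      exact h1
    have h0 : |∫ x, f x ∂P - ∫ x, f x ∂Q| ≤ 0 := by
      by_contra hc
      push Not at hc
      obtain ⟨n, hn⟩ := exists_nat_gt (e / |∫ x, f x ∂P - ∫ x, f x ∂Q|)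
      rw [div_lt_iff₀ hc] at hn
      exact absurd (key n) (not_le.mpr hn)
    simpa using h0
  · have hK0 : (0 : ℝ) < K := by positivity
    have h1 : LipschitzWith 1 (fun x => (K : ℝ)⁻¹ * f x) := by
      refine LipschitzWith.of_dist_le_mul fun x y => ?_
      have h0 := hf.dist_le_mul x y
      rw [Real.dist_eq] at h0 ⊢
      rw [← mul_sub, abs_mul, abs_of_pos (inv_pos.mpr hK0), inv_mul_le_iff₀ hK0]
      simpa using h0
    have h2 := h.le _ h1
    rw [integral_const_mul, integral_const_mul, ← mul_sub, abs_mul,
      abs_of_pos (inv_pos.mpr hK0), inv_mul_le_iff₀ hK0] at h2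
    exact h2

/-- Images under Lipschitz maps. -/
theorem map [IsFiniteMeasure P] [IsFiniteMeasure Q] (h : DLip P Q e) {K : ℝ≥0} {g : X → Y}
    (hg : LipschitzWith K g) : DLip (P.map g) (Q.map g) (K * e) := by
  have hm : Measurable g := hg.continuous.measurable
  refine ⟨?_, ?_, fun f hf => ?_⟩
  · rw [integrable_map_measure continuous_norm.aestronglyMeasurable hm.aemeasurable]
    exact (integrable_of_lipschitz h.intP hg).norm
  · rw [integrable_map_measure continuous_norm.aestronglyMeasurable hm.aemeasurable]
    exact (integrable_of_lipschitz h.intQ hg).norm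
  · rw [integral_map hm.aemeasurable hf.continuous.aestronglyMeasurable,
      integral_map hm.aemeasurable hf.continuous.aestronglyMeasurable]
    have := h.lip (hf.comp hg)
    simpa using this

/-- A coupling bounds the dual-Lipschitz distance. -/
theorem of_coupling {μ : Measure Ω} [IsFiniteMeasure μ] {F G : Ω → X} (hF : AEMeasurable F μ)
    (hG : AEMeasurable G μ) (iF : Integrable (fun ω => ‖F ω‖) μ)
    (iG : Integrable (fun ω => ‖G ω‖) μ) :
    DLip (μ.map F) (μ.map G) (∫ ω, ‖F ω - G ω‖ ∂μ) := by
  refine ⟨?_, ?_, fun f hf => ?_⟩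
  · rw [integrable_map_measure continuous_norm.aestronglyMeasurable hF]; exact iF
  · rw [integrable_map_measure continuous_norm.aestronglyMeasurable hG]; exact iG
  · have hfc := hf.continuous
    rw [integral_map hF hfc.aestronglyMeasurable, integral_map hG hfc.aestronglyMeasurable]
    have bound : ∀ x : X, ‖f x‖ ≤ ‖f 0‖ + ‖x‖ := by
      intro x
      have h2 := hf.dist_le_mul x 0
      rw [dist_zero_right, dist_eq_norm] at h2
      calc ‖f x‖ = ‖f 0 + (f x - f 0)‖ := by congr 1; abel
        _ ≤ ‖f 0‖ + ‖f x - f 0‖ := norm_add_le _ _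
        _ ≤ _ := by gcongr; simpa using h2
    have i1 : Integrable (fun ω => f (F ω)) μ := by
      refine ((integrable_const ‖f 0‖).add iF).mono' ?_ (Eventually.of_forall fun ω => bound _)
      exact (hfc.measurable.comp_aemeasurable hF).aestronglyMeasurable
    have i2 : Integrable (fun ω => f (G ω)) μ := by
      refine ((integrable_const ‖f 0‖).add iG).mono' ?_ (Eventually.of_forall fun ω => bound _)
      exact (hfc.measurable.comp_aemeasurable hG).aestronglyMeasurable
    rw [← integral_sub i1 i2]
    have i3 : Integrable (fun ω => ‖F ω - G ω‖) μ := by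
      refine (iF.add iG).mono' ?_ (Eventually.of_forall fun ω => ?_)
      · exact ((hF.sub hG).norm).aestronglyMeasurable
      · rw [norm_norm]; exact norm_sub_le _ _
    refine (abs_integral_le_integral_abs).trans ?_
    refine integral_mono (i1.sub i2).abs i3 (fun ω => ?_)
    have := hf.dist_le_mul (F ω) (G ω)
    rw [Real.dist_eq, dist_eq_norm] at this
    simpa using this

/-- Transfer of a uniform estimate: first moments. -/
theorem integral_norm_le (h : DLip P Q e) : ∫ x, ‖x‖ ∂P ≤ ∫ x, ‖x‖ ∂Q + e := by
  have h1 := h.le (fun x => ‖x‖) (LipschitzWith.of_dist_le_mul fun x y => by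
    rw [Real.dist_eq, dist_eq_norm]; simpa using abs_norm_sub_norm_le x y)
  have := (abs_le.mp h1).2
  linarith

end DLip



end Crest.Agent.R285
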