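import Crest.Agent.R285.Rec
import Crest.Agent.R285.GaussLaws

-- ▼ part R285/Glue
section

/-!
Row 285 (S0430): glue lemmas for contracts: kernels, composition at a visible centre.
-/

set_option autoImplicit false
set_option linter.unusedSectionVars false

open MeasureTheory ProbabilityTheory Filter Topology
open Crest.OracleSampling (E Admissible oracle)
open scoped NNReal
open Crest.Agent.R285.Comp (measurable_oracle)

noncomputable section

namespace Crest.Agent.R285.Rec

open Crest.Agent.R285

section kernels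

variable {X Y Ω : Type} [PseudoMetricSpace X] [MeasurableSpace X] [OpensMeasurableSpace X]
  [PseudoMetricSpace Y] [MeasurableSpace Y] [OpensMeasurableSpace Y] [MeasurableSpace Ω]

theorem integrable_test {μ : Measure Ω} [IsFiniteMeasure μ] {F : Ω → Y} (hF : Measurable F)
    {φ : Y → ℝ} (hφ : LipschitzWith 1 φ) {M : ℝ} (hM : ∀ y, |φ y| ≤ M) :
    Integrable (fun ω => φ (F ω)) μ :=
  Integrable.mono' (integrable_const M)
    ((hφ.continuous.measurable.comp hF).aestronglyMeasurable)
    (Eventually.of_forall fun x => by simpa using hM _)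

theorem abs_integral_test_le {μ : Measure Ω} [IsProbabilityMeasure μ] {ψ : Ω → ℝ} {M : ℝ}
    (hM : ∀ y, |ψ y| ≤ M) : |∫ ω, ψ ω ∂μ| ≤ M := by
  have := norm_integral_le_of_norm_le_const (μ := μ) (f := ψ) (C := M)
    (Eventually.of_forall fun x => by simpa using hM x)
  simpa using this

theorem lip_kernel {μ : Measure Ω} [IsProbabilityMeasure μ] {F : X × Ω → Y} {L : ℝ≥0}
    (hF : ∀ ω, LipschitzWith L fun x => F (x, ω)) (hm : ∀ x, Measurable fun ω => F (x, ω))
    {φ : Y → ℝ} (hφ : LipschitzWith 1 φ) {M : ℝ} (hM : ∀ y, |φ y| ≤ M) :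
    LipschitzWith L fun x => ∫ ω, φ (F (x, ω)) ∂μ := by
  refine LipschitzWith.of_dist_le_mul fun x x' => ?_
  rw [Real.dist_eq, ← integral_sub (integrable_test (hm x) hφ hM)
    (integrable_test (hm x') hφ hM)]
  refine abs_integral_test_le fun ω => ?_
  have h1 := hφ.dist_le_mul (F (x, ω)) (F (x', ω))
  have h2 := (hF ω).dist_le_mul x x'
  rw [Real.dist_eq] at h1
  simpa using h1.trans (by simpa using h2)

/-- Changing the law of the input of a pathwise Lipschitz randomized map. -/
theorem DLb.kernel {μ : Measure Ω} [IsProbabilityMeasure μ] {P Q : Measure X}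
    [IsProbabilityMeasure P] [IsProbabilityMeasure Q] {e : ℝ} (h : DLb P Q e)
    {F : X × Ω → Y} (hm : Measurable F) {L : ℝ≥0}
    (hF : ∀ ω, LipschitzWith L fun x => F (x, ω)) :
    DLb ((P.prod μ).map F) ((Q.prod μ).map F) (L * e) := by
  intro φ hφ hb
  obtain ⟨M, hM⟩ := hb
  have hm' : ∀ x, Measurable fun ω => F (x, ω) := fun x => hm.comp measurable_prodMk_left
  rw [integral_map hm.aemeasurable hφ.continuous.measurable.aestronglyMeasurable,
    integral_map hm.aemeasurable hφ.continuous.measurable.aestronglyMeasurable,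
    integral_prod _ (integrable_test hm hφ hM), integral_prod _ (integrable_test hm hφ hM)]
  exact h.lip (lip_kernel hF hm' hφ hM) ⟨M, fun x => abs_integral_test_le fun ω => hM _⟩

/-- Replacing a kernel by another one, at an exact input law. -/
theorem DLb.kernel_right {μ : Measure Ω} [IsProbabilityMeasure μ] {Q : Measure X}
    [IsProbabilityMeasure Q] {F : X × Ω → Y} (hm : Measurable F) {T : X → Measure Y}
    {S : Measure Y} {w : X → ℝ} (hw : Integrable w Q)
    (hT : ∀ x, DLb (μ.map fun ω => F (x, ω)) (T x) (w x))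
    (hS : ∀ φ : Y → ℝ, LipschitzWith 1 φ → (∃ M, ∀ y, |φ y| ≤ M) →
      Integrable (fun x => ∫ y, φ y ∂(T x)) Q ∧ ∫ y, φ y ∂S = ∫ x, ∫ y, φ y ∂(T x) ∂Q) :
    DLb ((Q.prod μ).map F) S (∫ x, w x ∂Q) := by
  intro φ hφ hb
  obtain ⟨hi, he⟩ := hS φ hφ hb
  obtain ⟨M, hM⟩ := hb
  have hm' : ∀ x, Measurable fun ω => F (x, ω) := fun x => hm.comp measurable_prodMk_left
  have hI := integrable_test (μ := Q.prod μ) hm hφ hM
  rw [integral_map hm.aemeasurable hφ.continuous.measurable.aestronglyMeasurable, he,
    integral_prod _ hI, ← integral_sub hI.integral_prod_left hi]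
  refine (abs_integral_le_integral_abs).trans ?_
  refine integral_mono (hI.integral_prod_left.sub hi).abs hw fun x => ?_
  have := hT x φ hφ ⟨M, hM⟩
  rwa [integral_map (hm' x).aemeasurable hφ.continuous.measurable.aestronglyMeasurable] at this

end kernels

section adm

variable {d : ℕ}

theorem pi_gN_eq_map (N : ℕ) (y : E d) (r : ℝ) :
    (Measure.pi fun _ : Fin N => gN y r)
      = (Measure.pi fun _ : Fin N => stdGaussian (E d)).map (fun g i => y + r • g i) := by
  unfold gN
  exact (Measure.pi_map_pi (μ := fun _ : Fin N => stdGaussian (E d))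
    (f := fun _ (x : E d) => y + r • x) (fun i => (measurable_aff y r).aemeasurable)).symm

/-- From contract data: the randomized map `y ↦ f ((y + r g_i)_i, ω)`. -/
theorem map_visible {N : ℕ} {Ω : Type} [MeasurableSpace Ω] {μ : Measure Ω}
    [IsProbabilityMeasure μ] {f : (Fin N → E d) × Ω → E d} (hf : Measurable f) (y : E d) (r : ℝ) :
    ((Measure.pi fun _ : Fin N => gN y r).prod μ).map f
      = ((Measure.pi fun _ : Fin N => stdGaussian (E d)).prod μ).map
          (fun z => f (fun i => y + r • z.1 i, z.2)) := by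
  have hm : Measurable (fun (g : Fin N → E d) i => y + r • g i) :=
    measurable_pi_lambda _ fun i => by fun_prop
  rw [pi_gN_eq_map]
  have h1 : ((Measure.pi fun _ : Fin N => stdGaussian (E d)).map (fun g i => y + r • g i)).prod μ
      = ((Measure.pi fun _ : Fin N => stdGaussian (E d)).prod μ).map
        (Prod.map (fun g i => y + r • g i) id) := by
    rw [← Measure.map_prod_map _ _ hm measurable_id, Measure.map_id]
  rw [h1, Measure.map_map hf (hm.prodMap measurable_id)]
  rfl

/-- Composition at a visible centre. -/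
theorem Con.visible {rin r : ℝ} {N q N' q' : ℕ} {L L' : ℝ≥0}
    {T₁ T₂ T : (E d → ℝ) → E d → Measure (E d)} {D D' K : ℝ}
    (h₁ : Con rin N q L T₁ D) (h₂ : Con r N' q' L' T₂ D') (hD' : 0 ≤ D')
    (hT₁ : ∀ V, Admissible d V → ∀ c, IsProbabilityMeasure (T₁ V c) ∧
      Integrable (fun y => ‖y‖) (T₁ V c) ∧ ∫ y, ‖y‖ ∂(T₁ V c) ≤ K * (√(d : ℝ) + ‖c‖))
    (hT : ∀ V, Admissible d V → ∀ c, ∀ φ : E d → ℝ, LipschitzWith 1 φ → (∃ M, ∀ y, |φ y| ≤ M) →
      Integrable (fun y => ∫ z, φ z ∂(T₂ V y)) (T₁ V c) ∧
        ∫ z, φ z ∂(T V c) = ∫ y, ∫ z, φ z ∂(T₂ V y) ∂(T₁ V c)) :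
    Con rin N (q + q') (L' * L) T (L' * D + D' * (1 + K)) := by
  obtain ⟨Ω₁, _, μ₁, _, f₁, hq₁, H₁⟩ := h₁
  obtain ⟨Ω₂, _, μ₂, _, f₂, hq₂, H₂⟩ := h₂
  let γN : Measure (Fin N' → E d) := Measure.pi fun _ : Fin N' => stdGaussian (E d)
  -- the composed procedure
  let f : (E d → ℝ) → (Fin N → E d) × (Ω₁ × ((Fin N' → E d) × Ω₂)) → E d := fun V z =>
    f₂ V (fun i => f₁ V (z.1, z.2.1) + r • z.2.2.1 i, z.2.2.2)
  refine ⟨Ω₁ × ((Fin N' → E d) × Ω₂), inferInstance, μ₁.prod (γN.prod μ₂), inferInstance, f, ?_, ?_⟩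
  · -- queries
    have h1 : IsQ q (fun V (z : (Fin N → E d) × (Ω₁ × ((Fin N' → E d) × Ω₂))) =>
        f₁ V (z.1, z.2.1)) := hq₁.comap
          (g := fun z : (Fin N → E d) × (Ω₁ × ((Fin N' → E d) × Ω₂)) => (z.1, z.2.1)) (by fun_prop)
    have h2 : IsQ q' (fun V (z : ((Fin N → E d) × (Ω₁ × ((Fin N' → E d) × Ω₂))) × E d) =>
        f₂ V (fun i => z.2 + r • z.1.2.2.1 i, z.1.2.2.2)) := by
      refine hq₂.comap (g := fun z : ((Fin N → E d) × (Ω₁ × ((Fin N' → E d) × Ω₂))) × E d =>
        (fun i => z.2 + r • z.1.2.2.1 i, z.1.2.2.2)) ?_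
      refine Measurable.prodMk (measurable_pi_lambda _ fun i => ?_) (by fun_prop)
      fun_prop
    exact h1.bind h2
  · intro V hV
    obtain ⟨hL₁, hC₁⟩ := H₁ V hV
    obtain ⟨hL₂, hC₂⟩ := H₂ V hV
    have hO := measurable_oracle hV
    have hm₁ : Measurable (f₁ V) := hq₁.measurable hO
    have hm₂ : Measurable (f₂ V) := hq₂.measurable hO
    -- the kernel of the second stage
    let F : E d × ((Fin N' → E d) × Ω₂) → E d := fun z => f₂ V (fun i => z.1 + r • z.2.1 i, z.2.2)
    have hmF : Measurable F := by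
      refine hm₂.comp (Measurable.prodMk (measurable_pi_lambda _ fun i => ?_) (by fun_prop))
      fun_prop
    have hLF : ∀ ω, LipschitzWith L' fun y => F (y, ω) := by
      intro ω
      have h0 : LipschitzWith 1 (fun y : E d => (fun i : Fin N' => y + r • ω.1 i)) := by
        refine LipschitzWith.of_dist_le_mul fun y y' => ?_
        rw [dist_pi_le_iff (by positivity)]
        intro i
        simp
      have := (hL₂ ω.2).comp h0
      rw [mul_one] at this
      exact this
    constructor
    · intro ω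
      have h3 := (hLF ω.2).comp (hL₁ ω.1)
      exact h3
    · intro c
      obtain ⟨hp, hi, hK⟩ := hT₁ V hV c
      have e1 : (((Measure.pi fun _ : Fin N => gN c rin).prod (μ₁.prod (γN.prod μ₂))).map (f V))
          = (((((Measure.pi fun _ : Fin N => gN c rin).prod μ₁).map (f₁ V)).prod
            (γN.prod μ₂)).map F) := by
        rw [← Measure.prodAssoc_prod, Measure.map_map]
        · have h4 : ((((Measure.pi fun _ : Fin N => gN c rin).prod μ₁).map (f₁ V)).prod
            (γN.prod μ₂)) = ((((Measure.pi fun _ : Fin N => gN c rin).prod μ₁)).prod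
            (γN.prod μ₂)).map (Prod.map (f₁ V) id) := by
            rw [← Measure.map_prod_map _ _ hm₁ measurable_id, Measure.map_id]
          rw [h4, Measure.map_map hmF (hm₁.prodMap measurable_id)]
          rfl
        · have : f V = F ∘ (fun z => (f₁ V (z.1, z.2.1), z.2.2)) := rfl
          rw [this]
          exact hmF.comp ((hm₁.comp (by fun_prop)).prodMk (by fun_prop))
        · exact MeasurableEquiv.prodAssoc.measurable
      rw [e1]
      have : IsProbabilityMeasure
          (((Measure.pi fun _ : Fin N => gN c rin).prod μ₁).map (f₁ V)) :=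
        Measure.isProbabilityMeasure_map hm₁.aemeasurable
      have s1 := DLb.kernel (μ := γN.prod μ₂) (hC₁ c) hmF hLF
      have s2 : DLb (((T₁ V c).prod (γN.prod μ₂)).map F) (T V c)
          (∫ y, D' * (√(d : ℝ) + ‖y‖) ∂(T₁ V c)) := by
        refine DLb.kernel_right hmF (T := fun y => T₂ V y)
          (((integrable_const _).add hi).const_mul _) (fun y => ?_) (hT V hV c)
        have := hC₂ y
        rwa [map_visible hm₂] at this
      refine (s1.trans s2).mono ?_
      rw [integral_const_mul, integral_add (integrable_const _) hi]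
      simp only [integral_const, probReal_univ, smul_eq_mul, one_mul]
      have h5 : D' * (√(d : ℝ) + ∫ y, ‖y‖ ∂(T₁ V c)) ≤ D' * (√(d : ℝ) + K * (√(d : ℝ) + ‖c‖)) := by
        gcongr
      have h6 : D' * √(d : ℝ) ≤ D' * (√(d : ℝ) + ‖c‖) := by
        gcongr
        linarith [norm_nonneg c]
      calc (L' : ℝ) * (D * (√(d : ℝ) + ‖c‖)) + D' * (√(d : ℝ) + ∫ y, ‖y‖ ∂(T₁ V c))
          ≤ (L' : ℝ) * (D * (√(d : ℝ) + ‖c‖)) + D' * (√(d : ℝ) + K * (√(d : ℝ) + ‖c‖)) := by
            linarith
        _ = (L' : ℝ) * (D * (√(d : ℝ) + ‖c‖)) + (D' * √(d : ℝ) + D' * K * (√(d : ℝ) + ‖c‖)) := by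
            ring
        _ ≤ (L' : ℝ) * (D * (√(d : ℝ) + ‖c‖)) + (D' * (√(d : ℝ) + ‖c‖)
            + D' * K * (√(d : ℝ) + ‖c‖)) := by linarith
        _ = (L' * D + D' * (1 + K)) * (√(d : ℝ) + ‖c‖) := by ring

end adm

end Crest.Agent.R285.Rec
end
end

-- ▼ part R285/Glue2

/-!
Row 285 (S0430): splitting of the draws, weakening of contracts.
-/

set_option autoImplicit false
set_option linter.unusedSectionVars false

open MeasureTheory ProbabilityTheory Filter Topology
open Crest.OracleSampling (E Admissible oracle)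
open scoped NNReal
open Crest.Agent.R285.Comp (measurable_oracle)

noncomputable section

namespace Crest.Agent.R285.Rec

open Crest.Agent.R285

section split

variable {α : Type} [MeasurableSpace α]

/-- Splitting `N + M` independent draws. -/
theorem pi_map_split (N M : ℕ) (μ : Measure α) [IsProbabilityMeasure μ] :
    (Measure.pi fun _ : Fin (N + M) => μ).map
      (fun x => ((fun i : Fin N => x (Fin.castAdd M i)), fun j : Fin M => x (Fin.natAdd N j)))
      = (Measure.pi fun _ : Fin N => μ).prod (Measure.pi fun _ : Fin M => μ) := by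
  have h1 := (measurePreserving_piCongrLeft (fun _ : Fin (N + M) => μ)
    (finSumFinEquiv : Fin N ⊕ Fin M ≃ Fin (N + M))).symm
  have h2 := measurePreserving_sumPiEquivProdPi (X := fun _ : Fin N ⊕ Fin M => α)
    (fun _ : Fin N ⊕ Fin M => μ)
  have h3 := h2.comp h1
  rw [← h3.map_eq]
  rfl

theorem measurable_split (N M : ℕ) : Measurable (fun x : Fin (N + M) → α =>
    ((fun i : Fin N => x (Fin.castAdd M i)), fun j : Fin M => x (Fin.natAdd N j))) :=
  (measurable_pi_lambda _ fun _ => measurable_pi_apply _).prodMk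
    (measurable_pi_lambda _ fun _ => measurable_pi_apply _)

theorem pi_map_head {N N' : ℕ} (h : N ≤ N') (μ : Measure α) [IsProbabilityMeasure μ] :
    (Measure.pi fun _ : Fin N' => μ).map (fun x => fun i : Fin N => x (Fin.castLE h i))
      = Measure.pi fun _ : Fin N => μ := by
  obtain ⟨M, rfl⟩ := Nat.exists_eq_add_of_le h
  have h1 := congrArg (Measure.map Prod.fst) (pi_map_split N M μ)
  rw [Measure.map_map measurable_fst (measurable_split N M), Measure.map_fst_prod,
    measure_univ, one_smul] at h1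
  exact h1

end split

section weaken

variable {d : ℕ}

theorem Con.weaken {rin : ℝ} {N q N' q' : ℕ} {L L' : ℝ≥0} {T : (E d → ℝ) → E d → Measure (E d)}
    {D D' : ℝ} (h : Con rin N q L T D) (hN : N ≤ N') (hq : q ≤ q') (hL : L ≤ L') (hD : D ≤ D') :
    Con rin N' q' L' T D' := by
  obtain ⟨Ω, _, μ, _, f, hf, H⟩ := h
  refine ⟨Ω, inferInstance, μ, inferInstance,
    fun V z => f V (fun i => z.1 (Fin.castLE hN i), z.2), ?_, ?_⟩
  · refine (hf.mono hq).comap (g := fun z : (Fin N' → E d) × Ω =>
      (fun i => z.1 (Fin.castLE hN i), z.2)) ?_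
    exact (measurable_pi_lambda _ fun i => by fun_prop).prodMk measurable_snd
  · intro V hV
    obtain ⟨h1, h2⟩ := H V hV
    have hm : Measurable (f V) := hf.measurable (measurable_oracle hV)
    have hr : Measurable (fun x : Fin N' → E d => fun i : Fin N => x (Fin.castLE hN i)) :=
      measurable_pi_lambda _ fun i => by fun_prop
    refine ⟨fun ω => ?_, fun c => ?_⟩
    · have h0 : LipschitzWith 1 (fun x : Fin N' → E d => fun i : Fin N => x (Fin.castLE hN i)) := by
        refine LipschitzWith.of_dist_le_mul fun y y' => ?_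
        rw [dist_pi_le_iff (by positivity)]
        intro i
        simpa using dist_le_pi_dist y y' (Fin.castLE hN i)
      have h3 := (h1 ω).comp h0
      rw [mul_one] at h3
      exact h3.weaken hL
    · have e1 : ((Measure.pi fun _ : Fin N' => gN c rin).prod μ).map
          (fun z => f V (fun i => z.1 (Fin.castLE hN i), z.2))
          = ((Measure.pi fun _ : Fin N => gN c rin).prod μ).map (f V) := by
        have h4 : ((Measure.pi fun _ : Fin N => gN c rin).prod μ)
            = ((Measure.pi fun _ : Fin N' => gN c rin).prod μ).map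
              (Prod.map (fun x => fun i : Fin N => x (Fin.castLE hN i)) id) := by
          rw [← Measure.map_prod_map _ _ hr measurable_id, Measure.map_id, pi_map_head hN]
        rw [h4, Measure.map_map hm (hr.prodMap measurable_id)]
        rfl
      rw [e1]
      refine (h2 c).mono ?_
      have : 0 ≤ √(d : ℝ) + ‖c‖ := by positivity
      exact mul_le_mul_of_nonneg_right hD this

end weaken

end Crest.Agent.R285.Rec
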