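import Crest.Agent.R285.Curve
import Crest.Agent.R285.NumL2
import Crest.Agent.R285.Rot
import Crest.Agent.R285.Flow1

-- ▼ part R285/CurveL2
section

/-!
Row 285: `L²` errors of the quadrature rules and of the stencil along curves of a flow.
-/

set_option autoImplicit false
set_option linter.unusedSectionVars false

open Set Filter Topology MeasureTheory ProbabilityTheory
open scoped ENNReal NNReal

noncomputable section

namespace Crest.Agent.R285

variable {E : Type} [NormedAddCommGroup E] [NormedSpace ℝ E] [FiniteDimensional ℝ E]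
  [MeasurableSpace E] [BorelSpace E]
  {F : Type*} [NormedAddCommGroup F] [NormedSpace ℝ F] [FiniteDimensional ℝ F]
  [MeasurableSpace F] [BorelSpace F]

variable {v : ℝ → E → E} {J : Set ℝ} {f : ℝ → E → F} {P : Measure E} [SFinite P]

/-- Pathwise `L¹`-in-time error bounds along the flow give `L²` bounds. -/
theorem curve_err_le (hv : GoodOn v J) (hvs : SmOn v J) (hf : SmOn f J) {s a b : ℝ} (hs : s ∈ J)
    (hab : Icc a b ⊆ J) (hle : a ≤ b) (m : ℕ) {err : E → F} {K : ℝ} (hK : 0 ≤ K)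
    (herr : ∀ x, ‖err x‖ ≤ K * ∫ t in a..b, ‖((Dv v)^[m] f) t (evol v J s t x)‖) {B : ℝ≥0∞}
    (hB : ∀ t ∈ Ioc a b, eLpNorm (fun x => ((Dv v)^[m] f) t (evol v J s t x)) 2 P ≤ B) :
    eLpNorm err 2 P ≤ ENNReal.ofReal (K * (b - a)) * B := by
  refine Num.eLpNorm_err_le_of_bound (F := fun t x => curveF v f J s a b m t x) hle hK
    (fun x => ?_) ?_ (ae_of_all _ fun x => ?_) (fun t ht => ?_)
  · exact (tower_curveF hv hf hvs hs hab m x).intervalIntegrable le_rfl
      (left_mem_Icc.mpr hle) (right_mem_Icc.mpr hle)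
  · exact (measurable_curveF hv hf hvs hs hab m).enorm
  · refine (herr x).trans (le_of_eq ?_)
    congr 1
    refine intervalIntegral.integral_congr fun t ht => ?_
    rw [uIcc_of_le hle] at ht
    simp only [curveF_of_mem ht]
  · have e : (fun x => curveF v f J s a b m t x) =
        fun x => ((Dv v)^[m] f) t (evol v J s t x) :=
      funext fun x => curveF_of_mem (Ioc_subset_Icc_self ht) m x
    rw [e]
    exact hB t ht

/-- Quadrature on one block, `L²` error. -/
theorem curve_quad (hv : GoodOn v J) (hvs : SmOn v J) (hf : SmOn f J) {s a a0 : ℝ} (hs : s ∈ J)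
    (ha : 0 ≤ a0) (hab : Icc a (a + a0) ⊆ J) (n : ℕ) {θ : ℝ} (h0 : 0 ≤ θ) (h1 : θ ≤ 1)
    {B : ℝ≥0∞} (hB : ∀ t ∈ Ioc a (a + a0),
      eLpNorm (fun x => ((Dv v)^[n + 2] f) t (evol v J s t x)) 2 P ≤ B) :
    eLpNorm (fun x => (∫ t in a..(a + a0 * θ), f t (evol v J s t x)) -
        ∑ l, wb n a0 θ l • f (a + a0 * Num.node (n + 2) l)
          (evol v J s (a + a0 * Num.node (n + 2) l) x)) 2 P ≤
      ENNReal.ofReal (rcQ n * a0 ^ (n + 3)) * B := by
  have hr := rcQ_nonneg n
  have h := curve_err_le hv hvs hf hs hab (by linarith) (n + 2)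
    (err := fun x => (∫ t in a..(a + a0 * θ), f t (evol v J s t x)) -
        ∑ l, wb n a0 θ l • f (a + a0 * Num.node (n + 2) l)
          (evol v J s (a + a0 * Num.node (n + 2) l) x)) (K := rcQ n * a0 ^ (n + 2))
    (by positivity) (fun x => ?_) hB
  · refine h.trans (le_of_eq ?_)
    congr 2
    ring
  · have : CompleteSpace F := FiniteDimensional.complete ℝ F
    have h := Num.quad_block (n + 1) (fun k t => ((Dv v)^[k] f) t (evol v J s t x)) a a0 ha
      (tower_comp_curve hv.isOpen hf hvs (fun t ht => hv.hasDerivAt_evol hs ht x) hab (n + 2))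
      h0 h1
    refine h.trans (le_of_eq ?_)
    unfold rcQ
    ring

/-- Stencil, `L²` error. -/
theorem curve_stencil (hv : GoodOn v J) (hvs : SmOn v J) (hf : SmOn f J) {s a a0 : ℝ} (hs : s ∈ J)
    (ha : 0 < a0) (hab : Icc a (a + a0) ⊆ J) (n : ℕ)
    {B : ℝ≥0∞} (hB : ∀ t ∈ Ioc a (a + a0),
      eLpNorm (fun x => ((Dv v)^[n + 2] f) t (evol v J s t x)) 2 P ≤ B) :
    eLpNorm (fun x => Dv v f a (evol v J s a x) -
        ∑ l, db n a0 l • f (a + a0 * Num.node (n + 2) l)
          (evol v J s (a + a0 * Num.node (n + 2) l) x)) 2 P ≤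
      ENNReal.ofReal (Num.derC n * a0 ^ (n + 1)) * B := by
  have hr := Num.derC_nonneg n
  have h := curve_err_le hv hvs hf hs hab (by linarith) (n + 2)
    (err := fun x => Dv v f a (evol v J s a x) -
        ∑ l, db n a0 l • f (a + a0 * Num.node (n + 2) l)
          (evol v J s (a + a0 * Num.node (n + 2) l) x)) (K := Num.derC n * a0 ^ n)
    (by positivity) (fun x => ?_) hB
  · refine h.trans (le_of_eq ?_)
    congr 2
    ring
  · have : CompleteSpace F := FiniteDimensional.complete ℝ F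
    have h := Num.deriv_block n (fun k t => ((Dv v)^[k] f) t (evol v J s t x)) a a0 ha
      (tower_comp_curve hv.isOpen hf hvs (fun t ht => hv.hasDerivAt_evol hs ht x) hab (n + 2))
    refine h.trans (le_of_eq ?_)
    ring

/-- Composite rule on a uniform grid, total integral, `L²` error. -/
theorem curve_total (hv : GoodOn v J) (hvs : SmOn v J) (hf : SmOn f J) {s a b : ℝ} (hs : s ∈ J)
    (hle : a ≤ b) (hab : Icc a b ⊆ J) (n : ℕ) {M : ℕ} (hM : 0 < M)
    {B : ℝ≥0∞} (hB : ∀ t ∈ Ioc a b,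
      eLpNorm (fun x => ((Dv v)^[n + 1] f) t (evol v J s t x)) 2 P ≤ B) :
    eLpNorm (fun x => (∫ t in a..b, f t (evol v J s t x)) -
        ∑ j, Num.qw n M a b j • f (Num.qnode n M a b j)
          (evol v J s (Num.qnode n M a b j) x)) 2 P ≤
      ENNReal.ofReal ((1 + Num.intC (n + 1)) * ((b - a) / M) ^ (n + 1) * (b - a)) * B := by
  have hr := Num.intC_nonneg (n + 1)
  have h0 : 0 ≤ (b - a) / M := div_nonneg (by linarith) (by positivity)
  refine curve_err_le hv hvs hf hs hab hle (n + 1) (by positivity) (fun x => ?_) hB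
  have : CompleteSpace F := FiniteDimensional.complete ℝ F
  have h := Num.quad_total n (fun k t => ((Dv v)^[k] f) t (evol v J s t x)) hM hle
    (tower_comp_curve hv.isOpen hf hvs (fun t ht => hv.hasDerivAt_evol hs ht x) hab (n + 1))
  refine h.trans (le_of_eq ?_)
  ring

/-- Composite rule on a uniform grid, integral up to a node, `L²` error. -/
theorem curve_partial (hv : GoodOn v J) (hvs : SmOn v J) (hf : SmOn f J) {s a b : ℝ} (hs : s ∈ J)
    (hle : a ≤ b) (hab : Icc a b ⊆ J) (n : ℕ) {M : ℕ} (i : Fin M × Fin (n + 1))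
    {B : ℝ≥0∞} (hB : ∀ t ∈ Ioc a b,
      eLpNorm (fun x => ((Dv v)^[n + 1] f) t (evol v J s t x)) 2 P ≤ B) :
    eLpNorm (fun x => (∫ t in a..(Num.qnode n M a b i), f t (evol v J s t x)) -
        ∑ j, Num.qW n M a b i j • f (Num.qnode n M a b j)
          (evol v J s (Num.qnode n M a b j) x)) 2 P ≤
      ENNReal.ofReal ((1 + Num.intC (n + 1)) * ((b - a) / M) ^ (n + 1) * (b - a)) * B := by
  have hr := Num.intC_nonneg (n + 1)
  have h0 : 0 ≤ (b - a) / M := div_nonneg (by linarith) (by positivity)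
  refine curve_err_le hv hvs hf hs hab hle (n + 1) (by positivity) (fun x => ?_) hB
  have : CompleteSpace F := FiniteDimensional.complete ℝ F
  have h := Num.quad_partial n (fun k t => ((Dv v)^[k] f) t (evol v J s t x)) hle
    (tower_comp_curve hv.isOpen hf hvs (fun t ht => hv.hasDerivAt_evol hs ht x) hab (n + 1)) i
  refine h.trans (le_of_eq ?_)
  ring

theorem eLpNorm_two_sq {Z H : Type*} [MeasurableSpace Z] [NormedAddCommGroup H] (P : Measure Z)
    (f : Z → H) : eLpNorm f 2 P ^ 2 = ∫⁻ ω, ‖f ω‖ₑ ^ 2 ∂P := by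
  rw [eLpNorm_eq_lintegral_rpow_enorm_toReal (by norm_num) (by norm_num), ← ENNReal.rpow_natCast,
    ← ENNReal.rpow_mul]
  norm_num

/-- Fubini for `L²` bounds that hold for every frozen first coordinate. -/
theorem eLpNorm_prod_le {X Y H : Type*} [MeasurableSpace X] [MeasurableSpace Y]
    [NormedAddCommGroup H] {μ : Measure X} [IsProbabilityMeasure μ] {ν : Measure Y} [SFinite ν]
    {g : X × Y → H} {δ : ℝ≥0∞} (h : ∀ x, eLpNorm (fun y => g (x, y)) 2 ν ≤ δ) :
    eLpNorm g 2 (μ.prod ν) ≤ δ := by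
  have h2 : eLpNorm g 2 (μ.prod ν) ^ 2 ≤ δ ^ 2 := by
    rw [eLpNorm_two_sq]
    refine (lintegral_prod_le _).trans ?_
    calc ∫⁻ x, ∫⁻ y, ‖g (x, y)‖ₑ ^ 2 ∂ν ∂μ ≤ ∫⁻ _, δ ^ 2 ∂μ := by
          refine lintegral_mono fun x => ?_
          rw [← eLpNorm_two_sq ν (fun y => g (x, y))]
          exact pow_le_pow_left' (h x) 2
      _ = δ ^ 2 := by rw [lintegral_const, measure_univ, mul_one]
  exact (ENNReal.pow_le_pow_left_iff two_ne_zero).mp h2

end Crest.Agent.R285
end
end

-- ▼ part R285/Inner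

/-!
Row 285: the flow `x' = -r G_{r√(1-t²)}(y + r t x)` at a frozen centre `y`, scale `r`
(parts (2), (4) of 6536); stencil for `A = D G_r (y)`, defects of the inner points.
-/

set_option autoImplicit false
set_option linter.unusedSectionVars false

open Set Filter Topology MeasureTheory ProbabilityTheory
open scoped ENNReal NNReal RealInnerProductSpace

noncomputable section

namespace Crest.Agent.R285

variable {V : Type} [NormedAddCommGroup V] [InnerProductSpace ℝ V] [FiniteDimensional ℝ V]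
  [MeasurableSpace V] [BorelSpace V]

/-- The time interval. -/
abbrev Jm : Set ℝ := Ioo (-1) 1

theorem zero_mem_Jm : (0 : ℝ) ∈ Jm := by constructor <;> norm_num

theorem isOpen_Jm : IsOpen Jm := isOpen_Ioo

theorem Jm_pos {t : ℝ} (ht : t ∈ Jm) : 0 < 1 - t ^ 2 := by
  obtain ⟨h1, h2⟩ := ht
  nlinarith

/-- The evolution of `vY`, started at time `0`. -/
def ievol (U : V → ℝ) (y : V) (r : ℝ) (t : ℝ) (x : V) : V := evol (vY U y r) Jm 0 t x

variable {h : ℝ} {U : V → ℝ}

theorem contDiffOn_sqrtJ {n : WithTop ℕ∞} : ContDiffOn ℝ n (fun t : ℝ => √(1 - t ^ 2)) Jm := by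
  intro t ht
  exact ((contDiffAt_const.sub (contDiffAt_id.pow 2)).sqrt (Jm_pos ht).ne').contDiffWithinAt

/-! ### derivative at time `0` -/

theorem fderiv_G_snd (hU : PotP h U) (σ : ℝ) (x w : V) :
    fderiv ℝ (fun p : ℝ × V => G U p.1 p.2) (σ, x) (0, w) = DGr U (σ, x) w := by
  have h1 : HasFDerivAt (fun p : ℝ × V => G U p.1 p.2)
      (fderiv ℝ (fun p : ℝ × V => G U p.1 p.2) (σ, x)) (σ, x) :=
    ((contDiff_gr hU).differentiable one_ne_zero _).hasFDerivAt
  have h2 : HasFDerivAt (fun x : V => ((σ, x) : ℝ × V)) (ContinuousLinearMap.inr ℝ ℝ V) x :=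
    hasFDerivAt_prodMk_right σ x
  have h3 := (h1.comp x h2).unique (hasFDerivAt_gr_x hU σ x)
  rw [← h3]
  rfl

theorem hasDerivAt_sqrt_zero : HasDerivAt (fun t : ℝ => √(1 - t ^ 2)) 0 0 := by
  have h1 : HasDerivAt (fun t : ℝ => 1 - t ^ 2) 0 0 := by
    have := ((hasDerivAt_id (0 : ℝ)).pow 2).const_sub 1
    simpa using this
  have h2 := h1.sqrt (by norm_num)
  simpa using h2

/-- The total derivative of the field along the flow at time `0` is `-r² D G_r(y) x`. -/
theorem Dv_vY_zero (hU : PotP h U) (y : V) {r : ℝ} (hr : 0 < r) (x : V) :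
    Dv (vY U y r) (vY U y r) 0 x = -(r ^ 2 • DGr U (r, y) x) := by
  set w : V := vY U y r 0 x with hw
  have hd : DifferentiableAt ℝ (fun p : ℝ × V => vY U y r p.1 p.2) (0, x) := by
    have h1 := (goodOn_vY hU y hr).contDiffOn
    exact (h1.differentiableOn one_ne_zero).differentiableAt
      ((isOpen_Jm.prod isOpen_univ).mem_nhds ⟨zero_mem_Jm, mem_univ x⟩)
  -- the curve `t ↦ (t, x + t w)`
  have hc : HasDerivAt (fun t : ℝ => ((t, x + t • w) : ℝ × V)) (1, w) 0 := by
    refine (hasDerivAt_id _).prodMk ?_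
    simpa using ((hasDerivAt_id (0 : ℝ)).smul_const w).const_add x
  have e0 : ((0 : ℝ), x + (0 : ℝ) • w) = (0, x) := by simp
  have h2 : HasDerivAt (fun t : ℝ => vY U y r t (x + t • w)) (Dv (vY U y r) (vY U y r) 0 x)
      0 := by
    have hd' := hd.hasFDerivAt
    rw [← e0] at hd'
    have := hd'.comp_hasDerivAt (0 : ℝ) hc
    rw [e0] at this
    exact this
  have h3 : HasDerivAt (fun t : ℝ => ((r * √(1 - t ^ 2), y + (r * t) • (x + t • w)) : ℝ × V))
      (0, r • x) 0 := by
    refine HasDerivAt.prodMk ?_ ?_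
    · simpa using hasDerivAt_sqrt_zero.const_mul r
    · have h4 : HasDerivAt (fun t : ℝ => x + t • w) w 0 := by
        simpa using ((hasDerivAt_id (0 : ℝ)).smul_const w).const_add x
      have h5 : HasDerivAt (fun t : ℝ => r * t) r 0 := by
        simpa using (hasDerivAt_id (0 : ℝ)).const_mul r
      have h6 := (h5.fun_smul h4).const_add y
      simpa using h6
  have hG := ((contDiff_gr hU).differentiable one_ne_zero (r, y)).hasFDerivAt
  have e1 : ((r * √(1 - (0 : ℝ) ^ 2), y + (r * 0) • (x + (0 : ℝ) • w)) : ℝ × V) = (r, y) := by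
    simp
  rw [← e1] at hG
  have h7 := hG.comp_hasDerivAt (0 : ℝ) h3
  rw [e1, fderiv_G_snd hU] at h7
  have h8 := (h7.const_smul r).neg
  have h9 := h2.unique h8
  rw [h9, map_smul, smul_smul, pow_two]

/-! ### points of the inner flow -/

theorem ievol_zero (hU : PotP h U) (y : V) {r : ℝ} (hr : 0 < r) (x : V) : ievol U y r 0 x = x :=
  (goodOn_vY hU y hr).evol_self zero_mem_Jm x

theorem hasDerivAt_ievol (hU : PotP h U) (y : V) {r : ℝ} (hr : 0 < r) {t : ℝ} (ht : t ∈ Jm) (x : V) :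
    HasDerivAt (fun t => ievol U y r t x) (vY U y r t (ievol U y r t x)) t :=
  (goodOn_vY hU y hr).hasDerivAt_evol zero_mem_Jm ht x

theorem continuous_ievol (hU : PotP h U) (y : V) {r : ℝ} (hr : 0 < r) {t : ℝ} (ht : t ∈ Jm) :
    Continuous (ievol U y r t) :=
  (goodOn_vY hU y hr).continuous_evol zero_mem_Jm ht

theorem ievol_eq_integral (hU : PotP h U) (y : V) {r : ℝ} (hr : 0 < r) {t : ℝ} (ht : t ∈ Jm) (x : V) :
    ievol U y r t x = x + ∫ u in (0 : ℝ)..t, vY U y r u (ievol U y r u x) := by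
  have hsub : uIcc 0 t ⊆ Jm := ordConnected_Ioo.uIcc_subset zero_mem_Jm ht
  have hc : ContinuousOn (fun u => vY U y r u (ievol U y r u x)) (uIcc 0 t) := by
    have h1 := (goodOn_vY hU y hr).contDiffOn.continuousOn
    refine h1.comp (f := fun u => ((u, ievol U y r u x) : ℝ × V))
      (continuousOn_id.prodMk fun u hu => ?_) (fun u hu => ⟨hsub hu, mem_univ _⟩)
    exact (hasDerivAt_ievol hU y hr (hsub hu) x).continuousAt.continuousWithinAt
  have h := intervalIntegral.integral_eq_sub_of_hasDerivAt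
    (fun u hu => hasDerivAt_ievol hU y hr (hsub hu) x) hc.intervalIntegrable
  rw [h, ievol_zero hU y hr]
  abel

/-- The points `y + r t x_t`. -/
def ipt (U : V → ℝ) (y : V) (r : ℝ) (t : ℝ) (x : V) : V := y + (r * t) • ievol U y r t x

/-- The values `G_{r√(1-t²)}(y + r t x_t)`. -/
def iG (U : V → ℝ) (y : V) (r : ℝ) (t : ℝ) (x : V) : V :=
  G U (r * √(1 - t ^ 2)) (ipt U y r t x)

theorem vY_ievol (y : V) (r : ℝ) (t : ℝ) (x : V) :
    vY U y r t (evol (vY U y r) Jm 0 t x) = -(r • iG U y r t x) := rfl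

theorem continuous_ipt (hU : PotP h U) (y : V) {r : ℝ} (hr : 0 < r) {t : ℝ} (ht : t ∈ Jm) :
    Continuous (ipt U y r t) := by
  have := continuous_ievol hU y hr ht
  unfold ipt
  fun_prop

theorem continuous_iG (hU : PotP h U) (y : V) {r : ℝ} (hr : 0 < r) {t : ℝ} (ht : t ∈ Jm) :
    Continuous (iG U y r t) :=
  (contDiff_gr hU).continuous.comp (f := fun x : V => ((r * √(1 - t ^ 2), ipt U y r t x) : ℝ × V))
    (continuous_const.prodMk (continuous_ipt hU y hr ht))

/-- The numerical value of `D G_r(y) x` from the exact points. -/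
def iS (U : V → ℝ) (y : V) (r : ℝ) (n : ℕ) (t0 : ℝ) (x : V) : V :=
  r⁻¹ • ∑ l, db n t0 l • iG U y r (t0 * Num.node (n + 2) l) x

/-- The smoothness bound used at a frozen centre (SM2). -/
def InnB (U : V → ℝ) (y : V) (r : ℝ) (k : ℕ) (t0 : ℝ) (B : ℝ≥0∞) : Prop :=
  ∀ t ∈ Ioc 0 t0, eLpNorm (fun x => ((Dv (vY U y r))^[k] (vY U y r)) t
    (evol (vY U y r) Jm 0 t x)) 2 (stdGaussian V) ≤ B

theorem node_mem_Jm {n : ℕ} {t0 : ℝ} (h0 : 0 ≤ t0) (h1 : t0 < 1) (l : Fin n) :
    t0 * Num.node n l ∈ Jm := by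
  have h2 := Num.node_pos n l
  have h3 := Num.node_lt_one n l
  constructor
  · have : 0 ≤ t0 * Num.node n l := by positivity
    linarith
  · nlinarith

theorem Icc_subset_Jm {t0 : ℝ} (h1 : t0 < 1) : Icc (0 : ℝ) t0 ⊆ Jm := fun t ht =>
  ⟨by linarith [ht.1], by linarith [ht.2]⟩

theorem measurable_iS (hU : PotP h U) (y : V) {r : ℝ} (hr : 0 < r) (n : ℕ) {t0 : ℝ} (h0 : 0 ≤ t0)
    (h1 : t0 < 1) : Measurable (iS U y r n t0) := by
  have : Continuous (iS U y r n t0) := by
    unfold iS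
    exact (continuous_finsetSum _ fun l _ => (continuous_iG hU y hr
      (node_mem_Jm h0 h1 l)).const_smul _).const_smul _
  exact this.measurable

/-- **Stencil at the frozen centre.** -/
theorem inner_stencil (hU : PotP h U) (y : V) {r : ℝ} (hr : 0 < r) (n : ℕ) {t0 : ℝ}
    (h0 : 0 < t0) (h1 : t0 < 1) {B : ℝ≥0∞} (hB : InnB U y r (n + 2) t0 B) :
    eLpNorm (fun x => DGr U (r, y) x - iS U y r n t0 x) 2 (stdGaussian V) ≤
      ENNReal.ofReal (Num.derC n * t0 ^ (n + 1) / r ^ 2) * B := by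
  have hI := Num.derC_nonneg n
  have h := curve_stencil (P := stdGaussian V) (goodOn_vY hU y hr) (smOn_vY hU y hr)
    (smOn_vY hU y hr) (s := 0) (a := 0) zero_mem_Jm h0 (by rw [zero_add]; exact Icc_subset_Jm h1)
    n (B := B) (by rw [zero_add]; exact hB)
  simp only [zero_add] at h
  have e : (fun x => DGr U (r, y) x - iS U y r n t0 x) = (-(r ^ 2)⁻¹ : ℝ) • (fun x =>
      Dv (vY U y r) (vY U y r) 0 (evol (vY U y r) Jm 0 0 x) -
        ∑ l, db n t0 l • vY U y r (t0 * Num.node (n + 2) l)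
          (evol (vY U y r) Jm 0 (t0 * Num.node (n + 2) l) x)) := by
    funext x
    have e1 : evol (vY U y r) Jm 0 0 x = x := ievol_zero hU y hr x
    simp only [Pi.smul_apply]
    rw [e1, Dv_vY_zero hU y hr]
    simp only [vY_ievol, smul_neg, Finset.sum_neg_distrib, iS]
    have e2 : ∑ l, db n t0 l • r • iG U y r (t0 * Num.node (n + 2) l) x =
        r • ∑ l, db n t0 l • iG U y r (t0 * Num.node (n + 2) l) x := by
      rw [Finset.smul_sum]
      exact Finset.sum_congr rfl fun l _ => smul_comm _ _ _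
    rw [e2]
    have hr' := hr.ne'
    rw [neg_smul, smul_sub, smul_neg, smul_neg, smul_smul, smul_smul]
    have e3 : (r ^ 2)⁻¹ * r ^ 2 = 1 := by field_simp
    have e4 : (r ^ 2)⁻¹ * r = r⁻¹ := by field_simp
    rw [e3, e4, one_smul]
    abel
  rw [e, eLpNorm_const_smul]
  have hc : ‖(-(r ^ 2)⁻¹ : ℝ)‖ₑ = ENNReal.ofReal (r ^ 2)⁻¹ := by
    rw [← ofReal_norm, norm_neg, Real.norm_eq_abs, abs_of_pos (by positivity)]
  rw [hc]
  refine (mul_le_mul' le_rfl h).trans (le_of_eq ?_)
  rw [← mul_assoc, ← ENNReal.ofReal_mul (by positivity)]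
  congr 2
  rw [div_eq_inv_mul]

/-- **Defect of the inner points.** -/
theorem inner_point (hU : PotP h U) (y : V) {r : ℝ} (hr : 0 < r) (n : ℕ) {t0 : ℝ}
    (h0 : 0 < t0) (h1 : t0 < 1) {B : ℝ≥0∞} (hB : InnB U y r (n + 2) t0 B) {θ : ℝ} (hθ0 : 0 ≤ θ)
    (hθ1 : θ ≤ 1) :
    eLpNorm (fun x => ipt U y r (t0 * θ) x - (y + (r * (t0 * θ)) • (x - r • ∑ l, wb n t0 θ l •
      iG U y r (t0 * Num.node (n + 2) l) x))) 2 (stdGaussian V) ≤
      ENNReal.ofReal (r * rcQ n * t0 ^ (n + 4)) * B := by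
  have hI := rcQ_nonneg n
  have h := curve_quad (P := stdGaussian V) (goodOn_vY hU y hr) (smOn_vY hU y hr)
    (smOn_vY hU y hr) (s := 0) (a := 0) zero_mem_Jm h0.le
    (by rw [zero_add]; exact Icc_subset_Jm h1)
    n hθ0 hθ1 (B := B) (by rw [zero_add]; exact hB)
  simp only [zero_add] at h
  have hmem : t0 * θ ∈ Jm := ⟨by nlinarith, by nlinarith⟩
  have e : (fun x => ipt U y r (t0 * θ) x - (y + (r * (t0 * θ)) • (x - r • ∑ l, wb n t0 θ l •
      iG U y r (t0 * Num.node (n + 2) l) x))) = (r * (t0 * θ)) • (fun x =>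
      (∫ t in (0 : ℝ)..(t0 * θ), vY U y r t (evol (vY U y r) Jm 0 t x)) -
        ∑ l, wb n t0 θ l • vY U y r (t0 * Num.node (n + 2) l)
          (evol (vY U y r) Jm 0 (t0 * Num.node (n + 2) l) x)) := by
    funext x
    simp only [Pi.smul_apply, vY_ievol, smul_neg, Finset.sum_neg_distrib]
    have e2 : ∑ l, wb n t0 θ l • r • iG U y r (t0 * Num.node (n + 2) l) x =
        r • ∑ l, wb n t0 θ l • iG U y r (t0 * Num.node (n + 2) l) x := by
      rw [Finset.smul_sum]
      exact Finset.sum_congr rfl fun l _ => smul_comm _ _ _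
    rw [e2]
    have e3 := ievol_eq_integral hU y hr hmem x
    have e4 : (∫ u in (0 : ℝ)..(t0 * θ), vY U y r u (ievol U y r u x)) =
        ∫ u in (0 : ℝ)..(t0 * θ), -(r • iG U y r u x) := rfl
    rw [e4] at e3
    rw [ipt, e3]
    module
  rw [e, eLpNorm_const_smul]
  have hc : ‖(r * (t0 * θ) : ℝ)‖ₑ = ENNReal.ofReal (r * (t0 * θ)) := by
    rw [← ofReal_norm, Real.norm_eq_abs, abs_of_nonneg (by positivity)]
  rw [hc]
  refine (mul_le_mul' le_rfl h).trans ?_
  rw [← mul_assoc, ← ENNReal.ofReal_mul (by positivity)]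
  refine mul_le_mul' (ENNReal.ofReal_le_ofReal ?_) le_rfl
  calc r * (t0 * θ) * (rcQ n * t0 ^ (n + 3)) ≤ r * (t0 * 1) * (rcQ n * t0 ^ (n + 3)) := by
        gcongr
    _ = _ := by ring

/-! ### dependence on the centre -/

/-- The field with the centre as a frozen coordinate. -/
def efld (U : V → ℝ) (r : ℝ) (t : ℝ) (z : V × V) : V × V := (0, vY U z.1 r t z.2)

theorem goodOn_efld (hU : PotP h U) (r : ℝ) : GoodOn (efld U r) Jm := by
  refine ⟨isOpen_Jm, ordConnected_Ioo, ?_, fun a ha b hb => ?_⟩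
  · have h1 : ContDiffOn ℝ 1 (fun p : ℝ × (V × V) =>
        ((r * √(1 - p.1 ^ 2), p.2.1 + (r * p.1) • p.2.2) : ℝ × V)) (Jm ×ˢ univ) := by
      refine ContDiffOn.prodMk ?_ ?_
      · exact contDiffOn_const.mul (contDiffOn_sqrtJ.comp contDiffOn_fst (fun p hp => hp.1))
      · exact ContDiff.contDiffOn (by fun_prop)
    have h2 : ContDiffOn ℝ 1 (fun p : ℝ × (V × V) => vY U p.2.1 r p.1 p.2.2) (Jm ×ˢ univ) :=
      (((contDiff_gr hU).comp_contDiffOn h1).const_smul r).neg
    exact contDiffOn_const.prodMk h2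
  · obtain ⟨C, hC0, hC⟩ := gr_growth hU |r|
    have hh := hU.hh
    refine ⟨|r| * (C + h * (1 + |r|)), fun t ht z => ?_⟩
    have htJ : t ∈ Jm := ordConnected_Ioo.out ha hb ht
    have h3 : |t| ≤ 1 := abs_le.mpr ⟨htJ.1.le, htJ.2.le⟩
    have h4 : |r * √(1 - t ^ 2)| ≤ |r| := by
      rw [abs_mul, abs_of_nonneg (Real.sqrt_nonneg _)]
      have : √(1 - t ^ 2) ≤ 1 := by
        rw [Real.sqrt_le_one]; nlinarith
      nlinarith [abs_nonneg r]
    have h5 := hC _ h4 (z.1 + (r * t) • z.2)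
    have h6 : ‖z.1 + (r * t) • z.2‖ ≤ (1 + |r|) * ‖z‖ := by
      refine (norm_add_le _ _).trans ?_
      rw [norm_smul, Real.norm_eq_abs, abs_mul]
      have e1 := norm_fst_le z
      have e2 := norm_snd_le z
      have e3 : |r| * |t| * ‖z.2‖ ≤ |r| * 1 * ‖z‖ := by gcongr
      linarith
    have h7 : ‖efld U r t z‖ = |r| * ‖G U (r * √(1 - t ^ 2)) (z.1 + (r * t) • z.2)‖ := by
      rw [efld, Prod.norm_mk, norm_zero, max_eq_right (norm_nonneg _), vY, norm_neg, norm_smul,
        Real.norm_eq_abs]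
    rw [h7]
    calc |r| * ‖G U (r * √(1 - t ^ 2)) (z.1 + (r * t) • z.2)‖ ≤
          |r| * (C + h * ((1 + |r|) * ‖z‖)) := by
          refine mul_le_mul_of_nonneg_left (h5.trans ?_) (abs_nonneg _)
          gcongr
      _ ≤ |r| * (C + h * (1 + |r|)) * ‖z‖ + |r| * (C + h * (1 + |r|)) := by
          have : 0 ≤ |r| * C * ‖z‖ := by positivity
          have : 0 ≤ |r| * (h * (1 + |r|)) := by positivity
          nlinarith

theorem evol_efld (hU : PotP h U) {r : ℝ} (hr : 0 < r) {t : ℝ} (ht : t ∈ Jm) (z : V × V) :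
    evol (efld U r) Jm 0 t z = (z.1, ievol U z.1 r t z.2) := by
  have hsub : uIcc 0 t ⊆ Jm := ordConnected_Ioo.uIcc_subset zero_mem_Jm ht
  have h := (goodOn_efld hU r).eq_evol (c := fun t => ((z.1, ievol U z.1 r t z.2) : V × V))
    zero_mem_Jm ht (fun u hu => by
      have h1 := hasDerivAt_ievol hU z.1 hr (hsub hu) z.2
      exact (hasDerivAt_const u z.1).prodMk h1)
  simp only [ievol_zero hU _ hr] at h
  exact h.symm

/-- Joint continuity in the centre and the starting point. -/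
theorem continuous_ievol₂ (hU : PotP h U) {r : ℝ} (hr : 0 < r) {t : ℝ} (ht : t ∈ Jm) :
    Continuous (fun z : V × V => ievol U z.1 r t z.2) := by
  have h1 := ((goodOn_efld hU r).continuous_evol zero_mem_Jm ht).snd
  exact h1.congr fun z => by rw [evol_efld hU hr ht]

theorem continuous_ipt₂ (hU : PotP h U) {r : ℝ} (hr : 0 < r) {t : ℝ} (ht : t ∈ Jm) :
    Continuous (fun z : V × V => ipt U z.1 r t z.2) := by
  have := continuous_ievol₂ hU hr ht
  unfold ipt
  fun_prop

theorem continuous_iG₂ (hU : PotP h U) {r : ℝ} (hr : 0 < r) {t : ℝ} (ht : t ∈ Jm) :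
    Continuous (fun z : V × V => iG U z.1 r t z.2) :=
  (contDiff_gr hU).continuous.comp
    (f := fun z : V × V => ((r * √(1 - t ^ 2), ipt U z.1 r t z.2) : ℝ × V))
    (continuous_const.prodMk (continuous_ipt₂ hU hr ht))

theorem continuous_iS₂ (hU : PotP h U) {r : ℝ} (hr : 0 < r) (n : ℕ) {t0 : ℝ} (h0 : 0 ≤ t0) (h1 : t0 < 1) :
    Continuous (fun z : V × V => iS U z.1 r n t0 z.2) := by
  unfold iS
  exact (continuous_finsetSum _ fun l _ => (continuous_iG₂ hU hr
    (node_mem_Jm h0 h1 l)).const_smul _).const_smul _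

theorem continuous_DGr (hU : PotP h U) (r : ℝ) : Continuous (fun y : V => DGr U (r, y)) := by
  have h1 : ContDiff ℝ 1 (G U r) :=
    (contDiff_gr hU).comp (f := fun x : V => ((r, x) : ℝ × V)) (by fun_prop)
  have h2 := h1.continuous_fderiv one_ne_zero
  refine h2.congr fun y => ?_
  exact (hasFDerivAt_gr_x hU r y).fderiv

theorem DGr_symm (hU : PotP h U) (p : ℝ × V) (v w : V) : ⟪DGr U p v, w⟫ = ⟪v, DGr U p w⟫ := by
  rw [DGr, ContinuousLinearMap.comp_apply, ContinuousLinearMap.comp_apply, inner_rz, inner_rz']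
  exact ub2_symm hU p v w

/-! ### the rotation depends continuously on the operator -/

section rotcont

variable {V : Type} [NormedAddCommGroup V] [InnerProductSpace ℝ V] [FiniteDimensional ℝ V]

theorem rotK_sub (B B' : V →L[ℝ] V) : rotK B - rotK B' = rotK (B - B') := by
  ext z
  apply WithLp.ofLp_injective 2
  refine Prod.ext ?_ ?_
  · show -(B z.snd) - -(B' z.snd) = -((B - B') z.snd)
    simp; abel
  · show B z.fst - B' z.fst = (B - B') z.fst
    simp

theorem continuous_rotK : Continuous (rotK (V := V)) := by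
  have h : LipschitzWith 1 (rotK (V := V)) := LipschitzWith.of_dist_le_mul fun B B' => ?_
  · exact h.continuous
  rw [dist_eq_norm, dist_eq_norm, rotK_sub, NNReal.coe_one, one_mul]
  exact norm_rotK_le _

theorem continuous_expK_left {W : Type} [NormedAddCommGroup W] [InnerProductSpace ℝ W]
    [CompleteSpace W] (a : ℝ) : Continuous (fun K : W →L[ℝ] W => expK K a) := by
  have h0 : Continuous (fun K : W →L[ℝ] W => NormedSpace.exp K) :=
    continuous_iff_continuousAt.mpr fun x =>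
      (NormedSpace.exp_analytic (𝕂 := ℝ) x).continuousAt
  exact h0.comp (continuous_id.const_smul a)

theorem continuous_rotE₂ (a : ℝ) :
    Continuous (fun z : (V →L[ℝ] V) × (V × V) => rotE z.1 a (WithLp.toLp 2 z.2)) := by
  have h1 : Continuous fun z : (V →L[ℝ] V) × (V × V) => expK (rotK z.1) a :=
    (continuous_expK_left a).comp (continuous_rotK.comp continuous_fst)
  exact h1.clm_apply (by fun_prop)

theorem continuous_rotC₂ (c : Bool) (a : ℝ) :
    Continuous (fun z : (V →L[ℝ] V) × (V × V) => rotC z.1 c a z.2) := by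
  cases c
  · exact (WithLp.sndL 2 ℝ V V).continuous.comp (continuous_rotE₂ a)
  · exact (WithLp.fstL 2 ℝ V V).continuous.comp (continuous_rotE₂ a)

end rotcont

end Crest.Agent.R285
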