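import Crest.Agent.R285.PDM
import Crest.Agent.R285.PolyEv
import Crest.Agent.R285.InstAlg
import Crest.Agent.R285.Curve

/-!
Row 285 (S0430): values of the generators of the formal ring at a space-time point, and the proof
that the total derivative `Dv v` along the flow acts on them as the formal derivation `XX`.

`u s y` is the coarse potential as a function of `s = variance` (`∂ₛu = Δu/2 - |∇u|²/2`), `a` the centre,
`H t x` the `η`-coordinate and `B t x` the `b`-coordinate of the state `x : W` at time `t`.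
-/

set_option autoImplicit false
set_option linter.unusedSectionVars false

open Set Filter Topology
open Crest.OracleSampling (E)
open scoped ContDiff

noncomputable section

namespace Crest.Agent.R285.Inst

variable {d : ℕ} {W : Type} [NormedAddCommGroup W] [NormedSpace ℝ W]

/-- Values of the generators. -/
def val (tau : ℝ) (u : ℝ → E d → ℝ) (a : E d) (H B : ℝ → W → E d) :
    Gen (Fin d) → ℝ → W → ℝ
  | .eps, t, _ => t
  | .eta i, t, x => H t x i
  | .b i, t, x => B t x i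
  | .T m, t, x => tau⁻¹ * AF.pdm m (u (1 - t ^ 2)) (a + t • H t x)

/-- Evaluation at a space-time point. -/
abbrev evt (tau : ℝ) (u : ℝ → E d → ℝ) (a : E d) (H B : ℝ → W → E d) (t : ℝ) (x : W) :
    A (Fin d) →ₐ[ℝ] ℝ :=
  PolyEv.evp (fun g (p : ℝ × W) => val tau u a H B g p.1 p.2) (t, x)

section

variable {tau et : ℝ} {u : ℝ → E d → ℝ} {a : E d} {H B : ℝ → W → E d}

@[simp] theorem evt_e (t : ℝ) (x : W) : evt tau u a H B t x ge = t := by
  simp [evt, ge, val]
@[simp] theorem evt_η (t : ℝ) (x : W) (i : Fin d) : evt tau u a H B t x (gη i) = H t x i := by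
  simp [evt, gη, val]
@[simp] theorem evt_b (t : ℝ) (x : W) (i : Fin d) : evt tau u a H B t x (gb i) = B t x i := by
  simp [evt, gb, val]
@[simp] theorem evt_T (t : ℝ) (x : W) (m : Multiset (Fin d)) : evt tau u a H B t x (gT m) =
    tau⁻¹ * AF.pdm m (u (1 - t ^ 2)) (a + t • H t x) := by
  simp [evt, gT, val]
@[simp] theorem evt_C (t : ℝ) (x : W) (r : ℝ) : evt tau u a H B t x (MvPolynomial.C r) = r := by
  simp [evt]

/-- Full derivative of a function of space-time in terms of its partial derivatives. -/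
theorem fderiv_pdm {J : Set ℝ} (hJ : IsOpen J)
    (hu : ContDiffOn ℝ ∞ (fun p : ℝ × E d => u p.1 p.2) (J ×ˢ univ))
    (hHJ : ∀ t ∈ J, ∀ x, AF.dtf u t x = AF.HJr (u t) 0 x) {s : ℝ} (hs : s ∈ J)
    (m : Multiset (Fin d)) (y : E d) (α : ℝ) (β : E d) :
    fderiv ℝ (fun p : ℝ × E d => AF.pdm m (u p.1) p.2) (s, y) (α, β) =
      α * AF.HJr (u s) m y + ∑ l, β l * AF.pdm (l ::ₘ m) (u s) y := by
  have hj := AF.joint_pdm hJ hu m
  have h1 : fderiv ℝ (fun p : ℝ × E d => AF.pdm m (u p.1) p.2) (s, y) (1, 0) =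
      AF.HJr (u s) m y :=
    (AF.hasDerivAt_slice (u := fun s => AF.pdm m (u s)) hJ hj hs y).unique
      (AF.hasDerivAt_pdm hJ hu hHJ hs m y)
  have h2 : fderiv ℝ (fun p : ℝ × E d => AF.pdm m (u p.1) p.2) (s, y) (0, β) =
      fderiv ℝ (AF.pdm m (u s)) y β :=
    (AF.fderiv_slice (u := fun s => AF.pdm m (u s)) hJ hj hs y β).symm
  have h3 : fderiv ℝ (AF.pdm m (u s)) y β = ∑ l, β l * AF.pdm (l ::ₘ m) (u s) y := by
    have hb : β = ∑ l, β l • AF.ev l := by
      have := (EuclideanSpace.basisFun (Fin d) ℝ).sum_repr β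
      simpa [AF.ev] using this.symm
    conv_lhs => rw [hb]
    rw [map_sum]
    refine Finset.sum_congr rfl fun l _ => ?_
    rw [map_smul, smul_eq_mul, AF.pdm_cons (AF.joint_slice hu hs)]
    rfl
  have e : ((α, β) : ℝ × E d) = α • ((1 : ℝ), (0 : E d)) + ((0 : ℝ), β) := by simp
  rw [e, map_add, map_smul, h1, h2, h3, smul_eq_mul]

/-- Evaluation of the quadratic term. -/
theorem evt_RR (t : ℝ) (x : W) (m : Multiset (Fin d)) : evt tau u a H B t x (RR m) =
    tau⁻¹ ^ 2 * AF.Nfull (fun m => AF.pdm m (u (1 - t ^ 2)) (a + t • H t x)) m := by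
  rw [RR_eq, map_multiset_sum, Multiset.map_map, AF.Nfull, AF.qsum, ← Multiset.sum_map_mul_left]
  congr 1
  refine Multiset.map_congr rfl fun p _ => ?_
  simp only [Function.comp_apply, FF, map_sum, map_mul, evt_T, Finset.mul_sum]
  refine Finset.sum_congr rfl fun l _ => ?_
  ring

theorem Dv_clm {F G : Type} [NormedAddCommGroup F] [NormedSpace ℝ F] [NormedAddCommGroup G]
    [NormedSpace ℝ G] {v : ℝ → W → W} {f : ℝ → W → F} {t : ℝ} {x : W}
    (hf : DifferentiableAt ℝ (fun p : ℝ × W => f p.1 p.2) (t, x)) (L : F →L[ℝ] G) :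
    Dv v (fun t x => L (f t x)) t x = L (Dv v f t x) := by
  unfold Dv
  have h : HasFDerivAt (fun p : ℝ × W => L (f p.1 p.2)) _ (t, x) :=
    L.hasFDerivAt.comp (t, x) hf.hasFDerivAt
  rw [h.fderiv]
  rfl

theorem Dv_space (H : ℝ → W → E d) {t : ℝ} {x : W} (a : E d)
    (hH : DifferentiableAt ℝ (fun p : ℝ × W => H p.1 p.2) (t, x)) :
    HasFDerivAt (fun p : ℝ × W => ((1 - p.1 ^ 2, a + p.1 • H p.1 p.2) : ℝ × E d))
      ((-(2 * t) • ContinuousLinearMap.fst ℝ ℝ W).prod
        ((ContinuousLinearMap.fst ℝ ℝ W).smulRight (H t x) +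
          t • fderiv ℝ (fun p : ℝ × W => H p.1 p.2) (t, x))) (t, x) := by
  have hf : HasFDerivAt (fun p : ℝ × W => p.1) (ContinuousLinearMap.fst ℝ ℝ W) (t, x) :=
    hasFDerivAt_fst
  refine HasFDerivAt.prodMk ?_ ?_
  · have h1 : HasDerivAt (fun t : ℝ => 1 - t ^ 2) (-(2 * t)) t := by
      simpa using ((hasDerivAt_id t).pow 2).const_sub 1
    exact h1.comp_hasFDerivAt (f := fun p : ℝ × W => p.1) (t, x) hf
  · refine ((hf.smul hH.hasFDerivAt).const_add a).congr_fderiv ?_
    ext p <;> simp [add_comm]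

/-- The total derivative of the values of the generators. -/
theorem Dv_val (htau : tau ≠ 0)
    (hu : ContDiffOn ℝ ∞ (fun p : ℝ × E d => u p.1 p.2) (Ioi 0 ×ˢ univ))
    (hHJ : ∀ t ∈ Ioi (0 : ℝ), ∀ x, AF.dtf u t x = AF.HJr (u t) 0 x) {v : ℝ → W → W} {t : ℝ}
    {x : W} (ht : t ∈ Ioo (-1 : ℝ) 1)
    (hH : DifferentiableAt ℝ (fun p : ℝ × W => H p.1 p.2) (t, x))
    (hB : DifferentiableAt ℝ (fun p : ℝ × W => B p.1 p.2) (t, x))
    (hvH : ∀ i, Dv v H t x i = evt tau u a H B t x (XX tau et (gη i)))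
    (hvB : ∀ i, Dv v B t x i = evt tau u a H B t x (XX tau et (gb i))) (g : Gen (Fin d)) :
    Dv v (val tau u a H B g) t x = evt tau u a H B t x (XX tau et (MvPolynomial.X g)) := by
  cases g with
  | eps =>
    have h1 : XX tau et (MvPolynomial.X Gen.eps : A (Fin d)) = 1 := XX_e tau et
    rw [h1, map_one]
    have h2 : HasFDerivAt (fun p : ℝ × W => p.1) (ContinuousLinearMap.fst ℝ ℝ W) (t, x) :=
      hasFDerivAt_fst
    change fderiv ℝ (fun p : ℝ × W => p.1) (t, x) (1, v t x) = 1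
    rw [h2.fderiv]
    rfl
  | eta i =>
    have h1 := Dv_clm (v := v) hH (EuclideanSpace.proj i : E d →L[ℝ] ℝ)
    exact h1.trans (hvH i)
  | b i =>
    have h1 := Dv_clm (v := v) hB (EuclideanSpace.proj i : E d →L[ℝ] ℝ)
    exact h1.trans (hvB i)
  | T m =>
    have ht0 : (1 - t ^ 2) ∈ Ioi (0 : ℝ) := by
      simp only [mem_Ioi]
      nlinarith [ht.1, ht.2]
    set s := 1 - t ^ 2 with hs
    set y := a + t • H t x with hy
    have hj := AF.joint_pdm isOpen_Ioi hu m
    have hd : DifferentiableAt ℝ (fun p : ℝ × E d => AF.pdm m (u p.1) p.2) (s, y) :=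
      AF.joint_diffAt (u := fun s => AF.pdm m (u s)) isOpen_Ioi hj ht0 y
    have h1 := HasFDerivAt.comp (g := fun p : ℝ × E d => AF.pdm m (u p.1) p.2)
      (f := fun p : ℝ × W => ((1 - p.1 ^ 2, a + p.1 • H p.1 p.2) : ℝ × E d)) (t, x)
      hd.hasFDerivAt (Dv_space H a hH)
    have h2 : Dv v (val tau u a H B (Gen.T m)) t x = tau⁻¹ *
        (-(2 * t) * AF.HJr (u s) m y + ∑ l, (H t x + t • Dv v H t x) l *
          AF.pdm (l ::ₘ m) (u s) y) := by
      have h3 := h1.const_mul tau⁻¹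
      have e1 : Dv v (val tau u a H B (Gen.T m)) t x = _ :=
        congrArg (fun L : ℝ × W →L[ℝ] ℝ => L (1, v t x)) h3.fderiv
      rw [e1]
      rw [← fderiv_pdm isOpen_Ioi hu hHJ ht0 m y]
      simp [Dv]
    rw [h2]
    have e3 : XX tau et (MvPolynomial.X (Gen.T m) : A (Fin d)) = XX tau et (gT m) := rfl
    rw [e3, XX_T]
    simp only [map_add, map_sub, map_mul, map_sum, evt_RR, evt_e, evt_η, evt_b, evt_T, evt_C]
    have e4 : ∀ l, (H t x + t • Dv v H t x) l = H t x l - t * AF.pdm {l} (u s) y +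
        t * (et * ∑ k, B t x k * (tau⁻¹ * AF.pdm {k, l} (u s) y)) := by
      intro l
      have e5 : (H t x + t • Dv v H t x) l = H t x l + t * Dv v H t x l := rfl
      rw [e5, hvH l, XX_η]
      simp only [map_add, map_neg, map_mul, map_sum, evt_b, evt_T, evt_C]
      rw [← hs, ← hy]
      field_simp
      ring
    simp only [e4]
    rw [← hs, ← hy, AF.HJr]
    set D : Multiset (Fin d) → ℝ := fun m => AF.pdm m (u s) y with hD
    have eD : ∀ m, AF.pdm m (u s) y = D m := fun _ => rfl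
    have f1 : ∑ l, (H t x l - t * D {l} + t * (et * ∑ k, B t x k * (tau⁻¹ * D {k, l}))) *
        D (l ::ₘ m) = (∑ l, H t x l * D (l ::ₘ m)) - t * (∑ l, D {l} * D (l ::ₘ m)) +
          t * et * (∑ k, ∑ l, B t x k * (tau⁻¹ * D {k, l}) * D (l ::ₘ m)) := by
      rw [Finset.sum_comm (s := Finset.univ) (t := Finset.univ)
        (f := fun k l => B t x k * (tau⁻¹ * D {k, l}) * D (l ::ₘ m)), Finset.mul_sum,
        Finset.mul_sum, ← Finset.sum_sub_distrib, ← Finset.sum_add_distrib]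
      refine Finset.sum_congr rfl fun l _ => ?_
      rw [← Finset.sum_mul]
      ring
    have f2 : ∑ l, (H t x l - tau * t * (tau⁻¹ * D {l})) * (tau⁻¹ * D (l ::ₘ m)) =
        tau⁻¹ * ((∑ l, H t x l * D (l ::ₘ m)) - t * (∑ l, D {l} * D (l ::ₘ m))) := by
      rw [Finset.mul_sum, ← Finset.sum_sub_distrib, Finset.mul_sum]
      refine Finset.sum_congr rfl fun l _ => ?_
      field_simp
    have f3 : ∑ k, ∑ l, B t x k * (tau⁻¹ * D {k, l}) * (tau⁻¹ * D (l ::ₘ m)) =
        tau⁻¹ * ∑ k, ∑ l, B t x k * (tau⁻¹ * D {k, l}) * D (l ::ₘ m) := by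
      rw [Finset.mul_sum]
      refine Finset.sum_congr rfl fun k _ => ?_
      rw [Finset.mul_sum]
      refine Finset.sum_congr rfl fun l _ => ?_
      ring
    simp only [eD]
    rw [f1, f2, f3, ← Finset.mul_sum]
    field_simp
    ring


variable {J : Set ℝ} {v : ℝ → W → W}

theorem smOn_val (hu : ContDiffOn ℝ ∞ (fun p : ℝ × E d => u p.1 p.2) (Ioi 0 ×ˢ univ))
    (hJ : J ⊆ Ioo (-1 : ℝ) 1) (hH : SmOn H J) (hB : SmOn B J) (g : Gen (Fin d)) :
    SmOn (val tau u a H B g) J := by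
  cases g with
  | eps => exact contDiff_fst.contDiffOn
  | eta i => exact (EuclideanSpace.proj i : E d →L[ℝ] ℝ).contDiff.comp_contDiffOn hH
  | b i => exact (EuclideanSpace.proj i : E d →L[ℝ] ℝ).contDiff.comp_contDiffOn hB
  | T m =>
    have h1 : ContDiffOn ℝ ∞ (fun p : ℝ × W => ((1 - p.1 ^ 2, a + p.1 • H p.1 p.2) : ℝ × E d))
        (J ×ˢ univ) := by
      have h0 : ContDiffOn ℝ ∞ (fun p : ℝ × W => p.1 • H p.1 p.2) (J ×ˢ univ) :=
        contDiff_fst.contDiffOn.smul hH
      exact ContDiffOn.prodMk (by fun_prop) (contDiffOn_const.add h0)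
    refine contDiffOn_const.mul ((AF.joint_pdm isOpen_Ioi hu m).comp h1 fun p hp => ?_)
    have h2 := hJ hp.1
    refine ⟨?_, mem_univ _⟩
    simp only [mem_Ioi]
    nlinarith [h2.1, h2.2]

theorem smOn_evt (hu : ContDiffOn ℝ ∞ (fun p : ℝ × E d => u p.1 p.2) (Ioi 0 ×ˢ univ))
    (hJ : J ⊆ Ioo (-1 : ℝ) 1) (hH : SmOn H J) (hB : SmOn B J) (f : A (Fin d)) :
    SmOn (fun t x => evt tau u a H B t x f) J := by
  induction f using MvPolynomial.induction_on with
  | C r => simpa only [evt_C] using contDiffOn_const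
  | add p q hp hq => simp only [map_add]; exact hp.add hq
  | mul_X p g hp =>
    simp only [map_mul, PolyEv.evp_X]
    exact hp.mul (smOn_val hu hJ hH hB g)

/-- **The total derivative is the formal derivation `XX`.** -/
theorem Dv_evt (htau : tau ≠ 0)
    (hu : ContDiffOn ℝ ∞ (fun p : ℝ × E d => u p.1 p.2) (Ioi 0 ×ˢ univ))
    (hHJ : ∀ t ∈ Ioi (0 : ℝ), ∀ x, AF.dtf u t x = AF.HJr (u t) 0 x) (hJo : IsOpen J)
    (hJ : J ⊆ Ioo (-1 : ℝ) 1) (hH : SmOn H J) (hB : SmOn B J)
    (hvH : ∀ t ∈ J, ∀ x i, Dv v H t x i = evt tau u a H B t x (XX tau et (gη i)))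
    (hvB : ∀ t ∈ J, ∀ x i, Dv v B t x i = evt tau u a H B t x (XX tau et (gb i)))
    (f : A (Fin d)) {t : ℝ} (ht : t ∈ J) (x : W) :
    Dv v (fun t x => evt tau u a H B t x f) t x = evt tau u a H B t x (XX tau et f) := by
  induction f using MvPolynomial.induction_on with
  | C r =>
    have : XX tau et (MvPolynomial.C r : A (Fin d)) = 0 := (XX tau et).map_algebraMap r
    rw [this, map_zero]
    simp [Dv]
  | add p q hp hq =>
    have h1 := (smOn_evt (tau := tau) (a := a) hu hJ hH hB p).differentiableAt hJo ht x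
    have h2 := (smOn_evt (tau := tau) (a := a) hu hJ hH hB q).differentiableAt hJo ht x
    rw [map_add, map_add, ← hp, ← hq]
    have e : (fun p' : ℝ × W => evt tau u a H B p'.1 p'.2 (p + q)) =
        fun p' => evt tau u a H B p'.1 p'.2 p + evt tau u a H B p'.1 p'.2 q := by
      funext p'; exact map_add _ _ _
    have h4 : fderiv ℝ (fun p' : ℝ × W => evt tau u a H B p'.1 p'.2 p +
        evt tau u a H B p'.1 p'.2 q) (t, x) = _ := (h1.hasFDerivAt.add h2.hasFDerivAt).fderiv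
    unfold Dv
    rw [e, h4]
    rfl
  | mul_X p g hp =>
    have h1 := (smOn_evt (tau := tau) (a := a) hu hJ hH hB p).differentiableAt hJo ht x
    have h2 := (smOn_val (tau := tau) (a := a) hu hJ hH hB g).differentiableAt hJo ht x
    have h3 := Dv_val (et := et) htau hu hHJ (hJ ht) (hH.differentiableAt hJo ht x)
      (hB.differentiableAt hJo ht x) (hvH t ht x) (hvB t ht x) g
    rw [Derivation.leibniz, map_add, smul_eq_mul, smul_eq_mul, map_mul, map_mul, ← hp, ← h3]
    have e : (fun p' : ℝ × W => evt tau u a H B p'.1 p'.2 (p * MvPolynomial.X g)) =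
        fun p' => evt tau u a H B p'.1 p'.2 p * val tau u a H B g p'.1 p'.2 := by
      funext p'; rw [map_mul]; congr 1; exact PolyEv.evp_X _ _ _
    have e2 : evt tau u a H B t x (MvPolynomial.X g) = val tau u a H B g t x := PolyEv.evp_X _ _ _
    rw [e2]
    have h4 : fderiv ℝ (fun p' : ℝ × W => evt tau u a H B p'.1 p'.2 p *
        val tau u a H B g p'.1 p'.2) (t, x) = _ := (h1.hasFDerivAt.mul h2.hasFDerivAt).fderiv
    unfold Dv
    rw [e, h4]
    simp only [add_apply, smul_apply, smul_eq_mul]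

theorem iterate_Dv_evt (htau : tau ≠ 0)
    (hu : ContDiffOn ℝ ∞ (fun p : ℝ × E d => u p.1 p.2) (Ioi 0 ×ˢ univ))
    (hHJ : ∀ t ∈ Ioi (0 : ℝ), ∀ x, AF.dtf u t x = AF.HJr (u t) 0 x) (hJo : IsOpen J)
    (hJ : J ⊆ Ioo (-1 : ℝ) 1) (hH : SmOn H J) (hB : SmOn B J)
    (hvH : ∀ t ∈ J, ∀ x i, Dv v H t x i = evt tau u a H B t x (XX tau et (gη i)))
    (hvB : ∀ t ∈ J, ∀ x i, Dv v B t x i = evt tau u a H B t x (XX tau et (gb i)))
    (f : A (Fin d)) (n : ℕ) : ∀ {t : ℝ}, t ∈ J → ∀ x : W,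
    ((Dv v)^[n] (fun t x => evt tau u a H B t x f)) t x =
      evt tau u a H B t x ((XX tau et)^[n] f) := by
  induction n with
  | zero => intro t _ x; rfl
  | succ n ih =>
    intro t ht x
    rw [Function.iterate_succ_apply', Function.iterate_succ_apply',
      ← Dv_evt htau hu hHJ hJo hJ hH hB hvH hvB _ ht x]
    unfold Dv
    congr 1
    refine Filter.EventuallyEq.fderiv_eq ?_
    filter_upwards [(hJo.prod isOpen_univ).mem_nhds (⟨ht, mem_univ x⟩ : (t, x) ∈ J ×ˢ univ)]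
      with q hq
    exact ih hq.1 q.2

end

end Crest.Agent.R285.Inst
end
private theorem rz_948367cb0a : type_of% @_root_.Crest.Agent.R285.Inst.val.eq_1 := @_root_.Crest.Agent.R285.Inst.val.eq_1 -- L28
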