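import Crest.Agent.R285.Skew
import Crest.Agent.R285.Froz

/-!
Row 285, module CHANNEL, part 5 (helper582): joint laws for the Q-system.

`ηT, bT : V × V → V` are the values at one time of the coupled flow started at `(ξ, b₀) ∼ γ × γ`;
their joint law is a product `μ × γ`.  The third Gaussian `q` is independent.
-/

set_option autoImplicit false
set_option linter.unusedSectionVars false

open MeasureTheory ProbabilityTheory Real Set
open scoped RealInnerProductSpace ENNReal

noncomputable section

namespace Crest.Agent.R285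

variable {V : Type} [NormedAddCommGroup V] [InnerProductSpace ℝ V] [FiniteDimensional ℝ V]
  [MeasurableSpace V] [BorelSpace V] {h : ℝ} {U : V → ℝ}

open Chan

/-- `γ × γ × γ` -/
abbrev gam3 (V : Type) [NormedAddCommGroup V] [InnerProductSpace ℝ V] [FiniteDimensional ℝ V]
    [MeasurableSpace V] [BorelSpace V] : Measure ((V × V) × V) :=
  ((stdGaussian V).prod (stdGaussian V)).prod (stdGaussian V)

/-- The explicit joint law of `(Y, (b, q))`. -/
theorem law3_of {ηT bT : V × V → V} (hη : Measurable ηT) (hb : Measurable bT) {μ : Measure V}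
    [IsProbabilityMeasure μ]
    (hl : ((stdGaussian V).prod (stdGaussian V)).map (fun w => (ηT w, bT w)) =
      μ.prod (stdGaussian V)) {Φ : V → V} (hΦ : Measurable Φ) :
    (gam3 V).map (fun ω => (Φ (ηT ω.1), (bT ω.1, ω.2))) =
      (μ.map Φ).prod ((stdGaussian V).prod (stdGaussian V)) := by
  have hm : Measurable (fun w : V × V => (ηT w, bT w)) := hη.prodMk hb
  have e1 : (gam3 V).map (Prod.map (fun w : V × V => (ηT w, bT w)) (id : V → V)) =
      (μ.prod (stdGaussian V)).prod (stdGaussian V) := by
    rw [← Measure.map_prod_map _ _ hm measurable_id, hl, Measure.map_id]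
  have e2 : (((μ.prod (stdGaussian V)).prod (stdGaussian V)).map MeasurableEquiv.prodAssoc) =
      μ.prod ((stdGaussian V).prod (stdGaussian V)) := Measure.prodAssoc_prod
  have e3 : (μ.prod ((stdGaussian V).prod (stdGaussian V))).map (Prod.map Φ id) =
      (μ.map Φ).prod ((stdGaussian V).prod (stdGaussian V)) := by
    rw [← Measure.map_prod_map _ _ hΦ measurable_id, Measure.map_id]
  rw [← e3, ← e2, ← e1, Measure.map_map MeasurableEquiv.prodAssoc.measurable
    (hm.prodMap measurable_id), Measure.map_map (hΦ.prodMap measurable_id)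
    (MeasurableEquiv.prodAssoc.measurable.comp (hm.prodMap measurable_id))]
  rfl

/-- 41's structure. -/
theorem frozLaw_of {ηT bT : V × V → V} (hη : Measurable ηT) (hb : Measurable bT) {μ : Measure V}
    [IsProbabilityMeasure μ]
    (hl : ((stdGaussian V).prod (stdGaussian V)).map (fun w => (ηT w, bT w)) =
      μ.prod (stdGaussian V)) {Φ : V → V} (hΦ : Measurable Φ) :
    FrozLaw (gam3 V) (fun ω => Φ (ηT ω.1)) (fun ω => bT ω.1) (fun ω => ω.2) where
  mY := hΦ.comp (hη.comp measurable_fst)
  mb := hb.comp measurable_fst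
  mq := measurable_snd
  law := ⟨μ.map Φ, Measure.isProbabilityMeasure_map hΦ.aemeasurable, law3_of hη hb hl hΦ⟩

/-- Law of the three visible vectors, for any Borel map `T (y, b, q)`. -/
theorem law_vis_of {α : Type*} [MeasurableSpace α] {ηT bT : V × V → V} (hη : Measurable ηT)
    (hb : Measurable bT) {μ : Measure V} [IsProbabilityMeasure μ]
    (hl : ((stdGaussian V).prod (stdGaussian V)).map (fun w => (ηT w, bT w)) =
      μ.prod (stdGaussian V)) {Φ : V → V} (hΦ : Measurable Φ)
    {T : V × (V × V) → α} (hT : Measurable T) :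
    (gam3 V).map (fun ω => T (Φ (ηT ω.1), (bT ω.1, ω.2))) =
      ((μ.map Φ).prod ((stdGaussian V).prod (stdGaussian V))).map T := by
  rw [← law3_of hη hb hl hΦ, Measure.map_map hT]
  · rfl
  · exact (hΦ.comp (hη.comp measurable_fst)).prodMk ((hb.comp measurable_fst).prodMk measurable_snd)

/-- Law of `m + σ b₀`, with `b₀` the second Gaussian. -/
theorem law_X0 (m : V) (σ : ℝ) : (gam3 V).map (fun ω => m + σ • ω.1.2) = gN m σ := by
  have h1 : (gam3 V).map (fun ω => ω.1.2) = stdGaussian V := by
    have : (fun ω : (V × V) × V => ω.1.2) = Prod.snd ∘ Prod.fst := rfl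
    rw [this, ← Measure.map_map measurable_snd measurable_fst, Measure.map_fst_prod]
    simp
  have h2 : (gam3 V).map (fun ω => m + σ • ω.1.2) =
      ((gam3 V).map (fun ω => ω.1.2)).map (fun g => m + σ • g) := by
    rw [Measure.map_map (measurable_aff m σ) (by fun_prop)]
    rfl
  rw [h2, h1]
  rfl



end Crest.Agent.R285
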