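import Mathlib
import Crest.Prelude.Def_OracleSampling
import Crest.Agent.Lib.PrekopaLeindler
import Crest.Agent.R285.Defs

-- ▼ part R285/TopGibbs
section

/-!
Row 285 (S0430), module TOP: Gibbs measures `gibbs W ∝ exp (-W)` of strongly (midpoint) convex
potentials on Euclidean space.
-/

set_option autoImplicit false

open MeasureTheory Crest.OracleSampling Set Filter Topology
open scoped ENNReal

noncomputable section

namespace Crest.Agent.R285

variable {d : ℕ}

/-- The (normalized) Gibbs measure of a potential. -/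
def gibbs (W : E d → ℝ) : Measure (E d) :=
  (((volume : Measure (E d)).withDensity fun x => ENNReal.ofReal (Real.exp (-W x))) Set.univ)⁻¹ •
    (volume : Measure (E d)).withDensity fun x => ENNReal.ofReal (Real.exp (-W x))

theorem target_eq_gibbs (V : E d → ℝ) : target d V = gibbs V := rfl

/-- The partition function. -/
def ZZ (W : E d → ℝ) : ℝ := ∫ x, Real.exp (-W x)

/-- Quadratic growth. -/
structure QG (W : E d → ℝ) : Prop where
  cont : Continuous W
  lb : ∃ a : ℝ, 0 < a ∧ ∃ B : ℝ, ∀ x, a * ‖x‖ ^ 2 - B ≤ W x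

theorem integrable_exp_neg_mul_sq_norm {a : ℝ} (ha : 0 < a) :
    Integrable (fun x : E d => Real.exp (-(a * ‖x‖ ^ 2))) := by
  have h := GaussianFourier.integrable_cexp_neg_mul_sq_norm_add (V := E d) (b := (a : ℂ))
    (by simpa using ha) 0 0
  have h2 := h.re
  refine h2.congr (Eventually.of_forall fun x => ?_)
  simp only [zero_mul, add_zero]
  have : (-(a:ℂ) * (‖x‖:ℂ) ^ 2) = ((-(a * ‖x‖ ^ 2) : ℝ) : ℂ) := by push_cast; ring
  rw [this, ← Complex.ofReal_exp]
  exact Complex.ofReal_re _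

theorem QG.integrable_exp {W : E d → ℝ} (hW : QG W) (K : ℝ) :
    Integrable (fun x : E d => Real.exp (-W x + K * ‖x‖)) := by
  obtain ⟨a, ha, B, hB⟩ := hW.lb
  have h1 := (integrable_exp_neg_mul_sq_norm (d := d) (half_pos ha)).const_mul
    (Real.exp (B + K ^ 2 / (2 * a)))
  refine h1.mono' ?_ (Eventually.of_forall fun x => ?_)
  · exact (Real.continuous_exp.comp (hW.cont.neg.add
      (continuous_const.mul continuous_norm))).aestronglyMeasurable
  · rw [Real.norm_eq_abs, abs_of_pos (Real.exp_pos _), ← Real.exp_add]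
    apply Real.exp_le_exp.mpr
    have h2 := hB x
    have h3 : K * ‖x‖ ≤ K ^ 2 / (2 * a) + a / 2 * ‖x‖ ^ 2 := by
      rw [← sub_nonneg]
      have : K ^ 2 / (2 * a) + a / 2 * ‖x‖ ^ 2 - K * ‖x‖ = (K - a * ‖x‖) ^ 2 / (2 * a) := by
        field_simp; ring
      rw [this]; positivity
    nlinarith

theorem QG.integrable_exp_neg {W : E d → ℝ} (hW : QG W) :
    Integrable (fun x : E d => Real.exp (-W x)) := by
  simpa using hW.integrable_exp 0

theorem QG.ZZ_pos {W : E d → ℝ} (hW : QG W) : 0 < ZZ W := by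
  unfold ZZ
  exact integral_exp_pos hW.integrable_exp_neg

theorem QG.lintegral_exp_neg {W : E d → ℝ} (hW : QG W) :
    ∫⁻ x, ENNReal.ofReal (Real.exp (-W x)) = ENNReal.ofReal (ZZ W) := by
  unfold ZZ
  rw [ofReal_integral_eq_lintegral_ofReal hW.integrable_exp_neg
    (Eventually.of_forall fun x => (Real.exp_pos _).le)]

theorem gibbs_eq {W : E d → ℝ} (hW : QG W) :
    gibbs W = (volume : Measure (E d)).withDensity
      fun x => ENNReal.ofReal (Real.exp (-W x) / ZZ W) := by
  unfold gibbs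
  rw [withDensity_apply _ MeasurableSet.univ, Measure.restrict_univ, hW.lintegral_exp_neg,
    ← withDensity_smul _ (by
      exact ENNReal.measurable_ofReal.comp (Real.continuous_exp.comp hW.cont.neg).measurable)]
  congr 1
  funext x
  rw [Pi.smul_apply, smul_eq_mul, ← ENNReal.ofReal_inv_of_pos hW.ZZ_pos,
    ← ENNReal.ofReal_mul (inv_nonneg.mpr hW.ZZ_pos.le)]
  congr 1
  rw [div_eq_inv_mul]

theorem QG.isProb {W : E d → ℝ} (hW : QG W) : IsProbabilityMeasure (gibbs W) := by
  refine ⟨?_⟩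
  rw [gibbs_eq hW, withDensity_apply _ MeasurableSet.univ, Measure.restrict_univ,
    ← ofReal_integral_eq_lintegral_ofReal (hW.integrable_exp_neg.div_const _)
      (Eventually.of_forall fun x => div_nonneg (Real.exp_pos _).le hW.ZZ_pos.le),
    integral_div]
  have h : (∫ x, Real.exp (-W x)) / ZZ W = 1 := div_self (ne_of_gt hW.ZZ_pos)
  rw [h, ENNReal.ofReal_one]

theorem integral_gibbs {W : E d → ℝ} (hW : QG W) {F : Type} [NormedAddCommGroup F]
    [NormedSpace ℝ F] (f : E d → F) :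
    ∫ x, f x ∂(gibbs W) = (ZZ W)⁻¹ • ∫ x, Real.exp (-W x) • f x := by
  have hm : Measurable fun x => (Real.exp (-W x) / ZZ W).toNNReal :=
    (Real.continuous_exp.comp hW.cont.neg |>.div_const _).measurable.real_toNNReal
  have e1 : (fun x => ENNReal.ofReal (Real.exp (-W x) / ZZ W)) =
      fun x => (((Real.exp (-W x) / ZZ W).toNNReal : NNReal) : ℝ≥0∞) := rfl
  rw [gibbs_eq hW, e1, integral_withDensity_eq_integral_smul hm]
  · rw [← integral_smul]
    congr 1
    funext x
    have : 0 ≤ Real.exp (-W x) / ZZ W := div_nonneg (Real.exp_pos _).le hW.ZZ_pos.le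
    rw [NNReal.smul_def, Real.coe_toNNReal _ this, smul_smul, div_eq_inv_mul]

theorem integrable_gibbs_iff {W : E d → ℝ} (hW : QG W) {F : Type} [NormedAddCommGroup F]
    [NormedSpace ℝ F] (f : E d → F) :
    Integrable f (gibbs W) ↔ Integrable (fun x => Real.exp (-W x) • f x) := by
  rw [gibbs_eq hW]
  have hm : Measurable fun x => (Real.exp (-W x) / ZZ W).toNNReal :=
    (Real.continuous_exp.comp hW.cont.neg |>.div_const _).measurable.real_toNNReal
  have e1 : (fun x => ENNReal.ofReal (Real.exp (-W x) / ZZ W)) =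
      fun x => (((Real.exp (-W x) / ZZ W).toNNReal : NNReal) : ℝ≥0∞) := rfl
  rw [e1, integrable_withDensity_iff_integrable_smul hm]
  have h0 : (ZZ W)⁻¹ ≠ 0 := inv_ne_zero (ne_of_gt hW.ZZ_pos)
  have e2 : (fun x => (Real.exp (-W x) / ZZ W).toNNReal • f x) =
      fun x => (ZZ W)⁻¹ • (Real.exp (-W x) • f x) := by
    funext x
    have : 0 ≤ Real.exp (-W x) / ZZ W := div_nonneg (Real.exp_pos _).le hW.ZZ_pos.le
    rw [NNReal.smul_def, Real.coe_toNNReal _ this, smul_smul, div_eq_inv_mul]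
  rw [e2]
  exact integrable_smul_iff h0 _

/-- Everything of exponential growth is integrable. -/
theorem QG.integrable_of_le {W : E d → ℝ} (hW : QG W) {F : Type} [NormedAddCommGroup F]
    [NormedSpace ℝ F] {f : E d → F} (hf : AEStronglyMeasurable f volume) {C K : ℝ}
    (hb : ∀ x, ‖f x‖ ≤ C * Real.exp (K * ‖x‖)) : Integrable f (gibbs W) := by
  rw [integrable_gibbs_iff hW]
  refine ((hW.integrable_exp K).const_mul C).mono' ?_ (Eventually.of_forall fun x => ?_)
  · exact (Real.continuous_exp.comp hW.cont.neg).aestronglyMeasurable.smul hf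
  · rw [norm_smul, Real.norm_eq_abs, abs_of_pos (Real.exp_pos _)]
    calc Real.exp (-W x) * ‖f x‖ ≤ Real.exp (-W x) * (C * Real.exp (K * ‖x‖)) := by
          gcongr; exact hb x
      _ = C * Real.exp (-W x + K * ‖x‖) := by rw [Real.exp_add]; ring

theorem gibbs_add_const (W : E d → ℝ) (hW : QG W) (c : ℝ) :
    gibbs (fun x => W x + c) = gibbs W := by
  have hW' : QG (fun x => W x + c) := by
    refine ⟨hW.cont.add continuous_const, ?_⟩
    obtain ⟨a, ha, B, hB⟩ := hW.lb
    exact ⟨a, ha, B - c, fun x => by linarith [hB x]⟩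
  rw [gibbs_eq hW, gibbs_eq hW']
  congr 1
  funext x
  congr 1
  unfold ZZ
  simp only [neg_add, Real.exp_add]
  rw [integral_mul_const]
  have := Real.exp_pos (-c)
  rw [mul_div_mul_right _ _ (ne_of_gt this)]

end Crest.Agent.R285
end
end

-- ▼ part R285/TopVar
section

/-!
Row 285 (S0430), module TOP: variance of Lipschitz functions under strongly log-concave measures
(Maurey's argument from Prekopa–Leindler) and the contraction of linear tilts.
-/

set_option autoImplicit false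

open MeasureTheory Crest.OracleSampling Set Filter Topology
open scoped ENNReal RealInnerProductSpace

noncomputable section

namespace Crest.Agent.R285.Top

variable {d : ℕ}

/-- `m`-strong midpoint convexity, with quadratic growth. -/
structure SConv (m : ℝ) (W : E d → ℝ) : Prop extends QG W where
  mpos : 0 < m
  mid : ∀ x y, W ((1 / 2 : ℝ) • x + (1 / 2 : ℝ) • y) + m / 8 * ‖x - y‖ ^ 2 ≤ (W x + W y) / 2

/-- Lipschitz functions, written with norms. -/
def Lip (L : ℝ) (f : E d → ℝ) : Prop := ∀ x y, |f x - f y| ≤ L * ‖x - y‖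

theorem Lip.continuous {L : ℝ} {f : E d → ℝ} (hf : Lip L f) : Continuous f := by
  have : LipschitzWith (Real.toNNReal L) f := by
    refine LipschitzWith.of_dist_le_mul fun x y => ?_
    rw [Real.dist_eq, dist_eq_norm]
    refine (hf x y).trans ?_
    gcongr
    exact Real.le_coe_toNNReal L
  exact this.continuous

theorem Lip.abs_le {L : ℝ} {f : E d → ℝ} (hf : Lip L f) (x : E d) :
    |f x| ≤ |f 0| + L * ‖x‖ := by
  have h := hf x 0
  rw [sub_zero] at h
  calc |f x| = |f 0 + (f x - f 0)| := by ring_nf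
    _ ≤ |f 0| + |f x - f 0| := abs_add_le _ _
    _ ≤ _ := by linarith

theorem Lip.const_mul {L : ℝ} {f : E d → ℝ} (hf : Lip L f) {c : ℝ} (hc : 0 ≤ c) :
    Lip (c * L) (fun x => c * f x) := by
  intro x y
  have := hf x y
  rw [← mul_sub, abs_mul, abs_of_nonneg hc, mul_assoc]
  gcongr

theorem Lip.neg {L : ℝ} {f : E d → ℝ} (hf : Lip L f) : Lip L (fun x => -f x) := by
  intro x y
  have h := hf x y
  have e : |(-f x) - (-f y)| = |f x - f y| := by
    rw [← abs_neg]; congr 1; ring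
  rw [e]; exact h

theorem SConv.integrable_exp_add {m : ℝ} {W : E d → ℝ} (hW : SConv m W) {L : ℝ} {f : E d → ℝ}
    (hf : Lip L f) : Integrable (fun x => Real.exp (f x - W x)) := by
  refine ((hW.integrable_exp L).const_mul (Real.exp |f 0|)).mono' ?_
    (Eventually.of_forall fun x => ?_)
  · exact (Real.continuous_exp.comp (hf.continuous.sub hW.cont)).aestronglyMeasurable
  · rw [Real.norm_eq_abs, abs_of_pos (Real.exp_pos _), ← Real.exp_add]
    apply Real.exp_le_exp.mpr
    have h1 := hf.abs_le x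
    have h2 := le_abs_self (f x)
    linarith

/-- Maurey's exponential inequality. -/
theorem SConv.exp_mul_exp_le {m : ℝ} {W : E d → ℝ} (hW : SConv m W) {L : ℝ}
    {f : E d → ℝ} (hf : Lip L f) :
    (∫ x, Real.exp (f x - W x)) * (∫ x, Real.exp (-f x - W x)) ≤
      Real.exp (L ^ 2 / m) * (ZZ W) ^ 2 := by
  have hm := hW.mpos
  have hfc := hf.continuous
  have hWc := hW.cont
  -- Prekopa–Leindler
  have hPL := Lib.PrekopaLeindler.PL_euclidean d (1 / 2) (by norm_num) (by norm_num)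
    (fun x => ENNReal.ofReal (Real.exp (f x - L ^ 2 / m - W x)))
    (fun y => ENNReal.ofReal (Real.exp (-f y - W y)))
    (fun z => ENNReal.ofReal (Real.exp (-W z)))
    (by
      exact ENNReal.measurable_ofReal.comp
        (Real.continuous_exp.comp ((hfc.sub continuous_const).sub hWc)).measurable)
    (by
      exact ENNReal.measurable_ofReal.comp
        (Real.continuous_exp.comp (hfc.neg.sub hWc)).measurable)
    (by
      exact ENNReal.measurable_ofReal.comp (Real.continuous_exp.comp hWc.neg).measurable)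
    (by
      intro x y
      have e2 : (1 - 1 / 2 : ℝ) = 1 / 2 := by norm_num
      rw [e2, ENNReal.ofReal_rpow_of_pos (Real.exp_pos _),
        ENNReal.ofReal_rpow_of_pos (Real.exp_pos _), ← ENNReal.ofReal_mul (by positivity),
        ← Real.exp_mul, ← Real.exp_mul, ← Real.exp_add]
      apply ENNReal.ofReal_le_ofReal
      apply Real.exp_le_exp.mpr
      have h1 := hW.mid x y
      have h2 := (abs_le.mp (hf x y)).2
      have h3 : L * ‖x - y‖ ≤ L ^ 2 / m + m / 4 * ‖x - y‖ ^ 2 := by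
        rw [← sub_nonneg]
        have : L ^ 2 / m + m / 4 * ‖x - y‖ ^ 2 - L * ‖x - y‖ =
            (2 * L - m * ‖x - y‖) ^ 2 / (4 * m) := by
          field_simp; ring
        rw [this]; positivity
      linarith)
  have i1 : Integrable (fun x => Real.exp (f x - L ^ 2 / m - W x)) := by
    have := (hW.integrable_exp_add hf).const_mul (Real.exp (-(L ^ 2 / m)))
    refine this.congr (Eventually.of_forall fun x => ?_)
    simp only
    rw [← Real.exp_add]; congr 1; ring
  have i2 : Integrable (fun x => Real.exp (-f x - W x)) := hW.integrable_exp_add hf.neg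
  have i3 := hW.integrable_exp_neg
  rw [← ofReal_integral_eq_lintegral_ofReal i1 (Eventually.of_forall fun x => (Real.exp_pos _).le),
    ← ofReal_integral_eq_lintegral_ofReal i2 (Eventually.of_forall fun x => (Real.exp_pos _).le),
    ← ofReal_integral_eq_lintegral_ofReal i3
      (Eventually.of_forall fun x => (Real.exp_pos _).le)] at hPL
  have p1 : 0 < ∫ x, Real.exp (f x - L ^ 2 / m - W x) := integral_exp_pos i1
  have p2 : 0 < ∫ x, Real.exp (-f x - W x) := integral_exp_pos i2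
  have e2 : (1 - 1 / 2 : ℝ) = 1 / 2 := by norm_num
  rw [e2, ENNReal.ofReal_rpow_of_pos p1, ENNReal.ofReal_rpow_of_pos p2,
    ← ENNReal.ofReal_mul (by positivity), ENNReal.ofReal_le_ofReal_iff (by positivity),
    ← Real.sqrt_eq_rpow, ← Real.sqrt_eq_rpow, ← Real.sqrt_mul p1.le] at hPL
  have h4 : (∫ x, Real.exp (f x - L ^ 2 / m - W x)) * (∫ x, Real.exp (-f x - W x)) ≤ ZZ W ^ 2 := by
    have := Real.sqrt_le_left (x := (∫ x, Real.exp (f x - L ^ 2 / m - W x)) *
      (∫ x, Real.exp (-f x - W x))) (y := ZZ W) hW.ZZ_pos.le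
    exact this.mp hPL
  have h5 : ∫ x, Real.exp (f x - L ^ 2 / m - W x) =
      Real.exp (-(L ^ 2 / m)) * ∫ x, Real.exp (f x - W x) := by
    rw [← integral_const_mul]
    congr 1; funext x; rw [← Real.exp_add]; congr 1; ring
  rw [h5] at h4
  have h6 : Real.exp (L ^ 2 / m) * Real.exp (-(L ^ 2 / m)) = 1 := by
    rw [← Real.exp_add]; simp
  calc (∫ x, Real.exp (f x - W x)) * (∫ x, Real.exp (-f x - W x))
      = Real.exp (L ^ 2 / m) * (Real.exp (-(L ^ 2 / m)) * (∫ x, Real.exp (f x - W x)) *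
        (∫ x, Real.exp (-f x - W x))) := by
          rw [← mul_assoc, ← mul_assoc, h6, one_mul]
    _ ≤ _ := by gcongr


theorem SConv.integrable_exp_lip {m : ℝ} {W : E d → ℝ} (hW : SConv m W) {L : ℝ} {f : E d → ℝ}
    (hf : Lip L f) : Integrable (fun x => Real.exp (f x)) (gibbs W) := by
  rw [integrable_gibbs_iff hW.toQG]
  refine (hW.integrable_exp_add hf).congr (Eventually.of_forall fun x => ?_)
  simp only [smul_eq_mul]
  rw [← Real.exp_add]; congr 1; ring

theorem SConv.integral_exp_lip {m : ℝ} {W : E d → ℝ} (hW : SConv m W) (f : E d → ℝ) :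
    ∫ x, Real.exp (f x) ∂(gibbs W) = (ZZ W)⁻¹ * ∫ x, Real.exp (f x - W x) := by
  rw [integral_gibbs hW.toQG, smul_eq_mul]
  congr 2
  funext x
  rw [smul_eq_mul, ← Real.exp_add]; congr 1; ring

theorem SConv.integral_exp_mul_le {m : ℝ} {W : E d → ℝ} (hW : SConv m W) {L : ℝ}
    {f : E d → ℝ} (hf : Lip L f) :
    (∫ x, Real.exp (f x) ∂(gibbs W)) * (∫ x, Real.exp (-f x) ∂(gibbs W)) ≤
      Real.exp (L ^ 2 / m) := by
  rw [hW.integral_exp_lip f, hW.integral_exp_lip (fun x => -f x)]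
  have h := hW.exp_mul_exp_le hf
  have hZ := hW.ZZ_pos
  have e : (ZZ W)⁻¹ * (∫ x, Real.exp (f x - W x)) * ((ZZ W)⁻¹ * ∫ x, Real.exp (-f x - W x)) =
      ((∫ x, Real.exp (f x - W x)) * (∫ x, Real.exp (-f x - W x))) / (ZZ W) ^ 2 := by
    field_simp
  rw [e, div_le_iff₀ (by positivity)]
  exact h

theorem SConv.integrable_lip {m : ℝ} {W : E d → ℝ} (hW : SConv m W) {L : ℝ} {f : E d → ℝ}
    (hf : Lip L f) : Integrable f (gibbs W) := by
  refine hW.integrable_of_le (C := |f 0| + 1) (K := |L|) hf.continuous.aestronglyMeasurable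
    fun x => ?_
  have h1 := hf.abs_le x
  have h2 := Real.add_one_le_exp (|L| * ‖x‖)
  have h3 : L * ‖x‖ ≤ |L| * ‖x‖ := by gcongr; exact le_abs_self L
  have h4 : 1 ≤ Real.exp (|L| * ‖x‖) := Real.one_le_exp (by positivity)
  rw [Real.norm_eq_abs]
  nlinarith [abs_nonneg (f 0)]

theorem SConv.integrable_lip_sq {m : ℝ} {W : E d → ℝ} (hW : SConv m W) {L : ℝ} {f : E d → ℝ}
    (hf : Lip L f) : Integrable (fun x => (f x) ^ 2) (gibbs W) := by
  have h1 := hW.integrable_exp_lip hf
  have h2 := hW.integrable_exp_lip hf.neg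
  refine (h1.add h2).mono' (hf.continuous.pow 2).aestronglyMeasurable
    (Eventually.of_forall fun x => ?_)
  have h3 := Real.quadratic_le_exp_of_nonneg (abs_nonneg (f x))
  rw [Real.norm_eq_abs, abs_of_nonneg (sq_nonneg _)]
  simp only [Pi.add_apply]
  have h4 : Real.exp |f x| + 1 ≤ Real.exp (f x) + Real.exp (-f x) + 1 := by
    rcases abs_cases (f x) with ⟨h, _⟩ | ⟨h, _⟩
    · rw [h]; linarith [Real.exp_pos (-f x)]
    · rw [h]; linarith [Real.exp_pos (f x)]
  have h5 : Real.exp (f x) + Real.exp (-f x) ≥ 2 + (f x) ^ 2 := by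
    have h6 : Real.exp (f x) + Real.exp (-f x) = 2 * Real.cosh (f x) := by
      rw [Real.cosh_eq]; ring
    have h7 : Real.cosh (f x) = 1 + 2 * Real.sinh (f x / 2) ^ 2 := by
      have := Real.cosh_two_mul (f x / 2)
      have h8 := Real.cosh_sq (f x / 2)
      rw [show 2 * (f x / 2) = f x by ring] at this
      rw [this, h8]; ring
    have h9 : (f x / 2) ^ 2 ≤ Real.sinh (f x / 2) ^ 2 := by
      rw [sq_le_sq]
      rcases le_total 0 (f x / 2) with h | h
      · have := Real.self_le_sinh_iff.mpr h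
        rw [abs_of_nonneg h, abs_of_nonneg (h.trans this)]; exact this
      · have := Real.sinh_le_self_iff.mpr h
        rw [abs_of_nonpos h, abs_of_nonpos (this.trans h)]; linarith
    rw [h6, h7]; nlinarith
  linarith

theorem exp_add_exp_neg_ge (u : ℝ) : 2 + u ^ 2 ≤ Real.exp u + Real.exp (-u) := by
  have h6 : Real.exp u + Real.exp (-u) = 2 * Real.cosh u := by
    rw [Real.cosh_eq]; ring
  have h7 : Real.cosh u = 1 + 2 * Real.sinh (u / 2) ^ 2 := by
    have := Real.cosh_two_mul (u / 2)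
    have h8 := Real.cosh_sq (u / 2)
    rw [show 2 * (u / 2) = u by ring] at this
    rw [this, h8]; ring
  have h9 : (u / 2) ^ 2 ≤ Real.sinh (u / 2) ^ 2 := by
    rw [sq_le_sq]
    rcases le_total 0 (u / 2) with h | h
    · have := Real.self_le_sinh_iff.mpr h
      rw [abs_of_nonneg h, abs_of_nonneg (h.trans this)]; exact this
    · have := Real.sinh_le_self_iff.mpr h
      rw [abs_of_nonpos h, abs_of_nonpos (this.trans h)]; linarith
  rw [h6, h7]; nlinarith

theorem SConv.var_le_exp {m : ℝ} {W : E d → ℝ} (hW : SConv m W) {L : ℝ} {f : E d → ℝ}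
    (hf : Lip L f) :
    ∫ x, (f x - ∫ y, f y ∂(gibbs W)) ^ 2 ∂(gibbs W) ≤ Real.exp (L ^ 2 / m) - 1 := by
  haveI := hW.isProb
  set a := ∫ y, f y ∂(gibbs W) with ha
  have hg : Lip L (fun x => f x - a) := by
    intro x y
    have : f x - a - (f y - a) = f x - f y := by ring
    rw [this]; exact hf x y
  have hig := hW.integrable_lip hg
  have h0 : ∫ x, (f x - a) ∂(gibbs W) = 0 := by
    rw [integral_sub (hW.integrable_lip hf) (integrable_const _)]
    simp [ha]
  have key := hW.integral_exp_mul_le hg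
  set A := ∫ x, Real.exp (f x - a) ∂(gibbs W) with hA
  set B := ∫ x, Real.exp (-(f x - a)) ∂(gibbs W) with hB
  have iA := hW.integrable_exp_lip hg
  have iB := hW.integrable_exp_lip hg.neg
  have hA1 : 1 ≤ A := by
    have : ∫ x, (1 + (f x - a)) ∂(gibbs W) = 1 := by
      rw [integral_add (integrable_const _) hig, h0]; simp
    rw [← this]
    refine integral_mono ((integrable_const _).add hig) iA fun x => ?_
    have := Real.add_one_le_exp (f x - a)
    simp only; linarith
  have hB1 : 1 ≤ B := by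
    have : ∫ x, (1 - (f x - a)) ∂(gibbs W) = 1 := by
      rw [integral_sub (integrable_const _) hig, h0]; simp
    rw [← this]
    refine integral_mono ((integrable_const _).sub hig) iB fun x => ?_
    have := Real.add_one_le_exp (-(f x - a))
    simp only; linarith
  have hAB : 2 + ∫ x, (f x - a) ^ 2 ∂(gibbs W) ≤ A + B := by
    have e1 : 2 + ∫ x, (f x - a) ^ 2 ∂(gibbs W) = ∫ x, (2 + (f x - a) ^ 2) ∂(gibbs W) := by
      rw [integral_add (integrable_const _) (hW.integrable_lip_sq hg)]; simp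
    have e2 : A + B = ∫ x, (Real.exp (f x - a) + Real.exp (-(f x - a))) ∂(gibbs W) := by
      rw [integral_add iA iB]
    rw [e1, e2]
    refine integral_mono ((integrable_const _).add (hW.integrable_lip_sq hg)) (iA.add iB)
      fun x => ?_
    exact exp_add_exp_neg_ge _
  nlinarith [mul_nonneg (sub_nonneg.mpr hA1) (sub_nonneg.mpr hB1)]

theorem le_of_scaled_exp {v K : ℝ} (hK : 0 ≤ K)
    (h : ∀ t : ℝ, 0 < t → t * v ≤ Real.exp (t * K) - 1) : v ≤ K := by
  refine le_of_forall_pos_le_add fun δ hδ => ?_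
  -- choose `t` with `t K ≤ 1` and `t K² ≤ δ`
  set t : ℝ := min (1 / (K + 1)) (δ / (K ^ 2 + 1)) with ht
  have ht0 : 0 < t := lt_min (by positivity) (by positivity)
  have h1 : t * K ≤ 1 := by
    have : t ≤ 1 / (K + 1) := min_le_left _ _
    calc t * K ≤ 1 / (K + 1) * K := by gcongr
      _ ≤ 1 := by rw [div_mul_eq_mul_div, one_mul, div_le_one (by positivity)]; linarith
  have h2 : t * K ^ 2 ≤ δ := by
    have : t ≤ δ / (K ^ 2 + 1) := min_le_right _ _
    calc t * K ^ 2 ≤ δ / (K ^ 2 + 1) * K ^ 2 := by gcongr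
      _ ≤ δ := by
        rw [div_mul_eq_mul_div, div_le_iff₀ (by positivity)]; nlinarith
  have h3 := h t ht0
  have h4 : Real.exp (t * K) ≤ 1 + t * K + (t * K) ^ 2 := by
    have h5 := Real.abs_exp_sub_one_sub_id_le (x := t * K)
      (by rw [abs_of_nonneg (by positivity)]; exact h1)
    have := (abs_le.mp h5).2
    linarith
  have h5 : t * v ≤ t * (K + δ) := by nlinarith
  exact le_of_mul_le_mul_left h5 ht0

/-- Variance of Lipschitz functions under a strongly log-concave measure, sharp constant. -/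
theorem SConv.var_le {m : ℝ} {W : E d → ℝ} (hW : SConv m W) {L : ℝ} {f : E d → ℝ}
    (hf : Lip L f) :
    ∫ x, (f x - ∫ y, f y ∂(gibbs W)) ^ 2 ∂(gibbs W) ≤ L ^ 2 / m := by
  have hm := hW.mpos
  refine le_of_scaled_exp (by positivity) fun t ht => ?_
  have h1 := hW.var_le_exp (hf.const_mul (Real.sqrt_nonneg t))
  have h2 : (Real.sqrt t * L) ^ 2 / m = t * (L ^ 2 / m) := by
    rw [mul_pow, Real.sq_sqrt ht.le]; ring
  rw [h2] at h1
  refine le_trans (le_of_eq ?_) h1
  rw [← integral_const_mul]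
  congr 1
  funext x
  rw [integral_const_mul, ← mul_sub, mul_pow, Real.sq_sqrt ht.le]

end Crest.Agent.R285.Top
end
end

-- ▼ part R285/TopTilt
section

/-!
Row 285 (S0430), module TOP: linear tilts of a strongly log-concave measure move averages of
Lipschitz functions by at most `L ‖b‖ / m`.
-/

set_option autoImplicit false

open MeasureTheory Crest.OracleSampling Set Filter Topology
open scoped ENNReal RealInnerProductSpace

noncomputable section

namespace Crest.Agent.R285.Top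

variable {d : ℕ}

/-- Cauchy–Schwarz for integrals. -/
theorem integral_mul_sq_le {Ω : Type} [MeasurableSpace Ω] {μ : Measure Ω} {u v : Ω → ℝ}
    (hu : Integrable (fun x => u x ^ 2) μ) (hv : Integrable (fun x => v x ^ 2) μ)
    (huv : Integrable (fun x => u x * v x) μ) :
    (∫ x, u x * v x ∂μ) ^ 2 ≤ (∫ x, u x ^ 2 ∂μ) * ∫ x, v x ^ 2 ∂μ := by
  set A := ∫ x, u x ^ 2 ∂μ
  set B := ∫ x, v x ^ 2 ∂μ
  set C := ∫ x, u x * v x ∂μ
  have h : ∀ t : ℝ, 0 ≤ B * (t * t) + (2 * C) * t + A := by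
    intro t
    have e : B * (t * t) + (2 * C) * t + A = ∫ x, (u x + t * v x) ^ 2 ∂μ := by
      have e1 : (fun x => (u x + t * v x) ^ 2) =
          fun x => (t * t) * v x ^ 2 + (2 * t) * (u x * v x) + u x ^ 2 := by
        funext x; ring
      have i1 : Integrable (fun x => (t * t) * v x ^ 2 + (2 * t) * (u x * v x)) μ :=
        (hv.const_mul _).add (huv.const_mul _)
      rw [e1, integral_add i1 hu,
        integral_add (hv.const_mul _) (huv.const_mul _), integral_const_mul, integral_const_mul]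
      ring
    rw [e]
    exact integral_nonneg fun x => sq_nonneg _
  have := discrim_le_zero h
  unfold discrim at this
  nlinarith

/-- Linear tilt of a potential. -/
def tilt (W : E d → ℝ) (b : E d) : E d → ℝ := fun z => W z - ⟪z, b⟫

theorem tilt_tilt (W : E d → ℝ) (b b' : E d) : tilt (tilt W b) b' = tilt W (b + b') := by
  funext z
  simp only [tilt, inner_add_right]
  ring

theorem tilt_zero (W : E d → ℝ) : tilt W 0 = W := by
  funext z; simp [tilt]

theorem SConv.tilt {m : ℝ} {W : E d → ℝ} (hW : SConv m W) (b : E d) : SConv m (tilt W b) where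
  cont := hW.cont.sub (continuous_id.inner continuous_const)
  lb := by
    obtain ⟨a, ha, B, hB⟩ := hW.lb
    refine ⟨a / 2, by positivity, B + ‖b‖ ^ 2 / (2 * a), fun x => ?_⟩
    have h1 := hB x
    have h2 : ⟪x, b⟫ ≤ ‖x‖ * ‖b‖ := real_inner_le_norm x b
    have h3 : ‖x‖ * ‖b‖ ≤ a / 2 * ‖x‖ ^ 2 + ‖b‖ ^ 2 / (2 * a) := by
      rw [← sub_nonneg]
      have : a / 2 * ‖x‖ ^ 2 + ‖b‖ ^ 2 / (2 * a) - ‖x‖ * ‖b‖ =
          (a * ‖x‖ - ‖b‖) ^ 2 / (2 * a) := by field_simp; ring
      rw [this]; positivity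
    unfold Top.tilt
    linarith
  mpos := hW.mpos
  mid := fun x y => by
    have h1 := hW.mid x y
    unfold Top.tilt
    rw [inner_add_left, inner_smul_left, inner_smul_left]
    simp only [conj_trivial]
    linarith

theorem lip_inner (b : E d) : Lip ‖b‖ (fun z : E d => ⟪z, b⟫) := by
  intro x y
  rw [← inner_sub_left, mul_comm]
  exact abs_real_inner_le_norm _ _

/-- Second moment of the exponential of a linear function. -/
theorem SConv.exp_two_le {m : ℝ} {W : E d → ℝ} (hW : SConv m W) (b : E d) :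
    ∫ x, Real.exp (2 * ⟪x, b⟫) ∂(gibbs W) ≤
      Real.exp (‖b‖ ^ 2 / m) * (∫ x, Real.exp ⟪x, b⟫ ∂(gibbs W)) ^ 2 := by
  have h := (hW.tilt b).exp_mul_exp_le (lip_inner b)
  have hZ := hW.ZZ_pos
  rw [hW.integral_exp_lip (fun x => 2 * ⟪x, b⟫), hW.integral_exp_lip (fun x => ⟪x, b⟫)]
  have e1 : ∫ x, Real.exp (⟪x, b⟫ - Top.tilt W b x) = ∫ x, Real.exp (2 * ⟪x, b⟫ - W x) := by
    congr 1; funext x; congr 1; unfold Top.tilt; ring
  have e2 : ∫ x, Real.exp (-⟪x, b⟫ - Top.tilt W b x) = ZZ W := by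
    unfold ZZ; congr 1; funext x; congr 1; unfold Top.tilt; ring
  have e3 : ZZ (Top.tilt W b) = ∫ x, Real.exp (⟪x, b⟫ - W x) := by
    unfold ZZ; congr 1; funext x; congr 1; unfold Top.tilt; ring
  rw [e1, e2, e3] at h
  have e4 : Real.exp (‖b‖ ^ 2 / m) * ((ZZ W)⁻¹ * ∫ x, Real.exp (⟪x, b⟫ - W x)) ^ 2 =
      (Real.exp (‖b‖ ^ 2 / m) * (∫ x, Real.exp (⟪x, b⟫ - W x)) ^ 2) / (ZZ W) ^ 2 := by
    field_simp
  have e5 : (ZZ W)⁻¹ * ∫ x, Real.exp (2 * ⟪x, b⟫ - W x) =
      ((∫ x, Real.exp (2 * ⟪x, b⟫ - W x)) * ZZ W) / (ZZ W) ^ 2 := by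
    field_simp
  rw [e4, e5]
  gcongr

theorem SConv.integral_tilt {m : ℝ} {W : E d → ℝ} (hW : SConv m W) (b : E d) (f : E d → ℝ) :
    ∫ x, f x ∂(gibbs (Top.tilt W b)) =
      (∫ x, f x * Real.exp ⟪x, b⟫ ∂(gibbs W)) / ∫ x, Real.exp ⟪x, b⟫ ∂(gibbs W) := by
  have hZ := hW.ZZ_pos
  rw [integral_gibbs (hW.tilt b).toQG, integral_gibbs hW.toQG,
    hW.integral_exp_lip (fun x => ⟪x, b⟫)]
  have e3 : ZZ (Top.tilt W b) = ∫ x, Real.exp (⟪x, b⟫ - W x) := by
    unfold ZZ; congr 1; funext x; congr 1; unfold Top.tilt; ring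
  have e4 : ∫ x, Real.exp (-Top.tilt W b x) • f x =
      ∫ x, Real.exp (-W x) • (f x * Real.exp ⟪x, b⟫) := by
    congr 1; funext x; simp only [smul_eq_mul]
    have : -Top.tilt W b x = -W x + ⟪x, b⟫ := by unfold Top.tilt; ring
    rw [this, Real.exp_add]; ring
  rw [e3, e4, smul_eq_mul, smul_eq_mul, mul_div_mul_left _ _ (ne_of_gt (inv_pos.mpr hZ)),
    ← div_eq_inv_mul]

/-- The class of test functions: square integrable with variance at most `v`. -/
structure VarLe (W : E d → ℝ) (f : E d → ℝ) (v : ℝ) : Prop where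
  meas : AEStronglyMeasurable f (gibbs W)
  sq : Integrable (fun x => f x ^ 2) (gibbs W)
  var : ∫ x, (f x - ∫ y, f y ∂(gibbs W)) ^ 2 ∂(gibbs W) ≤ v

theorem SConv.varLe_lip {m : ℝ} {W : E d → ℝ} (hW : SConv m W) {L : ℝ} {f : E d → ℝ}
    (hf : Lip L f) : VarLe W f (L ^ 2 / m) :=
  ⟨hf.continuous.aestronglyMeasurable, hW.integrable_lip_sq hf, hW.var_le hf⟩

theorem VarLe.integrable {W f : E d → ℝ} {v : ℝ} (hW : QG W) (h : VarLe W f v) :
    Integrable f (gibbs W) := by
  have := hW.isProb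
  exact ((memLp_two_iff_integrable_sq h.meas).mpr h.sq).integrable one_le_two

theorem varLe_bdd {W : E d → ℝ} (hW : QG W) {f : E d → ℝ} (hf : Measurable f)
    (h0 : ∀ x, 0 ≤ f x) (h1 : ∀ x, f x ≤ 1) : VarLe W f 1 := by
  have := hW.isProb
  have hb : Integrable (fun x => f x ^ 2) (gibbs W) := by
    refine (integrable_const (1 : ℝ)).mono' (hf.pow_const 2).aestronglyMeasurable
      (Eventually.of_forall fun x => ?_)
    rw [Real.norm_eq_abs, abs_of_nonneg (sq_nonneg _)]
    exact pow_le_one₀ (h0 x) (h1 x)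
  refine ⟨hf.aestronglyMeasurable, hb, ?_⟩
  have hi : Integrable f (gibbs W) := by
    refine (integrable_const (1 : ℝ)).mono' hf.aestronglyMeasurable
      (Eventually.of_forall fun x => ?_)
    rw [Real.norm_eq_abs, abs_of_nonneg (h0 x)]
    exact h1 x
  set a := ∫ y, f y ∂(gibbs W) with ha
  have ha0 : 0 ≤ a := integral_nonneg h0
  have ha1 : a ≤ 1 := by
    have : a ≤ ∫ _, (1 : ℝ) ∂(gibbs W) := integral_mono hi (integrable_const _) h1
    simpa using this
  have hle : ∀ x, (f x - a) ^ 2 ≤ 1 := by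
    intro x
    have h2 := h0 x
    have h3 := h1 x
    nlinarith
  calc ∫ x, (f x - a) ^ 2 ∂(gibbs W) ≤ ∫ _, (1 : ℝ) ∂(gibbs W) := by
        refine integral_mono_of_nonneg (Eventually.of_forall fun x => sq_nonneg _)
          (integrable_const _) (Eventually.of_forall hle)
    _ = 1 := by simp

theorem SConv.tilt_step {m : ℝ} {W : E d → ℝ} (hW : SConv m W) {v : ℝ} {f : E d → ℝ}
    (hf : VarLe W f v) (b : E d) :
    (∫ x, f x ∂(gibbs (Top.tilt W b)) - ∫ x, f x ∂(gibbs W)) ^ 2 ≤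
      v * (Real.exp (‖b‖ ^ 2 / m) - 1) := by
  have := hW.isProb
  have hm := hW.mpos
  set a := ∫ x, f x ∂(gibbs W) with ha
  set M := ∫ x, Real.exp ⟪x, b⟫ ∂(gibbs W) with hM
  have iM := hW.integrable_exp_lip (lip_inner b)
  have hMpos : 0 < M := integral_exp_pos iM
  have lip2 : Lip (2 * ‖b‖) (fun z : E d => 2 * ⟪z, b⟫) := (lip_inner b).const_mul (by norm_num)
  have iM2 := hW.integrable_exp_lip lip2
  have hfi : Integrable f (gibbs W) := hf.integrable hW.toQG
  have hf2 := hf.sq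
  have hgi : Integrable (fun x => f x - a) (gibbs W) := hfi.sub (integrable_const _)
  have hg2 : Integrable (fun x => (f x - a) ^ 2) (gibbs W) := by
    have e1 : (fun x => (f x - a) ^ 2) = fun x => (f x ^ 2 - 2 * a * f x) + a ^ 2 := by
      funext x; ring
    rw [e1]
    exact (hf2.sub (hfi.const_mul _)).add (integrable_const _)
  -- `f * exp`
  have ife : ∀ {g : E d → ℝ}, AEStronglyMeasurable g (gibbs W) →
      Integrable (fun x => g x ^ 2) (gibbs W) →
      Integrable (fun x => g x * Real.exp ⟪x, b⟫) (gibbs W) := by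
    intro g hg hgs
    refine ((hgs.add iM2)).mono' ?_ (Eventually.of_forall fun x => ?_)
    · exact (hg.mul (Real.continuous_exp.comp
        (continuous_id.inner continuous_const)).aestronglyMeasurable)
    · rw [Real.norm_eq_abs, abs_mul, abs_of_pos (Real.exp_pos _)]
      simp only [Pi.add_apply]
      have e : Real.exp (2 * ⟪x, b⟫) = (Real.exp ⟪x, b⟫) ^ 2 := by
        rw [sq, ← Real.exp_add]; congr 1; ring
      rw [e]
      nlinarith [sq_nonneg (|g x| - Real.exp ⟪x, b⟫), sq_abs (g x), sq_nonneg (g x),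
        sq_nonneg (Real.exp ⟪x, b⟫)]
  have ife1 := ife hf.meas hf2
  have ife2 := ife hgi.aestronglyMeasurable hg2
  -- the identity
  have key : ∫ x, f x ∂(gibbs (Top.tilt W b)) - a =
      ∫ x, (f x - a) * (Real.exp ⟪x, b⟫ / M - 1) ∂(gibbs W) := by
    rw [hW.integral_tilt b f]
    have e1 : (fun x => (f x - a) * (Real.exp ⟪x, b⟫ / M - 1)) =
        fun x => (M⁻¹ * ((f x - a) * Real.exp ⟪x, b⟫)) - (f x - a) := by
      funext x; ring
    rw [e1, integral_sub (ife2.const_mul _) hgi, integral_const_mul,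
      integral_sub hfi (integrable_const _)]
    have e2 : ∫ x, (f x - a) * Real.exp ⟪x, b⟫ ∂(gibbs W) =
        (∫ x, f x * Real.exp ⟪x, b⟫ ∂(gibbs W)) - a * M := by
      have e3 : (fun x => (f x - a) * Real.exp ⟪x, b⟫) =
          fun x => f x * Real.exp ⟪x, b⟫ - a * Real.exp ⟪x, b⟫ := by funext x; ring
      rw [e3, integral_sub ife1 (iM.const_mul _), integral_const_mul]
    rw [e2]
    simp only [integral_const, probReal_univ, one_smul]
    rw [← ha, ← hM]
    field_simp
    ring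
  rw [key]
  have hexp2 : ∀ x : E d, (Real.exp ⟪x, b⟫) ^ 2 = Real.exp (2 * ⟪x, b⟫) := by
    intro x; rw [sq, ← Real.exp_add]; congr 1; ring
  have iv : Integrable (fun x => (Real.exp ⟪x, b⟫ / M - 1) ^ 2) (gibbs W) := by
    have e1 : (fun x : E d => (Real.exp ⟪x, b⟫ / M - 1) ^ 2) =
        fun x => (M⁻¹ ^ 2 * Real.exp (2 * ⟪x, b⟫) - 2 * M⁻¹ * Real.exp ⟪x, b⟫) + 1 := by
      funext x; rw [← hexp2]; ring
    rw [e1]
    exact ((iM2.const_mul _).sub (iM.const_mul _)).add (integrable_const _)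
  have hv : ∫ x, (Real.exp ⟪x, b⟫ / M - 1) ^ 2 ∂(gibbs W) ≤ Real.exp (‖b‖ ^ 2 / m) - 1 := by
    have e1 : (fun x : E d => (Real.exp ⟪x, b⟫ / M - 1) ^ 2) =
        fun x => (M⁻¹ ^ 2 * Real.exp (2 * ⟪x, b⟫) - 2 * M⁻¹ * Real.exp ⟪x, b⟫) + 1 := by
      funext x; rw [← hexp2]; ring
    have i1 : Integrable (fun x => M⁻¹ ^ 2 * Real.exp (2 * ⟪x, b⟫) - 2 * M⁻¹ * Real.exp ⟪x, b⟫)
        (gibbs W) := (iM2.const_mul _).sub (iM.const_mul _)
    rw [e1, integral_add i1 (integrable_const _),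
      integral_sub (iM2.const_mul _) (iM.const_mul _), integral_const_mul, integral_const_mul]
    simp only [integral_const, probReal_univ, one_smul]
    rw [← hM]
    have h1 := hW.exp_two_le b
    rw [← hM] at h1
    have h2 : M⁻¹ ^ 2 * ∫ x, Real.exp (2 * ⟪x, b⟫) ∂(gibbs W) ≤ Real.exp (‖b‖ ^ 2 / m) := by
      calc M⁻¹ ^ 2 * ∫ x, Real.exp (2 * ⟪x, b⟫) ∂(gibbs W)
          ≤ M⁻¹ ^ 2 * (Real.exp (‖b‖ ^ 2 / m) * M ^ 2) := by gcongr
        _ = Real.exp (‖b‖ ^ 2 / m) := by field_simp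
    have h3 : 2 * M⁻¹ * M = 2 := by field_simp
    rw [h3]; linarith
  have iuv : Integrable (fun x => (f x - a) * (Real.exp ⟪x, b⟫ / M - 1)) (gibbs W) := by
    have e1 : (fun x => (f x - a) * (Real.exp ⟪x, b⟫ / M - 1)) =
        fun x => (M⁻¹ * ((f x - a) * Real.exp ⟪x, b⟫)) - (f x - a) := by
      funext x; ring
    rw [e1]
    exact (ife2.const_mul _).sub hgi
  refine (integral_mul_sq_le hg2 iv iuv).trans ?_
  have h1 := hf.var
  rw [← ha] at h1
  have h0 : 0 ≤ ∫ x, (f x - a) ^ 2 ∂(gibbs W) := integral_nonneg fun x => sq_nonneg _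
  have h2 : 0 ≤ ∫ x, (Real.exp ⟪x, b⟫ / M - 1) ^ 2 ∂(gibbs W) :=
    integral_nonneg fun x => sq_nonneg _
  exact mul_le_mul h1 hv h2 (h0.trans h1)

/-- **Contraction of tilts**, general form. -/
theorem SConv.tilt_le_gen {m : ℝ} {W : E d → ℝ} (hW : SConv m W) {v : ℝ} {f : E d → ℝ}
    (hf : ∀ b', VarLe (Top.tilt W b') f v) (b : E d) :
    |∫ x, f x ∂(gibbs (Top.tilt W b)) - ∫ x, f x ∂(gibbs W)| ^ 2 ≤ v * (‖b‖ ^ 2 / m) := by
  have hm := hW.mpos
  have hv : 0 ≤ v := le_trans (integral_nonneg fun x => sq_nonneg _) (hf 0).var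
  set D := |∫ x, f x ∂(gibbs (Top.tilt W b)) - ∫ x, f x ∂(gibbs W)| with hD
  have hD0 : 0 ≤ D := abs_nonneg _
  -- subdivision
  have key : ∀ N : ℕ, 0 < N →
      D ≤ N * Real.sqrt (v * (Real.exp ((1 / (N : ℝ) ^ 2) * (‖b‖ ^ 2 / m)) - 1)) := by
    intro N hN
    have hN' : (0 : ℝ) < N := by exact_mod_cast hN
    set c : ℝ := Real.sqrt (v * (Real.exp ((1 / (N : ℝ) ^ 2) * (‖b‖ ^ 2 / m)) - 1)) with hc
    have step : ∀ k : ℕ, |∫ x, f x ∂(gibbs (Top.tilt W ((k : ℝ) • ((N : ℝ)⁻¹ • b)))) -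
        ∫ x, f x ∂(gibbs W)| ≤ k * c := by
      intro k
      induction k with
      | zero => simp [tilt_zero]
      | succ k ih =>
        have h1 := (hW.tilt ((k : ℝ) • ((N : ℝ)⁻¹ • b))).tilt_step (hf _) ((N : ℝ)⁻¹ • b)
        rw [tilt_tilt] at h1
        have e1 : (k : ℝ) • ((N : ℝ)⁻¹ • b) + (N : ℝ)⁻¹ • b =
            ((k + 1 : ℕ) : ℝ) • ((N : ℝ)⁻¹ • b) := by
          rw [Nat.cast_add, Nat.cast_one, add_smul, one_smul]
        rw [e1] at h1
        have e2 : ‖(N : ℝ)⁻¹ • b‖ ^ 2 / m = (1 / (N : ℝ) ^ 2) * (‖b‖ ^ 2 / m) := by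
          rw [norm_smul, Real.norm_eq_abs, abs_of_pos (inv_pos.mpr hN'), mul_pow]
          field_simp
        rw [e2] at h1
        have h2 := Real.abs_le_sqrt h1
        rw [← hc] at h2
        calc |∫ x, f x ∂(gibbs (Top.tilt W (((k + 1 : ℕ) : ℝ) • ((N : ℝ)⁻¹ • b)))) -
              ∫ x, f x ∂(gibbs W)| ≤ _ :=
              abs_sub_le _ (∫ x, f x ∂(gibbs (Top.tilt W ((k : ℝ) • ((N : ℝ)⁻¹ • b))))) _
          _ ≤ c + k * c := add_le_add h2 ih
          _ = _ := by push_cast; ring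
    have h3 := step N
    rwa [smul_smul, mul_inv_cancel₀ (ne_of_gt hN'), one_smul] at h3
  -- limit
  refine le_of_forall_pos_le_add fun δ hδ => ?_
  set K := ‖b‖ ^ 2 / m with hK
  have hK0 : 0 ≤ K := by positivity
  obtain ⟨N, hN⟩ := exists_nat_gt (max (1 + K) (v * K ^ 2 / δ))
  have hN1 : 1 + K < N := lt_of_le_of_lt (le_max_left _ _) hN
  have hN2 : v * K ^ 2 / δ < N := lt_of_le_of_lt (le_max_right _ _) hN
  have hNpos : 0 < N := by
    have : (0 : ℝ) < N := by linarith
    exact_mod_cast this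
  have hNr : (1 : ℝ) ≤ N := by exact_mod_cast hNpos
  have hN0 : (0 : ℝ) < N := by linarith
  have h1 := key N hNpos
  have htK : 1 / (N : ℝ) ^ 2 * K ≤ 1 := by
    rw [div_mul_eq_mul_div, one_mul, div_le_one (by positivity)]
    nlinarith
  have h4 : Real.exp (1 / (N : ℝ) ^ 2 * K) - 1 ≤
      1 / (N : ℝ) ^ 2 * K + (1 / (N : ℝ) ^ 2 * K) ^ 2 := by
    have h5 := Real.abs_exp_sub_one_sub_id_le (x := 1 / (N : ℝ) ^ 2 * K)
      (by rw [abs_of_nonneg (by positivity)]; exact htK)
    have := (abs_le.mp h5).2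
    linarith
  have h5 : 0 ≤ Real.exp (1 / (N : ℝ) ^ 2 * K) - 1 := by
    have := Real.one_le_exp (show 0 ≤ 1 / (N : ℝ) ^ 2 * K by positivity)
    linarith
  calc D ^ 2 ≤ (N * Real.sqrt (v * (Real.exp (1 / (N : ℝ) ^ 2 * K) - 1))) ^ 2 := by
        gcongr
    _ = (N : ℝ) ^ 2 * (v * (Real.exp (1 / (N : ℝ) ^ 2 * K) - 1)) := by
        rw [mul_pow, Real.sq_sqrt (by positivity)]
    _ ≤ (N : ℝ) ^ 2 * (v * (1 / (N : ℝ) ^ 2 * K + (1 / (N : ℝ) ^ 2 * K) ^ 2)) := by
        gcongr
    _ = v * K + v * K ^ 2 / (N : ℝ) ^ 2 := by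
        field_simp
    _ ≤ v * K + δ := by
        gcongr
        rw [div_le_iff₀ (by positivity)]
        rw [div_lt_iff₀ hδ] at hN2
        have h7 : (N : ℝ) ≤ (N : ℝ) ^ 2 := by nlinarith
        have h8 : (N : ℝ) * δ ≤ (N : ℝ) ^ 2 * δ := by gcongr
        linarith

/-- **Contraction of tilts** on Lipschitz functions. -/
theorem SConv.tilt_le {m : ℝ} {W : E d → ℝ} (hW : SConv m W) {L : ℝ} (hL : 0 ≤ L) {f : E d → ℝ}
    (hf : Lip L f) (b : E d) :
    |∫ x, f x ∂(gibbs (Top.tilt W b)) - ∫ x, f x ∂(gibbs W)| ≤ L * ‖b‖ / m := by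
  have hm := hW.mpos
  have hsq := hW.tilt_le_gen (f := f) (v := L ^ 2 / m)
    (fun b' => (hW.tilt b').varLe_lip hf) b
  have e : L ^ 2 / m * (‖b‖ ^ 2 / m) = (L * ‖b‖ / m) ^ 2 := by
    field_simp
  rw [e] at hsq
  exact (pow_le_pow_iff_left₀ (abs_nonneg _) (by positivity) two_ne_zero).mp hsq

/-- Tilts in total variation (bounded test functions). -/
theorem SConv.tilt_le_bdd {m : ℝ} {W : E d → ℝ} (hW : SConv m W) {f : E d → ℝ}
    (hf : Measurable f) (h0 : ∀ x, 0 ≤ f x) (h1 : ∀ x, f x ≤ 1) (b : E d) :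
    |∫ x, f x ∂(gibbs (Top.tilt W b)) - ∫ x, f x ∂(gibbs W)| ≤ ‖b‖ / Real.sqrt m := by
  have hm := hW.mpos
  have hsq := hW.tilt_le_gen (f := f) (v := 1)
    (fun b' => varLe_bdd (hW.tilt b').toQG hf h0 h1) b
  have e : 1 * (‖b‖ ^ 2 / m) = (‖b‖ / Real.sqrt m) ^ 2 := by
    rw [div_pow, Real.sq_sqrt hm.le, one_mul]
  rw [e] at hsq
  exact (pow_le_pow_iff_left₀ (abs_nonneg _) (by positivity) two_ne_zero).mp hsq

end Crest.Agent.R285.Top
end
end

-- ▼ part R285/TopPot

/-!
Row 285 (S0430), module TOP: elementary facts on admissible potentials.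
-/

set_option autoImplicit false

open MeasureTheory Crest.OracleSampling Set Filter Topology
open scoped ENNReal RealInnerProductSpace

noncomputable section

namespace Crest.Agent.R285.Top

variable {d : ℕ} {V : E d → ℝ}

theorem adm_hasDeriv (hV : Admissible d V) (x h : E d) (t : ℝ) :
    HasDerivAt (fun t : ℝ => V (x + t • h)) (fderiv ℝ V (x + t • h) h) t := by
  have h1 : HasFDerivAt V (fderiv ℝ V (x + t • h)) (x + t • h) :=
    (hV.1.differentiable (by norm_num) _).hasFDerivAt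
  have h2 : HasDerivAt (fun t : ℝ => x + t • h) h t := by
    simpa using ((hasDerivAt_id t).smul_const h).const_add x
  exact h1.comp_hasDerivAt t h2

theorem adm_hasDeriv2 (hV : Admissible d V) (x h : E d) (t : ℝ) :
    HasDerivAt (fun t : ℝ => fderiv ℝ V (x + t • h) h)
      (iteratedFDeriv ℝ 2 V (x + t • h) ![h, h]) t := by
  have hc : ContDiff ℝ 1 (fderiv ℝ V) := hV.1.fderiv_right (by norm_num)
  have h1 : HasFDerivAt (fderiv ℝ V) (fderiv ℝ (fderiv ℝ V) (x + t • h)) (x + t • h) :=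
    (hc.differentiable (by norm_num) _).hasFDerivAt
  have h2 : HasDerivAt (fun t : ℝ => x + t • h) h t := by
    simpa using ((hasDerivAt_id t).smul_const h).const_add x
  have h3 : HasDerivAt (fun t : ℝ => fderiv ℝ V (x + t • h))
      (fderiv ℝ (fderiv ℝ V) (x + t • h) h) t := h1.comp_hasDerivAt t h2
  have h4 := ((ContinuousLinearMap.apply ℝ ℝ h).hasFDerivAt
    (x := fderiv ℝ V (x + t • h))).comp_hasDerivAt t h3
  rw [iteratedFDeriv_two_apply]
  exact h4

/-- Second order bounds, on a ray. -/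
theorem adm_ray (hV : Admissible d V) (x h : E d) :
    V x + fderiv ℝ V x h + ‖h‖ ^ 2 / 2 ≤ V (x + h) ∧
      V (x + h) ≤ V x + fderiv ℝ V x h + ‖h‖ ^ 2 := by
  have key : ∀ (c : ℝ) (σ : ℝ), (∀ t : ℝ, 0 ≤ σ * (iteratedFDeriv ℝ 2 V (x + t • h) ![h, h] - c)) →
      0 ≤ σ * (V (x + h) - V x - fderiv ℝ V x h - c / 2) := by
    intro c σ hc
    have m1 : Monotone fun t : ℝ => σ * (fderiv ℝ V (x + t • h) h - fderiv ℝ V x h - t * c) := by
      refine monotone_of_deriv_nonneg (fun t => ?_) (fun t => ?_)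
      · exact ((((adm_hasDeriv2 hV x h t).sub_const _).sub
          ((hasDerivAt_id t).mul_const c)).const_mul σ).differentiableAt
      · have h1 := ((((adm_hasDeriv2 hV x h t).sub_const (fderiv ℝ V x h)).sub
          ((hasDerivAt_id t).mul_const c)).const_mul σ).deriv
        have h2 : deriv (fun t : ℝ => σ * (fderiv ℝ V (x + t • h) h - fderiv ℝ V x h - t * c)) t =
          σ * (iteratedFDeriv ℝ 2 V (x + t • h) ![h, h] - 1 * c) := h1
        rw [h2, one_mul]
        exact hc t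
    have m2 : MonotoneOn (fun t : ℝ => σ * (V (x + t • h) - V x - t * fderiv ℝ V x h -
        t ^ 2 * (c / 2))) (Ici 0) := by
      have hd : ∀ t : ℝ, HasDerivAt (fun t : ℝ => σ * (V (x + t • h) - V x - t * fderiv ℝ V x h -
        t ^ 2 * (c / 2))) (σ * (fderiv ℝ V (x + t • h) h - fderiv ℝ V x h - t * c)) t := by
        intro t
        have h1 := ((((adm_hasDeriv hV x h t).sub_const (V x)).sub
          ((hasDerivAt_id t).mul_const (fderiv ℝ V x h))).sub
            ((hasDerivAt_pow 2 t).mul_const (c / 2))).const_mul σ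
        refine h1.congr_deriv ?_
        push_cast
        ring
      refine monotoneOn_of_deriv_nonneg (convex_Ici 0) (fun t _ => (hd t).continuousAt.continuousWithinAt)
        (fun t _ => (hd t).differentiableAt.differentiableWithinAt) (fun t ht => ?_)
      rw [(hd t).deriv]
      rw [interior_Ici, mem_Ioi] at ht
      have := m1 ht.le
      simpa using this
    have := m2 (mem_Ici.mpr le_rfl) (mem_Ici.mpr zero_le_one) zero_le_one
    simp only [zero_smul, add_zero, sub_self, zero_mul, one_smul, one_mul, one_pow, ne_eq,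
      OfNat.ofNat_ne_zero, not_false_eq_true, zero_pow, mul_zero] at this
    exact this
  constructor
  · have := key (‖h‖ ^ 2) 1 (fun t => by
      have := (hV.2.2.2 (x + t • h) h).1
      linarith)
    linarith
  · have := key (2 * ‖h‖ ^ 2) (-1) (fun t => by
      have := (hV.2.2.2 (x + t • h) h).2
      linarith)
    linarith

theorem adm_cont (hV : Admissible d V) : Continuous V := hV.1.continuous

theorem fderiv_eq_inner (V : E d → ℝ) (x h : E d) :
    fderiv ℝ V x h = ⟪gradient V x, h⟫ := by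
  rw [gradient, InnerProductSpace.toDual_symm_apply]

theorem adm_lower (hV : Admissible d V) (x h : E d) :
    V x + ⟪gradient V x, h⟫ + ‖h‖ ^ 2 / 2 ≤ V (x + h) := by
  rw [← fderiv_eq_inner V]; exact (adm_ray hV x h).1

theorem adm_upper (hV : Admissible d V) (x h : E d) :
    V (x + h) ≤ V x + ⟪gradient V x, h⟫ + ‖h‖ ^ 2 := by
  rw [← fderiv_eq_inner V]; exact (adm_ray hV x h).2

theorem adm_ge (hV : Admissible d V) (x : E d) : ‖x‖ ^ 2 / 2 ≤ V x := by
  have := adm_lower hV 0 x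
  rw [hV.2.1, hV.2.2.1, inner_zero_left, zero_add] at this
  simpa using this

theorem adm_le (hV : Admissible d V) (x : E d) : V x ≤ ‖x‖ ^ 2 := by
  have := adm_upper hV 0 x
  rw [hV.2.1, hV.2.2.1, inner_zero_left, zero_add] at this
  simpa using this

theorem adm_inner_ge (hV : Admissible d V) (x : E d) : ‖x‖ ^ 2 ≤ ⟪gradient V x, x⟫ := by
  have h1 := adm_lower hV x (-x)
  rw [add_neg_cancel, hV.2.1, inner_neg_right, norm_neg] at h1
  have h2 := adm_ge hV x
  linarith

theorem adm_grad_le (hV : Admissible d V) (x : E d) : ‖gradient V x‖ ≤ 3 * ‖x‖ := by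
  rcases eq_or_ne (gradient V x) 0 with hg | hg
  · rw [hg, norm_zero]; positivity
  rcases eq_or_ne x 0 with hx | hx
  · subst hx; rw [hV.2.2.1]; simp
  have hgp : 0 < ‖gradient V x‖ := norm_pos_iff.mpr hg
  have hxp : 0 < ‖x‖ := norm_pos_iff.mpr hx
  set u : E d := (‖x‖ / ‖gradient V x‖) • gradient V x with hu
  have hun : ‖u‖ = ‖x‖ := by
    rw [hu, norm_smul, norm_div, norm_norm, norm_norm]; field_simp
  have h1 := adm_lower hV x u
  have h2 := adm_le hV (x + u)
  have h3 := adm_ge hV x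
  have h4 : ⟪gradient V x, u⟫ = ‖x‖ * ‖gradient V x‖ := by
    rw [hu, inner_smul_right, real_inner_self_eq_norm_sq]; field_simp
  have h5 : ‖x + u‖ ^ 2 ≤ (‖x‖ + ‖x‖) ^ 2 := by
    have := norm_add_le x u
    rw [hun] at this
    gcongr
  rw [h4, hun] at h1
  have h6 : ‖x‖ * ‖gradient V x‖ ≤ ‖x‖ * (3 * ‖x‖) := by nlinarith
  exact le_of_mul_le_mul_left h6 hxp

theorem adm_mid (hV : Admissible d V) (x y : E d) :
    V ((1 / 2 : ℝ) • x + (1 / 2 : ℝ) • y) + 1 / 8 * ‖x - y‖ ^ 2 ≤ (V x + V y) / 2 := by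
  set m : E d := (1 / 2 : ℝ) • x + (1 / 2 : ℝ) • y with hm
  set u : E d := (1 / 2 : ℝ) • (x - y) with hu
  have e1 : m + u = x := by rw [hm, hu]; module
  have e2 : m + -u = y := by rw [hm, hu]; module
  have h1 := adm_lower hV m u
  have h2 := adm_lower hV m (-u)
  rw [e1] at h1
  rw [e2, inner_neg_right, norm_neg] at h2
  have h3 : ‖u‖ ^ 2 = ‖x - y‖ ^ 2 / 4 := by
    rw [hu, norm_smul, mul_pow]; norm_num; ring
  rw [h3] at h1 h2
  linarith

theorem adm_sconv (hV : Admissible d V) : SConv 1 V where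
  cont := adm_cont hV
  lb := ⟨1 / 2, by norm_num, 0, fun x => by have := adm_ge hV x; linarith⟩
  mpos := one_pos
  mid := adm_mid hV

/-- The potential of the posterior. -/
def pp (V : E d → ℝ) (c : E d) (s : ℝ) : E d → ℝ := fun z => V z + ‖z - c‖ ^ 2 / (2 * s ^ 2)

theorem post_eq (V : E d → ℝ) (c : E d) (s : ℝ) : post V c s = gibbs (pp V c s) := rfl

theorem adm_sconv_pp (hV : Admissible d V) (c : E d) {s : ℝ} (hs : 0 < s) :
    SConv (1 + 1 / s ^ 2) (pp V c s) where
  cont := (adm_cont hV).add (((continuous_id.sub continuous_const).norm.pow 2).div_const _)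
  lb := ⟨1 / 2, by norm_num, 0, fun x => by
    have h1 := adm_ge hV x
    have h2 : 0 ≤ ‖x - c‖ ^ 2 / (2 * s ^ 2) := by positivity
    unfold pp; linarith⟩
  mpos := by positivity
  mid := fun x y => by
    have h1 := adm_mid hV x y
    unfold pp
    have e : (1 / 2 : ℝ) • x + (1 / 2 : ℝ) • y - c =
        (1 / 2 : ℝ) • (x - c) + (1 / 2 : ℝ) • (y - c) := by module
    have e3 : x - y = (x - c) - (y - c) := by abel
    have h2 : ‖(1 / 2 : ℝ) • (x - c) + (1 / 2 : ℝ) • (y - c)‖ ^ 2 + 1 / 4 * ‖x - y‖ ^ 2 =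
        (‖x - c‖ ^ 2 + ‖y - c‖ ^ 2) / 2 := by
      have h5 := parallelogram_law_with_norm ℝ (x - c) (y - c)
      rw [← e3] at h5
      rw [← smul_add, norm_smul, mul_pow]
      norm_num
      nlinarith
    rw [e]
    have h3 : (‖x - c‖ ^ 2 + ‖y - c‖ ^ 2) / 2 / (2 * s ^ 2) =
        ‖(1 / 2 : ℝ) • (x - c) + (1 / 2 : ℝ) • (y - c)‖ ^ 2 / (2 * s ^ 2) +
          (1 / s ^ 2) / 8 * ‖x - y‖ ^ 2 := by
      rw [← h2]; field_simp; ring
    have h4 : (V x + ‖x - c‖ ^ 2 / (2 * s ^ 2) + (V y + ‖y - c‖ ^ 2 / (2 * s ^ 2))) / 2 =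
        (V x + V y) / 2 + (‖x - c‖ ^ 2 + ‖y - c‖ ^ 2) / 2 / (2 * s ^ 2) := by ring
    rw [h4, h3]
    linarith

theorem pp_tilt (V : E d → ℝ) (c c' : E d) {s : ℝ} (hs : 0 < s) :
    ∃ k : ℝ, ∀ z, tilt (pp V c s) ((1 / s ^ 2) • (c' - c)) z + k = pp V c' s z := by
  refine ⟨(‖c'‖ ^ 2 - ‖c‖ ^ 2) / (2 * s ^ 2), fun z => ?_⟩
  unfold tilt pp
  rw [inner_smul_right, inner_sub_right]
  have h1 := norm_sub_sq_real z c
  have h2 := norm_sub_sq_real z c'
  rw [h1, h2]
  field_simp
  ring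

/-- **(T2)** the posterior kernel contracts averages of Lipschitz functions. -/
theorem post_contract (hV : Admissible d V) {s : ℝ} (hs : 0 < s) {L : ℝ} (hL : 0 ≤ L)
    {f : E d → ℝ} (hf : Lip L f) (c c' : E d) :
    |∫ x, f x ∂(post V c' s) - ∫ x, f x ∂(post V c s)| ≤ L / (1 + s ^ 2) * ‖c' - c‖ := by
  have h1 := adm_sconv_pp hV c hs
  obtain ⟨k, hk⟩ := pp_tilt V c c' hs
  have e : gibbs (pp V c' s) = gibbs (tilt (pp V c s) ((1 / s ^ 2) • (c' - c))) := by
    rw [← gibbs_add_const _ (h1.tilt _).toQG k]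
    congr 1
    funext z
    exact (hk z).symm
  rw [post_eq, post_eq, e]
  refine (h1.tilt_le hL hf _).trans (le_of_eq ?_)
  rw [norm_smul, Real.norm_eq_abs, abs_of_pos (by positivity)]
  field_simp
  ring

end Crest.Agent.R285.Top
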