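import Mathlib
import Crest.Agent.R285.PoinBase
import Crest.Agent.R285.Defs
import Crest.Agent.R285.Channel
import Crest.Agent.R285.HJ

-- ▼ part R285/PoinCore
section

/-!
# Row 285: the Poincare inequality for strongly convex Gibbs measures (via Prekopa–Leindler)
-/

set_option autoImplicit false

open MeasureTheory Set Filter Topology
open scoped ENNReal

namespace Crest.Agent.R285.Poin

open Crest.Agent.Lib.PrekopaLeindler

variable {E : Type*} [NormedAddCommGroup E] [InnerProductSpace ℝ E] [FiniteDimensional ℝ E]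
  [MeasurableSpace E] [BorelSpace E]

theorem PL_inner : PL E (volume : Measure E) :=
  PL.of_measurePreserving (stdOrthonormalBasis ℝ E).repr.symm
    (stdOrthonormalBasis ℝ E).measurePreserving_repr_symm (fun a b x y => by simp)
    (PL_euclidean _)

/-- Maurey's property in test-function form. -/
lemma tau_lintegral {H : E → ℝ} {κ : ℝ} (hκ : 0 < κ)
    (hH : StrongConvexOn univ κ H) (hc : Continuous H) {q g : E → ℝ}
    (hq : Measurable q) (hg : Measurable g)
    (hqg : ∀ x y, q x ≤ g y + κ / 4 * ‖x - y‖ ^ 2) :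
    (∫⁻ x, ENNReal.ofReal (Real.exp (q x)) ∂(gibbs H)) *
      (∫⁻ x, ENNReal.ofReal (Real.exp (-g x)) ∂(gibbs H)) ≤ 1 := by
  have hi := StrongConvexOn.integrable_exp hκ hH hc
  rw [lintegral_gibbs hc hi, lintegral_gibbs hc hi]
  have hPL := PL_inner (E := E) (1 / 2) (by norm_num) (by norm_num)
    (fun x => ENNReal.ofReal (Real.exp (-H x)) * ENNReal.ofReal (Real.exp (q x)))
    (fun x => ENNReal.ofReal (Real.exp (-H x)) * ENNReal.ofReal (Real.exp (-g x)))
    (fun x => ENNReal.ofReal (Real.exp (-H x)))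
    (by fun_prop) (by fun_prop) (by fun_prop) ?_
  · have hZ : ∫⁻ x, ENNReal.ofReal (Real.exp (-H x)) = ENNReal.ofReal (gZ H) := by
      rw [gZ, ofReal_integral_eq_lintegral_ofReal hi
        (Eventually.of_forall fun x => (Real.exp_pos _).le)]
    rw [hZ] at hPL
    set A := ∫⁻ x, ENNReal.ofReal (Real.exp (-H x)) * ENNReal.ofReal (Real.exp (q x))
    set B := ∫⁻ x, ENNReal.ofReal (Real.exp (-H x)) * ENNReal.ofReal (Real.exp (-g x))
    set Z := ENNReal.ofReal (gZ H) with hZdef
    have hZ0 : Z ≠ 0 := by simpa [hZdef] using gZ_pos hi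
    have hZt : Z ≠ ⊤ := ENNReal.ofReal_ne_top
    have h1 : A * B ≤ Z * Z := by
      have h2 := ENNReal.rpow_le_rpow hPL (show (0 : ℝ) ≤ 2 by norm_num)
      rw [ENNReal.mul_rpow_of_nonneg _ _ (by norm_num : (0 : ℝ) ≤ 2), ← ENNReal.rpow_mul,
        ← ENNReal.rpow_mul] at h2
      norm_num at h2
      rw [sq] at h2
      exact h2
    calc Z⁻¹ * A * (Z⁻¹ * B) = (Z⁻¹ * Z⁻¹) * (A * B) := by ring
      _ ≤ (Z⁻¹ * Z⁻¹) * (Z * Z) := by gcongr
      _ = (Z⁻¹ * Z) * (Z⁻¹ * Z) := by ring
      _ = 1 := by rw [ENNReal.inv_mul_cancel hZ0 hZt, one_mul]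
  · intro x y
    rw [← ENNReal.ofReal_mul (Real.exp_pos _).le, ← ENNReal.ofReal_mul (Real.exp_pos _).le,
      ← Real.exp_add, ← Real.exp_add, ENNReal.ofReal_rpow_of_pos (Real.exp_pos _),
      ENNReal.ofReal_rpow_of_pos (Real.exp_pos _), ← Real.exp_mul, ← Real.exp_mul,
      ← ENNReal.ofReal_mul (Real.exp_pos _).le, ← Real.exp_add]
    apply ENNReal.ofReal_le_ofReal
    rw [Real.exp_le_exp]
    have h1 := hH.2 (mem_univ x) (mem_univ y) (show (0 : ℝ) ≤ 1 - 1 / 2 by norm_num)
      (show (0 : ℝ) ≤ 1 / 2 by norm_num) (by norm_num)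
    simp only [smul_eq_mul] at h1
    have h2 := hqg x y
    nlinarith

/-- Maurey's property in test-function form, with integrals of bounded functions. -/
lemma tau_integral {H : E → ℝ} {κ : ℝ} (hκ : 0 < κ)
    (hH : StrongConvexOn univ κ H) (hc : Continuous H) {q g : E → ℝ}
    (hq : Measurable q) (hg : Measurable g)
    (hqi : Integrable (fun x => Real.exp (q x)) (gibbs H))
    (hgi : Integrable (fun x => Real.exp (-g x)) (gibbs H))
    (hqg : ∀ x y, q x ≤ g y + κ / 4 * ‖x - y‖ ^ 2) :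
    (∫ x, Real.exp (q x) ∂(gibbs H)) * (∫ x, Real.exp (-g x) ∂(gibbs H)) ≤ 1 := by
  have h := tau_lintegral hκ hH hc hq hg hqg
  rw [← ofReal_integral_eq_lintegral_ofReal hqi (Eventually.of_forall fun x => (Real.exp_pos _).le),
    ← ofReal_integral_eq_lintegral_ofReal hgi (Eventually.of_forall fun x => (Real.exp_pos _).le),
    ← ENNReal.ofReal_mul (integral_nonneg fun x => (Real.exp_pos _).le)] at h
  rwa [ENNReal.ofReal_le_one] at h

lemma exp_lower3 {x : ℝ} (hx : |x| ≤ 1) : 1 + x + x ^ 2 / 2 - |x| ^ 3 ≤ Real.exp x := by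
  have h := Real.exp_bound hx (n := 3) (by norm_num)
  rw [Finset.sum_range_succ, Finset.sum_range_succ, Finset.sum_range_one] at h
  simp only [Nat.factorial, Nat.succ_eq_add_one] at h
  norm_num at h
  have h2 := (abs_le.1 h).1
  have h3 : 0 ≤ |x| ^ 3 := by positivity
  linarith

lemma exp_upper2 {x : ℝ} (hx : |x| ≤ 1) : Real.exp x ≤ 1 + x + x ^ 2 := by
  have h := Real.abs_exp_sub_one_sub_id_le hx
  have := (abs_le.1 h).2
  linarith

/-- Linearised property tau: one step at scale `ε`. -/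
lemma tau_lin {H : E → ℝ} {κ : ℝ} (hκ : 0 < κ)
    (hH : StrongConvexOn univ κ H) (hc : Continuous H) {f w : E → ℝ} {B W ε : ℝ}
    (hf : Measurable f) (hw : Measurable w) (hB : ∀ x, |f x| ≤ B) (hw0 : ∀ x, 0 ≤ w x)
    (hW : ∀ x, w x ≤ W) (hmean : ∫ x, f x ∂(gibbs H) = 0)
    (hε0 : 0 < ε) (hε1 : ε ≤ 1) (hεB : ε * (B + W) ≤ 1)
    (hfw : ∀ x y, ε * f x - ε ^ 2 * w x ≤ ε * f y + κ / 4 * ‖x - y‖ ^ 2) :
    ∫ x, f x ^ 2 ∂(gibbs H) ≤ ∫ x, w x ∂(gibbs H) + ε * (B ^ 4 + B * W + (B + W) ^ 3 + B ^ 3) := by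
  have hi := StrongConvexOn.integrable_exp hκ hH hc
  have := isProbabilityMeasure_gibbs hi
  have hB0 : 0 ≤ B := (abs_nonneg _).trans (hB 0)
  have hW0 : 0 ≤ W := (hw0 0).trans (hW 0)
  set μ := gibbs H with hμ
  have hbdd : ∀ (g : E → ℝ) (K : ℝ), Measurable g → (∀ x, |g x| ≤ K) → Integrable g μ := by
    intro g K hg hK
    exact Integrable.of_bound hg.aestronglyMeasurable K
      (Eventually.of_forall fun x => by simpa using hK x)
  have hqabs : ∀ x, |ε * f x - ε ^ 2 * w x| ≤ ε * (B + W) := by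
    intro x
    have h1 := abs_le.1 (hB x)
    have h2 := hw0 x
    have h3 := hW x
    rw [abs_le]
    constructor
    · nlinarith [mul_nonneg hε0.le h2, mul_nonneg hε0.le (sub_nonneg.2 hε1)]
    · nlinarith [mul_nonneg hε0.le h2, mul_nonneg hε0.le (sub_nonneg.2 hε1)]
  have hfabs : ∀ x, |-(ε * f x)| ≤ ε * B := by
    intro x
    rw [abs_neg, abs_mul, abs_of_pos hε0]
    gcongr
    exact hB x
  have hεB1 : ε * B ≤ 1 := by nlinarith
  have hfi : Integrable f μ := hbdd f B hf hB
  have hwi : Integrable w μ := hbdd w W hw (fun x => by rw [abs_of_nonneg (hw0 x)]; exact hW x)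
  have hf2i : Integrable (fun x => f x ^ 2) μ := by
    refine hbdd _ (B ^ 2) (by fun_prop) (fun x => ?_)
    rw [abs_pow]
    gcongr
    exact hB x
  have hexpq : Integrable (fun x => Real.exp (ε * f x - ε ^ 2 * w x)) μ := by
    refine hbdd _ (Real.exp 1) (by fun_prop) (fun x => ?_)
    rw [abs_of_pos (Real.exp_pos _), Real.exp_le_exp]
    exact (le_abs_self _).trans ((hqabs x).trans hεB)
  have hexpf : Integrable (fun x => Real.exp (-(ε * f x))) μ := by
    refine hbdd _ (Real.exp 1) (by fun_prop) (fun x => ?_)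
    rw [abs_of_pos (Real.exp_pos _), Real.exp_le_exp]
    exact (le_abs_self _).trans ((hfabs x).trans hεB1)
  have hmain := tau_integral hκ hH hc (q := fun x => ε * f x - ε ^ 2 * w x)
    (g := fun x => ε * f x) (by fun_prop) (by fun_prop) hexpq hexpf hfw
  rw [← hμ] at hmain
  set P := ∫ x, Real.exp (ε * f x - ε ^ 2 * w x) ∂μ with hP
  set R := ∫ x, Real.exp (-(ε * f x)) ∂μ with hR
  set v := ∫ x, f x ^ 2 ∂μ with hv
  set wb := ∫ x, w x ∂μ with hwb
  -- lower bound for P
  have hP1 : 1 - ε ^ 2 * wb + ε ^ 2 / 2 * v - ε ^ 3 * (B * W + (B + W) ^ 3) ≤ P := by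
    have h1 : ∀ x, 1 + ε * f x - ε ^ 2 * w x + ε ^ 2 / 2 * f x ^ 2
        - ε ^ 3 * (B * W + (B + W) ^ 3) ≤ Real.exp (ε * f x - ε ^ 2 * w x) := by
      intro x
      have h2 := exp_lower3 ((hqabs x).trans hεB)
      have h3 : |ε * f x - ε ^ 2 * w x| ^ 3 ≤ (ε * (B + W)) ^ 3 := by
        gcongr; exact hqabs x
      have h4 : f x * w x ≤ B * W := by
        calc f x * w x ≤ |f x| * w x := by gcongr; exacts [hw0 x, le_abs_self _]
          _ ≤ B * W := by gcongr; exacts [hw0 x, hB x, hW x]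
      have h5 : (0 : ℝ) ≤ ε ^ 4 * w x ^ 2 := by positivity
      have h6 : ε ^ 3 * (f x * w x) ≤ ε ^ 3 * (B * W) := by gcongr
      nlinarith
    calc 1 - ε ^ 2 * wb + ε ^ 2 / 2 * v - ε ^ 3 * (B * W + (B + W) ^ 3)
        = ∫ x, (1 + ε * f x - ε ^ 2 * w x + ε ^ 2 / 2 * f x ^ 2
          - ε ^ 3 * (B * W + (B + W) ^ 3)) ∂μ := by
          rw [integral_sub, integral_add, integral_sub, integral_add, integral_const_mul,
            integral_const_mul, integral_const_mul, hmean]
          · simp [hwb, hv]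
          · exact integrable_const _
          · exact hfi.const_mul _
          · exact (integrable_const _).add (hfi.const_mul _)
          · exact hwi.const_mul _
          · exact ((integrable_const _).add (hfi.const_mul _)).sub (hwi.const_mul _)
          · exact hf2i.const_mul _
          · exact (((integrable_const _).add (hfi.const_mul _)).sub (hwi.const_mul _)).add
              (hf2i.const_mul _)
          · exact integrable_const _
      _ ≤ P := by
          refine integral_mono ?_ hexpq h1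
          exact ((((integrable_const _).add (hfi.const_mul _)).sub (hwi.const_mul _)).add
              (hf2i.const_mul _)).sub (integrable_const _)
  have hR1 : 1 + ε ^ 2 / 2 * v - ε ^ 3 * B ^ 3 ≤ R := by
    have h1 : ∀ x, 1 - ε * f x + ε ^ 2 / 2 * f x ^ 2 - ε ^ 3 * B ^ 3
        ≤ Real.exp (-(ε * f x)) := by
      intro x
      have h2 := exp_lower3 ((hfabs x).trans hεB1)
      have h3 : |-(ε * f x)| ^ 3 ≤ (ε * B) ^ 3 := by
        gcongr; exact hfabs x
      nlinarith
    calc 1 + ε ^ 2 / 2 * v - ε ^ 3 * B ^ 3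
        = ∫ x, (1 - ε * f x + ε ^ 2 / 2 * f x ^ 2 - ε ^ 3 * B ^ 3) ∂μ := by
          rw [integral_sub, integral_add, integral_sub, integral_const_mul,
            integral_const_mul, hmean]
          · simp [hv]
          · exact integrable_const _
          · exact hfi.const_mul _
          · exact (integrable_const _).sub (hfi.const_mul _)
          · exact hf2i.const_mul _
          · exact ((integrable_const _).sub (hfi.const_mul _)).add (hf2i.const_mul _)
          · exact integrable_const _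
      _ ≤ R := by
          refine integral_mono ?_ hexpf h1
          exact (((integrable_const _).sub (hfi.const_mul _)).add
              (hf2i.const_mul _)).sub (integrable_const _)
  have hR2 : 1 ≤ R := by
    calc (1 : ℝ) = ∫ x, (1 - ε * f x) ∂μ := by
          rw [integral_sub (integrable_const _) (hfi.const_mul _), integral_const_mul, hmean]
          simp
      _ ≤ R := by
          refine integral_mono ((integrable_const _).sub (hfi.const_mul _)) hexpf (fun x => ?_)
          have := Real.add_one_le_exp (-(ε * f x))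
          simp only
          linarith
  have hR3 : R ≤ 1 + ε ^ 2 * B ^ 2 := by
    calc R ≤ ∫ x, (1 - ε * f x + ε ^ 2 * B ^ 2) ∂μ := by
          refine integral_mono hexpf (((integrable_const _).sub (hfi.const_mul _)).add
            (integrable_const _)) (fun x => ?_)
          have h2 := exp_upper2 ((hfabs x).trans hεB1)
          have h3 : (-(ε * f x)) ^ 2 ≤ ε ^ 2 * B ^ 2 := by
            rw [← sq_abs, ← mul_pow]
            gcongr
            exact hfabs x
          simp only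
          linarith
      _ = 1 + ε ^ 2 * B ^ 2 := by
          rw [integral_add, integral_sub (integrable_const _) (hfi.const_mul _),
            integral_const_mul, hmean]
          · simp
          · exact (integrable_const _).sub (hfi.const_mul _)
          · exact integrable_const _
  have hPR : P + R ≤ 2 + (R - 1) ^ 2 := by
    have h1 : P ≤ 1 / R := by
      rw [le_div_iff₀ (by linarith)]
      exact hmain
    have h2 : 1 / R ≤ 1 - (R - 1) + (R - 1) ^ 2 := by
      rw [div_le_iff₀ (by linarith)]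
      nlinarith [mul_nonneg (sub_nonneg.2 hR2) (sq_nonneg (R - 1))]
    linarith
  have hR4 : (R - 1) ^ 2 ≤ (ε ^ 2 * B ^ 2) ^ 2 := by
    have : 0 ≤ R - 1 := by linarith
    gcongr
    linarith
  have h7 : ε ^ 2 * (v - wb) ≤ ε ^ 2 * (ε * (B ^ 4 + B * W + (B + W) ^ 3 + B ^ 3)) := by
    have h8 : (ε ^ 2 * B ^ 2) ^ 2 ≤ ε ^ 3 * B ^ 4 := by
      have : ε ^ 4 ≤ ε ^ 3 := pow_le_pow_of_le_one hε0.le hε1 (by norm_num)
      calc (ε ^ 2 * B ^ 2) ^ 2 = ε ^ 4 * B ^ 4 := by ring
        _ ≤ ε ^ 3 * B ^ 4 := by gcongr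
    nlinarith
  have h9 := le_of_mul_le_mul_left h7 (by positivity)
  linarith

end Crest.Agent.R285.Poin
end

-- ▼ part R285/Poin
section

/-!
# Row 285: the Poincare inequality for strongly convex Gibbs measures
-/

set_option autoImplicit false

open MeasureTheory Set Filter Topology
open scoped ENNReal

namespace Crest.Agent.R285.Poin

variable {E : Type*} [NormedAddCommGroup E] [InnerProductSpace ℝ E] [FiniteDimensional ℝ E]
  [MeasurableSpace E] [BorelSpace E]

lemma tau_limit {H : E → ℝ} {κ : ℝ} (hκ : 0 < κ)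
    (hH : StrongConvexOn univ κ H) (hc : Continuous H) {f w : E → ℝ} {B W : ℝ}
    (hf : Measurable f) (hw : Measurable w) (hB : ∀ x, |f x| ≤ B) (hw0 : ∀ x, 0 ≤ w x)
    (hW : ∀ x, w x ≤ W) (hmean : ∫ x, f x ∂(gibbs H) = 0) {ε₀ : ℝ} (hε₀ : 0 < ε₀)
    (hfw : ∀ ε, 0 < ε → ε ≤ ε₀ →
      ∀ x y, ε * f x - ε ^ 2 * w x ≤ ε * f y + κ / 4 * ‖x - y‖ ^ 2) :
    ∫ x, f x ^ 2 ∂(gibbs H) ≤ ∫ x, w x ∂(gibbs H) := by
  have hB0 : 0 ≤ B := (abs_nonneg _).trans (hB 0)
  have hW0 : 0 ≤ W := (hw0 0).trans (hW 0)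
  set K := B ^ 4 + B * W + (B + W) ^ 3 + B ^ 3 with hK
  have hK0 : 0 ≤ K := by positivity
  refine le_of_forall_pos_le_add fun δ hδ => ?_
  set ε := min (min ε₀ 1) (min (1 / (B + W + 1)) (δ / (K + 1))) with hε
  have hεpos : 0 < ε := by
    simp only [hε, lt_min_iff]
    refine ⟨⟨hε₀, one_pos⟩, by positivity, by positivity⟩
  have h1 : ε ≤ ε₀ := (min_le_left _ _).trans (min_le_left _ _)
  have h2 : ε ≤ 1 := (min_le_left _ _).trans (min_le_right _ _)
  have h3 : ε ≤ 1 / (B + W + 1) := (min_le_right _ _).trans (min_le_left _ _)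
  have h4 : ε ≤ δ / (K + 1) := (min_le_right _ _).trans (min_le_right _ _)
  have h5 := tau_lin hκ hH hc hf hw hB hw0 hW hmean hεpos h2 ?_ (hfw ε hεpos h1)
  · refine h5.trans ?_
    rw [le_div_iff₀ (by positivity)] at h4
    have : ε * K ≤ δ := by nlinarith
    linarith
  · rw [le_div_iff₀ (by positivity)] at h3
    nlinarith




/-- bounded `C¹`, mean zero, uniformly continuous bounded derivative -/
lemma poinc_aux {H : E → ℝ} {κ : ℝ} (hκ : 0 < κ)
    (hH : StrongConvexOn univ κ H) (hc : Continuous H) {f : E → ℝ} {B L : ℝ}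
    (hf : ContDiff ℝ 1 f) (hB : ∀ x, |f x| ≤ B) (hL : ∀ x, ‖fderiv ℝ f x‖ ≤ L)
    (hu : UniformContinuous (fderiv ℝ f))
    (hmean : ∫ x, f x ∂(gibbs H) = 0) :
    ∫ x, f x ^ 2 ∂(gibbs H) ≤ (∫ x, ‖fderiv ℝ f x‖ ^ 2 ∂(gibbs H)) / κ := by
  have hprob := isProbabilityMeasure_gibbs (StrongConvexOn.integrable_exp hκ hH hc)
  set μ := gibbs H with hμ
  have hL0 : 0 ≤ L := (norm_nonneg _).trans (hL 0)
  have hdc : Continuous (fderiv ℝ f) := hf.continuous_fderiv one_ne_zero
  have hdiff : Differentiable ℝ f := hf.differentiable (by norm_num)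
  have hbdd : ∀ (g : E → ℝ) (K : ℝ), Continuous g → (∀ x, |g x| ≤ K) → Integrable g μ := by
    intro g K hg hK
    exact Integrable.of_bound hg.aestronglyMeasurable K
      (Eventually.of_forall fun x => by simpa using hK x)
  have hd1 : Integrable (fun x => ‖fderiv ℝ f x‖) μ :=
    hbdd _ L hdc.norm (fun x => by rw [abs_of_nonneg (norm_nonneg _)]; exact hL x)
  have hd2 : Integrable (fun x => ‖fderiv ℝ f x‖ ^ 2) μ :=
    hbdd _ (L ^ 2) (hdc.norm.pow 2) (fun x => by
      rw [abs_of_nonneg (by positivity)]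
      have := hL x
      gcongr)
  have key : ∀ δ : ℝ, 0 < δ → δ ≤ 1 →
      ∫ x, f x ^ 2 ∂μ ≤ (∫ x, ‖fderiv ℝ f x‖ ^ 2 ∂μ) / κ + δ * ((2 * L + 1) / κ) := by
    intro δ hδ hδ1
    obtain ⟨ρ, hρ, hρ2⟩ := Metric.uniformContinuous_iff.1 hu δ hδ
    have h1 := tau_limit hκ hH hc (f := f) (w := fun x => (‖fderiv ℝ f x‖ + δ) ^ 2 / κ)
      (W := (L + δ) ^ 2 / κ) (B := B) (ε₀ := κ * ρ / (4 * (L + 1))) hdiff.continuous.measurable
      (by have := hdc.norm; exact (by fun_prop : Continuous _).measurable) hB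
      (fun x => by positivity) (fun x => by have := hL x; gcongr) hmean (by positivity) ?_
    · refine h1.trans ?_
      have h2 : ∫ x, (‖fderiv ℝ f x‖ + δ) ^ 2 / κ ∂μ
          ≤ ∫ x, (‖fderiv ℝ f x‖ ^ 2 / κ + δ * ((2 * L + 1) / κ)) ∂μ := by
        refine integral_mono ?_ ((hd2.div_const κ).add (integrable_const _)) (fun x => ?_)
        · refine hbdd _ ((L + δ) ^ 2 / κ) (by have := hdc.norm; fun_prop) (fun x => ?_)
          rw [abs_of_nonneg (by positivity)]
          have := hL x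
          gcongr
        · simp only
          have h3 : (‖fderiv ℝ f x‖ + δ) ^ 2 ≤ ‖fderiv ℝ f x‖ ^ 2 + δ * (2 * L + 1) := by
            have := hL x
            nlinarith [mul_nonneg hδ.le (sub_nonneg.2 this), mul_nonneg hδ.le (sub_nonneg.2 hδ1)]
          calc (‖fderiv ℝ f x‖ + δ) ^ 2 / κ ≤ (‖fderiv ℝ f x‖ ^ 2 + δ * (2 * L + 1)) / κ := by
                gcongr
            _ = _ := by ring
      refine h2.trans (le_of_eq ?_)
      rw [integral_add (hd2.div_const κ) (integrable_const _), integral_div]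
      simp
    · intro ε hε hεle x y
      set r := ‖x - y‖ with hr
      have hr0 : 0 ≤ r := norm_nonneg _
      rcases lt_or_ge r ρ with hlt | hge
      · -- close
        have hmv : |f x - f y| ≤ (‖fderiv ℝ f x‖ + δ) * r := by
          have hconv : Convex ℝ (Metric.ball x ρ) := convex_ball x ρ
          have h3 := hconv.norm_image_sub_le_of_norm_fderiv_le (𝕜 := ℝ) (f := f)
            (C := ‖fderiv ℝ f x‖ + δ) (fun z _ => hdiff z) (fun z hz => ?_)
            (x := y) (y := x) ?_ (Metric.mem_ball_self hρ)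
          · simpa [Real.norm_eq_abs] using h3
          · have h4 := hρ2 (show dist z x < ρ from hz)
            rw [dist_eq_norm] at h4
            have h5 := norm_sub_norm_le (fderiv ℝ f z) (fderiv ℝ f x)
            linarith
          · rw [Metric.mem_ball, dist_comm, dist_eq_norm]
            exact hlt
        have h4 := (abs_le.1 hmv).2
        set a := ‖fderiv ℝ f x‖ + δ with ha
        have h5 : 0 ≤ (ε * a - κ / 2 * r) ^ 2 / κ := by positivity
        have e : (ε * a - κ / 2 * r) ^ 2 / κ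
            = ε ^ 2 * (a ^ 2 / κ) - ε * a * r + κ / 4 * r ^ 2 := by
          field_simp; ring
        have h6 : ε * (f x - f y) ≤ ε * (a * r) := by gcongr
        nlinarith
      · have hmv : |f x - f y| ≤ L * r := by
          have h3 := (convex_univ (𝕜 := ℝ) (E := E)).norm_image_sub_le_of_norm_fderiv_le (𝕜 := ℝ)
            (f := f) (C := L) (fun z _ => hdiff z) (fun z _ => hL z)
            (x := y) (y := x) (mem_univ _) (mem_univ _)
          simpa [Real.norm_eq_abs] using h3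
        have h4 := (abs_le.1 hmv).2
        have h5 : ε * (4 * (L + 1)) ≤ κ * ρ := by
          rwa [le_div_iff₀ (by positivity)] at hεle
        have h6 : ε * (f x - f y) ≤ ε * (L * r) := by gcongr
        have h7 : 4 * ε * L ≤ κ * r := by nlinarith [mul_nonneg hκ.le (sub_nonneg.2 hge)]
        have h8 : 0 ≤ r * (κ * r - 4 * ε * L) := mul_nonneg hr0 (by linarith)
        have h9 : 0 ≤ ε ^ 2 * ((‖fderiv ℝ f x‖ + δ) ^ 2 / κ) := by positivity
        nlinarith
  refine le_of_forall_pos_le_add fun η hη => ?_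
  have hK : 0 < (2 * L + 1) / κ := by positivity
  have h1 := key (min 1 (η / ((2 * L + 1) / κ))) (by positivity) (min_le_left _ _)
  refine h1.trans ?_
  have h2 : min 1 (η / ((2 * L + 1) / κ)) * ((2 * L + 1) / κ) ≤ η := by
    have h3 : min 1 (η / ((2 * L + 1) / κ)) ≤ η / ((2 * L + 1) / κ) := min_le_right _ _
    rwa [le_div_iff₀ hK] at h3
  linarith

/-- compactly supported `C¹` -/
lemma poinc_cs {H : E → ℝ} {κ : ℝ} (hκ : 0 < κ)
    (hH : StrongConvexOn univ κ H) (hc : Continuous H) {f : E → ℝ}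
    (hf : ContDiff ℝ 1 f) (hs : HasCompactSupport f) :
    ∫ x, (f x - ∫ y, f y ∂(gibbs H)) ^ 2 ∂(gibbs H)
      ≤ (∫ x, ‖fderiv ℝ f x‖ ^ 2 ∂(gibbs H)) / κ := by
  have hprob := isProbabilityMeasure_gibbs (StrongConvexOn.integrable_exp hκ hH hc)
  set μ := gibbs H with hμ
  set m := ∫ y, f y ∂μ with hm
  have hdc : Continuous (fderiv ℝ f) := hf.continuous_fderiv one_ne_zero
  obtain ⟨B, hB⟩ := hs.exists_bound_of_continuous hf.continuous
  obtain ⟨L, hL⟩ := (hs.fderiv (𝕜 := ℝ)).exists_bound_of_continuous hdc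
  have hfd : ∀ x, fderiv ℝ (fun x => f x - m) x = fderiv ℝ f x := fun x => fderiv_sub_const _
  have h := poinc_aux hκ hH hc (f := fun x => f x - m) (B := B + |m|) (L := L)
    (hf.sub contDiff_const) (fun x => ?_) (fun x => ?_) ?_ ?_
  · simpa only [hfd] using h
  · have := hB x
    rw [Real.norm_eq_abs] at this
    exact (abs_sub _ _).trans (by gcongr)
  · rw [hfd]; exact hL x
  · have : fderiv ℝ (fun x => f x - m) = fderiv ℝ f := funext hfd
    rw [this]
    exact hdc.uniformContinuous_of_tendsto_cocompact (hs.fderiv (𝕜 := ℝ)).is_zero_at_infty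
  · rw [integral_sub _ (integrable_const _)]
    · simp [hm, ← hμ]
    · exact Integrable.of_bound hf.continuous.aestronglyMeasurable B (Eventually.of_forall hB)

/-- **Poincare inequality**, `C¹` functions of polynomial growth. -/
theorem poincare {H : E → ℝ} {κ : ℝ} (hκ : 0 < κ)
    (hH : StrongConvexOn univ κ H) (hc : Continuous H) {f : E → ℝ}
    (hf : ContDiff ℝ 1 f) {C : ℝ} {N : ℕ} (hfC : ∀ x, |f x| ≤ C * (1 + ‖x‖) ^ N)
    (hdC : ∀ x, ‖fderiv ℝ f x‖ ≤ C * (1 + ‖x‖) ^ N) :
    ∫ x, (f x - ∫ y, f y ∂(gibbs H)) ^ 2 ∂(gibbs H)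
      ≤ (∫ x, ‖fderiv ℝ f x‖ ^ 2 ∂(gibbs H)) / κ := by
  have hprob := isProbabilityMeasure_gibbs (StrongConvexOn.integrable_exp hκ hH hc)
  set μ := gibbs H with hμ
  have hC0 : 0 ≤ C := by
    have := (abs_nonneg _).trans (hfC 0)
    simpa using this
  have hdc : Continuous (fderiv ℝ f) := hf.continuous_fderiv one_ne_zero
  have hint : ∀ (n : ℕ) (D : ℝ), Integrable (fun x : E => D * (1 + ‖x‖) ^ n) μ := by
    intro n D
    refine StrongConvexOn.integrable_gibbs hκ hH hc (by fun_prop) (C := |D|) (n := n)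
      (a := 0) (fun x => ?_)
    rw [norm_mul, Real.norm_of_nonneg (by positivity : (0:ℝ) ≤ (1 + ‖x‖) ^ n)]
    simp
  let χ : ContDiffBump (0 : E) := ⟨1, 2, one_pos, one_lt_two⟩
  have hχ1 : ContDiff ℝ 1 (χ : E → ℝ) := χ.contDiff
  have hχs : HasCompactSupport (χ : E → ℝ) := χ.hasCompactSupport
  obtain ⟨M, hM⟩ := (hχs.fderiv (𝕜 := ℝ)).exists_bound_of_continuous
    (hχ1.continuous_fderiv one_ne_zero)
  have hM0 : 0 ≤ M := (norm_nonneg _).trans (hM 0)
  set c : ℕ → ℝ := fun n => ((n : ℝ) + 1)⁻¹ with hcdef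
  have hc0 : ∀ n, 0 < c n := fun n => by simp only [hcdef]; positivity
  have hc1 : ∀ n, c n ≤ 1 := fun n => by
    simp only [hcdef]
    exact inv_le_one_of_one_le₀ (by linarith [(Nat.cast_nonneg n : (0:ℝ) ≤ n)])
  set X : ℕ → E → ℝ := fun n x => χ (c n • x) with hX
  have hXc : ∀ n, ContDiff ℝ 1 (X n) := fun n => hχ1.comp (contDiff_const_smul (c n))
  have hX01 : ∀ n x, 0 ≤ X n x ∧ X n x ≤ 1 := fun n x => ⟨χ.nonneg, χ.le_one⟩
  have hXd : ∀ n x, ‖fderiv ℝ (X n) x‖ ≤ M := by
    intro n x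
    have h1 : fderiv ℝ (X n) x = c n • fderiv ℝ (χ : E → ℝ) (c n • x) := by
      simp only [hX]
      exact fderiv_comp_smul (f := (χ : E → ℝ)) (x := x) (c n)
    rw [h1, norm_smul, Real.norm_of_nonneg (hc0 n).le]
    calc c n * ‖fderiv ℝ (χ : E → ℝ) (c n • x)‖ ≤ 1 * M := by
          gcongr
          · exact hc1 n
          · exact hM _
      _ = M := one_mul M
  have hXs : ∀ n, HasCompactSupport (X n) := fun n => hχs.comp_smul (hc0 n).ne'
  have hX1 : ∀ (x : E) (n : ℕ), ‖x‖ < n + 1 → X n x = 1 := by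
    intro x n hx
    apply χ.one_of_mem_closedBall
    rw [mem_closedBall_zero_iff, norm_smul, Real.norm_of_nonneg (hc0 n).le]
    show c n * ‖x‖ ≤ 1
    simp only [hcdef]
    rw [inv_mul_le_iff₀ (by positivity)]
    linarith
  have hX1e : ∀ (x : E) (n : ℕ), ‖x‖ < n + 1 → X n =ᶠ[𝓝 x] fun _ => 1 := by
    intro x n hx
    have : {y : E | ‖y‖ < n + 1} ∈ 𝓝 x := (isOpen_lt continuous_norm continuous_const).mem_nhds hx
    filter_upwards [this] with y hy
    exact hX1 y n hy
  set F : ℕ → E → ℝ := fun n x => X n x * f x with hF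
  have hFc : ∀ n, ContDiff ℝ 1 (F n) := fun n => (hXc n).mul hf
  have hFs : ∀ n, HasCompactSupport (F n) := fun n => (hXs n).mul_right
  have hFb : ∀ n x, |F n x| ≤ C * (1 + ‖x‖) ^ N := by
    intro n x
    simp only [hF]
    rw [abs_mul, abs_of_nonneg (hX01 n x).1]
    calc X n x * |f x| ≤ 1 * |f x| := by gcongr; exact (hX01 n x).2
      _ ≤ _ := by rw [one_mul]; exact hfC x
  have hFd : ∀ n x, ‖fderiv ℝ (F n) x‖ ≤ (1 + M) * (C * (1 + ‖x‖) ^ N) := by
    intro n x
    have h1 : fderiv ℝ (F n) x = X n x • fderiv ℝ f x + f x • fderiv ℝ (X n) x := by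
      simp only [hF]
      exact fderiv_fun_mul ((hXc n).differentiable (by norm_num) x)
        (hf.differentiable (by norm_num) x)
    rw [h1]
    calc ‖X n x • fderiv ℝ f x + f x • fderiv ℝ (X n) x‖
        ≤ ‖X n x • fderiv ℝ f x‖ + ‖f x • fderiv ℝ (X n) x‖ := norm_add_le _ _
      _ ≤ 1 * (C * (1 + ‖x‖) ^ N) + (C * (1 + ‖x‖) ^ N) * M := by
          rw [norm_smul, norm_smul, Real.norm_of_nonneg (hX01 n x).1, Real.norm_eq_abs]
          gcongr
          · exact (hX01 n x).2
          · exact hdC x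
          · exact hfC x
          · exact hXd n x
      _ = _ := by ring
  have hFlim : ∀ x, ∀ᶠ n in atTop, F n x = f x := by
    intro x
    obtain ⟨n0, hn0⟩ := exists_nat_ge ‖x‖
    filter_upwards [eventually_ge_atTop n0] with n hn
    have : ‖x‖ < n + 1 := by
      have : (n0 : ℝ) ≤ n := by exact_mod_cast hn
      linarith
    simp only [hF]
    rw [hX1 x n this, one_mul]
  have hFdlim : ∀ x, ∀ᶠ n in atTop, fderiv ℝ (F n) x = fderiv ℝ f x := by
    intro x
    obtain ⟨n0, hn0⟩ := exists_nat_ge ‖x‖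
    filter_upwards [eventually_ge_atTop n0] with n hn
    have : ‖x‖ < n + 1 := by
      have : (n0 : ℝ) ≤ n := by exact_mod_cast hn
      linarith
    apply Filter.EventuallyEq.fderiv_eq
    filter_upwards [hX1e x n this] with y hy
    simp only [hF]
    rw [hy, one_mul]
  set m : ℕ → ℝ := fun n => ∫ y, F n y ∂μ with hm
  have hmlim : Tendsto m atTop (𝓝 (∫ y, f y ∂μ)) := by
    refine tendsto_integral_of_dominated_convergence (fun x => C * (1 + ‖x‖) ^ N)
      (fun n => (hFc n).continuous.aestronglyMeasurable) (hint N C)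
      (fun n => Eventually.of_forall fun x => hFb n x) (Eventually.of_forall fun x => ?_)
    exact tendsto_const_nhds.congr' ((hFlim x).mono fun n hn => hn.symm)
  have hmb : ∀ n, |m n| ≤ ∫ x, C * (1 + ‖x‖) ^ N ∂μ := by
    intro n
    rw [← Real.norm_eq_abs]
    refine (norm_integral_le_integral_norm (fun y => F n y)).trans ?_
    exact integral_mono_of_nonneg (Eventually.of_forall fun x => norm_nonneg _) (hint N C)
      (Eventually.of_forall fun x => hFb n x)
  have hineq : ∀ n, ∫ x, (F n x - m n) ^ 2 ∂μ ≤ (∫ x, ‖fderiv ℝ (F n) x‖ ^ 2 ∂μ) / κ :=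
    fun n => poinc_cs hκ hH hc (hFc n) (hFs n)
  have hlim1 : Tendsto (fun n => ∫ x, (F n x - m n) ^ 2 ∂μ) atTop
      (𝓝 (∫ x, (f x - ∫ y, f y ∂μ) ^ 2 ∂μ)) := by
    set K := ∫ x, C * (1 + ‖x‖) ^ N ∂μ with hK
    refine tendsto_integral_of_dominated_convergence
      (fun x => 2 * (C * (1 + ‖x‖) ^ N) ^ 2 + 2 * K ^ 2)
      (fun n => by
        have := (hFc n).continuous
        exact (by fun_prop : Continuous fun x => (F n x - m n) ^ 2).aestronglyMeasurable)
      ?_ (fun n => Eventually.of_forall fun x => ?_)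
      (Eventually.of_forall fun x => ?_)
    · refine Integrable.add ?_ (integrable_const _)
      have := hint (N * 2) (2 * C ^ 2)
      refine this.congr (Eventually.of_forall fun x => ?_)
      simp only
      ring
    · rw [Real.norm_of_nonneg (by positivity)]
      have h1 := hFb n x
      have h2 := hmb n
      have h3 : F n x ^ 2 ≤ (C * (1 + ‖x‖) ^ N) ^ 2 := by
        rw [← sq_abs]; gcongr
      have h4 : m n ^ 2 ≤ K ^ 2 := by
        rw [← sq_abs]; gcongr
      nlinarith [sq_nonneg (F n x + m n)]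
    · have : Tendsto (fun n => F n x) atTop (𝓝 (f x)) :=
        tendsto_const_nhds.congr' ((hFlim x).mono fun n hn => hn.symm)
      exact (this.sub hmlim).pow 2
  have hlim2 : Tendsto (fun n => (∫ x, ‖fderiv ℝ (F n) x‖ ^ 2 ∂μ) / κ) atTop
      (𝓝 ((∫ x, ‖fderiv ℝ f x‖ ^ 2 ∂μ) / κ)) := by
    refine Tendsto.div_const ?_ κ
    refine tendsto_integral_of_dominated_convergence
      (fun x => ((1 + M) * (C * (1 + ‖x‖) ^ N)) ^ 2)
      (fun n => (((hFc n).continuous_fderiv one_ne_zero).norm.pow 2).aestronglyMeasurable)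
      ?_ (fun n => Eventually.of_forall fun x => ?_)
      (Eventually.of_forall fun x => ?_)
    · have := hint (N * 2) ((1 + M) ^ 2 * C ^ 2)
      refine this.congr (Eventually.of_forall fun x => ?_)
      simp only
      ring
    · rw [Real.norm_of_nonneg (by positivity)]
      have := hFd n x
      gcongr
    · exact tendsto_const_nhds.congr' ((hFdlim x).mono fun n hn => by simp only [hn])
  exact le_of_tendsto_of_tendsto' hlim1 hlim2 hineq

end Crest.Agent.R285.Poin
end

-- ▼ part R285/PoinVec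
section

/-!
# Row 285: Poincare inequality, vector valued; the posterior laws
-/

set_option autoImplicit false

open MeasureTheory Set Filter Topology
open scoped ENNReal InnerProductSpace

namespace Crest.Agent.R285.Poin

section general

variable {E : Type*} [NormedAddCommGroup E] [InnerProductSpace ℝ E] [FiniteDimensional ℝ E]
  [MeasurableSpace E] [BorelSpace E]
variable {F : Type*} [NormedAddCommGroup F] [InnerProductSpace ℝ F] [FiniteDimensional ℝ F]

omit [MeasurableSpace E] [BorelSpace E] in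
lemma norm_sq_functional {ι : Type*} [Fintype ι] (b : OrthonormalBasis ι ℝ E) (φ : E →L[ℝ] ℝ) :
    ‖φ‖ ^ 2 = ∑ i, φ (b i) ^ 2 := by
  set v : E := (InnerProductSpace.toDual ℝ E).symm φ with hv
  have h1 : ‖φ‖ = ‖v‖ := by simp [hv]
  have h2 : ∀ x, φ x = ⟪v, x⟫_ℝ := by
    intro x
    rw [hv, InnerProductSpace.toDual_symm_apply]
  rw [h1, ← b.sum_sq_norm_inner_left v]
  refine Finset.sum_congr rfl fun i _ => ?_
  rw [h2, Real.norm_eq_abs, sq_abs]

omit [FiniteDimensional ℝ F] in
lemma norm_sq_basis {ι : Type*} [Fintype ι] (u : OrthonormalBasis ι ℝ F) (v : F) :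
    ‖v‖ ^ 2 = ∑ j, ⟪u j, v⟫_ℝ ^ 2 := by
  rw [← u.sum_sq_norm_inner_right v]
  refine Finset.sum_congr rfl fun i _ => ?_
  rw [Real.norm_eq_abs, sq_abs]

/-- **Poincare inequality**, vector valued, Hilbert–Schmidt norm of the derivative. -/
theorem poincare_vec {H : E → ℝ} {κ : ℝ} (hκ : 0 < κ)
    (hH : StrongConvexOn univ κ H) (hc : Continuous H) {f : E → F}
    (hf : ContDiff ℝ 1 f) {C : ℝ} {N : ℕ} (hfC : ∀ x, ‖f x‖ ≤ C * (1 + ‖x‖) ^ N)
    (hdC : ∀ x, ‖fderiv ℝ f x‖ ≤ C * (1 + ‖x‖) ^ N)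
    {ι : Type*} [Fintype ι] (b : OrthonormalBasis ι ℝ E) :
    ∫ x, ‖f x - ∫ y, f y ∂(gibbs H)‖ ^ 2 ∂(gibbs H)
      ≤ (∫ x, ∑ i, ‖fderiv ℝ f x (b i)‖ ^ 2 ∂(gibbs H)) / κ := by
  have hprob := isProbabilityMeasure_gibbs (StrongConvexOn.integrable_exp hκ hH hc)
  set μ := gibbs H with hμ
  set u := stdOrthonormalBasis ℝ F
  have hC0 : 0 ≤ C := by
    have := (norm_nonneg _).trans (hfC 0)
    simpa using this
  have hint : ∀ (g : E → ℝ) (D : ℝ) (n : ℕ),
      Continuous g → (∀ x, ‖g x‖ ≤ D * (1 + ‖x‖) ^ n) → Integrable g μ := by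
    intro g D n hg hgD
    refine StrongConvexOn.integrable_gibbs hκ hH hc hg.aestronglyMeasurable (C := D) (n := n)
      (a := 0) (fun x => ?_)
    simpa using hgD x
  have hfi : Integrable f μ := by
    refine StrongConvexOn.integrable_gibbs hκ hH hc hf.continuous.aestronglyMeasurable
      (C := C) (n := N) (a := 0) (fun x => ?_)
    simpa using hfC x
  have hdc : Continuous (fderiv ℝ f) := hf.continuous_fderiv one_ne_zero
  have hfd : ∀ j x, fderiv ℝ (fun y => ⟪u j, f y⟫_ℝ) x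
      = (innerSL ℝ (u j)).comp (fderiv ℝ f x) := by
    intro j x
    have h := ((innerSL ℝ (u j)).hasFDerivAt (x := f x)).comp x
      (hf.differentiable (by norm_num) x).hasFDerivAt
    exact h.fderiv
  have hunorm : ∀ j, ‖(innerSL ℝ (u j) : F →L[ℝ] ℝ)‖ = 1 := fun j => by
    rw [innerSL_apply_norm, u.norm_eq_one]
  have hcomp : ∀ j, ∫ x, (⟪u j, f x⟫_ℝ - ∫ y, ⟪u j, f y⟫_ℝ ∂μ) ^ 2 ∂μ
      ≤ (∫ x, ‖fderiv ℝ (fun y => ⟪u j, f y⟫_ℝ) x‖ ^ 2 ∂μ) / κ := by
    intro j
    refine poincare hκ hH hc (C := C) (N := N) ?_ (fun x => ?_) (fun x => ?_)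
    · exact contDiff_const.inner ℝ hf
    · refine (abs_real_inner_le_norm _ _).trans ?_
      rw [u.norm_eq_one, one_mul]
      exact hfC x
    · rw [hfd]
      refine (ContinuousLinearMap.opNorm_comp_le _ _).trans ?_
      rw [hunorm, one_mul]
      exact hdC x
  have hsum1 : ∀ x, ‖f x - ∫ y, f y ∂μ‖ ^ 2
      = ∑ j, (⟪u j, f x⟫_ℝ - ∫ y, ⟪u j, f y⟫_ℝ ∂μ) ^ 2 := by
    intro x
    rw [norm_sq_basis u]
    refine Finset.sum_congr rfl fun j _ => ?_
    rw [inner_sub_right, integral_inner hfi (u j)]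
  have hsum2 : ∀ x, ∑ i, ‖fderiv ℝ f x (b i)‖ ^ 2
      = ∑ j, ‖fderiv ℝ (fun y => ⟪u j, f y⟫_ℝ) x‖ ^ 2 := by
    intro x
    simp_rw [hfd, norm_sq_functional b, norm_sq_basis u]
    rw [Finset.sum_comm]
    rfl
  simp_rw [hsum1, hsum2]
  rw [integral_finsetSum, integral_finsetSum, Finset.sum_div]
  · exact Finset.sum_le_sum fun j _ => hcomp j
  · intro j _
    refine hint (fun x => ‖fderiv ℝ (fun y => ⟪u j, f y⟫_ℝ) x‖ ^ 2) (C ^ 2) (N * 2) ?_
      (fun x => ?_)
    · have : ∀ x, fderiv ℝ (fun y => ⟪u j, f y⟫_ℝ) x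
        = (innerSL ℝ (u j)).comp (fderiv ℝ f x) := hfd j
      simp_rw [this]
      fun_prop
    · rw [Real.norm_of_nonneg (by positivity), hfd]
      have h1 : ‖(innerSL ℝ (u j)).comp (fderiv ℝ f x)‖ ≤ C * (1 + ‖x‖) ^ N := by
        refine (ContinuousLinearMap.opNorm_comp_le _ _).trans ?_
        rw [hunorm, one_mul]
        exact hdC x
      calc ‖(innerSL ℝ (u j)).comp (fderiv ℝ f x)‖ ^ 2 ≤ (C * (1 + ‖x‖) ^ N) ^ 2 := by gcongr
        _ = C ^ 2 * (1 + ‖x‖) ^ (N * 2) := by ring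
  · intro j _
    set m := ∫ y, ⟪u j, f y⟫_ℝ ∂μ with hm
    have hfj : Continuous fun x => ⟪u j, f x⟫_ℝ := continuous_const.inner hf.continuous
    refine hint (fun x => (⟪u j, f x⟫_ℝ - m) ^ 2) ((C + |m|) ^ 2) (N * 2) (by fun_prop)
      (fun x => ?_)
    rw [Real.norm_of_nonneg (by positivity)]
    have h1 : |⟪u j, f x⟫_ℝ - m| ≤ (C + |m|) * (1 + ‖x‖) ^ N := by
      have h2 : |⟪u j, f x⟫_ℝ| ≤ C * (1 + ‖x‖) ^ N := by
        refine (abs_real_inner_le_norm _ _).trans ?_
        rw [u.norm_eq_one, one_mul]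
        exact hfC x
      have h3 : (1 : ℝ) ≤ (1 + ‖x‖) ^ N := one_le_pow₀ (by linarith [norm_nonneg x])
      calc |⟪u j, f x⟫_ℝ - m| ≤ |⟪u j, f x⟫_ℝ| + |m| := abs_sub _ _
        _ ≤ C * (1 + ‖x‖) ^ N + |m| * (1 + ‖x‖) ^ N := by
            gcongr
            nlinarith [abs_nonneg m]
        _ = _ := by ring
    calc (⟪u j, f x⟫_ℝ - m) ^ 2 = |⟪u j, f x⟫_ℝ - m| ^ 2 := (sq_abs _).symm
      _ ≤ ((C + |m|) * (1 + ‖x‖) ^ N) ^ 2 := by gcongr
      _ = _ := by ring


end general

section post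

variable {V : Type} [NormedAddCommGroup V] [InnerProductSpace ℝ V] [FiniteDimensional ℝ V]
  [MeasurableSpace V] [BorelSpace V]

theorem post_eq_gibbs (U : V → ℝ) (c : V) (s : ℝ) :
    post U c s = gibbs (fun z => U z + ‖z - c‖ ^ 2 / (2 * s ^ 2)) := rfl

omit [FiniteDimensional ℝ V] [MeasurableSpace V] [BorelSpace V] in
/-- `U + |z-c|²/(2 s²)` is `(κ + s⁻²)`-strongly convex if `U` is `κ`-strongly convex. -/
theorem strongConvexOn_post {U : V → ℝ} {κ : ℝ} (hU : StrongConvexOn univ κ U) (c : V) (s : ℝ) :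
    StrongConvexOn univ (κ + (s ^ 2)⁻¹) (fun z => U z + ‖z - c‖ ^ 2 / (2 * s ^ 2)) := by
  rw [strongConvexOn_iff_convex] at hU ⊢
  have h1 : (fun z : V => U z + ‖z - c‖ ^ 2 / (2 * s ^ 2) - (κ + (s ^ 2)⁻¹) / 2 * ‖z‖ ^ 2)
      = fun z => (U z - κ / 2 * ‖z‖ ^ 2)
        + ((s ^ 2)⁻¹ / 2 * ‖c‖ ^ 2 - (s ^ 2)⁻¹ * ⟪z, c⟫_ℝ) := by
    funext z
    rw [norm_sub_sq_real]
    ring_nf
  rw [h1]
  refine hU.add ⟨convex_univ, fun x _ y _ a b ha hb hab => le_of_eq ?_⟩
  simp only [smul_eq_mul, inner_add_left, real_inner_smul_left]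
  have hb' : b = 1 - a := by linarith
  subst hb'
  ring

end post

end Crest.Agent.R285.Poin
end

-- ▼ part R285/PostMean

/-!
Row 285, module CHANNEL, part 2 (helper582): means and moments of the posterior laws.

For `hU : PotP h U`, `0 < s`, `n = finrank ℝ V`:
* `G_eq_integral`      : `G U s c = ∫ ∇U d(post U c s)`;
* `integral_sub_post`  : `∫ (z - c) d(post U c s) = - s² G U s c`;
* `integral_norm_sub_sq_post` : `∫ |z - m|² ≤ s² n`, `m` the mean;
* for `h s² ≤ 1/2`: `norm_G_le`, `integral_norm_sub_post_le`, `norm_G_sub_gradient_le`.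
-/

set_option autoImplicit false
set_option linter.unusedSectionVars false

open MeasureTheory ProbabilityTheory Real Set
open scoped RealInnerProductSpace ENNReal

noncomputable section

namespace Crest.Agent.R285

variable {V : Type} [NormedAddCommGroup V] [InnerProductSpace ℝ V] [FiniteDimensional ℝ V]
  [MeasurableSpace V] [BorelSpace V] {h : ℝ} {U : V → ℝ}

open Chan

theorem nice_of_pot (hU : PotP h U) : Nice U :=
  ⟨hU.cd.continuous.measurable, pot_nonneg hU⟩

theorem continuous_gradient (hU : PotP h U) : Continuous (gradient U) := by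
  have : gradient U = fun x => rz V (fderiv ℝ U x) := funext fun x => gradient_eq_rz U x
  rw [this]
  exact (rz V).continuous.comp (pot_cd1 hU).continuous

theorem norm_gradient_sub_le (hU : PotP h U) (x y : V) :
    ‖gradient U x - gradient U y‖ ≤ h * ‖x - y‖ := by
  rw [gradient_eq_rz, gradient_eq_rz, ← map_sub, norm_rz]
  exact pot_lip hU x y

theorem norm_gradient_le (hU : PotP h U) (x : V) : ‖gradient U x‖ ≤ h * ‖x‖ := by
  rw [gradient_eq_rz, norm_rz]
  exact pot_fderiv_le hU x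

theorem integrable_gradient_post (hU : PotP h U) (c : V) {s : ℝ} (hs : 0 < s) :
    Integrable (fun z => gradient U z) (post U c s) := by
  refine ((integrable_norm_post (nice_of_pot hU) c hs).const_mul h).mono'
    (continuous_gradient hU).aestronglyMeasurable (ae_of_all _ fun z => norm_gradient_le hU z)

theorem integrable_id_post (hU : Nice U) (c : V) {s : ℝ} (hs : 0 < s) :
    Integrable (fun z => z) (post U c s) := by
  refine (integrable_norm_post hU c hs).mono' (by fun_prop) (ae_of_all _ fun z => le_rfl)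

theorem G_eq_integral (hU : PotP h U) (c : V) {s : ℝ} (hs : 0 < s) :
    G U s c = ∫ z, gradient U z ∂(post U c s) := by
  have hN := nice_of_pot hU
  have e1 : ∫ z, rexp (-U z) • gradient U z ∂(gN c s) =
      ∫ g, rexp (-U (c + s • g)) • gradient U (c + s • g) ∂(stdGaussian V) := by
    rw [integral_gN]
    refine Continuous.aestronglyMeasurable ?_
    exact (Real.continuous_exp.comp hU.cd.continuous.neg).smul (continuous_gradient hU)
  have e2 : ∀ g : V, rexp (-U (c + s • g)) • gradient U (c + s • g) =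
      rz V (-(fderiv ℝ (Ph U) (c + s • g))) := by
    intro g
    rw [fderiv_ph hU, neg_neg, map_smul, ← gradient_eq_rz]
    rfl
  have e3 : ∫ g, rz V (-(fderiv ℝ (Ph U) (c + s • g))) ∂(stdGaussian V) =
      rz V (-(Zp1 U (s, c))) := by
    have h1 : Integrable (fun g : V => -(fderiv ℝ (Ph U) (c + s • g))) (stdGaussian V) :=
      (integrable_ph1 hU (s, c)).neg
    rw [ContinuousLinearMap.integral_comp_comm _ h1, integral_neg]
    rfl
  rw [integral_post hN c hs, e1]
  simp_rw [e2]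
  rw [e3, gr_eq hU, Ub1, ← map_smul, smul_neg]
  rfl

theorem integral_inner_sub_post (hU : PotP h U) (c : V) {s : ℝ} (hs : 0 < s) (v : V) :
    ∫ z, ⟪z - c, v⟫ ∂(post U c s) = -(s ^ 2) * ⟪G U s c, v⟫ := by
  have hN := nice_of_pot hU
  have hcont : Continuous fun z => rexp (-U z) :=
    Real.continuous_exp.comp hU.cd.continuous.neg
  have e1 : ∫ z, rexp (-U z) • ⟪z - c, v⟫ ∂(gN c s) =
      ∫ g, s * ⟪g, rexp (-U (c + s • g)) • v⟫ ∂(stdGaussian V) := by
    rw [integral_gN]
    · refine integral_congr_ae (ae_of_all _ fun g => ?_)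
      simp only [add_sub_cancel_left, inner_smul_left, inner_smul_right, smul_eq_mul,
        conj_trivial]
      ring
    · refine Continuous.aestronglyMeasurable ?_
      exact hcont.smul (by fun_prop)
  set F : V → V := fun g => rexp (-U (c + s • g)) • v with hF
  have hFd : ∀ g, HasFDerivAt F
      ((s • fderiv ℝ (Ph U) (c + s • g)).smulRight v) g := by
    intro g
    have h1 : HasFDerivAt (fun g : V => c + s • g) (s • ContinuousLinearMap.id ℝ V) g :=
      ((hasFDerivAt_id g).const_smul s).const_add c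
    have h2 := (((ph_cd hU).differentiable two_ne_zero) (c + s • g)).hasFDerivAt.comp g h1
    have h3 := h2.smul_const v
    refine HasFDerivAt.congr_fderiv h3 ?_
    ext w
    simp
  have hFc : ContDiff ℝ 1 F := by
    have : ContDiff ℝ 1 fun g => Ph U (c + s • g) :=
      ((ph_cd hU).of_le (by norm_num)).comp (by fun_prop)
    exact this.smul contDiff_const
  have hFb : ∀ g, ‖F g‖ ≤ ‖v‖ := by
    intro g
    rw [hF]
    simp only [norm_smul, Real.norm_eq_abs, abs_of_pos (Real.exp_pos _)]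
    have := ph_le_one hU (c + s • g)
    calc rexp (-U (c + s • g)) * ‖v‖ ≤ 1 * ‖v‖ := by gcongr; exact this
      _ = ‖v‖ := one_mul _
  have i0 : Integrable (fun g => F g) (stdGaussian V) :=
    Integrable.mono' (integrable_const ‖v‖) hFc.continuous.aestronglyMeasurable
      (ae_of_all _ hFb)
  have hn : Integrable (fun g : V => ‖g‖) (stdGaussian V) := by
    have := integrable_norm_pow_gN (0 : V) 1 1
    simpa [gN_one] using this
  have i1 : Integrable (fun g => ‖g‖ * ‖F g‖) (stdGaussian V) := by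
    refine (hn.mul_const ‖v‖).mono' ?_ (ae_of_all _ fun g => ?_)
    · exact (continuous_norm.mul hFc.continuous.norm).aestronglyMeasurable
    · rw [norm_mul, norm_norm, norm_norm]
      exact mul_le_mul_of_nonneg_left (hFb g) (norm_nonneg _)
  have i2 : Integrable (fun g => fderiv ℝ F g) (stdGaussian V) := by
    have h1 : (fun g => fderiv ℝ F g) =
        fun g => ((ContinuousLinearMap.smulRightL ℝ V V).flip v) (s • fderiv ℝ (Ph U) (c + s • g)) := by
      funext g
      rw [(hFd g).fderiv]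
      rfl
    rw [h1]
    exact ContinuousLinearMap.integrable_comp _ ((integrable_ph1 hU (s, c)).smul s)
  have hst := stein hFc i0 i1 i2
  have e2 : ∀ g, dvg F g = s * fderiv ℝ (Ph U) (c + s • g) v := by
    intro g
    rw [dvg, (hFd g).fderiv, trace_smulRight]
    rfl
  rw [integral_post hN c hs, e1, integral_const_mul, hst]
  simp_rw [e2]
  have h1 : Integrable (fun g : V => fderiv ℝ (Ph U) (c + s • g)) (stdGaussian V) :=
    integrable_ph1 hU (s, c)
  have e4 : ∫ g, fderiv ℝ (Ph U) (c + s • g) v ∂(stdGaussian V) = Zp1 U (s, c) v := by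
    exact (ContinuousLinearMap.integral_apply h1 v).symm
  rw [integral_const_mul, e4, inner_gr hU, Ub1]
  have e5 : wt U s c = Zp U (s, c) := rfl
  rw [e5, smul_eq_mul, _root_.neg_apply, _root_.smul_apply, smul_eq_mul]
  ring

/-- The mean of the posterior. -/
theorem integral_sub_post (hU : PotP h U) (c : V) {s : ℝ} (hs : 0 < s) :
    ∫ z, (z - c) ∂(post U c s) = -(s ^ 2) • G U s c := by
  have hP := isProbabilityMeasure_post (nice_of_pot hU) c hs
  have hi : Integrable (fun z => z - c) (post U c s) :=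
    (integrable_id_post (nice_of_pot hU) c hs).sub (integrable_const c)
  refine ext_inner_left ℝ fun v => ?_
  rw [← integral_inner hi v, inner_smul_right, real_inner_comm, ← integral_inner_sub_post hU c hs v]
  exact integral_congr_ae (ae_of_all _ fun z => real_inner_comm _ _)

theorem integral_id_post_eq (hU : PotP h U) (c : V) {s : ℝ} (hs : 0 < s) :
    ∫ z, z ∂(post U c s) = c - (s ^ 2) • G U s c := by
  have hP := isProbabilityMeasure_post (nice_of_pot hU) c hs
  have h1 := integral_sub_post hU c hs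
  rw [integral_sub (integrable_id_post (nice_of_pot hU) c hs) (integrable_const c),
    integral_const, probReal_univ, one_smul, sub_eq_iff_eq_add] at h1
  rw [h1, neg_smul]
  abel

/-- The variance of the posterior. -/
theorem integral_norm_sub_mean_sq_post (hU : PotP h U) (c : V) {s : ℝ} (hs : 0 < s) :
    ∫ z, ‖z - ∫ y, y ∂(post U c s)‖ ^ 2 ∂(post U c s) ≤ s ^ 2 * Module.finrank ℝ V := by
  have hP := isProbabilityMeasure_post (nice_of_pot hU) c hs
  have hc0 : StrongConvexOn univ (0 : ℝ) U := by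
    rw [strongConvexOn_iff_convex]
    simpa using pot_convex hU
  have hH := Poin.strongConvexOn_post hc0 c s
  rw [zero_add] at hH
  have hHc : Continuous fun z : V => U z + ‖z - c‖ ^ 2 / (2 * s ^ 2) := by
    have := hU.cd.continuous
    fun_prop
  have h1 := Poin.poincare_vec (inv_pos.2 (pow_pos hs 2)) hH hHc (f := fun z : V => z)
    contDiff_id (C := 1) (N := 1) (fun x => by simp) (fun x => by
      have : ‖fderiv ℝ (fun z : V => z) x‖ ≤ 1 := by
        rw [fderiv_fun_id]
        exact ContinuousLinearMap.norm_id_le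
      have h2 := norm_nonneg x
      linarith) (stdOrthonormalBasis ℝ V)
  rw [← Poin.post_eq_gibbs] at h1
  refine h1.trans ?_
  have h2 : ∀ x : V, ∑ i, ‖fderiv ℝ (fun z : V => z) x (stdOrthonormalBasis ℝ V i)‖ ^ 2 =
      (Module.finrank ℝ V : ℝ) := by
    intro x
    simp
  simp_rw [h2]
  rw [integral_const, probReal_univ, one_smul, div_inv_eq_mul, mul_comm]

theorem integral_norm_sub_post_le' (hU : PotP h U) (c : V) {s : ℝ} (hs : 0 < s) :
    ∫ z, ‖z - c‖ ∂(post U c s) ≤ s * √(Module.finrank ℝ V) + s ^ 2 * ‖G U s c‖ := by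
  have hP := isProbabilityMeasure_post (nice_of_pot hU) c hs
  have hN := nice_of_pot hU
  set m := ∫ y, y ∂(post U c s) with hm
  have hi := integrable_id_post hN c hs
  have i1 : Integrable (fun z => ‖z - m‖) (post U c s) := (hi.sub (integrable_const m)).norm
  have hmc : ‖m - c‖ = s ^ 2 * ‖G U s c‖ := by
    rw [hm, integral_id_post_eq hU c hs, sub_sub_cancel_left, norm_neg, norm_smul,
      Real.norm_eq_abs, abs_of_pos (pow_pos hs 2)]
  have i2 : Integrable (fun z => ‖z - m‖ ^ 2) (post U c s) := by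
    have h2 := (integrable_norm_pow_post hN c hs 2).const_mul 2
    refine (h2.add (integrable_const (2 * ‖m‖ ^ 2))).mono' (by fun_prop) (ae_of_all _ fun z => ?_)
    rw [Real.norm_eq_abs, abs_of_nonneg (sq_nonneg _)]
    have h3 := norm_sub_le z m
    have h4 := norm_nonneg (z - m)
    simp only [Pi.add_apply]
    nlinarith [sq_nonneg (‖z‖ - ‖m‖), norm_nonneg z, norm_nonneg m]
  have h5 : ∫ z, ‖z - m‖ ∂(post U c s) ≤ s * √(Module.finrank ℝ V) := by
    have hv := integral_norm_sub_mean_sq_post hU c hs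
    rw [← hm] at hv
    have hJ : (∫ z, ‖z - m‖ ∂(post U c s)) ^ 2 ≤ ∫ z, ‖z - m‖ ^ 2 ∂(post U c s) := by
      have h6 : 0 ≤ ∫ z, (‖z - m‖ - ∫ w, ‖w - m‖ ∂(post U c s)) ^ 2 ∂(post U c s) :=
        integral_nonneg fun z => sq_nonneg _
      set a := ∫ w, ‖w - m‖ ∂(post U c s) with ha
      have h7 : ∫ z, (‖z - m‖ - a) ^ 2 ∂(post U c s) = ∫ z, ‖z - m‖ ^ 2 ∂(post U c s) - a ^ 2 := by
        have h8 : ∀ z : V, (‖z - m‖ - a) ^ 2 = ‖z - m‖ ^ 2 - 2 * a * ‖z - m‖ + a ^ 2 := fun z => by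
          ring
        simp_rw [h8]
        have i3 : Integrable (fun z => ‖z - m‖ ^ 2 - 2 * a * ‖z - m‖) (post U c s) :=
          i2.sub (i1.const_mul _)
        rw [integral_add i3 (integrable_const _),
          integral_sub i2 (i1.const_mul _), integral_const_mul, ← ha, integral_const,
          probReal_univ, one_smul]
        ring
      rw [h7] at h6
      linarith
    have h9 : 0 ≤ ∫ z, ‖z - m‖ ∂(post U c s) := integral_nonneg fun z => norm_nonneg _
    have h10 : s * √(Module.finrank ℝ V) = √(s ^ 2 * Module.finrank ℝ V) := by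
      rw [Real.sqrt_mul (sq_nonneg s), Real.sqrt_sq hs.le]
    rw [h10]
    exact Real.le_sqrt_of_sq_le (hJ.trans hv)
  calc ∫ z, ‖z - c‖ ∂(post U c s) ≤ ∫ z, (‖z - m‖ + ‖m - c‖) ∂(post U c s) := by
        refine integral_mono_of_nonneg (ae_of_all _ fun z => norm_nonneg _)
          (i1.add (integrable_const _)) (ae_of_all _ fun z => ?_)
        calc ‖z - c‖ = ‖(z - m) + (m - c)‖ := by congr 1; abel
          _ ≤ _ := norm_add_le _ _
    _ = ∫ z, ‖z - m‖ ∂(post U c s) + ‖m - c‖ := by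
        rw [integral_add i1 (integrable_const _), integral_const, probReal_univ, one_smul]
    _ ≤ _ := by rw [hmc]; linarith

theorem norm_G_sub_gradient_le' (hU : PotP h U) (c : V) {s : ℝ} (hs : 0 < s) :
    ‖G U s c - gradient U c‖ ≤ h * (s * √(Module.finrank ℝ V) + s ^ 2 * ‖G U s c‖) := by
  have hP := isProbabilityMeasure_post (nice_of_pot hU) c hs
  have hN := nice_of_pot hU
  have hh := hU.hh
  have hi := integrable_id_post hN c hs
  have i1 : Integrable (fun z => ‖z - c‖) (post U c s) := (hi.sub (integrable_const c)).norm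
  have e1 : G U s c - gradient U c = ∫ z, (gradient U z - gradient U c) ∂(post U c s) := by
    rw [integral_sub (integrable_gradient_post hU c hs) (integrable_const _), integral_const,
      probReal_univ, one_smul, G_eq_integral hU c hs]
  rw [e1]
  calc ‖∫ z, (gradient U z - gradient U c) ∂(post U c s)‖
      ≤ ∫ z, h * ‖z - c‖ ∂(post U c s) :=
        norm_integral_le_of_norm_le (i1.const_mul h)
          (ae_of_all _ fun z => norm_gradient_sub_le hU z c)
    _ = h * ∫ z, ‖z - c‖ ∂(post U c s) := integral_const_mul _ _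
    _ ≤ _ := mul_le_mul_of_nonneg_left (integral_norm_sub_post_le' hU c hs) hh

theorem norm_G_le (hU : PotP h U) (c : V) {s : ℝ} (hs : 0 < s) (hhs : h * s ^ 2 ≤ 1 / 2) :
    ‖G U s c‖ ≤ 2 * h * (‖c‖ + s * √(Module.finrank ℝ V)) := by
  have h1 := norm_G_sub_gradient_le' hU c hs
  have h2 := norm_gradient_le hU c
  have h3 : ‖G U s c‖ ≤ ‖G U s c - gradient U c‖ + ‖gradient U c‖ := by
    calc ‖G U s c‖ = ‖(G U s c - gradient U c) + gradient U c‖ := by congr 1; abel
      _ ≤ _ := norm_add_le _ _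
  have h4 := mul_le_mul_of_nonneg_right hhs (norm_nonneg (G U s c))
  nlinarith

/-- Displacement of the posterior. -/
theorem integral_norm_sub_post_le (hU : PotP h U) (c : V) {s : ℝ} (hs : 0 < s)
    (hhs : h * s ^ 2 ≤ 1 / 2) :
    ∫ z, ‖z - c‖ ∂(post U c s) ≤ 2 * s * √(Module.finrank ℝ V) + 2 * h * s ^ 2 * ‖c‖ := by
  have h1 := integral_norm_sub_post_le' hU c hs
  have h2 := norm_G_le hU c hs hhs
  have h3 := mul_le_mul_of_nonneg_left h2 (sq_nonneg s)
  have h4 := mul_le_mul_of_nonneg_right hhs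
    (mul_nonneg hs.le (Real.sqrt_nonneg (Module.finrank ℝ V)))
  nlinarith

theorem norm_G_sub_gradient_le (hU : PotP h U) (c : V) {s : ℝ} (hs : 0 < s)
    (hhs : h * s ^ 2 ≤ 1 / 2) :
    ‖G U s c - gradient U c‖ ≤ h * (2 * s * √(Module.finrank ℝ V) + 2 * h * s ^ 2 * ‖c‖) := by
  have h1 := norm_G_sub_gradient_le' hU c hs
  have h2 := norm_G_le hU c hs hhs
  have h3 := mul_le_mul_of_nonneg_left h2 (sq_nonneg s)
  have h4 := mul_le_mul_of_nonneg_right hhs
    (mul_nonneg hs.le (Real.sqrt_nonneg (Module.finrank ℝ V)))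
  refine h1.trans (mul_le_mul_of_nonneg_left ?_ hU.hh)
  nlinarith

/-! ### The visible point `y = κ² c + (1-κ²) z + s κ √(1-κ²) g` -/

/-- The law of the visible point is the law at level `√(1-κ²)` of the posterior flow. -/
theorem post_channel (hU : Nice U) (c : V) {s κ : ℝ} (hs : 0 < s) (hκ : 0 < κ) (hκ1 : κ < 1) :
    ((post U c s).prod (stdGaussian V)).map
      (fun p => κ ^ 2 • c + (1 - κ ^ 2) • p.1 + (s * κ * √(1 - κ ^ 2)) • p.2) =
        post (Ub U (s * κ)) c (s * √(1 - κ ^ 2)) := by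
  have h1 : 0 < 1 - κ ^ 2 := by nlinarith
  have h2 : 0 < √(1 - κ ^ 2) := Real.sqrt_pos.2 h1
  have h3 : √(1 - κ ^ 2) ^ 2 = 1 - κ ^ 2 := Real.sq_sqrt h1.le
  rw [← channel hU (mul_pos hs h2) (mul_pos hs hκ) hs (by rw [mul_pow, mul_pow, h3]; ring) c]
  congr 1
  funext p
  have e1 : (s * √(1 - κ ^ 2)) ^ 2 / s ^ 2 = 1 - κ ^ 2 := by
    rw [mul_pow, h3]; field_simp
  have e2 : s * √(1 - κ ^ 2) * (s * κ) / s = s * κ * √(1 - κ ^ 2) := by
    field_simp
  rw [e1, e2, smul_sub, sub_smul, sub_smul, one_smul, one_smul]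
  abel


/-- Disintegration over the visible point, integral form. -/
theorem post_channel_integral (hU : Nice U) (c : V) {s κ : ℝ} (hs : 0 < s) (hκ : 0 < κ)
    (hκ1 : κ < 1) {F : Type*} [NormedAddCommGroup F] [NormedSpace ℝ F] {f : V → F}
    (hf : Integrable f (post U c s)) :
    ∫ y, ∫ z, f z ∂(post U y (s * κ)) ∂(((post U c s).prod (stdGaussian V)).map
      (fun p => κ ^ 2 • c + (1 - κ ^ 2) • p.1 + (s * κ * √(1 - κ ^ 2)) • p.2)) =
        ∫ z, f z ∂(post U c s) := by
  have h1 : 0 < 1 - κ ^ 2 := by nlinarith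
  have h2 : 0 < √(1 - κ ^ 2) := Real.sqrt_pos.2 h1
  have h3 : √(1 - κ ^ 2) ^ 2 = 1 - κ ^ 2 := Real.sq_sqrt h1.le
  rw [post_channel hU c hs hκ hκ1]
  exact integral_post_post hU (mul_pos hs h2) (mul_pos hs hκ) hs
    (by rw [mul_pow, mul_pow, h3]; ring) c hf

theorem integral_norm_stdGaussian_le :
    Integrable (fun g : V => ‖g‖) (stdGaussian V) ∧
      ∫ g : V, ‖g‖ ∂(stdGaussian V) ≤ √(Module.finrank ℝ V) := by
  have i1 : Integrable (fun g : V => ‖g‖) (stdGaussian V) := by
    have := integrable_norm_pow_gN (0 : V) 1 1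
    simpa [gN_one] using this
  have i2 : Integrable (fun g : V => ‖g‖ ^ 2) (stdGaussian V) := by
    have := integrable_norm_pow_gN (0 : V) 1 2
    simpa [gN_one] using this
  refine ⟨i1, ?_⟩
  have hst := stein (V := V) (F := fun g => g) contDiff_id
    (i1.mono' (by fun_prop) (ae_of_all _ fun g => le_rfl))
    (by simpa [sq] using i2) (by
      have : (fun g : V => fderiv ℝ (fun g : V => g) g) = fun _ => ContinuousLinearMap.id ℝ V := by
        funext g
        rw [fderiv_fun_id]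
      rw [this]
      exact integrable_const _)
  have e1 : ∀ g : V, dvg (fun g : V => g) g = Module.finrank ℝ V := by
    intro g
    rw [dvg, fderiv_fun_id]
    exact LinearMap.trace_id ℝ V
  simp_rw [e1, real_inner_self_eq_norm_sq] at hst
  rw [integral_const, probReal_univ, one_smul] at hst
  refine Real.le_sqrt_of_sq_le ?_
  rw [← hst]
  have h6 : 0 ≤ ∫ z : V, (‖z‖ - ∫ w : V, ‖w‖ ∂(stdGaussian V)) ^ 2 ∂(stdGaussian V) :=
    integral_nonneg fun z => sq_nonneg _
  set a := ∫ w : V, ‖w‖ ∂(stdGaussian V) with ha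
  have h7 : ∫ z : V, (‖z‖ - a) ^ 2 ∂(stdGaussian V) =
      ∫ z : V, ‖z‖ ^ 2 ∂(stdGaussian V) - a ^ 2 := by
    have h8 : ∀ z : V, (‖z‖ - a) ^ 2 = ‖z‖ ^ 2 - 2 * a * ‖z‖ + a ^ 2 := fun z => by ring
    simp_rw [h8]
    have i3 : Integrable (fun z : V => ‖z‖ ^ 2 - 2 * a * ‖z‖) (stdGaussian V) :=
      i2.sub (i1.const_mul _)
    rw [integral_add i3 (integrable_const _), integral_sub i2 (i1.const_mul _),
      integral_const_mul, ← ha, integral_const, probReal_univ, one_smul]
    ring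
  rw [h7] at h6
  linarith

/-- First moment of the visible point. -/
theorem integral_norm_channel_le (hU : PotP h U) (c : V) {s κ : ℝ} (hs : 0 < s) (hκ : 0 ≤ κ)
    (hκ1 : κ ≤ 1) :
    Integrable (fun y => ‖y‖) (((post U c s).prod (stdGaussian V)).map
      (fun p => κ ^ 2 • c + (1 - κ ^ 2) • p.1 + (s * κ * √(1 - κ ^ 2)) • p.2)) ∧
    ∫ y, ‖y‖ ∂(((post U c s).prod (stdGaussian V)).map
      (fun p => κ ^ 2 • c + (1 - κ ^ 2) • p.1 + (s * κ * √(1 - κ ^ 2)) • p.2)) ≤
      ‖c‖ + ∫ z, ‖z - c‖ ∂(post U c s) + s * √(Module.finrank ℝ V) := by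
  have hP := isProbabilityMeasure_post (nice_of_pot hU) c hs
  obtain ⟨ig, hg⟩ := integral_norm_stdGaussian_le (V := V)
  have i1 : Integrable (fun z => ‖z - c‖) (post U c s) :=
    ((integrable_id_post (nice_of_pot hU) c hs).sub (integrable_const c)).norm
  have hb : ∀ p : V × V, ‖κ ^ 2 • c + (1 - κ ^ 2) • p.1 + (s * κ * √(1 - κ ^ 2)) • p.2‖ ≤
      ‖c‖ + ‖p.1 - c‖ + s * ‖p.2‖ := by
    intro p
    have h1 : κ ^ 2 ≤ 1 := pow_le_one₀ hκ hκ1
    have e1 : κ ^ 2 • c + (1 - κ ^ 2) • p.1 = c + (1 - κ ^ 2) • (p.1 - c) := by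
      rw [smul_sub, sub_smul, sub_smul, one_smul, one_smul]
      abel
    have h2 : √(1 - κ ^ 2) ≤ 1 := Real.sqrt_le_one.2 (by nlinarith [sq_nonneg κ])
    have h3 : s * κ * √(1 - κ ^ 2) ≤ s := by
      calc s * κ * √(1 - κ ^ 2) ≤ s * 1 * 1 := by gcongr
        _ = s := by ring
    rw [e1]
    refine (norm_add_le _ _).trans (add_le_add ((norm_add_le _ _).trans (add_le_add le_rfl ?_)) ?_)
    · rw [norm_smul, Real.norm_eq_abs, abs_of_nonneg (by linarith)]
      exact mul_le_of_le_one_left (norm_nonneg _) (by nlinarith [sq_nonneg κ])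
    · rw [norm_smul, Real.norm_eq_abs, abs_of_nonneg (by positivity)]
      exact mul_le_mul_of_nonneg_right h3 (norm_nonneg _)
  have j1 : Integrable (fun p : V × V => ‖p.1 - c‖) ((post U c s).prod (stdGaussian V)) :=
    i1.comp_fst _
  have j2 : Integrable (fun p : V × V => ‖p.2‖) ((post U c s).prod (stdGaussian V)) :=
    ig.comp_snd _
  have j3 : Integrable (fun p : V × V => ‖c‖ + ‖p.1 - c‖ + s * ‖p.2‖)
      ((post U c s).prod (stdGaussian V)) :=
    ((integrable_const _).add j1).add (j2.const_mul s)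
  have j4 : Integrable (fun p : V × V =>
      ‖κ ^ 2 • c + (1 - κ ^ 2) • p.1 + (s * κ * √(1 - κ ^ 2)) • p.2‖)
      ((post U c s).prod (stdGaussian V)) := by
    refine j3.mono' (by fun_prop) (ae_of_all _ fun p => ?_)
    rw [norm_norm]
    exact hb p
  have hT : Measurable fun p : V × V =>
      κ ^ 2 • c + (1 - κ ^ 2) • p.1 + (s * κ * √(1 - κ ^ 2)) • p.2 := by fun_prop
  refine ⟨?_, ?_⟩
  · rw [integrable_map_measure (by fun_prop) hT.aemeasurable]
    exact j4
  · rw [integral_map hT.aemeasurable (by fun_prop)]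
    have k1 : ∫ p : V × V, ‖p.1 - c‖ ∂((post U c s).prod (stdGaussian V)) =
        ∫ z, ‖z - c‖ ∂(post U c s) := by
      rw [integral_prod _ j1]
      simp
    have k2 : ∫ p : V × V, ‖p.2‖ ∂((post U c s).prod (stdGaussian V)) =
        ∫ z : V, ‖z‖ ∂(stdGaussian V) := by
      rw [integral_prod _ j2]
      simp
    calc _ ≤ ∫ p : V × V, (‖c‖ + ‖p.1 - c‖ + s * ‖p.2‖) ∂((post U c s).prod (stdGaussian V)) :=
          integral_mono j4 j3 hb
      _ = ‖c‖ + ∫ z, ‖z - c‖ ∂(post U c s) + s * ∫ z : V, ‖z‖ ∂(stdGaussian V) := by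
          have i5 : Integrable (fun p : V × V => ‖c‖ + ‖p.1 - c‖)
            ((post U c s).prod (stdGaussian V)) := (integrable_const _).add j1
          rw [integral_add i5 (j2.const_mul s), integral_add (integrable_const _) j1,
            integral_const_mul, integral_const, probReal_univ, one_smul, k1, k2]
      _ ≤ _ := by gcongr

section admissible

open Crest.OracleSampling (E Admissible)

variable {d : ℕ} {W : E d → ℝ}

theorem PotP.of_admissible (hW : Admissible d W) : PotP 2 W :=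
  { Pot.of_admissible hW with hh := by norm_num }

theorem adm_nice (hW : Admissible d W) : Nice W := nice_of_pot (PotP.of_admissible hW)

theorem adm_isProb_post (hW : Admissible d W) (c : E d) {s : ℝ} (hs : 0 < s) :
    IsProbabilityMeasure (post W c s) := isProbabilityMeasure_post (adm_nice hW) c hs

theorem adm_integrable_norm_sub (hW : Admissible d W) (c : E d) {s : ℝ} (hs : 0 < s) :
    Integrable (fun z => ‖z - c‖) (post W c s) := by
  have := adm_isProb_post hW c hs
  exact ((integrable_id_post (adm_nice hW) c hs).sub (integrable_const c)).norm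

/-- (a) -/
theorem adm_post_disp (hW : Admissible d W) (c : E d) {s : ℝ} (hs : 0 < s) (hs2 : s ≤ 1 / 2) :
    ∫ z, ‖z - c‖ ∂(post W c s) ≤ 2 * s * (√(d : ℝ) + ‖c‖) := by
  have h1 := integral_norm_sub_post_le (PotP.of_admissible hW) c hs (by nlinarith)
  rw [finrank_euclideanSpace_fin] at h1
  have h2 : s * (s * ‖c‖) ≤ 1 / 2 * (s * ‖c‖) := by gcongr
  nlinarith

/-- (b) -/
theorem adm_G_sub (hW : Admissible d W) (c : E d) {s : ℝ} (hs : 0 < s) (hs2 : s ≤ 1 / 2) :
    ‖G W s c - gradient W c‖ ≤ 4 * s * (√(d : ℝ) + ‖c‖) := by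
  have h1 := norm_G_sub_gradient_le (PotP.of_admissible hW) c hs (by nlinarith)
  rw [finrank_euclideanSpace_fin] at h1
  have h2 : s * (s * ‖c‖) ≤ 1 / 2 * (s * ‖c‖) := by gcongr
  nlinarith

theorem adm_norm_G (hW : Admissible d W) (c : E d) {s : ℝ} (hs : 0 < s) (hs2 : s ≤ 1 / 2) :
    ‖G W s c‖ ≤ 4 * (√(d : ℝ) + ‖c‖) := by
  have h1 := norm_G_le (PotP.of_admissible hW) c hs (by nlinarith)
  rw [finrank_euclideanSpace_fin] at h1
  have h2 : s * √(d : ℝ) ≤ 1 * √(d : ℝ) := by gcongr; linarith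
  nlinarith

/-- (d) -/
theorem adm_channel_moment (hW : Admissible d W) (c : E d) {s κ : ℝ} (hs : 0 < s)
    (hs2 : s ≤ 1 / 2) (hκ : 0 ≤ κ) (hκ1 : κ ≤ 1) :
    Integrable (fun y => ‖y‖) (((post W c s).prod (stdGaussian (E d))).map
      (fun p => κ ^ 2 • c + (1 - κ ^ 2) • p.1 + (s * κ * √(1 - κ ^ 2)) • p.2)) ∧
    ∫ y, ‖y‖ ∂(((post W c s).prod (stdGaussian (E d))).map
      (fun p => κ ^ 2 • c + (1 - κ ^ 2) • p.1 + (s * κ * √(1 - κ ^ 2)) • p.2)) ≤
      3 * (√(d : ℝ) + ‖c‖) := by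
  obtain ⟨h1, h2⟩ := integral_norm_channel_le (PotP.of_admissible hW) c (κ := κ) hs hκ hκ1
  refine ⟨h1, h2.trans ?_⟩
  have h3 := adm_post_disp hW c hs hs2
  rw [finrank_euclideanSpace_fin]
  have h4 : s * √(d : ℝ) ≤ 1 / 2 * √(d : ℝ) := by gcongr
  have h5 : s * ‖c‖ ≤ 1 / 2 * ‖c‖ := by gcongr
  nlinarith [norm_nonneg c, Real.sqrt_nonneg (d : ℝ)]

end admissible

end Crest.Agent.R285
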