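import Crest.Agent.R285.Draw
import Crest.Agent.R285.Flat

-- ▼ part R285/DrawForm
section

/-!
Row 285 (S0430): draws of the value of a linear form (`LF` of Flat.lean) in the hidden centre, the
visible persistent vectors and the `G`-values.
-/

set_option autoImplicit false
set_option linter.unusedSectionVars false

open MeasureTheory ProbabilityTheory Set Filter
open Crest.OracleSampling (E Admissible)
open scoped NNReal ENNReal

noncomputable section

namespace Crest.Agent.R285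

variable {d : ℕ}

/-- Linear combinations with a visible part, in `Draw` form. -/
theorem Draw.linV {P : Type} [PseudoMetricSpace P] [MeasurableSpace P] {rc : ℝ}
    {J : Type} [Fintype J] {N qq : J → ℕ} {LL : J → ℝ≥0} {σ : J → ℝ}
    {v : J → (E d → ℝ) → E d → P → E d} {err : J → E d → P → ℝ}
    (h : ∀ j, Draw rc (N j) (qq j) (LL j) (σ j) (v j) (err j)) (a : J → ℝ)
    {w : P → E d} (hw : Measurable w) {b : ℝ≥0} (hwL : LipschitzWith b w) {R : ℝ}
    (hR : Real.sqrt (∑ j, (a j * σ j) ^ 2) ≤ R) :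
    Draw rc (∑ j, N j) (∑ j, qq j) (b + ∑ j, ‖a j‖₊ * LL j) R
      (fun V c p => w p + ∑ j, a j • v j V c p) (fun c p => ∑ j, |a j| * err j c p) := by
  have h1 := GD.lin (fun j => (h j).toGD) a (w := fun _ p => w p) (q' := 0)
    (IsQ.const hw) (b := b) (fun _ _ => hwL) hR
  rw [add_zero] at h1
  exact GD.toDraw h1 (by simp) (fun V hV c p => le_rfl)

theorem Draw.form {Pt ι : Type} [Fintype Pt] [Fintype ι] {rc : ℝ} {N q : ℕ} {L : ℝ≥0}
    {σ : ι → ℝ} {g : (E d → ℝ) → E d → (Pt → E d) → ι → E d} {err : E d → (Pt → E d) → ℝ}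
    (hrc : 0 ≤ rc) (hσ : ∀ i, 0 ≤ σ i)
    (h : ∀ i, Draw rc N q L (σ i) (fun V c p => g V c p i) err)
    (f : LF Pt ι) {r : ℝ} (hr : LF.nz rc σ f ≤ r) {T : ℝ≥0} (hT : LF.tot f ≤ T) :
    Draw rc (1 + Fintype.card ι * N) (Fintype.card ι * q) (T * (1 + L)) r
      (fun V c p => LF.eval c p (g V c p) f) (fun c p => (∑ i, |f.2.2 i|) * err c p) := by
  have hw : Measurable fun p : Pt → E d => ∑ k, f.2.1 k • p k := by fun_prop
  have hwL : LipschitzWith (∑ k, ‖f.2.1 k‖₊) fun p : Pt → E d => ∑ k, f.2.1 k • p k := by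
    refine LipschitzWith.of_dist_le_mul fun x y => ?_
    rw [dist_eq_norm, ← Finset.sum_sub_distrib]
    push_cast
    rw [Finset.sum_mul]
    refine (norm_sum_le _ _).trans (Finset.sum_le_sum fun j _ => ?_)
    rw [← smul_sub, norm_smul, ← dist_eq_norm]
    exact mul_le_mul_of_nonneg_left (dist_le_pi_dist x y j) (norm_nonneg _)
  have hv : ∀ o : Option ι, Draw (P := Pt → E d) rc (o.elim 1 fun _ => N) (o.elim 0 fun _ => q)
      (o.elim 1 fun _ => L) (o.elim rc fun i => σ i)
      (fun V c p => o.elim c fun i => g V c p i) (fun c p => o.elim 0 fun _ => err c p) := by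
    intro o
    cases o with
    | none => exact Draw.hid hrc le_rfl
    | some i => exact h i
  have hR : Real.sqrt (∑ o : Option ι, ((o.elim f.1 fun i => f.2.2 i) *
      (o.elim rc fun i => σ i)) ^ 2) ≤ r := by
    refine le_trans (le_of_eq ?_) hr
    rw [← Real.sqrt_sq (LF.nz_nonneg rc σ f), LF.nz_sq, Fintype.sum_option]
    rfl
  have h1 := Draw.linV hv (fun o => o.elim f.1 fun i => f.2.2 i) hw hwL hR
  have h2 : Draw rc (1 + Fintype.card ι * N) (Fintype.card ι * q)
      ((∑ k, ‖f.2.1 k‖₊) + ∑ o : Option ι, ‖o.elim f.1 fun i => f.2.2 i‖₊ * o.elim 1 fun _ => L) r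
      (fun V c p => LF.eval c p (g V c p) f) (fun c p => (∑ i, |f.2.2 i|) * err c p) := by
    refine Draw.congr (Draw.mono h1 (le_of_eq ?_) (le_of_eq ?_) le_rfl (fun c p => le_of_eq ?_)) ?_
    · rw [Fintype.sum_option]
      simp
    · rw [Fintype.sum_option]
      simp
    · rw [Fintype.sum_option]
      simp [Finset.sum_mul]
    · intro V hV c p
      rw [LF.eval_apply, Fintype.sum_option]
      simp only [Option.elim]
      abel
  refine Draw.mono h2 le_rfl le_rfl ?_ (fun _ _ => le_rfl)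
  rw [Fintype.sum_option]
  simp only [Option.elim, mul_one]
  rw [← NNReal.coe_le_coe]
  push_cast
  have e1 : (∑ k, ‖f.2.1 k‖) + (‖f.1‖ + ∑ i, ‖f.2.2 i‖ * (L : ℝ))
      ≤ (|f.1| + ∑ k, |f.2.1 k| + ∑ i, |f.2.2 i|) * (1 + L) := by
    simp only [Real.norm_eq_abs]
    rw [← Finset.sum_mul]
    have a1 : 0 ≤ |f.1| := abs_nonneg _
    have a2 : 0 ≤ ∑ k, |f.2.1 k| := Finset.sum_nonneg fun _ _ => abs_nonneg _
    have a3 : 0 ≤ ∑ i, |f.2.2 i| := Finset.sum_nonneg fun _ _ => abs_nonneg _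
    have a4 : (0 : ℝ) ≤ L := L.2
    nlinarith [mul_nonneg a1 a4, mul_nonneg a2 a4]
  refine e1.trans ?_
  exact mul_le_mul_of_nonneg_right hT (by positivity)

end Crest.Agent.R285
end
end

-- ▼ part R285/Prog

/-!
Row 285 (S0430): the PROGRAM THEOREM for flat systems.

If every call `G_{r_i}` has a robust contract at input noise `rin i` and output noise `σ i`, and the
noise of every evaluation point is at most `rin i` (`LF.nz rc σ (pt i) ≤ rin i`), then the `G`-values,
points and the output of the `k`-th sweep are drawable, with explicit (crude) numbers of draws and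
queries, Lipschitz constants and errors.
-/

set_option autoImplicit false
set_option linter.unusedSectionVars false

open MeasureTheory ProbabilityTheory
open Crest.OracleSampling (E Admissible)
open scoped NNReal

noncomputable section

namespace Crest.Agent.R285

variable {d : ℕ}

/-- Error weight. -/
def Wt {d : ℕ} {Pt : Type} [Fintype Pt] (c : E d) (p : Pt → E d) : ℝ := √(d : ℝ) + ‖c‖ + ‖p‖

section
variable {Pt ι : Type} [Fintype Pt] [Fintype ι]

theorem Wt_nonneg (c : E d) (p : Pt → E d) : 0 ≤ Wt c p := by unfold Wt; positivity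

theorem sqrt_le_Wt (c : E d) (p : Pt → E d) : √(d : ℝ) ≤ Wt c p := by
  unfold Wt; have := norm_nonneg c; have := norm_nonneg p; linarith

theorem norm_c_le_Wt (c : E d) (p : Pt → E d) : ‖c‖ ≤ Wt c p := by
  unfold Wt; have := Real.sqrt_nonneg (d : ℝ); have := norm_nonneg p; linarith

theorem norm_p_le_Wt (c : E d) (p : Pt → E d) (k : Pt) : ‖p k‖ ≤ Wt c p := by
  unfold Wt
  have := Real.sqrt_nonneg (d : ℝ); have := norm_nonneg c; have := norm_le_pi_norm p k; linarith

/-- Growth of the exact semantic values. -/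
theorem FlatSys.growth (S : FlatSys Pt ι) {Gf : ℝ → E d → E d} {Λ T : ℝ} (hΛ : 1 ≤ Λ) (hT : 1 ≤ T)
    (hG : ∀ i x, ‖Gf (S.r i) x‖ ≤ Λ * (√(d : ℝ) + ‖x‖)) (hS : ∀ i, LF.tot (S.pt i) ≤ T)
    (c : E d) (p : Pt → E d) (k : ℕ) (i : ι) :
    ‖S.gval Gf c p k i‖ ≤ (2 * Λ * T) ^ k * Wt c p ∧
      ‖S.point Gf c p k i‖ ≤ T * ((2 * Λ * T) ^ k * Wt c p) := by
  have hW := Wt_nonneg c p
  have h2 : 1 ≤ 2 * Λ * T := by nlinarith
  have hpt : ∀ k, (∀ i, ‖S.gval Gf c p k i‖ ≤ (2 * Λ * T) ^ k * Wt c p) →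
      ∀ i, ‖S.point Gf c p k i‖ ≤ T * ((2 * Λ * T) ^ k * Wt c p) := by
    intro k hk i
    have hB : Wt c p ≤ (2 * Λ * T) ^ k * Wt c p :=
      le_mul_of_one_le_left hW (one_le_pow₀ h2)
    have h3 := LF.norm_eval_le c p (S.gval Gf c p k) (S.pt i)
      (B := (2 * Λ * T) ^ k * Wt c p) ((norm_c_le_Wt c p).trans hB)
      (fun k => (norm_p_le_Wt c p k).trans hB) hk
    refine h3.trans (mul_le_mul_of_nonneg_right (hS i) ?_)
    positivity
  have hg : ∀ k, ∀ i, ‖S.gval Gf c p k i‖ ≤ (2 * Λ * T) ^ k * Wt c p := by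
    intro k
    induction k with
    | zero =>
      intro i
      simp only [FlatSys.gval_zero, Pi.zero_apply, norm_zero]
      positivity
    | succ k ih =>
      intro i
      rw [FlatSys.gval_succ]
      refine (hG i _).trans ?_
      have h4 := hpt k ih i
      have hB : Wt c p ≤ (2 * Λ * T) ^ k * Wt c p :=
        le_mul_of_one_le_left hW (one_le_pow₀ h2)
      have h5 : Wt c p ≤ T * ((2 * Λ * T) ^ k * Wt c p) :=
        hB.trans (le_mul_of_one_le_left (by positivity) hT)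
      have h6 : √(d : ℝ) + ‖S.point Gf c p k i‖ ≤ 2 * (T * ((2 * Λ * T) ^ k * Wt c p)) := by
        have := sqrt_le_Wt c p; linarith
      calc Λ * (√(d : ℝ) + ‖S.point Gf c p k i‖)
          ≤ Λ * (2 * (T * ((2 * Λ * T) ^ k * Wt c p))) :=
            mul_le_mul_of_nonneg_left h6 (by linarith)
        _ = (2 * Λ * T) ^ (k + 1) * Wt c p := by ring
  exact ⟨hg k i, hpt k (hg k) i⟩

/-- Data of the program theorem (calls inside the sweeps). -/
structure ProgData (d : ℕ) (S : FlatSys Pt ι) (rc : ℝ) (σ rin : ι → ℝ) (N' q' : ℕ) (L' : ℝ≥0)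
    (D' Λ : ℝ) (T : ℝ≥0) (b : ℝ) : Prop where
  rc0 : 0 ≤ rc
  σ0 : ∀ i, 0 ≤ σ i
  N1 : 1 ≤ N'
  D0 : 0 ≤ D'
  Λ1 : 1 ≤ Λ
  T1 : 1 ≤ T
  b0 : 0 ≤ b
  bT : b ≤ T
  growth : ∀ V : E d → ℝ, Admissible d V → ∀ i x, ‖G V (S.r i) x‖ ≤ Λ * (√(d : ℝ) + ‖x‖)
  tot : ∀ i, LF.tot (S.pt i) ≤ T
  bet : ∀ i, ∑ j, |(S.pt i).2.2 j| ≤ b
  margin : ∀ i, LF.nz rc σ (S.pt i) ≤ rin i
  con : ∀ i, Con (d := d) (rin i) N' q' L' (fun V c => gN (G V (S.r i) c) (σ i)) D'

variable {S : FlatSys Pt ι} {rc : ℝ} {σ rin : ι → ℝ} {N' q' : ℕ} {L' : ℝ≥0}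
    {D' Λ : ℝ} {T : ℝ≥0} {b : ℝ}

/-- The growth factor of the errors. -/
def QQ (Λ : ℝ) (T L' : ℝ≥0) (N' : ℕ) : ℝ := 4 * Λ * T * N' * (L' + 1)


namespace ProgData

theorem q1 (h : ProgData d S rc σ rin N' q' L' D' Λ T b) : 1 ≤ QQ Λ T L' N' := by
  unfold QQ
  have h1 := h.Λ1
  have h2 : (1 : ℝ) ≤ T := by exact_mod_cast h.T1
  have h3 : (1 : ℝ) ≤ N' := by exact_mod_cast h.N1
  have h4 : (0 : ℝ) ≤ L' := L'.2
  have : 1 ≤ Λ * T := by nlinarith
  have : 1 ≤ Λ * T * N' := by nlinarith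
  nlinarith

theorem q2 (h : ProgData d S rc σ rin N' q' L' D' Λ T b) : 2 * Λ * T ≤ QQ Λ T L' N' := by
  unfold QQ
  have h1 := h.Λ1
  have h2 : (1 : ℝ) ≤ T := by exact_mod_cast h.T1
  have h3 : (1 : ℝ) ≤ N' := by exact_mod_cast h.N1
  have h4 : (0 : ℝ) ≤ L' := L'.2
  have h5 : 0 ≤ Λ * T := by positivity
  have h6 : 1 ≤ N' * ((L' : ℝ) + 1) := by nlinarith
  calc 2 * Λ * T = 2 * (Λ * T) * 1 := by ring
    _ ≤ 2 * (Λ * T) * (N' * ((L' : ℝ) + 1)) := mul_le_mul_of_nonneg_left h6 (by positivity)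
    _ ≤ 4 * Λ * T * N' * (L' + 1) := by nlinarith [mul_nonneg h5 (by positivity : (0:ℝ) ≤ N' * ((L' : ℝ) + 1))]

theorem q3 (h : ProgData d S rc σ rin N' q' L' D' Λ T b) :
    N' * (L' * b) + 2 * T ≤ QQ Λ T L' N' := by
  unfold QQ
  have h1 := h.Λ1
  have h2 : (1 : ℝ) ≤ T := by exact_mod_cast h.T1
  have h3 : (1 : ℝ) ≤ N' := by exact_mod_cast h.N1
  have h4 : (0 : ℝ) ≤ L' := L'.2
  have hb := h.bT
  have hT0 : (0 : ℝ) ≤ T := by linarith
  have e1 : N' * (L' * b) ≤ T * N' * L' := by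
    have : (L' : ℝ) * b ≤ L' * T := mul_le_mul_of_nonneg_left hb h4
    nlinarith
  have e2 : T * N' * L' + 2 * T ≤ 4 * (T * N' * (L' + 1)) := by
    have : (T : ℝ) ≤ T * N' := by nlinarith
    nlinarith [mul_nonneg (mul_nonneg hT0 (by linarith : (0:ℝ) ≤ N')) h4]
  have e3 : 4 * (T * N' * ((L' : ℝ) + 1)) ≤ 4 * Λ * T * N' * (L' + 1) := by
    have : 0 ≤ T * N' * ((L' : ℝ) + 1) := by positivity
    nlinarith
  linarith

/-- **Program theorem**, calls inside the sweeps. -/
theorem gval (h : ProgData d S rc σ rin N' q' L' D' Λ T b) (k : ℕ) (i : ι) :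
    Draw (d := d) (P := Pt → E d) rc ((N' * (1 + Fintype.card ι)) ^ k)
      (q' * (N' * (1 + Fintype.card ι)) ^ k) ((2 * (L' + 1) * T) ^ k) (σ i)
      (fun V c p => S.gval (G V) c p k i)
      (fun c p => D' * QQ Λ T L' N' ^ k * Wt c p) := by
  have hT1 := h.T1
  induction k generalizing i with
  | zero =>
    refine ((Draw.zero (d := d) (P := Pt → E d) (rc := rc) (N := 1) (q := q') (L := 1)
      (h.σ0 i)).mono (by simp) (by simp) (by simp) (fun c p => ?_)).congr (fun V _ c p => ?_)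
    · have := Wt_nonneg c p
      have := h.D0
      simp only [pow_zero, mul_one]; positivity
    · rfl
  | succ k ih =>
    have hf := Draw.form h.rc0 h.σ0 ih (S.pt i) (h.margin i)
      (T := T) (h.tot i)
    have hg : ∀ V : E d → ℝ, Admissible d V → ∀ c (p : Pt → E d),
        ‖LF.eval c p (S.gval (G V) c p k) (S.pt i)‖ ≤ T * ((2 * Λ * T) ^ k * Wt c p) :=
      fun V hV c p => (S.growth h.Λ1 (by exact_mod_cast hT1) (h.growth V hV) h.tot c p k i).2
    have hc := Draw.call (h.con i) h.D0 hf hg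
    refine (hc.mono ?_ ?_ ?_ (fun c p => ?_)).congr (fun V _ c p => ?_)
    · -- number of draws
      rw [pow_succ, Nat.mul_comm ((N' * (1 + Fintype.card ι)) ^ k)]
      calc N' * (1 + Fintype.card ι * (N' * (1 + Fintype.card ι)) ^ k)
          ≤ N' * ((N' * (1 + Fintype.card ι)) ^ k
              + Fintype.card ι * (N' * (1 + Fintype.card ι)) ^ k) := by
            gcongr
            exact Nat.one_le_pow _ _ (Nat.mul_pos h.N1 (by omega))
        _ = N' * (1 + Fintype.card ι) * (N' * (1 + Fintype.card ι)) ^ k := by ring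
    · rw [pow_succ]
      have hB : 1 ≤ (N' * (1 + Fintype.card ι)) ^ k :=
        Nat.one_le_pow _ _ (Nat.mul_pos h.N1 (by omega))
      have hN := h.N1
      calc N' * (Fintype.card ι * (q' * (N' * (1 + Fintype.card ι)) ^ k)) + q'
          ≤ N' * (Fintype.card ι * (q' * (N' * (1 + Fintype.card ι)) ^ k))
            + N' * (q' * (N' * (1 + Fintype.card ι)) ^ k) := by
              refine Nat.add_le_add_left ?_ _
              calc q' = 1 * (q' * 1) := by ring
                _ ≤ N' * (q' * (N' * (1 + Fintype.card ι)) ^ k) := by gcongr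
        _ = q' * ((N' * (1 + Fintype.card ι)) ^ k * (N' * (1 + Fintype.card ι))) := by ring
    · -- Lipschitz constants
      have h1 : (1 : ℝ≥0) ≤ (2 * (L' + 1) * T) ^ k := by
        refine one_le_pow₀ ?_
        calc (1 : ℝ≥0) ≤ 2 * (0 + 1) * 1 := by norm_num
          _ ≤ 2 * (L' + 1) * T := by gcongr; exact zero_le
      rw [pow_succ]
      calc L' * (T * (1 + (2 * (L' + 1) * T) ^ k))
          ≤ (L' + 1) * (T * ((2 * (L' + 1) * T) ^ k + (2 * (L' + 1) * T) ^ k)) := by
            gcongr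
            exact le_self_add
        _ = (2 * (L' + 1) * T) ^ k * (2 * (L' + 1) * T) := by ring
    · -- errors
      have hW := Wt_nonneg c p
      have hD := h.D0
      have hQ1 := h.q1
      have hQ2 := h.q2
      have hQ3 := h.q3
      have hT : (1 : ℝ) ≤ T := by exact_mod_cast hT1
      have hL : (0 : ℝ) ≤ L' := L'.2
      have hΛ := h.Λ1
      have h2 : 1 ≤ 2 * Λ * T := by nlinarith
      have hpw : (2 * Λ * T) ^ k ≤ QQ Λ T L' N' ^ k := pow_le_pow_left₀ (by linarith) hQ2 k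
      have hQk : 1 ≤ QQ Λ T L' N' ^ k := one_le_pow₀ hQ1
      have e1 : √(d : ℝ) + T * ((2 * Λ * T) ^ k * Wt c p)
          ≤ 2 * T * (QQ Λ T L' N' ^ k * Wt c p) := by
        have a1 := sqrt_le_Wt c p
        have a2 : Wt c p ≤ T * (QQ Λ T L' N' ^ k * Wt c p) :=
          calc Wt c p = 1 * (1 * Wt c p) := by ring
            _ ≤ T * (QQ Λ T L' N' ^ k * Wt c p) := by gcongr
        have a3 : T * ((2 * Λ * T) ^ k * Wt c p) ≤ T * (QQ Λ T L' N' ^ k * Wt c p) := by gcongr
        linarith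
      have e2 : (∑ j, |(S.pt i).2.2 j|) * (D' * QQ Λ T L' N' ^ k * Wt c p)
          ≤ b * (D' * QQ Λ T L' N' ^ k * Wt c p) :=
        mul_le_mul_of_nonneg_right (h.bet i) (by positivity)
      calc N' * (L' * ((∑ j, |(S.pt i).2.2 j|) * (D' * QQ Λ T L' N' ^ k * Wt c p)))
            + D' * (√(d : ℝ) + T * ((2 * Λ * T) ^ k * Wt c p))
          ≤ N' * (L' * (b * (D' * QQ Λ T L' N' ^ k * Wt c p)))
            + D' * (2 * T * (QQ Λ T L' N' ^ k * Wt c p)) := by gcongr
        _ = (D' * QQ Λ T L' N' ^ k * Wt c p) * (N' * (L' * b) + 2 * T) := by ring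
        _ ≤ (D' * QQ Λ T L' N' ^ k * Wt c p) * QQ Λ T L' N' :=
            mul_le_mul_of_nonneg_left hQ3 (by positivity)
        _ = D' * QQ Λ T L' N' ^ (k + 1) * Wt c p := by ring
    · rfl

/-- The evaluation points of sweep `k` are drawable. -/
theorem point (h : ProgData d S rc σ rin N' q' L' D' Λ T b) (k : ℕ) (i : ι) {r : ℝ}
    (hr : LF.nz rc σ (S.pt i) ≤ r) :
    Draw (d := d) (P := Pt → E d) rc (1 + Fintype.card ι * (N' * (1 + Fintype.card ι)) ^ k)
      (Fintype.card ι * (q' * (N' * (1 + Fintype.card ι)) ^ k)) (T * (1 + (2 * (L' + 1) * T) ^ k)) r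
      (fun V c p => S.point (G V) c p k i)
      (fun c p => b * (D' * QQ Λ T L' N' ^ k * Wt c p)) := by
  refine ((Draw.form h.rc0 h.σ0 (h.gval k) (S.pt i) hr (T := T) (h.tot i)).mono le_rfl le_rfl
    le_rfl (fun c p => ?_)).congr (fun V _ c p => rfl)
  have := Wt_nonneg c p
  have := h.D0
  have := h.q1
  refine mul_le_mul_of_nonneg_right (h.bet i) ?_
  have : 0 ≤ QQ Λ T L' N' ^ k := by positivity
  positivity

/-- **Program theorem**, output: the calls of the output may have their own contracts (`σo`, `D''`),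
needed only where the output uses them. -/
theorem outv (h : ProgData d S rc σ rin N' q' L' D' Λ T b) {σo : ι → ℝ} {D'' bo r : ℝ} {To : ℝ≥0}
    (hσo : ∀ i, 0 ≤ σo i) (hD'' : 0 ≤ D'')
    (hTo : LF.tot S.out ≤ To) (hbo : ∑ j, |S.out.2.2 j| ≤ bo)
    (hcon : ∀ i, S.out.2.2 i ≠ 0 →
      Con (d := d) (rin i) N' q' L' (fun V c => gN (G V (S.r i) c) (σo i)) D'')
    (hr : LF.nz rc σo S.out ≤ r) (k : ℕ) :
    Draw (d := d) (P := Pt → E d) rc (1 + Fintype.card ι * (N' * (1 + Fintype.card ι)) ^ (k + 1))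
      (Fintype.card ι * (q' * (N' * (1 + Fintype.card ι)) ^ (k + 1)))
      (To * (1 + (2 * (L' + 1) * T) ^ (k + 1))) r
      (fun V c p => S.outv (G V) c p (k + 1))
      (fun c p => bo * (N' * L' * (b * (D' * QQ Λ T L' N' ^ k))
        + D'' * (2 * T * (2 * Λ * T) ^ k)) * Wt c p) := by
  classical
  have hT1 := h.T1
  -- the values used by the output
  set g : (E d → ℝ) → E d → (Pt → E d) → ι → E d := fun V c p i =>
    if S.out.2.2 i = 0 then 0 else S.gval (G V) c p (k + 1) i with hg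
  have key : ∀ i, Draw (d := d) (P := Pt → E d) rc ((N' * (1 + Fintype.card ι)) ^ (k + 1))
      (q' * (N' * (1 + Fintype.card ι)) ^ (k + 1)) ((2 * (L' + 1) * T) ^ (k + 1)) (σo i)
      (fun V c p => g V c p i)
      (fun c p => (N' * L' * (b * (D' * QQ Λ T L' N' ^ k))
        + D'' * (2 * T * (2 * Λ * T) ^ k)) * Wt c p) := by
    intro i
    have hQ1 := h.q1
    by_cases hi : S.out.2.2 i = 0
    · refine ((Draw.zero (d := d) (P := Pt → E d) (rc := rc) (hσo i)).mono
        le_rfl le_rfl le_rfl (fun c p => ?_)).congr (fun V _ c p => ?_)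
      · have := Wt_nonneg c p
        have := h.D0
        have := h.b0
        have := h.Λ1
        positivity
      · simp [hg, hi]
    · have hf := h.point k i (h.margin i)
      have hgr : ∀ V : E d → ℝ, Admissible d V → ∀ c (p : Pt → E d),
          ‖S.point (G V) c p k i‖ ≤ T * ((2 * Λ * T) ^ k * Wt c p) :=
        fun V hV c p => (S.growth h.Λ1 (by exact_mod_cast hT1) (h.growth V hV) h.tot c p k i).2
      have hc := Draw.call (hcon i hi) hD'' hf hgr
      refine (hc.mono ?_ ?_ ?_ (fun c p => ?_)).congr (fun V _ c p => ?_)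
      · rw [pow_succ, Nat.mul_comm ((N' * (1 + Fintype.card ι)) ^ k)]
        calc N' * (1 + Fintype.card ι * (N' * (1 + Fintype.card ι)) ^ k)
            ≤ N' * ((N' * (1 + Fintype.card ι)) ^ k
                + Fintype.card ι * (N' * (1 + Fintype.card ι)) ^ k) := by
              gcongr
              exact Nat.one_le_pow _ _ (Nat.mul_pos h.N1 (by omega))
          _ = N' * (1 + Fintype.card ι) * (N' * (1 + Fintype.card ι)) ^ k := by ring
      · rw [pow_succ]
        have hB : 1 ≤ (N' * (1 + Fintype.card ι)) ^ k :=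
          Nat.one_le_pow _ _ (Nat.mul_pos h.N1 (by omega))
        have hN := h.N1
        calc N' * (Fintype.card ι * (q' * (N' * (1 + Fintype.card ι)) ^ k)) + q'
            ≤ N' * (Fintype.card ι * (q' * (N' * (1 + Fintype.card ι)) ^ k))
              + N' * (q' * (N' * (1 + Fintype.card ι)) ^ k) := by
                refine Nat.add_le_add_left ?_ _
                calc q' = 1 * (q' * 1) := by ring
                  _ ≤ N' * (q' * (N' * (1 + Fintype.card ι)) ^ k) := by gcongr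
          _ = q' * ((N' * (1 + Fintype.card ι)) ^ k * (N' * (1 + Fintype.card ι))) := by ring
      · have h1 : (1 : ℝ≥0) ≤ (2 * (L' + 1) * T) ^ k := by
          refine one_le_pow₀ ?_
          calc (1 : ℝ≥0) ≤ 2 * (0 + 1) * 1 := by norm_num
            _ ≤ 2 * (L' + 1) * T := by gcongr; exact zero_le
        rw [pow_succ]
        calc L' * (T * (1 + (2 * (L' + 1) * T) ^ k))
            ≤ (L' + 1) * (T * ((2 * (L' + 1) * T) ^ k + (2 * (L' + 1) * T) ^ k)) := by
              gcongr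
              exact le_self_add
          _ = (2 * (L' + 1) * T) ^ k * (2 * (L' + 1) * T) := by ring
      · have hW := Wt_nonneg c p
        have hT : (1 : ℝ) ≤ T := by exact_mod_cast hT1
        have hΛ := h.Λ1
        have h2 : 1 ≤ 2 * Λ * T := by nlinarith
        have e1 : √(d : ℝ) + T * ((2 * Λ * T) ^ k * Wt c p)
            ≤ 2 * T * (2 * Λ * T) ^ k * Wt c p := by
          have a1 := sqrt_le_Wt c p
          have a2 : Wt c p ≤ T * ((2 * Λ * T) ^ k * Wt c p) :=
            calc Wt c p = 1 * (1 * Wt c p) := by ring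
              _ ≤ T * ((2 * Λ * T) ^ k * Wt c p) := by
                gcongr; exact one_le_pow₀ h2
          nlinarith
        calc N' * (L' * (b * (D' * QQ Λ T L' N' ^ k * Wt c p)))
              + D'' * (√(d : ℝ) + T * ((2 * Λ * T) ^ k * Wt c p))
            ≤ N' * (L' * (b * (D' * QQ Λ T L' N' ^ k * Wt c p)))
              + D'' * (2 * T * (2 * Λ * T) ^ k * Wt c p) := by gcongr
          _ = _ := by ring
      · simp only [hg, hi, if_false]
        rfl
  have hfin := Draw.form h.rc0 hσo key S.out hr (T := To) hTo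
  refine (hfin.mono le_rfl le_rfl le_rfl (fun c p => ?_)).congr (fun V _ c p => ?_)
  · have hW := Wt_nonneg c p
    have hQ1 := h.q1
    have := h.D0
    have := h.b0
    have := h.Λ1
    rw [mul_assoc bo]
    refine mul_le_mul_of_nonneg_right hbo ?_
    positivity
  · unfold FlatSys.outv
    simp only [LF.eval_apply]
    congr 1
    refine Finset.sum_congr rfl fun i _ => ?_
    by_cases hi : S.out.2.2 i = 0
    · simp [hi]
    · simp [hg, hi]

end ProgData

end

end Crest.Agent.R285
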