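import Crest.Agent.R285.InstFix
import Crest.Agent.R285.PolyDv
import Crest.Agent.R285.InstEv
import Crest.Agent.R285.AFPot
import Crest.Agent.R285.Scale

-- ▼ part R285/DvLift
section

/-!
Row 285: `Dv` and products / curves (auxiliary for SM1, SM2).
-/

set_option autoImplicit false
set_option linter.unusedSectionVars false

open Set Filter Topology MeasureTheory
open scoped ENNReal

noncomputable section

namespace Crest.Agent.R285.PolyDv

open Crest.Agent.R285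

variable {V W : Type} [NormedAddCommGroup V] [NormedSpace ℝ V] [NormedAddCommGroup W]
  [NormedSpace ℝ W] {F : Type*} [NormedAddCommGroup F] [NormedSpace ℝ F] {J : Set ℝ}


/-- Lift of a function of the first coordinate. -/
theorem SmOn.fst {f : ℝ → V → F} (hf : SmOn f J) : SmOn (fun t (p : V × W) => f t p.1) J :=
  ContDiffOn.comp (g := fun q : ℝ × V => f q.1 q.2) (f := fun q : ℝ × V × W => (q.1, q.2.1)) hf
    (by fun_prop) (fun q hq => ⟨hq.1, mem_univ _⟩)

theorem Dv_fst {v : ℝ → V → V} {v₂ : ℝ → V × W → V × W} {f : ℝ → V → F} {t : ℝ} {p : V × W}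
    (hv : (v₂ t p).1 = v t p.1)
    (hf : DifferentiableAt ℝ (fun q : ℝ × V => f q.1 q.2) (t, p.1)) :
    Dv v₂ (fun t (p : V × W) => f t p.1) t p = Dv v f t p.1 := by
  have h1 : HasFDerivAt (fun q : ℝ × V × W => ((q.1, q.2.1) : ℝ × V))
      ((ContinuousLinearMap.fst ℝ ℝ (V × W)).prod ((ContinuousLinearMap.fst ℝ V W).comp
        (ContinuousLinearMap.snd ℝ ℝ (V × W)))) (t, p) := by
    have := ((ContinuousLinearMap.fst ℝ ℝ (V × W)).prod ((ContinuousLinearMap.fst ℝ V W).comp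
        (ContinuousLinearMap.snd ℝ ℝ (V × W)))).hasFDerivAt (x := (t, p))
    exact this
  have h2 := hf.hasFDerivAt.comp (t, p) h1
  have h3 : HasFDerivAt (fun q : ℝ × V × W => f q.1 q.2.1) _ (t, p) := h2
  simp only [Dv]
  rw [h3.fderiv]
  simp [hv]

theorem iterate_Dv_fst {v : ℝ → V → V} {v₂ : ℝ → V × W → V × W} {f : ℝ → V → F} (hJ : IsOpen J)
    (hf : SmOn f J) (hvs : SmOn v J) (hv : ∀ t ∈ J, ∀ p, (v₂ t p).1 = v t p.1) (n : ℕ) :
    ∀ t ∈ J, ∀ p, (Dv v₂)^[n] (fun t (p : V × W) => f t p.1) t p = (Dv v)^[n] f t p.1 := by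
  induction n with
  | zero => intro t _ p; rfl
  | succ n ih =>
    intro t ht p
    rw [Function.iterate_succ_apply', Function.iterate_succ_apply']
    rw [Dv_congr hJ ih t ht p]
    exact Dv_fst (hv t ht p) ((hf.iterate_Dv hJ hvs n).differentiableAt hJ ht p.1)



section meas

variable [MeasurableSpace V] [BorelSpace V] [MeasurableSpace W]

theorem eLpNorm_fst {μ : Measure V} {γ : Measure W} [SFinite μ] [IsProbabilityMeasure γ]
    {g : V → F} (hg : Continuous g) [SecondCountableTopology V] {p : ℝ≥0∞} :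
    eLpNorm (fun x : V × W => g x.1) p (μ.prod γ) = eLpNorm g p μ := by
  have h1 : (μ.prod γ).map Prod.fst = μ := by
    rw [Measure.map_fst_prod, measure_univ, one_smul]
  have h2 := eLpNorm_map_measure (p := p) (μ := μ.prod γ) (f := (Prod.fst : V × W → V)) (g := g)
    (hg.aestronglyMeasurable) measurable_fst.aemeasurable
  rw [h1] at h2
  exact h2.symm

end meas

end Crest.Agent.R285.PolyDv
end
end

-- ▼ part R285/SM2

/-!
Row 285 (S0430): smoothness of the uncoupled flow (1) (and of the inner flow at a frozen centre):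
`L²` bounds of the iterated total derivatives of the field `vY`, from the abstract bounds of
`Sob.Sett` (hypothesis `hS` below) and the flattening bounds (hypothesis `AF`).
-/

set_option autoImplicit false
set_option linter.unusedSectionVars false

open MeasureTheory ProbabilityTheory Real Filter Topology Set
open Crest.OracleSampling (E)
open MvPolynomial (C)
open scoped RealInnerProductSpace ENNReal ContDiff

noncomputable section

namespace Crest.Agent.R285.SM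

open Crest.Agent.R285 Crest.Agent.R285.Inst Crest.Agent.R285.InstFix Crest.Agent.R285.PolyDv

variable {d : ℕ}

/-- The flattening bounds at level `κ` in the form used by `fixSett`. -/
def AFB (c : ℕ → ℝ) (K τ : ℝ) (f : E d → ℝ) (κ : ℝ) : Prop :=
  ∀ (p q : ℕ) (y : E d) (x : (Fin (p + 1) → Fin d) → ℝ),
    ∑ j : Fin (q + 1) → Fin d, (∑ k : Fin (p + 1) → Fin d,
      (τ⁻¹ * AF.pdm (Finset.univ.val.map k + Finset.univ.val.map j) (Ub f κ) y) * x k) ^ 2 ≤
      (c (p + q + 2) * K ^ (p + q + 2)) ^ 2 * ∑ k, x k ^ 2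

/-- The uncoupled field on `E d × E d`. -/
def v2 (f : E d → ℝ) (a : E d) (t : ℝ) (p : E d × E d) : E d × E d := (vY f a 1 t p.1, 0)


theorem G_apply {τ : ℝ} {f : E d → ℝ} (hf : PotP τ f) {κ : ℝ} (hκ : 0 < κ) (y : E d) (i : Fin d) :
    G f κ y i = AF.pdm {i} (Ub f κ) y := by
  rw [AF.pdm_single (AF.contDiff_Ub hf hκ), ← AF.inner_gradient_ev, AF.ev,
    EuclideanSpace.inner_single_left]
  simp [G]

theorem sqrt_pos' {t : ℝ} (ht : t ∈ Ioo (-1 : ℝ) 1) : 0 < √(1 - t ^ 2) :=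
  Real.sqrt_pos.2 (one_sub_sq_pos ht)

theorem vY_apply {τ : ℝ} {f : E d → ℝ} (hf : PotP τ f) (a : E d) {t : ℝ} (ht : t ∈ Ioo (-1 : ℝ) 1)
    (η : E d) (i : Fin d) :
    vY f a 1 t η i = -AF.pdm {i} (AF.uT f (1 - t ^ 2)) (a + t • η) := by
  unfold vY AF.uT
  rw [← G_apply hf (sqrt_pos' ht)]
  simp

/-- abbreviation: value of the formal ring along the uncoupled flow -/
abbrev ev2 (τ : ℝ) (f : E d → ℝ) (a : E d) (t : ℝ) (x : E d × E d) : A (Fin d) →ₐ[ℝ] ℝ :=
  evt τ (AF.uT f) a (fun _ x => x.1) (fun _ x => x.2) t x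

theorem ev2_eq (τ : ℝ) (f : E d → ℝ) (a : E d) (t : ℝ) (x : E d × E d) (g : A (Fin d)) :
    ev2 τ f a t x g = PolyEv.evp (gval f (√(1 - t ^ 2)) a t τ) x g := by
  unfold ev2 evt PolyEv.evp
  congr 2
  funext g
  cases g <;> rfl

theorem smOn_fst' {J : Set ℝ} : SmOn (fun (_ : ℝ) (x : E d × E d) => x.1) J := by
  have : ContDiff ℝ ((⊤ : ℕ∞) : WithTop ℕ∞) (fun p : ℝ × E d × E d => p.2.1) := by fun_prop
  exact this.contDiffOn

theorem smOn_snd' {J : Set ℝ} : SmOn (fun (_ : ℝ) (x : E d × E d) => x.2) J := by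
  have : ContDiff ℝ ((⊤ : ℕ∞) : WithTop ℕ∞) (fun p : ℝ × E d × E d => p.2.2) := by fun_prop
  exact this.contDiffOn

theorem Dv_clm_const {W F : Type} [NormedAddCommGroup W] [NormedSpace ℝ W] [NormedAddCommGroup F]
    [NormedSpace ℝ F] (v : ℝ → W → W) (L : W →L[ℝ] F) (t : ℝ) (x : W) :
    Dv v (fun _ x => L x) t x = L (v t x) := by
  have h : HasFDerivAt (fun p : ℝ × W => L p.2) (L.comp (ContinuousLinearMap.snd ℝ ℝ W)) (t, x) :=
    L.hasFDerivAt.comp (t, x) hasFDerivAt_snd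
  simp only [Dv]
  rw [h.fderiv]
  simp

/-- iterated total derivatives in the formal ring, uncoupled flow -/
theorem iterate_ev2 {τ : ℝ} {f : E d → ℝ} (hf : PotP τ f) (hτ : τ ≠ 0) (a : E d) (g : A (Fin d))
    (n : ℕ) {t : ℝ} (ht : t ∈ Ioo (-1 : ℝ) 1) (x : E d × E d) :
    (Dv (v2 f a))^[n] (fun t x => ev2 τ f a t x g) t x = ev2 τ f a t x ((XX τ 0)^[n] g) := by
  refine iterate_Dv_evt (et := 0) hτ (AF.joint_uT hf) (AF.hj_uT hf) isOpen_Ioo subset_rfl
    smOn_fst' smOn_snd' ?_ ?_ g n ht x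
  · intro t ht x i
    have h1 : Dv (v2 f a) (fun (_ : ℝ) (x : E d × E d) => x.1) t x = (v2 f a t x).1 :=
      Dv_clm_const (v2 f a) (ContinuousLinearMap.fst ℝ (E d) (E d)) t x
    rw [h1, XX_η]
    simp only [v2, vY_apply hf a ht]
    simp only [map_neg, map_mul, evt_C, evt_T, map_zero, zero_mul, add_zero]
    field_simp
  · intro t ht x i
    have h1 : Dv (v2 f a) (fun (_ : ℝ) (x : E d × E d) => x.2) t x = (v2 f a t x).2 :=
      Dv_clm_const (v2 f a) (ContinuousLinearMap.snd ℝ (E d) (E d)) t x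
    rw [h1, XX_b]
    simp [v2]

theorem smOn_v2 {τ : ℝ} {f : E d → ℝ} (hf : PotP τ f) (a : E d) :
    SmOn (v2 f a) (Ioo (-1 : ℝ) 1) := by
  have h1 : SmOn (fun t (p : E d × E d) => vY f a 1 t p.1) (Ioo (-1 : ℝ) 1) :=
    PolyDv.SmOn.fst (smOn_vY hf a one_pos)
  exact ContDiffOn.prodMk h1 contDiffOn_const

/-- Squared norm of the iterated derivative of the field. -/
theorem norm_sq_iterate_vY {τ : ℝ} {f : E d → ℝ} (hf : PotP τ f) (hτ : τ ≠ 0) (a : E d) (n : ℕ)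
    {t : ℝ} (ht : t ∈ Ioo (-1 : ℝ) 1) (x : E d × E d) :
    ‖(Dv (vY f a 1))^[n] (vY f a 1) t x.1‖ ^ 2 =
      ∑ i, (PolyEv.evp (gval f (√(1 - t ^ 2)) a t τ) x (-(C τ * (XX τ 0)^[n] (gT {i})))) ^ 2 := by
  rw [← iterate_Dv_fst (v := vY f a 1) (v₂ := v2 f a) isOpen_Ioo (smOn_vY hf a one_pos)
    (smOn_vY hf a one_pos) (fun t _ p => rfl) n t ht x]
  rw [EuclideanSpace.norm_sq_eq]
  refine Finset.sum_congr rfl fun i _ => ?_
  rw [Real.norm_eq_abs, sq_abs]
  congr 1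
  set L : E d →L[ℝ] ℝ := EuclideanSpace.proj (𝕜 := ℝ) i with hL
  have hf1 : SmOn (fun t (p : E d × E d) => vY f a 1 t p.1) (Ioo (-1 : ℝ) 1) :=
    PolyDv.SmOn.fst (smOn_vY hf a one_pos)
  have h1 := iterate_Dv_clm L isOpen_Ioo hf1 (smOn_v2 hf a) n t ht x
  have h2 : ∀ t ∈ Ioo (-1 : ℝ) 1, ∀ p : E d × E d, L (vY f a 1 t p.1) =
      ev2 τ f a t p (-(C τ * gT {i})) := by
    intro t ht p
    have : L (vY f a 1 t p.1) = vY f a 1 t p.1 i := rfl
    rw [this, vY_apply hf a ht]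
    simp only [map_neg, map_mul, evt_C, evt_T]
    field_simp
  have h3 := iterate_Dv_congr (v := v2 f a) isOpen_Ioo h2 n t ht x
  have h4 := iterate_ev2 hf hτ a (-(C τ * gT {i})) n ht x
  have h5 : ∀ (n : ℕ) (g : A (Fin d)), (XX τ 0)^[n] (-(C τ * g)) = -(C τ * (XX τ 0)^[n] g) := by
    intro n
    induction n with
    | zero => intro g; rfl
    | succ n ih =>
      intro g
      rw [Function.iterate_succ_apply, Function.iterate_succ_apply, ← ih]
      congr 1
      rw [map_neg, ← MvPolynomial.smul_eq_C_mul, Derivation.map_smul, MvPolynomial.smul_eq_C_mul]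
  have h6 : L ((Dv (v2 f a))^[n] (fun t (p : E d × E d) => vY f a 1 t p.1) t x) =
      ((Dv (v2 f a))^[n] (fun t (p : E d × E d) => vY f a 1 t p.1) t x) i := rfl
  rw [← h6, ← h1, h3, h4, h5, ev2_eq]

/-- What is needed from the abstract theory: bound `B` for the `n`-th derivative of the generators
`T{i}` in the setting `S`. -/
def GBound {c : ℕ → ℝ} (S : Sob.Sett c) (n : ℕ) (B : ℝ) : Prop :=
  ∀ i : S.N, S.I (S.X^[n] (S.T {i}) * S.X^[n] (S.T {i})) ≤ B ^ 2

theorem eLpNorm_vY_law1 {c : ℕ → ℝ} {K τ : ℝ} {f : E d → ℝ} (hf : PotP τ f) (hτ : 0 < τ)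
    (hτ1 : τ ≤ 1) (a : E d) (n : ℕ) {t : ℝ} (ht : t ∈ Ioo (-1 : ℝ) 1) (hK : 1 ≤ K)
    (hAF : AFB c K τ f (√(1 - t ^ 2))) {B : ℝ} (hB0 : 0 ≤ B)
    (hB : ∀ het hε hτ0 hτ1, GBound (fixSett c K 0 hK het hf (sqrt_pos' ht) a t hε hτ0 hτ1 hAF) n B) :
    eLpNorm ((Dv (vY f a 1))^[n] (vY f a 1) t) 2 (Scale.law1 f a t) ≤
      ENNReal.ofReal (τ * B * √d) := by
  have hε : |t| ≤ 1 := abs_le.2 ⟨ht.1.le, ht.2.le⟩
  have hB' := hB (by simp) hε hτ.ne' (by rw [abs_of_pos hτ]; exact hτ1)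
  have hvals := vals hf (sqrt_pos' ht) a t hτ.ne' (bdd_of_AF hτ.ne' hAF)
  have := Scale.isProb_law1 hf a ht
  have hcont : Continuous ((Dv (vY f a 1))^[n] (vY f a 1) t) := by
    rw [← continuousOn_univ]
    exact ((smOn_vY hf a one_pos).iterate_Dv isOpen_Ioo (smOn_vY hf a one_pos) n).continuousOn.comp
      (f := fun x : E d => (t, x)) (by fun_prop) (fun x _ => ⟨ht, mem_univ _⟩)
  rw [← eLpNorm_fst (W := E d) (γ := stdGaussian (E d)) hcont, Scale.law1_prod hf a ht]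
  refine Scale.eLpNorm_M2_le hvals (fun i : Fin d => -(C τ * (XX τ 0)^[n] (gT {i})))
    (fun x => ?_) (by positivity) ?_
  · exact norm_sq_iterate_vY hf hτ.ne' a n ht x
  · have h1 : ∀ i : Fin d, PolyEv.If (gval f (√(1 - t ^ 2)) a t τ) (psi f (√(1 - t ^ 2)) a t)
        hvals.integrable (-(C τ * (XX τ 0)^[n] (gT {i})) * -(C τ * (XX τ 0)^[n] (gT {i}))) ≤
        τ ^ 2 * B ^ 2 := by
      intro i
      have e : (-(C τ * (XX τ 0)^[n] (gT {i})) * -(C τ * (XX τ 0)^[n] (gT {i})) : A (Fin d)) =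
          (τ ^ 2) • ((XX τ 0)^[n] (gT {i}) * (XX τ 0)^[n] (gT {i})) := by
        rw [MvPolynomial.smul_eq_C_mul, map_pow]; ring
      rw [e, map_smul, smul_eq_mul]
      exact mul_le_mul_of_nonneg_left (hB' i) (sq_nonneg _)
    calc _ ≤ ∑ _i : Fin d, τ ^ 2 * B ^ 2 := Finset.sum_le_sum fun i _ => h1 i
      _ = (τ * B * √d) ^ 2 := by
        rw [Finset.sum_const, Finset.card_univ, Fintype.card_fin, nsmul_eq_mul, mul_pow, mul_pow,
          Real.sq_sqrt (Nat.cast_nonneg d)]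
        ring

end Crest.Agent.R285.SM
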