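import Crest.Agent.R285.Sob
import Crest.Agent.R285.SM2
import Crest.Agent.R285.Inner

-- ▼ part R285/SobLet
section

/-!
Row 285: the letters of the word calculus and their boundedness.
-/

set_option autoImplicit false
set_option linter.unusedSectionVars false
set_option linter.unusedVariables false

open Finset

namespace Crest.Agent.R285.Sob

variable {c : ℕ → ℝ}

/-! ### slots -/

section slots

variable {α β γ N : Type} [Fintype α] [DecidableEq α] [Fintype β] [DecidableEq β]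
  [Fintype γ] [DecidableEq γ]

/-- The multiset of values of a multi-index. -/
def ml (f : α → N) : Multiset N := (univ : Finset α).val.map f

theorem ml_def (f : α → N) : ml f = (univ : Finset α).val.map f := rfl

theorem ml_sum (f : α ⊕ β → N) : ml f = ml (f ∘ Sum.inl) + ml (f ∘ Sum.inr) := by
  unfold ml
  rw [← Finset.univ_disjSum_univ, Finset.val_disjSum, Multiset.disjSum, Multiset.map_add,
    Multiset.map_map, Multiset.map_map]

theorem ml_unit (f : Unit → N) : ml f = {f ()} := by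
  simp [ml]

theorem ml_unit_sum (f : Unit ⊕ β → N) : ml f = f (Sum.inl ()) ::ₘ ml (f ∘ Sum.inr) := by
  rw [ml_sum, ml_unit]
  rfl

theorem ml_equiv (e : α ≃ β) (f : β → N) : ml (f ∘ e) = ml f := by
  unfold ml
  rw [← Multiset.map_map]
  congr 1
  have := congrArg Finset.val (Finset.map_univ_equiv e)
  rw [← this]
  rfl

theorem ml_ne_zero [Nonempty α] (f : α → N) : ml f ≠ 0 := by
  intro h
  have h2 : Multiset.card (ml f) = 0 := by rw [h]; rfl
  rw [ml, Multiset.card_map] at h2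
  have := Fintype.card_pos (α := α)
  rw [← Finset.card_univ] at this
  exact this.ne' h2

/-- Swap the first two groups of slots. -/
def swp (α β γ : Type) : α ⊕ (β ⊕ γ) ≃ β ⊕ (α ⊕ γ) :=
  (Equiv.sumAssoc α β γ).symm.trans
    (((Equiv.sumComm α β).sumCongr (Equiv.refl γ)).trans (Equiv.sumAssoc β α γ))

@[simp] theorem swp_inl (a : α) : swp α β γ (Sum.inl a) = Sum.inr (Sum.inl a) := rfl
@[simp] theorem swp_inr_inl (b : β) : swp α β γ (Sum.inr (Sum.inl b)) = Sum.inl b := rfl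
@[simp] theorem swp_inr_inr (g : γ) : swp α β γ (Sum.inr (Sum.inr g)) = Sum.inr (Sum.inr g) :=
  rfl

theorem sum_sum_arrow {N M : Type} [Fintype N] [DecidableEq N] [AddCommMonoid M]
    (f : (α ⊕ β → N) → M) :
    ∑ J, f J = ∑ J₁ : α → N, ∑ J₂ : β → N, f (Sum.elim J₁ J₂) := by
  rw [← Fintype.sum_prod_type']
  exact (Equiv.sum_comp (Equiv.sumArrowEquivProdArrow α β N).symm f).symm

theorem sum_unit_arrow {N M : Type} [Fintype N] [DecidableEq N] [AddCommMonoid M]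
    (f : (Unit → N) → M) : ∑ J, f J = ∑ i : N, f (fun _ => i) :=
  (Equiv.sum_comp (Equiv.funUnique Unit N).symm f).symm

theorem sum_unit_sum_arrow {N M : Type} [Fintype N] [DecidableEq N] [AddCommMonoid M]
    (f : (Unit ⊕ β → N) → M) :
    ∑ J, f J = ∑ i : N, ∑ J₂ : β → N, f (Sum.elim (fun _ => i) J₂) := by
  rw [sum_sum_arrow, sum_unit_arrow]


end slots

/-! ### letters -/

/-- Reindexing of the slots. -/
def re {ι κ : Type} (e : ι ≃ κ) : Op c ι κ := fun S =>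
  { toFun := fun F J => F (J ∘ e)
    map_add' := fun F G => by funext J; simp
    map_smul' := fun r F => by funext J; simp }

/-- Multiplication by `ε`. -/
def epsop (ι : Type) : Op c ι ι := fun S =>
  { toFun := fun F J => S.eps * F J
    map_add' := fun F G => by funext J; simp [mul_add]
    map_smul' := fun r F => by funext J; simp }

/-- The divergence in `η`. -/
def div (ι : Type) : Op c (Unit ⊕ ι) ι := fun S =>
  { toFun := fun F J => ∑ l, (S.w l * F (Sum.elim (fun _ => l) J) -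
      S.d l (F (Sum.elim (fun _ => l) J)))
    map_add' := fun F G => by
      funext J
      simp only [Pi.add_apply, map_add, mul_add, ← sum_add_distrib]
      exact sum_congr rfl fun l _ => by abel
    map_smul' := fun r F => by
      funext J
      simp only [Pi.smul_apply, Derivation.map_smul, RingHom.id_apply, smul_sum, smul_sub,
        mul_smul_comm] }

/-- The divergence in `b`. -/
def divb (ι : Type) : Op c (Unit ⊕ ι) ι := fun S =>
  { toFun := fun F J => ∑ l, (S.b l * F (Sum.elim (fun _ => l) J) -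
      S.e l (F (Sum.elim (fun _ => l) J)))
    map_add' := fun F G => by
      funext J
      simp only [Pi.add_apply, map_add, mul_add, ← sum_add_distrib]
      exact sum_congr rfl fun l _ => by abel
    map_smul' := fun r F => by
      funext J
      simp only [Pi.smul_apply, Derivation.map_smul, RingHom.id_apply, smul_sum, smul_sub,
        mul_smul_comm] }

/-- Contraction of the slots `σ` with a derivative tensor, creating the slots `β`. -/
def MT (σ β γ : Type) [Fintype σ] [DecidableEq σ] [Fintype β] [DecidableEq β] :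
    Op c (σ ⊕ γ) (β ⊕ γ) := fun S =>
  { toFun := fun F J => ∑ k : σ → S.N, S.T (ml k + ml (J ∘ Sum.inl)) *
      F (Sum.elim k (J ∘ Sum.inr))
    map_add' := fun F G => by
      funext J
      simp only [Pi.add_apply, mul_add, ← sum_add_distrib]
    map_smul' := fun r F => by
      funext J
      simp only [Pi.smul_apply, RingHom.id_apply, smul_sum, mul_smul_comm] }

section apply

variable {ι κ σ β γ : Type} (S : Sett c)

theorem grad_apply (F : Fl S ι) (J : Unit ⊕ ι → S.N) :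
    grad ι S F J = S.d (J (Sum.inl ())) (F (J ∘ Sum.inr)) := rfl

theorem gradb_apply (F : Fl S ι) (J : Unit ⊕ ι → S.N) :
    gradb ι S F J = S.e (J (Sum.inl ())) (F (J ∘ Sum.inr)) := rfl

theorem re_apply (e : ι ≃ κ) (F : Fl S ι) (J : κ → S.N) : re e S F J = F (J ∘ e) := rfl

theorem epsop_apply (F : Fl S ι) (J : ι → S.N) : epsop ι S F J = S.eps * F J := rfl

theorem div_apply (F : Fl S (Unit ⊕ ι)) (J : ι → S.N) : div ι S F J =
    ∑ l, (S.w l * F (Sum.elim (fun _ => l) J) - S.d l (F (Sum.elim (fun _ => l) J))) := rfl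

theorem divb_apply (F : Fl S (Unit ⊕ ι)) (J : ι → S.N) : divb ι S F J =
    ∑ l, (S.b l * F (Sum.elim (fun _ => l) J) - S.e l (F (Sum.elim (fun _ => l) J))) := rfl

theorem MT_apply [Fintype σ] [DecidableEq σ] [Fintype β] [DecidableEq β] (F : Fl S (σ ⊕ γ)) (J : β ⊕ γ → S.N) : MT σ β γ S F J =
    ∑ k : σ → S.N, S.T (ml k + ml (J ∘ Sum.inl)) * F (Sum.elim k (J ∘ Sum.inr)) := rfl

/-! ### reindexing -/

variable [Fintype ι] [DecidableEq ι] [Fintype κ] [DecidableEq κ]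

theorem nsq_re (e : ι ≃ κ) (F : Fl S ι) : nsq S (re e S F) = nsq S F := by
  unfold nsq
  exact Equiv.sum_comp (Equiv.arrowCongr e.symm (Equiv.refl S.N)) (fun J => S.I (F J * F J))

theorem grad_re (e : ι ≃ κ) (F : Fl S ι) :
    grad κ S (re e S F) = re (Equiv.sumCongr (Equiv.refl Unit) e) S (grad ι S F) := rfl

theorem gradb_re (e : ι ≃ κ) (F : Fl S ι) :
    gradb κ S (re e S F) = re (Equiv.sumCongr (Equiv.refl Unit) e) S (gradb ι S F) := rfl

end apply

theorem Sq_re (S : Sett c) (r : ℕ) : ∀ {ι κ : Type} [Fintype ι] [DecidableEq ι] [Fintype κ]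
    [DecidableEq κ] (e : ι ≃ κ) (F : Fl S ι), Sq r S κ (re e S F) = Sq r S ι F := by
  induction r with
  | zero => intro ι κ _ _ _ _ e F; exact nsq_re S e F
  | succ r ih =>
    intro ι κ _ _ _ _ e F
    rw [Sq_succ, Sq_succ, grad_re, gradb_re, ih, ih, ih]

theorem Bd.re {ι κ : Type} [Fintype ι] [DecidableEq ι] [Fintype κ] [DecidableEq κ] (e : ι ≃ κ) :
    Bd (re (c := c) e) := fun r => ⟨1, 0, 0, zero_le_one, fun S F => by
      rw [Sq_re]; simp⟩

/-! ### multiplication by `ε` -/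

theorem nsq_epsop (S : Sett c) {ι : Type} [Fintype ι] [DecidableEq ι] (F : Fl S ι) :
    nsq S (epsop ι S F) ≤ nsq S F := by
  unfold nsq
  refine sum_le_sum fun J _ => I_mono S fun p => ?_
  rw [epsop_apply, map_mul, map_mul, map_mul]
  have h := S.abs_ev_eps p
  have h1 : S.ev p S.eps ^ 2 ≤ 1 := by
    rw [← sq_abs]
    exact pow_le_one₀ (abs_nonneg _) h
  have h2 := mul_self_nonneg (S.ev p (F J))
  nlinarith

theorem grad_epsop (S : Sett c) {ι : Type} (F : Fl S ι) :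
    grad ι S (epsop ι S F) = epsop (Unit ⊕ ι) S (grad ι S F) := by
  funext J
  rw [grad_apply, epsop_apply, epsop_apply, grad_apply, Derivation.leibniz, S.d_eps]
  simp

theorem gradb_epsop (S : Sett c) {ι : Type} (F : Fl S ι) :
    gradb ι S (epsop ι S F) = epsop (Unit ⊕ ι) S (gradb ι S F) := by
  funext J
  rw [gradb_apply, epsop_apply, epsop_apply, gradb_apply, Derivation.leibniz, S.e_eps]
  simp

theorem Sq_epsop (S : Sett c) (r : ℕ) : ∀ {ι : Type} [Fintype ι] [DecidableEq ι]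
    (F : Fl S ι), Sq r S ι (epsop ι S F) ≤ Sq r S ι F := by
  induction r with
  | zero => intro ι _ _ F; exact nsq_epsop S F
  | succ r ih =>
    intro ι _ _ F
    rw [Sq_succ, Sq_succ, grad_epsop, gradb_epsop]
    have := ih F
    have := ih (grad ι S F)
    have := ih (gradb ι S F)
    linarith

theorem Bd.epsop (ι : Type) [Fintype ι] [DecidableEq ι] : Bd (epsop (c := c) ι) := fun r =>
  ⟨1, 0, 0, zero_le_one, fun S F => by simpa using Sq_epsop S r F⟩

/-! ### gradients -/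

theorem Bd.grad (ι : Type) [Fintype ι] [DecidableEq ι] : Bd (grad (c := c) ι) := fun r =>
  ⟨1, 0, 1, zero_le_one, fun S F => by
    have h1 := Sq_succ S r F
    have h2 := Sq_nonneg S r F
    have h3 := Sq_nonneg S r (Sob.gradb ι S F)
    simp only [pow_zero, one_mul]
    linarith⟩

theorem Bd.gradb (ι : Type) [Fintype ι] [DecidableEq ι] : Bd (gradb (c := c) ι) := fun r =>
  ⟨1, 0, 1, zero_le_one, fun S F => by
    have h1 := Sq_succ S r F
    have h2 := Sq_nonneg S r F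
    have h3 := Sq_nonneg S r (Sob.grad ι S F)
    simp only [pow_zero, one_mul]
    linarith⟩

/-! ### the tensors -/

/-- `AF` for arbitrary finite slot types. -/
theorem AF_gen (S : Sett c) {σ β : Type} [Fintype σ] [DecidableEq σ] [Nonempty σ]
    [Fintype β] [DecidableEq β] [Nonempty β] (z : S.P) (x : (σ → S.N) → ℝ) :
    ∑ y : β → S.N, (∑ k : σ → S.N, S.ev z (S.T (ml k + ml y)) * x k) ^ 2 ≤
      (c (Fintype.card σ + Fintype.card β) * S.K ^ (Fintype.card σ + Fintype.card β)) ^ 2 *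
        ∑ k, x k ^ 2 := by
  obtain ⟨p, hp⟩ : ∃ p, Fintype.card σ = p + 1 :=
    ⟨Fintype.card σ - 1, (Nat.succ_pred_eq_of_pos Fintype.card_pos).symm⟩
  obtain ⟨q, hq⟩ : ∃ q, Fintype.card β = q + 1 :=
    ⟨Fintype.card β - 1, (Nat.succ_pred_eq_of_pos Fintype.card_pos).symm⟩
  have eσ : σ ≃ Fin (p + 1) := Fintype.equivFinOfCardEq hp
  have eβ : β ≃ Fin (q + 1) := Fintype.equivFinOfCardEq hq
  have hcard : Fintype.card σ + Fintype.card β = p + q + 2 := by omega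
  rw [hcard]
  have h := S.AF p q z (fun k => x (k ∘ eσ))
  have e1 : ∀ g : (σ → S.N) → ℝ, ∑ k : Fin (p + 1) → S.N, g (k ∘ eσ) = ∑ k, g k := fun g =>
    Equiv.sum_comp (Equiv.arrowCongr eσ.symm (Equiv.refl S.N)) g
  have e2 : ∀ g : (β → S.N) → ℝ, ∑ y : Fin (q + 1) → S.N, g (y ∘ eβ) = ∑ y, g y := fun g =>
    Equiv.sum_comp (Equiv.arrowCongr eβ.symm (Equiv.refl S.N)) g
  rw [e1 (fun k => x k ^ 2)] at h
  rw [← e2]
  refine le_trans (le_of_eq ?_) h
  refine sum_congr rfl fun y _ => ?_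
  rw [← e1]
  congr 1
  refine sum_congr rfl fun k _ => ?_
  rw [ml_equiv, ml_equiv]
  rfl

theorem nsq_MT (S : Sett c) {σ β γ : Type} [Fintype σ] [DecidableEq σ] [Nonempty σ]
    [Fintype β] [DecidableEq β] [Nonempty β] [Fintype γ] [DecidableEq γ] (F : Fl S (σ ⊕ γ)) :
    nsq S (MT σ β γ S F) ≤
      (c (Fintype.card σ + Fintype.card β) * S.K ^ (Fintype.card σ + Fintype.card β)) ^ 2 *
        nsq S F := by
  set C := (c (Fintype.card σ + Fintype.card β) * S.K ^ (Fintype.card σ + Fintype.card β)) ^ 2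
    with hC
  unfold nsq
  rw [sum_sum_arrow, sum_sum_arrow, sum_comm, sum_comm (s := (univ : Finset (σ → S.N))),
    mul_sum]
  refine sum_le_sum fun J₂ _ => ?_
  rw [← map_sum, ← map_sum, ← smul_eq_mul, ← map_smul]
  refine I_mono S fun z => ?_
  rw [map_smul, smul_eq_mul, map_sum, map_sum]
  have h := AF_gen S (σ := σ) (β := β) z (fun k => S.ev z (F (Sum.elim k J₂)))
  rw [← hC] at h
  refine le_trans (le_of_eq ?_) (h.trans (le_of_eq ?_))
  · refine sum_congr rfl fun y _ => ?_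
    rw [map_mul, ← sq, MT_apply, map_sum]
    congr 1
    refine sum_congr rfl fun k _ => ?_
    rw [map_mul]
    rfl
  · congr 1
    refine sum_congr rfl fun k _ => ?_
    rw [map_mul, sq]

theorem grad_MT (S : Sett c) {σ β γ : Type} [Fintype σ] [DecidableEq σ] [Nonempty σ]
    [Fintype β] [DecidableEq β] [Fintype γ] [DecidableEq γ] (F : Fl S (σ ⊕ γ)) :
    grad (β ⊕ γ) S (MT σ β γ S F) =
      epsop _ S (re (Equiv.sumAssoc Unit β γ) S (MT σ (Unit ⊕ β) γ S F)) +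
      re (swp β Unit γ) S (MT σ β (Unit ⊕ γ) S (re (swp Unit σ γ) S (grad (σ ⊕ γ) S F))) := by
  funext J
  rw [grad_apply, MT_apply, Pi.add_apply, epsop_apply, re_apply, re_apply, MT_apply, MT_apply,
    map_sum, mul_sum, ← sum_add_distrib]
  refine sum_congr rfl fun k _ => ?_
  rw [Derivation.leibniz, S.d_T _ _ (by
    intro h
    exact ml_ne_zero k (add_eq_zero.mp h).1 : ml k + ml (_ ∘ Sum.inl) ≠ 0)]
  rw [ml_unit_sum ((J ∘ ⇑(Equiv.sumAssoc Unit β γ)) ∘ Sum.inl)]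
  have e1 : ml k + (((J ∘ ⇑(Equiv.sumAssoc Unit β γ)) ∘ Sum.inl) (Sum.inl ()) ::ₘ
      ml (((J ∘ ⇑(Equiv.sumAssoc Unit β γ)) ∘ Sum.inl) ∘ Sum.inr)) =
      J (Sum.inl ()) ::ₘ (ml k + ml ((J ∘ Sum.inr) ∘ Sum.inl)) := by
    rw [Multiset.add_cons]
    rfl
  rw [e1, re_apply, grad_apply]
  have e2 : (Sum.elim k ((J ∘ ⇑(Equiv.sumAssoc Unit β γ)) ∘ Sum.inr) : σ ⊕ γ → S.N) =
      Sum.elim k ((J ∘ Sum.inr) ∘ Sum.inr) := by
    funext x; rcases x with x | x <;> rfl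
  have e3 : ((Sum.elim k ((J ∘ ⇑(swp β Unit γ)) ∘ Sum.inr) ∘ ⇑(swp Unit σ γ)) ∘ Sum.inr :
      σ ⊕ γ → S.N) = Sum.elim k ((J ∘ Sum.inr) ∘ Sum.inr) := by
    funext x; rcases x with x | x <;> rfl
  have e4 : ml ((J ∘ ⇑(swp β Unit γ)) ∘ Sum.inl) = ml ((J ∘ Sum.inr) ∘ Sum.inl) := rfl
  have e5 : (Sum.elim k ((J ∘ ⇑(swp β Unit γ)) ∘ Sum.inr) ∘ ⇑(swp Unit σ γ)) (Sum.inl ()) =
      J (Sum.inl ()) := rfl
  rw [e2, e3, e4, e5]
  simp only [smul_eq_mul]
  ring

theorem gradb_MT (S : Sett c) {σ β γ : Type} [Fintype σ] [DecidableEq σ] [Nonempty σ]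
    [Fintype β] [DecidableEq β] [Fintype γ] [DecidableEq γ] (F : Fl S (σ ⊕ γ)) :
    gradb (β ⊕ γ) S (MT σ β γ S F) =
      re (swp β Unit γ) S (MT σ β (Unit ⊕ γ) S (re (swp Unit σ γ) S (gradb (σ ⊕ γ) S F))) := by
  funext J
  rw [gradb_apply, MT_apply, re_apply, MT_apply, map_sum]
  refine sum_congr rfl fun k _ => ?_
  rw [Derivation.leibniz, S.e_T _ _ (by
    intro h
    exact ml_ne_zero k (add_eq_zero.mp h).1 : ml k + ml (_ ∘ Sum.inl) ≠ 0)]
  rw [re_apply, gradb_apply]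
  have e3 : ((Sum.elim k ((J ∘ ⇑(swp β Unit γ)) ∘ Sum.inr) ∘ ⇑(swp Unit σ γ)) ∘ Sum.inr :
      σ ⊕ γ → S.N) = Sum.elim k ((J ∘ Sum.inr) ∘ Sum.inr) := by
    funext x; rcases x with x | x <;> rfl
  have e4 : ml ((J ∘ ⇑(swp β Unit γ)) ∘ Sum.inl) = ml ((J ∘ Sum.inr) ∘ Sum.inl) := rfl
  have e5 : (Sum.elim k ((J ∘ ⇑(swp β Unit γ)) ∘ Sum.inr) ∘ ⇑(swp Unit σ γ)) (Sum.inl ()) =
      J (Sum.inl ()) := rfl
  rw [e3, e4, e5]
  simp

theorem Sq_MT (r : ℕ) : ∀ (σ β γ : Type) [Fintype σ] [DecidableEq σ] [Nonempty σ]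
    [Fintype β] [DecidableEq β] [Nonempty β] [Fintype γ] [DecidableEq γ],
    ∃ (C : ℝ) (P : ℕ), 0 ≤ C ∧ ∀ (S : Sett c) (F : Fl S (σ ⊕ γ)),
      Sq r S (β ⊕ γ) (MT σ β γ S F) ≤ C * S.K ^ P * Sq r S (σ ⊕ γ) F := by
  induction r with
  | zero =>
    intro σ β γ _ _ _ _ _ _ _ _
    refine ⟨c (Fintype.card σ + Fintype.card β) ^ 2,
      (Fintype.card σ + Fintype.card β) * 2, sq_nonneg _, fun S F => ?_⟩
    have h := nsq_MT S (σ := σ) (β := β) (γ := γ) F
    rw [mul_pow, ← pow_mul] at h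
    exact h
  | succ r ih =>
    intro σ β γ _ _ _ _ _ _ _ _
    obtain ⟨C₀, P₀, hC₀, H₀⟩ := ih σ β γ
    obtain ⟨C₁, P₁, hC₁, H₁⟩ := ih σ (Unit ⊕ β) γ
    obtain ⟨C₂, P₂, hC₂, H₂⟩ := ih σ β (Unit ⊕ γ)
    refine ⟨C₀ + 2 * C₁ + 3 * C₂, P₀ + P₁ + P₂, by positivity, fun S F => ?_⟩
    have hK := S.one_le_K
    have hKp := K_pos S
    have k0 : S.K ^ P₀ ≤ S.K ^ (P₀ + P₁ + P₂) := pow_le_pow_right₀ hK (by omega)
    have k1 : S.K ^ P₁ ≤ S.K ^ (P₀ + P₁ + P₂) := pow_le_pow_right₀ hK (by omega)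
    have k2 : S.K ^ P₂ ≤ S.K ^ (P₀ + P₁ + P₂) := pow_le_pow_right₀ hK (by omega)
    set Q := S.K ^ (P₀ + P₁ + P₂)
    have f0 := Sq_nonneg S r F
    have fg := Sq_nonneg S r (Sob.grad _ S F)
    have fb := Sq_nonneg S r (Sob.gradb _ S F)
    have a0 : Sq r S _ (MT σ β γ S F) ≤ C₀ * Q * Sq r S _ F :=
      (H₀ S F).trans (by gcongr)
    have a1 : Sq r S _ (Sob.grad (β ⊕ γ) S (MT σ β γ S F)) ≤
        2 * (C₁ * Q * Sq r S _ F) + 2 * (C₂ * Q * Sq r S _ (Sob.grad _ S F)) := by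
      rw [grad_MT]
      refine (Sq_add_le S r _ _).trans ?_
      have b1 := (Sq_epsop S r (Sob.re (Equiv.sumAssoc Unit β γ) S (MT σ (Unit ⊕ β) γ S F))).trans
        (le_of_eq (Sq_re S r _ _))
      have b2 := H₁ S F
      have b3 := H₂ S (Sob.re (swp Unit σ γ) S (Sob.grad (σ ⊕ γ) S F))
      rw [Sq_re] at b3
      have b6 := Sq_re S r (swp β Unit γ) (MT σ β (Unit ⊕ γ) S
        (Sob.re (swp Unit σ γ) S (Sob.grad (σ ⊕ γ) S F)))
      have b4 : C₁ * S.K ^ P₁ * Sq r S _ F ≤ C₁ * Q * Sq r S _ F := by gcongr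
      have b5 : C₂ * S.K ^ P₂ * Sq r S _ (Sob.grad _ S F) ≤
        C₂ * Q * Sq r S _ (Sob.grad _ S F) := by gcongr
      linarith
    have a2 : Sq r S _ (Sob.gradb (β ⊕ γ) S (MT σ β γ S F)) ≤
        C₂ * Q * Sq r S _ (Sob.gradb _ S F) := by
      rw [gradb_MT]
      have b3 := H₂ S (Sob.re (swp Unit σ γ) S (Sob.gradb (σ ⊕ γ) S F))
      rw [Sq_re] at b3
      rw [Sq_re]
      refine b3.trans ?_
      gcongr
    rw [Sq_succ, Sq_succ]
    have hQ : 0 ≤ Q := by positivity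
    have p1 : 0 ≤ C₁ * Q * Sq r S _ (Sob.grad _ S F) := by positivity
    have p2 : 0 ≤ C₀ * Q * Sq r S _ (Sob.grad _ S F) := by positivity
    have p3 : 0 ≤ C₂ * Q * Sq r S _ (Sob.grad _ S F) := by positivity
    have p4 : 0 ≤ C₁ * Q * Sq r S _ (Sob.gradb _ S F) := by positivity
    have p5 : 0 ≤ C₀ * Q * Sq r S _ (Sob.gradb _ S F) := by positivity
    have p6 : 0 ≤ C₂ * Q * Sq r S _ (Sob.gradb _ S F) := by positivity
    have p7 : 0 ≤ C₂ * Q * Sq r S _ F := by positivity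
    nlinarith

theorem Bd.MT (σ β γ : Type) [Fintype σ] [DecidableEq σ] [Nonempty σ]
    [Fintype β] [DecidableEq β] [Nonempty β] [Fintype γ] [DecidableEq γ] :
    Bd (MT (c := c) σ β γ) := fun r => by
  obtain ⟨C, P, hC, H⟩ := Sq_MT (c := c) r σ β γ
  exact ⟨C, P, 0, hC, fun S F => H S F⟩

end Crest.Agent.R285.Sob
end

-- ▼ part R285/SobDiv
section

/-!
Row 285: boundedness of the divergences.
-/

set_option autoImplicit false
set_option linter.unusedSectionVars false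
set_option linter.unusedVariables false

open Finset

namespace Crest.Agent.R285.Sob

variable {c : ℕ → ℝ} (S : Sett c)

theorem I_del (l : S.N) (f g : S.A) : S.I ((S.w l * g - S.d l g) * f) = S.I (S.d l f * g) := by
  rw [S.I_d, mul_comm]

theorem I_delb (l : S.N) (f g : S.A) : S.I ((S.b l * g - S.e l g) * f) = S.I (S.e l f * g) := by
  rw [S.I_e, mul_comm]

theorem I_mul_le (f g : S.A) : S.I (f * g) ≤ (S.I (f * f) + S.I (g * g)) / 2 := by
  have h := I_sq_nonneg S (f - g)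
  have e1 : (f - g) * (f - g) = f * f + g * g - (2 : ℝ) • (f * g) := by
    rw [two_smul]; ring
  rw [e1, map_sub, map_add, map_smul, smul_eq_mul] at h
  linarith

section

variable {ι : Type} [Fintype ι] [DecidableEq ι]

/-- The key identity for two divergences. -/
theorem I_del_del (l m : S.N) (f g : S.A) :
    S.I ((S.w l * f - S.d l f) * (S.w m * g - S.d m g)) =
      S.I (S.d m f * S.d l g) + S.I (S.d l (S.w m) * (f * g)) := by
  rw [I_del, map_sub, Derivation.leibniz, S.d_d l m g]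
  simp only [smul_eq_mul]
  have e1 : (S.w m * S.d l g + g * S.d l (S.w m) - S.d m (S.d l g)) * f =
      (S.w m * S.d l g - S.d m (S.d l g)) * f + S.d l (S.w m) * (f * g) := by ring
  rw [e1, map_add, I_del]

theorem I_delb_delb (l m : S.N) (f g : S.A) :
    S.I ((S.b l * f - S.e l f) * (S.b m * g - S.e m g)) =
      S.I (S.e m f * S.e l g) + S.I (S.e l (S.b m) * (f * g)) := by
  rw [I_delb, map_sub, Derivation.leibniz, S.e_e l m g]
  simp only [smul_eq_mul]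
  have e1 : (S.b m * S.e l g + g * S.e l (S.b m) - S.e m (S.e l g)) * f =
      (S.b m * S.e l g - S.e m (S.e l g)) * f + S.e l (S.b m) * (f * g) := by ring
  rw [e1, map_add, I_delb]

theorem sum_I_le (H : S.N → S.N → S.A) :
    ∑ l, ∑ m, S.I (H m l * H l m) ≤ ∑ l, ∑ m, S.I (H l m * H l m) := by
  have h1 : ∑ l, ∑ m, S.I (H m l * H l m) ≤
      ∑ l, ∑ m, (S.I (H m l * H m l) + S.I (H l m * H l m)) / 2 :=
    sum_le_sum fun l _ => sum_le_sum fun m _ => I_mul_le S _ _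
  refine h1.trans (le_of_eq ?_)
  have h2 : ∑ l, ∑ m, S.I (H m l * H m l) = ∑ l, ∑ m, S.I (H l m * H l m) := sum_comm
  simp only [add_div, sum_add_distrib, ← sum_div]
  rw [h2]
  ring

theorem AF_unit (z : S.P) (x : S.N → ℝ) :
    ∑ l, (∑ m, S.ev z (S.T {l, m}) * x m) ^ 2 ≤ (c 2 * S.K ^ 2) ^ 2 * ∑ l, x l ^ 2 := by
  have h := AF_gen S (σ := Unit) (β := Unit) z (fun k => x (k ()))
  rw [Fintype.card_unit] at h
  rw [sum_unit_arrow, sum_unit_arrow] at h
  refine le_trans (le_of_eq ?_) h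
  refine sum_congr rfl fun l _ => ?_
  rw [sum_unit_arrow]
  congr 1
  refine sum_congr rfl fun m _ => ?_
  rw [ml_unit, ml_unit]
  congr 3
  rw [add_comm]
  rfl

/-- the constant in the bound of the divergence -/
theorem sum_dw_le (F : S.N → S.A) :
    ∑ l, ∑ m, S.I (S.d l (S.w m) * (F l * F m)) ≤
      (1 + (1 + (c 2 * S.K ^ 2) ^ 2) / 2) * ∑ l, S.I (F l * F l) := by
  simp only [← map_sum]
  rw [← smul_eq_mul, ← map_smul]
  refine I_mono S fun z => ?_
  rw [map_smul, smul_eq_mul, map_sum, map_sum]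
  set x : S.N → ℝ := fun l => S.ev z (F l) with hx
  have h := AF_unit S z x
  set D := (c 2 * S.K ^ 2) ^ 2
  set X2 := ∑ l, x l ^ 2
  have e1 : ∑ l, S.ev z (∑ m, S.d l (S.w m) * (F l * F m)) =
      X2 + S.tau * (S.ev z S.eps * S.ev z S.eps) *
        ∑ l, x l * ∑ m, S.ev z (S.T {l, m}) * x m := by
    rw [mul_sum, ← sum_add_distrib]
    refine sum_congr rfl fun l _ => ?_
    rw [map_sum, mul_sum, mul_sum]
    have : ∀ m, S.ev z (S.d l (S.w m) * (F l * F m)) = (if l = m then x l * x m else 0) +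
        S.tau * (S.ev z S.eps * S.ev z S.eps) * (x l * (S.ev z (S.T {l, m}) * x m)) := by
      intro m
      rw [S.d_w, map_mul, map_mul, map_add, map_smul, map_mul, map_mul, smul_eq_mul]
      by_cases hlm : l = m
      · rw [if_pos hlm, if_pos hlm, map_one]; simp only [hx]; ring
      · rw [if_neg hlm, if_neg hlm, map_zero]; simp only [hx]; ring
    simp only [this, sum_add_distrib, sum_ite_eq, mem_univ, if_true]
    rw [sq]
  have e2 : ∑ l, S.ev z (F l * F l) = X2 := sum_congr rfl fun l _ => by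
    rw [map_mul, sq]
  rw [e1, e2]
  have hX2 : 0 ≤ X2 := sum_nonneg fun l _ => sq_nonneg _
  have h1 : |∑ l, x l * ∑ m, S.ev z (S.T {l, m}) * x m| ≤ (1 + D) / 2 * X2 := by
    refine (abs_sum_le_sum_abs _ _).trans ?_
    have h2 : ∀ l, |x l * ∑ m, S.ev z (S.T {l, m}) * x m| ≤
        (x l ^ 2 + (∑ m, S.ev z (S.T {l, m}) * x m) ^ 2) / 2 := by
      intro l
      set M := ∑ m, S.ev z (S.T {l, m}) * x m
      rw [abs_mul]
      nlinarith [sq_nonneg (|x l| - |M|), sq_abs (x l), sq_abs M]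
    refine (sum_le_sum fun l _ => h2 l).trans ?_
    rw [← sum_div, sum_add_distrib]
    linarith
  have h3 : |S.tau * (S.ev z S.eps * S.ev z S.eps)| ≤ 1 := by
    rw [abs_mul, abs_mul]
    have a1 := S.abs_tau
    have a2 := S.abs_ev_eps z
    have a3 := abs_nonneg (S.ev z S.eps)
    have a4 := abs_nonneg S.tau
    calc |S.tau| * (|S.ev z S.eps| * |S.ev z S.eps|) ≤ 1 * (1 * 1) := by gcongr
      _ = 1 := by norm_num
  have h4 : S.tau * (S.ev z S.eps * S.ev z S.eps) *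
      ∑ l, x l * ∑ m, S.ev z (S.T {l, m}) * x m ≤ (1 + D) / 2 * X2 := by
    refine (le_abs_self _).trans ?_
    rw [abs_mul]
    calc _ ≤ 1 * ((1 + D) / 2 * X2) := by gcongr
      _ = _ := one_mul _
  linarith

theorem nsq_unit (F : Fl S (Unit ⊕ ι)) : nsq S F = ∑ J : ι → S.N, ∑ l,
    S.I (F (Sum.elim (fun _ => l) J) * F (Sum.elim (fun _ => l) J)) := by
  unfold nsq
  rw [sum_unit_sum_arrow, sum_comm]

theorem nsq_grad_unit (F : Fl S (Unit ⊕ ι)) : nsq S (grad (Unit ⊕ ι) S F) =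
    ∑ J : ι → S.N, ∑ l, ∑ m,
      S.I (S.d l (F (Sum.elim (fun _ => m) J)) * S.d l (F (Sum.elim (fun _ => m) J))) := by
  rw [nsq_unit, sum_unit_sum_arrow]
  rw [sum_comm]
  refine sum_congr rfl fun J _ => ?_
  rw [sum_comm]
  refine sum_congr rfl fun l _ => sum_congr rfl fun m _ => ?_
  rw [grad_apply, Sum.elim_inl, Sum.elim_comp_inr]

theorem nsq_gradb_unit (F : Fl S (Unit ⊕ ι)) : nsq S (gradb (Unit ⊕ ι) S F) =
    ∑ J : ι → S.N, ∑ l, ∑ m,
      S.I (S.e l (F (Sum.elim (fun _ => m) J)) * S.e l (F (Sum.elim (fun _ => m) J))) := by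
  rw [nsq_unit, sum_unit_sum_arrow]
  rw [sum_comm]
  refine sum_congr rfl fun J _ => ?_
  rw [sum_comm]
  refine sum_congr rfl fun l _ => sum_congr rfl fun m _ => ?_
  rw [gradb_apply, Sum.elim_inl, Sum.elim_comp_inr]

theorem nsq_div (F : Fl S (Unit ⊕ ι)) : nsq S (div ι S F) ≤
    nsq S (grad (Unit ⊕ ι) S F) + (1 + (1 + (c 2 * S.K ^ 2) ^ 2) / 2) * nsq S F := by
  rw [nsq_grad_unit, nsq_unit S F, mul_sum, ← sum_add_distrib]
  unfold nsq
  refine sum_le_sum fun J _ => ?_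
  have h1 : S.I (div ι S F J * div ι S F J) =
      ∑ l, ∑ m, (S.I (S.d m (F (Sum.elim (fun _ => l) J)) * S.d l (F (Sum.elim (fun _ => m) J))) +
        S.I (S.d l (S.w m) * (F (Sum.elim (fun _ => l) J) * F (Sum.elim (fun _ => m) J)))) := by
    rw [div_apply, sum_mul_sum, map_sum]
    refine sum_congr rfl fun l _ => ?_
    rw [map_sum]
    exact sum_congr rfl fun m _ => I_del_del S l m _ _
  rw [h1]
  simp only [sum_add_distrib]
  refine add_le_add ?_ (sum_dw_le S _)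
  exact sum_I_le S (fun l m => S.d l (F (Sum.elim (fun _ => m) J)))

theorem nsq_divb (F : Fl S (Unit ⊕ ι)) : nsq S (divb ι S F) ≤
    nsq S (gradb (Unit ⊕ ι) S F) + nsq S F := by
  rw [nsq_gradb_unit, nsq_unit S F, ← sum_add_distrib]
  unfold nsq
  refine sum_le_sum fun J _ => ?_
  have h1 : S.I (divb ι S F J * divb ι S F J) =
      ∑ l, ∑ m, (S.I (S.e m (F (Sum.elim (fun _ => l) J)) * S.e l (F (Sum.elim (fun _ => m) J))) +
        S.I (S.e l (S.b m) * (F (Sum.elim (fun _ => l) J) * F (Sum.elim (fun _ => m) J)))) := by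
    rw [divb_apply, sum_mul_sum, map_sum]
    refine sum_congr rfl fun l _ => ?_
    rw [map_sum]
    exact sum_congr rfl fun m _ => I_delb_delb S l m _ _
  rw [h1]
  simp only [sum_add_distrib]
  refine add_le_add ?_ (le_of_eq ?_)
  · exact sum_I_le S (fun l m => S.e l (F (Sum.elim (fun _ => m) J)))
  · refine sum_congr rfl fun l _ => ?_
    have : ∀ m, S.I (S.e l (S.b m) * (F (Sum.elim (fun _ => l) J) *
        F (Sum.elim (fun _ => m) J))) = if l = m then S.I (F (Sum.elim (fun _ => l) J) *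
        F (Sum.elim (fun _ => m) J)) else 0 := by
      intro m
      rw [S.e_b]
      split_ifs <;> simp
    simp only [this, sum_ite_eq, mem_univ, if_true]

/-! ### commutators of gradients and divergences -/

theorem comp_elim (J : Unit ⊕ ι → S.N) (l : S.N) :
    ((Sum.elim (fun _ => l) J : Unit ⊕ (Unit ⊕ ι) → S.N) ∘ ⇑(swp Unit Unit ι)) ∘ Sum.inr =
      Sum.elim (fun _ => l) (J ∘ Sum.inr) := by
  funext x; rcases x with x | x <;> rfl

theorem elim_unit_eta (J : Unit ⊕ ι → S.N) :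
    (Sum.elim (fun _ : Unit => J (Sum.inl ())) (J ∘ Sum.inr) : Unit ⊕ ι → S.N) = J := by
  funext x
  rcases x with u | x <;> rfl

theorem grad_div (F : Fl S (Unit ⊕ ι)) : grad ι S (div ι S F) =
    F + S.tau • epsop _ S (epsop _ S (MT Unit Unit ι S F)) +
      div (Unit ⊕ ι) S (re (swp Unit Unit ι) S (grad (Unit ⊕ ι) S F)) := by
  funext J
  have hJ := elim_unit_eta S J
  rw [Pi.add_apply, Pi.add_apply, Pi.smul_apply, epsop_apply, epsop_apply, MT_apply, grad_apply,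
    div_apply, div_apply, map_sum, sum_unit_arrow]
  have h1 : ∀ l, S.d (J (Sum.inl ())) (S.w l * F (Sum.elim (fun _ => l) (J ∘ Sum.inr)) -
      S.d l (F (Sum.elim (fun _ => l) (J ∘ Sum.inr)))) =
      ((if J (Sum.inl ()) = l then F (Sum.elim (fun _ => l) (J ∘ Sum.inr)) else 0) +
      S.tau • (S.eps * (S.eps * (S.T {J (Sum.inl ()), l} *
        F (Sum.elim (fun _ => l) (J ∘ Sum.inr)))))) +
      (S.w l * S.d (J (Sum.inl ())) (F (Sum.elim (fun _ => l) (J ∘ Sum.inr))) -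
        S.d l (S.d (J (Sum.inl ())) (F (Sum.elim (fun _ => l) (J ∘ Sum.inr))))) := by
    intro l
    rw [map_sub, Derivation.leibniz, S.d_w, S.d_d]
    simp only [smul_eq_mul]
    split_ifs
    · simp only [mul_add, mul_one, mul_smul_comm]
      have : F (Sum.elim (fun _ => l) (J ∘ Sum.inr)) * (S.eps * S.eps * S.T {J (Sum.inl ()), l}) =
        S.eps * (S.eps * (S.T {J (Sum.inl ()), l} * F (Sum.elim (fun _ => l) (J ∘ Sum.inr)))) := by
        ring
      rw [this]; abel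
    · simp only [mul_add, mul_zero, mul_smul_comm]
      have : F (Sum.elim (fun _ => l) (J ∘ Sum.inr)) * (S.eps * S.eps * S.T {J (Sum.inl ()), l}) =
        S.eps * (S.eps * (S.T {J (Sum.inl ()), l} * F (Sum.elim (fun _ => l) (J ∘ Sum.inr)))) := by
        ring
      rw [this]; abel
  simp only [h1, sum_add_distrib, sum_ite_eq, mem_univ, if_true]
  rw [hJ]
  congr 1
  · congr 1
    rw [← smul_sum, ← mul_sum, ← mul_sum]
    congr 3
    refine sum_congr rfl fun l _ => ?_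
    rw [ml_unit, ml_unit]
    congr 2
    change ({J (Sum.inl ()), l} : Multiset S.N) = {l} + {J (Sum.inl ())}
    rw [add_comm]
    rfl
  · refine sum_congr rfl fun l _ => ?_
    rw [re_apply, grad_apply, comp_elim]
    rfl

theorem gradb_div (F : Fl S (Unit ⊕ ι)) : gradb ι S (div ι S F) =
      div (Unit ⊕ ι) S (re (swp Unit Unit ι) S (gradb (Unit ⊕ ι) S F)) := by
  funext J
  rw [gradb_apply, div_apply, div_apply, map_sum]
  refine sum_congr rfl fun l _ => ?_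
  rw [re_apply, gradb_apply, comp_elim, map_sub, Derivation.leibniz, S.e_w, ← S.d_e]
  simp only [smul_eq_mul, mul_zero, add_zero]
  rfl

theorem grad_divb (F : Fl S (Unit ⊕ ι)) : grad ι S (divb ι S F) =
      divb (Unit ⊕ ι) S (re (swp Unit Unit ι) S (grad (Unit ⊕ ι) S F)) := by
  funext J
  rw [grad_apply, divb_apply, divb_apply, map_sum]
  refine sum_congr rfl fun l _ => ?_
  rw [re_apply, grad_apply, comp_elim, map_sub, Derivation.leibniz, S.d_b, S.d_e]
  simp only [smul_eq_mul, mul_zero, add_zero]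
  rfl

theorem gradb_divb (F : Fl S (Unit ⊕ ι)) : gradb ι S (divb ι S F) =
    F + divb (Unit ⊕ ι) S (re (swp Unit Unit ι) S (gradb (Unit ⊕ ι) S F)) := by
  funext J
  have hJ := elim_unit_eta S J
  rw [Pi.add_apply, gradb_apply, divb_apply, divb_apply, map_sum]
  have h1 : ∀ l, S.e (J (Sum.inl ())) (S.b l * F (Sum.elim (fun _ => l) (J ∘ Sum.inr)) -
      S.e l (F (Sum.elim (fun _ => l) (J ∘ Sum.inr)))) =
      (if J (Sum.inl ()) = l then F (Sum.elim (fun _ => l) (J ∘ Sum.inr)) else 0) +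
      (S.b l * S.e (J (Sum.inl ())) (F (Sum.elim (fun _ => l) (J ∘ Sum.inr))) -
        S.e l (S.e (J (Sum.inl ())) (F (Sum.elim (fun _ => l) (J ∘ Sum.inr))))) := by
    intro l
    rw [map_sub, Derivation.leibniz, S.e_b, S.e_e]
    simp only [smul_eq_mul]
    split_ifs
    · rw [mul_one]; abel
    · rw [mul_zero]; abel
  simp only [h1, sum_add_distrib, sum_ite_eq, mem_univ, if_true]
  rw [hJ]
  congr 1
  refine sum_congr rfl fun l _ => ?_
  rw [re_apply, gradb_apply, comp_elim]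
  rfl

end

theorem Sq_div (r : ℕ) : ∀ (ι : Type) [Fintype ι] [DecidableEq ι],
    ∃ (C : ℝ) (P : ℕ), 0 ≤ C ∧ ∀ (S : Sett c) (F : Fl S (Unit ⊕ ι)),
      Sq r S ι (div ι S F) ≤ C * S.K ^ P * Sq (r + 1) S (Unit ⊕ ι) F := by
  induction r with
  | zero =>
    intro ι _ _
    refine ⟨2 + c 2 ^ 2, 4, by positivity, fun S F => ?_⟩
    have h := nsq_div S F
    rw [Sq_zero, Sq_succ, Sq_zero, Sq_zero, Sq_zero]
    have hK := S.one_le_K
    have hK4 : 1 ≤ S.K ^ 4 := one_le_pow₀ hK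
    have f0 := nsq_nonneg S F
    have f1 := nsq_nonneg S (Sob.grad _ S F)
    have f2 := nsq_nonneg S (Sob.gradb _ S F)
    have e1 : (c 2 * S.K ^ 2) ^ 2 = c 2 ^ 2 * S.K ^ 4 := by ring
    rw [e1] at h
    have hc := sq_nonneg (c 2)
    have p1 : 0 ≤ (S.K ^ 4 - 1) * nsq S F := mul_nonneg (by linarith) f0
    have p2 : 0 ≤ (S.K ^ 4 - 1) * nsq S (Sob.grad _ S F) := mul_nonneg (by linarith) f1
    have p3 : 0 ≤ c 2 ^ 2 * S.K ^ 4 * nsq S F := by positivity
    have p4 : 0 ≤ c 2 ^ 2 * S.K ^ 4 * nsq S (Sob.grad _ S F) := by positivity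
    have p5 : 0 ≤ c 2 ^ 2 * S.K ^ 4 * nsq S (Sob.gradb _ S F) := by positivity
    have p6 : 0 ≤ S.K ^ 4 * nsq S (Sob.gradb _ S F) := by positivity
    have p7 : 0 ≤ S.K ^ 4 * nsq S (Sob.grad _ S F) := by positivity
    nlinarith
  | succ r ih =>
    intro ι _ _
    obtain ⟨C₀, P₀, hC₀, H₀⟩ := ih ι
    obtain ⟨C₁, P₁, hC₁, H₁⟩ := ih (Unit ⊕ ι)
    obtain ⟨C₂, P₂, hC₂, H₂⟩ := Sq_MT (c := c) r Unit Unit ι
    refine ⟨C₀ + 4 * (1 + C₂ + C₁), P₀ + P₁ + P₂, by positivity, fun S F => ?_⟩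
    have hK := S.one_le_K
    have hKp := K_pos S
    have k0 : S.K ^ P₀ ≤ S.K ^ (P₀ + P₁ + P₂) := pow_le_pow_right₀ hK (by omega)
    have k1 : S.K ^ P₁ ≤ S.K ^ (P₀ + P₁ + P₂) := pow_le_pow_right₀ hK (by omega)
    have k2 : S.K ^ P₂ ≤ S.K ^ (P₀ + P₁ + P₂) := pow_le_pow_right₀ hK (by omega)
    have k3 : 1 ≤ S.K ^ (P₀ + P₁ + P₂) := one_le_pow₀ hK
    set Q := S.K ^ (P₀ + P₁ + P₂)
    have hQ : 0 ≤ Q := by positivity
    have f1 := Sq_nonneg S (r + 1) F
    have fg := Sq_nonneg S (r + 1) (Sob.grad _ S F)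
    have fb := Sq_nonneg S (r + 1) (Sob.gradb _ S F)
    have f0 : Sq r S _ F ≤ Sq (r + 1) S _ F := Sq_le_succ S r F
    have f00 := Sq_nonneg S r F
    have a0 : Sq r S _ (div ι S F) ≤ C₀ * Q * Sq (r + 1) S _ F :=
      (H₀ S F).trans (by gcongr)
    have a1 : Sq r S _ (Sob.grad ι S (div ι S F)) ≤
        4 * (Q * Sq (r + 1) S _ F) + 4 * (C₂ * Q * Sq (r + 1) S _ F) +
          2 * (C₁ * Q * Sq (r + 1) S _ (Sob.grad _ S F)) := by
      rw [grad_div]
      have b1 := Sq_add_le S r (F + S.tau • epsop _ S (epsop _ S (MT Unit Unit ι S F)))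
        (div (Unit ⊕ ι) S (Sob.re (swp Unit Unit ι) S (Sob.grad (Unit ⊕ ι) S F)))
      have b2 := Sq_add_le S r F (S.tau • epsop _ S (epsop _ S (MT Unit Unit ι S F)))
      rw [Sq_smul] at b2
      have b3 := (Sq_epsop S r (epsop _ S (MT Unit Unit ι S F))).trans
        (Sq_epsop S r (MT Unit Unit ι S F))
      have b4 := Sq_nonneg S r (epsop _ S (epsop _ S (MT Unit Unit ι S F)))
      have b5 := H₂ S F
      have b6 := H₁ S (Sob.re (swp Unit Unit ι) S (Sob.grad (Unit ⊕ ι) S F))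
      rw [Sq_re] at b6
      have ht : S.tau ^ 2 ≤ 1 := by
        rw [← sq_abs]; exact pow_le_one₀ (abs_nonneg _) S.abs_tau
      have b7 : S.tau ^ 2 * Sq r S _ (epsop _ S (epsop _ S (MT Unit Unit ι S F))) ≤
          C₂ * Q * Sq (r + 1) S _ F := by
        calc _ ≤ 1 * Sq r S _ (epsop _ S (epsop _ S (MT Unit Unit ι S F))) := by gcongr
          _ ≤ C₂ * S.K ^ P₂ * Sq r S _ F := by linarith
          _ ≤ C₂ * Q * Sq (r + 1) S _ F := by gcongr
      have b8 : C₁ * S.K ^ P₁ * Sq (r + 1) S _ (Sob.grad (Unit ⊕ ι) S F) ≤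
          C₁ * Q * Sq (r + 1) S _ (Sob.grad (Unit ⊕ ι) S F) := by gcongr
      have b9 : Sq r S _ F ≤ Q * Sq (r + 1) S _ F := by
        calc _ ≤ 1 * Sq (r + 1) S _ F := by linarith
          _ ≤ _ := by gcongr
      linarith
    have a2 : Sq r S _ (Sob.gradb ι S (div ι S F)) ≤
        C₁ * Q * Sq (r + 1) S _ (Sob.gradb _ S F) := by
      rw [gradb_div]
      have b6 := H₁ S (Sob.re (swp Unit Unit ι) S (Sob.gradb (Unit ⊕ ι) S F))
      rw [Sq_re] at b6
      refine b6.trans ?_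
      gcongr
    rw [Sq_succ, Sq_succ S (r + 1)]
    have p1 : 0 ≤ C₀ * Q * Sq (r + 1) S _ (Sob.grad _ S F) := by positivity
    have p2 : 0 ≤ C₀ * Q * Sq (r + 1) S _ (Sob.gradb _ S F) := by positivity
    have p3 : 0 ≤ C₁ * Q * Sq (r + 1) S _ F := by positivity
    have p4 : 0 ≤ C₁ * Q * Sq (r + 1) S _ (Sob.grad _ S F) := by positivity
    have p5 : 0 ≤ C₁ * Q * Sq (r + 1) S _ (Sob.gradb _ S F) := by positivity
    have p6 : 0 ≤ C₂ * Q * Sq (r + 1) S _ (Sob.grad _ S F) := by positivity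
    have p7 : 0 ≤ C₂ * Q * Sq (r + 1) S _ (Sob.gradb _ S F) := by positivity
    have p8 : 0 ≤ Q * Sq (r + 1) S _ (Sob.grad _ S F) := by positivity
    have p9 : 0 ≤ Q * Sq (r + 1) S _ (Sob.gradb _ S F) := by positivity
    nlinarith

theorem Sq_divb (r : ℕ) : ∀ (ι : Type) [Fintype ι] [DecidableEq ι],
    ∃ (C : ℝ) (P : ℕ), 0 ≤ C ∧ ∀ (S : Sett c) (F : Fl S (Unit ⊕ ι)),
      Sq r S ι (divb ι S F) ≤ C * S.K ^ P * Sq (r + 1) S (Unit ⊕ ι) F := by
  induction r with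
  | zero =>
    intro ι _ _
    refine ⟨1, 0, by positivity, fun S F => ?_⟩
    have h := nsq_divb S F
    rw [Sq_zero, Sq_succ, Sq_zero, Sq_zero, Sq_zero]
    have f1 := nsq_nonneg S (Sob.grad _ S F)
    linarith
  | succ r ih =>
    intro ι _ _
    obtain ⟨C₀, P₀, hC₀, H₀⟩ := ih ι
    obtain ⟨C₁, P₁, hC₁, H₁⟩ := ih (Unit ⊕ ι)
    refine ⟨C₀ + 2 * (1 + C₁), P₀ + P₁, by positivity, fun S F => ?_⟩
    have hK := S.one_le_K
    have hKp := K_pos S
    have k0 : S.K ^ P₀ ≤ S.K ^ (P₀ + P₁) := pow_le_pow_right₀ hK (by omega)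
    have k1 : S.K ^ P₁ ≤ S.K ^ (P₀ + P₁) := pow_le_pow_right₀ hK (by omega)
    have k3 : 1 ≤ S.K ^ (P₀ + P₁) := one_le_pow₀ hK
    set Q := S.K ^ (P₀ + P₁)
    have hQ : 0 ≤ Q := by positivity
    have f1 := Sq_nonneg S (r + 1) F
    have fg := Sq_nonneg S (r + 1) (Sob.grad _ S F)
    have fb := Sq_nonneg S (r + 1) (Sob.gradb _ S F)
    have f0 : Sq r S _ F ≤ Sq (r + 1) S _ F := Sq_le_succ S r F
    have f00 := Sq_nonneg S r F
    have a0 : Sq r S _ (divb ι S F) ≤ C₀ * Q * Sq (r + 1) S _ F :=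
      (H₀ S F).trans (by gcongr)
    have a1 : Sq r S _ (Sob.grad ι S (divb ι S F)) ≤
        C₁ * Q * Sq (r + 1) S _ (Sob.grad _ S F) := by
      rw [grad_divb]
      have b6 := H₁ S (Sob.re (swp Unit Unit ι) S (Sob.grad (Unit ⊕ ι) S F))
      rw [Sq_re] at b6
      refine b6.trans ?_
      gcongr
    have a2 : Sq r S _ (Sob.gradb ι S (divb ι S F)) ≤
        2 * (Q * Sq (r + 1) S _ F) + 2 * (C₁ * Q * Sq (r + 1) S _ (Sob.gradb _ S F)) := by
      rw [gradb_divb]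
      have b1 := Sq_add_le S r F
        (divb (Unit ⊕ ι) S (Sob.re (swp Unit Unit ι) S (Sob.gradb (Unit ⊕ ι) S F)))
      have b6 := H₁ S (Sob.re (swp Unit Unit ι) S (Sob.gradb (Unit ⊕ ι) S F))
      rw [Sq_re] at b6
      have b8 : C₁ * S.K ^ P₁ * Sq (r + 1) S _ (Sob.gradb (Unit ⊕ ι) S F) ≤
          C₁ * Q * Sq (r + 1) S _ (Sob.gradb (Unit ⊕ ι) S F) := by gcongr
      have b9 : Sq r S _ F ≤ Q * Sq (r + 1) S _ F := by
        calc _ ≤ 1 * Sq (r + 1) S _ F := by linarith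
          _ ≤ _ := by gcongr
      linarith
    rw [Sq_succ, Sq_succ S (r + 1)]
    have p1 : 0 ≤ C₀ * Q * Sq (r + 1) S _ (Sob.grad _ S F) := by positivity
    have p2 : 0 ≤ C₀ * Q * Sq (r + 1) S _ (Sob.gradb _ S F) := by positivity
    have p3 : 0 ≤ C₁ * Q * Sq (r + 1) S _ F := by positivity
    have p4 : 0 ≤ C₁ * Q * Sq (r + 1) S _ (Sob.grad _ S F) := by positivity
    have p5 : 0 ≤ C₁ * Q * Sq (r + 1) S _ (Sob.gradb _ S F) := by positivity
    have p8 : 0 ≤ Q * Sq (r + 1) S _ (Sob.grad _ S F) := by positivity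
    have p9 : 0 ≤ Q * Sq (r + 1) S _ (Sob.gradb _ S F) := by positivity
    nlinarith

theorem Bd.div (ι : Type) [Fintype ι] [DecidableEq ι] : Bd (div (c := c) ι) := fun r => by
  obtain ⟨C, P, hC, H⟩ := Sq_div (c := c) r ι
  exact ⟨C, P, 1, hC, fun S F => H S F⟩

theorem Bd.divb (ι : Type) [Fintype ι] [DecidableEq ι] : Bd (divb (c := c) ι) := fun r => by
  obtain ⟨C, P, hC, H⟩ := Sq_divb (c := c) r ι
  exact ⟨C, P, 1, hC, fun S F => H S F⟩

end Crest.Agent.R285.Sob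
end

-- ▼ part R285/SobAd
section

/-!
Row 285: commutators of the letters with `X`.
-/

set_option autoImplicit false
set_option linter.unusedSectionVars false
set_option linter.unusedVariables false

open Finset

namespace Crest.Agent.R285.Sob

variable {c : ℕ → ℝ} (S : Sett c)

theorem Xop_apply {ι : Type} (F : Fl S ι) (J : ι → S.N) : Xop S ι F J = S.X (F J) := rfl

theorem ad_apply {ι κ : Type} [Fintype ι] [DecidableEq ι] [Fintype κ] [DecidableEq κ]
    (O : Op c ι κ) (F : Fl S ι) (J : κ → S.N) :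
    ad O S F J = S.X (O S F J) - O S (Xop S ι F) J := rfl

section

variable {ι κ σ β γ : Type} [Fintype ι] [DecidableEq ι] [Fintype κ] [DecidableEq κ]
  [Fintype σ] [DecidableEq σ] [Fintype β] [DecidableEq β] [Fintype γ] [DecidableEq γ]

theorem pair_comm {N : Type} (i l : N) : ({l} : Multiset N) + {i} = {i, l} := by
  rw [add_comm]; rfl

theorem MT_unit_apply (G : Fl S (Unit ⊕ ι)) (J : Unit ⊕ ι → S.N) : MT Unit Unit ι S G J =
    ∑ l, S.T {J (Sum.inl ()), l} * G (Sum.elim (fun _ => l) (J ∘ Sum.inr)) := by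
  rw [MT_apply, sum_unit_arrow]
  refine sum_congr rfl fun l _ => ?_
  rw [ml_unit, ml_unit, pair_comm]
  rfl

theorem MT12_apply (G : Fl S (Unit ⊕ ι)) (J : Unit ⊕ ι → S.N) (k : S.N) :
    re (Equiv.sumAssoc Unit Unit ι) S (MT Unit (Unit ⊕ Unit) ι S G) (Sum.elim (fun _ => k) J) =
    ∑ l, S.T {J (Sum.inl ()), k, l} * G (Sum.elim (fun _ => l) (J ∘ Sum.inr)) := by
  rw [re_apply, MT_apply, sum_unit_arrow]
  refine sum_congr rfl fun l _ => ?_
  rw [ml_unit, ml_sum, ml_unit, ml_unit]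
  have e1 : ({l} : Multiset S.N) + ({k} + {J (Sum.inl ())}) = {J (Sum.inl ()), k, l} := by
    change _ = ({J (Sum.inl ())} : Multiset S.N) + ({k} + {l})
    abel
  have e2 : (Sum.elim (fun _ : Unit => l)
      (((Sum.elim (fun _ => k) J : Unit ⊕ (Unit ⊕ ι) → S.N) ∘ ⇑(Equiv.sumAssoc Unit Unit ι)) ∘
        Sum.inr) : Unit ⊕ ι → S.N) = Sum.elim (fun _ => l) (J ∘ Sum.inr) := by
    funext x; rcases x with x | x <;> rfl
  rw [e2, ← e1]
  rfl

theorem MT21_apply (G : Fl S (Unit ⊕ (Unit ⊕ ι))) (J : ι → S.N) (l : S.N) :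
    MT (Unit ⊕ Unit) Unit ι S (re (Equiv.sumAssoc Unit Unit ι).symm S G)
      (Sum.elim (fun _ => l) J) =
    ∑ i, ∑ j, S.T {l, i, j} * G (Sum.elim (fun _ => i) (Sum.elim (fun _ => j) J)) := by
  rw [MT_apply, sum_unit_sum_arrow]
  refine sum_congr rfl fun i _ => ?_
  rw [sum_unit_arrow]
  refine sum_congr rfl fun j _ => ?_
  rw [ml_sum, ml_unit, ml_unit, ml_unit, re_apply]
  have e1 : ({i} : Multiset S.N) + {j} + {l} = {l, i, j} := by
    rw [add_comm]; rfl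
  have e2 : ((Sum.elim (Sum.elim (fun _ : Unit => i) (fun _ : Unit => j))
      ((Sum.elim (fun _ : Unit => l) J : Unit ⊕ ι → S.N) ∘ Sum.inr)) ∘
      ⇑(Equiv.sumAssoc Unit Unit ι).symm : Unit ⊕ (Unit ⊕ ι) → S.N) =
      Sum.elim (fun _ => i) (Sum.elim (fun _ => j) J) := by
    funext x; rcases x with x | x | x <;> rfl
  rw [e2, ← e1]
  rfl

/-! ### trivial commutators -/

theorem ad_re (e : ι ≃ κ) : ad (re (c := c) e) = fun _ => 0 := by
  funext S
  refine LinearMap.ext fun F => ?_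
  funext J
  rw [ad_apply, re_apply, re_apply, Xop_apply, sub_self]
  rfl

theorem ad_epsop : ad (epsop (c := c) ι) = fun _ => LinearMap.id := by
  funext S
  refine LinearMap.ext fun F => ?_
  funext J
  rw [ad_apply, epsop_apply, epsop_apply, Xop_apply, Derivation.leibniz, S.X_eps]
  simp

/-! ### gradients -/

theorem ad_gradb : ad (gradb (c := c) ι) =
    fun S => S.et • (-(MT Unit Unit ι S ∘ₗ grad ι S)) := by
  funext S
  refine LinearMap.ext fun F => ?_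
  funext J
  rw [ad_apply, gradb_apply, gradb_apply, Xop_apply, S.X_e]
  rw [LinearMap.smul_apply, LinearMap.neg_apply, LinearMap.comp_apply, Pi.smul_apply,
    Pi.neg_apply, MT_unit_apply]
  simp only [grad_apply, Sum.elim_inl, Sum.elim_comp_inr, smul_neg]
  abel

theorem ad_grad : ad (grad (c := c) ι) = fun S =>
    S.tau • (epsop _ S ∘ₗ MT Unit Unit ι S ∘ₗ grad ι S) +
    (S.et • (-(epsop _ S ∘ₗ divb (Unit ⊕ ι) S ∘ₗ re (Equiv.sumAssoc Unit Unit ι) S ∘ₗ
        MT Unit (Unit ⊕ Unit) ι S ∘ₗ grad ι S)) +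
    (S.et • (epsop _ S ∘ₗ div (Unit ⊕ ι) S ∘ₗ re (Equiv.sumAssoc Unit Unit ι) S ∘ₗ
        MT Unit (Unit ⊕ Unit) ι S ∘ₗ gradb ι S) +
    (S.et • (MT Unit Unit ι S ∘ₗ gradb ι S) +
    S.tau • (S.et • (epsop _ S ∘ₗ epsop _ S ∘ₗ MT Unit Unit ι S ∘ₗ MT Unit Unit ι S ∘ₗ
        gradb ι S))))) := by
  funext S
  refine LinearMap.ext fun F => ?_
  funext J
  rw [ad_apply, grad_apply, grad_apply, Xop_apply, S.X_d]
  simp only [LinearMap.add_apply, LinearMap.smul_apply, LinearMap.neg_apply,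
    LinearMap.comp_apply, Pi.add_apply, Pi.smul_apply, Pi.neg_apply, epsop_apply, divb_apply,
    div_apply, MT12_apply, MT_unit_apply, grad_apply, gradb_apply, Sum.elim_inl,
    Sum.elim_comp_inr, smul_neg, mul_smul, mul_sum]
  have e1 : ∀ x y z u v t : S.A, x + y - z + u + v + t - x = y + (-z + (u + (v + t))) := by
    intro x y z u v t; abel
  rw [e1]
  simp only [mul_assoc]

/-! ### divergences -/

theorem ad_divb : ad (divb (c := c) ι) =
    fun S => S.et • (-(div ι S ∘ₗ MT Unit Unit ι S)) := by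
  funext S
  refine LinearMap.ext fun F => ?_
  funext J
  rw [ad_apply, divb_apply, divb_apply]
  simp only [LinearMap.smul_apply, LinearMap.neg_apply, LinearMap.comp_apply, Pi.smul_apply,
    Pi.neg_apply, div_apply, MT_unit_apply, Sum.elim_inl, Sum.elim_comp_inr, Xop_apply]
  rw [map_sum, ← sum_sub_distrib]
  have h1 : ∀ k, S.X (S.b k * F (Sum.elim (fun _ => k) J) - S.e k (F (Sum.elim (fun _ => k) J))) -
      (S.b k * S.X (F (Sum.elim (fun _ => k) J)) - S.e k (S.X (F (Sum.elim (fun _ => k) J)))) =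
      S.et • ∑ l, (S.T {l, k} * S.d l (F (Sum.elim (fun _ => k) J)) -
        (S.w l * S.T {l, k} - S.d l (S.T {l, k})) * F (Sum.elim (fun _ => k) J)) := by
    intro k
    have e1 : ∑ l, (S.T {l, k} * S.d l (F (Sum.elim (fun _ => k) J)) -
        (S.w l * S.T {l, k} - S.d l (S.T {l, k})) * F (Sum.elim (fun _ => k) J)) =
        (∑ l, S.T {l, k} * S.d l (F (Sum.elim (fun _ => k) J))) -
        (∑ l, (S.w l * S.T {l, k} - S.d l (S.T {l, k}))) * F (Sum.elim (fun _ => k) J) := by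
      rw [sum_mul, ← sum_sub_distrib]
    rw [map_sub, Derivation.leibniz, S.X_b, S.X_e, e1]
    simp only [Multiset.pair_comm k]
    simp only [smul_eq_mul]
    simp only [Algebra.smul_def]
    ring
  simp only [h1]
  rw [← smul_sum]
  congr 1
  rw [sum_comm, ← sum_neg_distrib]
  refine sum_congr rfl fun l _ => ?_
  rw [map_sum, mul_sum, ← sum_sub_distrib, ← sum_neg_distrib]
  refine sum_congr rfl fun k _ => ?_
  rw [Derivation.leibniz]
  simp only [smul_eq_mul]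
  ring

theorem trip_rot {N : Type} (l k i : N) : ({l, k, i} : Multiset N) = {i, l, k} := by
  change ({l} : Multiset N) + ({k} + {i}) = {i} + ({l} + {k})
  abel

theorem e_T_pair (k l i : S.N) : S.e k (S.T {l, i}) = 0 := S.e_T _ _ (by
  intro h
  have := congrArg Multiset.card h
  simp at this)

theorem ad_div_aux (i : S.N) (f : S.A) :
    S.X (S.w i * f - S.d i f) - (S.w i * S.X f - S.d i (S.X f)) =
      S.tau • (S.eps * ∑ l, (S.w l * (S.T {l, i} * f) - S.d l (S.T {l, i} * f))) +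
      (-(S.et • (S.eps * ∑ l, (S.w l * (∑ k, S.T {l, k, i} * S.e k f) -
        S.d l (∑ k, S.T {l, k, i} * S.e k f)))) +
      (S.et • (S.eps * ∑ k, (S.b k * (∑ l, S.T {k, l, i} * S.d l f) -
        S.e k (∑ l, S.T {k, l, i} * S.d l f))) +
      (S.et • (∑ k, (S.b k * (S.T {k, i} * f) - S.e k (S.T {k, i} * f))) +
      S.tau • (S.et • (S.eps * (S.eps * ∑ k, (S.b k * (∑ l, S.T {k, l} * (S.T {l, i} * f)) -
        S.e k (∑ l, S.T {k, l} * (S.T {l, i} * f))))))))) := by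
  have R1 : ∑ l, (S.w l * (S.T {l, i} * f) - S.d l (S.T {l, i} * f)) =
      (∑ l, (S.w l * S.T {l, i} - S.d l (S.T {l, i}))) * f - ∑ l, S.T {i, l} * S.d l f := by
    rw [sum_mul, ← sum_sub_distrib]
    refine sum_congr rfl fun l _ => ?_
    rw [Derivation.leibniz, Multiset.pair_comm i l]
    simp only [smul_eq_mul]
    ring
  have R4 : ∑ k, (S.b k * (S.T {k, i} * f) - S.e k (S.T {k, i} * f)) =
      (∑ k, S.b k * S.T {k, i}) * f - ∑ k, S.T {i, k} * S.e k f := by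
    rw [sum_mul, ← sum_sub_distrib]
    refine sum_congr rfl fun k _ => ?_
    rw [Derivation.leibniz, Multiset.pair_comm i k, e_T_pair]
    simp only [smul_eq_mul]
    ring
  have R5 : ∑ k, (S.b k * (∑ l, S.T {k, l} * (S.T {l, i} * f)) -
      S.e k (∑ l, S.T {k, l} * (S.T {l, i} * f))) =
      (∑ k, ∑ l, S.b k * (S.T {k, l} * S.T {l, i})) * f -
        ∑ l, ∑ k, S.T {i, l} * (S.T {l, k} * S.e k f) := by
    rw [sum_comm (f := fun l k => S.T {i, l} * (S.T {l, k} * S.e k f)), sum_mul,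
      ← sum_sub_distrib]
    refine sum_congr rfl fun k _ => ?_
    rw [map_sum, mul_sum, sum_mul, ← sum_sub_distrib, ← sum_sub_distrib]
    refine sum_congr rfl fun l _ => ?_
    rw [Derivation.leibniz, Derivation.leibniz, e_T_pair, e_T_pair, Multiset.pair_comm i l,
      Multiset.pair_comm l k]
    simp only [smul_eq_mul]
    ring
  have R2 : ∀ l, ∑ k, S.T {i, l, k} * S.e k f = ∑ k, S.T {l, k, i} * S.e k f := fun l =>
    sum_congr rfl fun k _ => by rw [trip_rot l k i]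
  have R3 : ∀ k, ∑ l, S.T {i, k, l} * S.d l f = ∑ l, S.T {k, l, i} * S.d l f := fun k =>
    sum_congr rfl fun l _ => by rw [trip_rot k l i]
  rw [map_sub, Derivation.leibniz, S.X_w, S.X_d, R1, R4, R5]
  simp only [R2, R3]
  simp only [smul_eq_mul]
  simp only [Algebra.smul_def, map_mul]
  ring

theorem ad_div : ad (div (c := c) ι) = fun S =>
    S.tau • (epsop _ S ∘ₗ div ι S ∘ₗ MT Unit Unit ι S) +
    (S.et • (-(epsop _ S ∘ₗ div ι S ∘ₗ MT (Unit ⊕ Unit) Unit ι S ∘ₗ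
        re (Equiv.sumAssoc Unit Unit ι).symm S ∘ₗ gradb (Unit ⊕ ι) S)) +
    (S.et • (epsop _ S ∘ₗ divb ι S ∘ₗ MT (Unit ⊕ Unit) Unit ι S ∘ₗ
        re (Equiv.sumAssoc Unit Unit ι).symm S ∘ₗ grad (Unit ⊕ ι) S) +
    (S.et • (divb ι S ∘ₗ MT Unit Unit ι S) +
    S.tau • (S.et • (epsop _ S ∘ₗ epsop _ S ∘ₗ divb ι S ∘ₗ MT Unit Unit ι S ∘ₗ
        MT Unit Unit ι S))))) := by
  funext S
  refine LinearMap.ext fun F => ?_
  funext J
  rw [ad_apply, div_apply, div_apply]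
  simp only [LinearMap.add_apply, LinearMap.smul_apply, LinearMap.neg_apply,
    LinearMap.comp_apply, Pi.add_apply, Pi.smul_apply, Pi.neg_apply, epsop_apply, div_apply,
    divb_apply, MT21_apply, MT_unit_apply, Sum.elim_inl, Sum.elim_comp_inr, Xop_apply,
    grad_apply, gradb_apply]
  rw [map_sum, ← sum_sub_distrib]
  simp only [ad_div_aux, sum_add_distrib, sum_neg_distrib, ← smul_sum, ← mul_sum]
  have L1 : ∀ g : S.N → S.N → S.A, ∑ i, ∑ l, (S.w l * g l i - S.d l (g l i)) =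
      ∑ l, (S.w l * ∑ i, g l i - S.d l (∑ i, g l i)) := by
    intro g
    rw [sum_comm]
    refine sum_congr rfl fun l _ => ?_
    rw [map_sum, mul_sum, ← sum_sub_distrib]
  have L2 : ∀ g : S.N → S.N → S.A, ∑ i, ∑ l, (S.b l * g l i - S.e l (g l i)) =
      ∑ l, (S.b l * ∑ i, g l i - S.e l (∑ i, g l i)) := by
    intro g
    rw [sum_comm]
    refine sum_congr rfl fun l _ => ?_
    rw [map_sum, mul_sum, ← sum_sub_distrib]
  rw [L1, L1, L2, L2, L2, smul_neg]
  congr 1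
  congr 1
  · congr 3
    refine sum_congr rfl fun l _ => ?_
    rw [sum_comm]
  congr 1
  · congr 2
    refine sum_congr rfl fun l _ => ?_
    rw [sum_comm]
  congr 1
  congr 4
  refine sum_congr rfl fun l _ => ?_
  rw [sum_comm]
  simp only [mul_sum]

end

end Crest.Agent.R285.Sob
end

-- ▼ part R285/SobTen
section

/-!
Row 285: the commutator of the tensor letters with `X`.
-/

set_option autoImplicit false
set_option linter.unusedSectionVars false
set_option linter.unusedVariables false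

open Finset

namespace Crest.Agent.R285.Sob

variable {c : ℕ → ℝ} (S : Sett c)

section

variable {ι κ σ β γ : Type} [Fintype ι] [DecidableEq ι] [Fintype κ] [DecidableEq κ]
  [Fintype σ] [DecidableEq σ] [Fintype β] [DecidableEq β] [Fintype γ] [DecidableEq γ]

/-- The two-tensor terms in the commutator. -/
def WS (σ β γ : Type) [Fintype σ] [DecidableEq σ] [Fintype β] [DecidableEq β]
    (s : Finset (σ ⊕ β)) : Op c (σ ⊕ γ) (β ⊕ γ) := fun S =>
  { toFun := fun F J => ∑ k : σ → S.N,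
      (∑ l, S.T (l ::ₘ s.val.map (Sum.elim k (J ∘ Sum.inl))) *
        S.T (l ::ₘ sᶜ.val.map (Sum.elim k (J ∘ Sum.inl)))) * F (Sum.elim k (J ∘ Sum.inr))
    map_add' := fun F G => by
      funext J
      simp only [Pi.add_apply, mul_add, ← sum_add_distrib]
    map_smul' := fun r F => by
      funext J
      simp only [Pi.smul_apply, RingHom.id_apply, smul_sum, mul_smul_comm] }

theorem WS_apply (s : Finset (σ ⊕ β)) (F : Fl S (σ ⊕ γ)) (J : β ⊕ γ → S.N) :
    WS σ β γ s S F J = ∑ k : σ → S.N,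
      (∑ l, S.T (l ::ₘ s.val.map (Sum.elim k (J ∘ Sum.inl))) *
        S.T (l ::ₘ sᶜ.val.map (Sum.elim k (J ∘ Sum.inl)))) * F (Sum.elim k (J ∘ Sum.inr)) := rfl

theorem WS_compl (s : Finset (σ ⊕ β)) : WS (c := c) σ β γ sᶜ = WS σ β γ s := by
  funext S
  refine LinearMap.ext fun F => ?_
  funext J
  rw [WS_apply, WS_apply]
  refine sum_congr rfl fun k _ => ?_
  congr 1
  refine sum_congr rfl fun l _ => ?_
  rw [compl_compl, mul_comm]

theorem MTU_apply (F : Fl S (σ ⊕ γ)) (J : β ⊕ γ → S.N) (l : S.N) :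
    re (Equiv.sumAssoc Unit β γ) S (MT σ (Unit ⊕ β) γ S F) (Sum.elim (fun _ => l) J) =
    ∑ k : σ → S.N, S.T (l ::ₘ (ml k + ml (J ∘ Sum.inl))) * F (Sum.elim k (J ∘ Sum.inr)) := by
  rw [re_apply, MT_apply]
  refine sum_congr rfl fun k _ => ?_
  rw [ml_unit_sum, Multiset.add_cons]
  have e2 : (Sum.elim k
      (((Sum.elim (fun _ => l) J : Unit ⊕ (β ⊕ γ) → S.N) ∘ ⇑(Equiv.sumAssoc Unit β γ)) ∘
        Sum.inr) : σ ⊕ γ → S.N) = Sum.elim k (J ∘ Sum.inr) := by
    funext x; rcases x with x | x <;> rfl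
  rw [e2]
  rfl

theorem MTUσ_apply (G : Fl S (Unit ⊕ (σ ⊕ γ))) (J : β ⊕ γ → S.N) :
    MT (Unit ⊕ σ) β γ S (re (Equiv.sumAssoc Unit σ γ).symm S G) J =
    ∑ l, ∑ k : σ → S.N, S.T (l ::ₘ (ml k + ml (J ∘ Sum.inl))) *
      G (Sum.elim (fun _ => l) (Sum.elim k (J ∘ Sum.inr))) := by
  rw [MT_apply, sum_unit_sum_arrow]
  refine sum_congr rfl fun l _ => sum_congr rfl fun k _ => ?_
  rw [ml_unit_sum, Multiset.cons_add, re_apply]
  have e2 : (Sum.elim (Sum.elim (fun _ : Unit => l) k) (J ∘ Sum.inr)) ∘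
      ⇑(Equiv.sumAssoc Unit σ γ).symm =
      Sum.elim (fun _ => l) (Sum.elim k (J ∘ Sum.inr)) := by
    funext x; rcases x with x | x | x <;> rfl
  rw [e2]
  rfl

theorem e_T_cons (k l : S.N) (m : Multiset S.N) : S.e k (S.T (l ::ₘ m)) = 0 :=
  S.e_T _ _ (Multiset.cons_ne_zero)

theorem ad_MT_aux [Nonempty σ] (k : σ → S.N) (Jb : β → S.N) (f : S.A) :
    S.X (S.T (ml k + ml Jb) * f) - S.T (ml k + ml Jb) * S.X f =
      (∑ l, (S.w l * S.T (l ::ₘ (ml k + ml Jb)) - S.d l (S.T (l ::ₘ (ml k + ml Jb))))) * f +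
      ((S.et • (S.eps * ∑ k', ∑ l, S.b k' * (S.T {k', l} * S.T (l ::ₘ (ml k + ml Jb))))) * f +
      (S.tau • (S.eps * ∑ s ∈ (univ : Finset (σ ⊕ β)).powerset with s.Nonempty ∧ sᶜ.Nonempty,
        ∑ l, S.T (l ::ₘ s.val.map (Sum.elim k Jb)) *
        S.T (l ::ₘ sᶜ.val.map (Sum.elim k Jb)))) * f) := by
  have hm : ml k + ml Jb = (univ : Finset (σ ⊕ β)).val.map (Sum.elim k Jb) := by
    rw [← ml_def, ml_sum, Sum.elim_comp_inl, Sum.elim_comp_inr]
  rw [Derivation.leibniz, hm, S.X_T]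
  simp only [smul_eq_mul]
  ring

theorem ad_MT [Nonempty σ] : ad (MT (c := c) σ β γ) = fun S =>
    div (β ⊕ γ) S ∘ₗ re (Equiv.sumAssoc Unit β γ) S ∘ₗ MT σ (Unit ⊕ β) γ S +
    (MT (Unit ⊕ σ) β γ S ∘ₗ re (Equiv.sumAssoc Unit σ γ).symm S ∘ₗ grad (σ ⊕ γ) S +
    (S.et • (epsop _ S ∘ₗ divb (β ⊕ γ) S ∘ₗ MT Unit Unit (β ⊕ γ) S ∘ₗ
      re (Equiv.sumAssoc Unit β γ) S ∘ₗ MT σ (Unit ⊕ β) γ S) +
    (S.et • (epsop _ S ∘ₗ MT (Unit ⊕ σ) β γ S ∘ₗ re (Equiv.sumAssoc Unit σ γ).symm S ∘ₗ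
      MT Unit Unit (σ ⊕ γ) S ∘ₗ gradb (σ ⊕ γ) S) +
    S.tau • (epsop _ S ∘ₗ ∑ s ∈ (univ : Finset (σ ⊕ β)).powerset with
      s.Nonempty ∧ sᶜ.Nonempty, WS σ β γ s S)))) := by
  funext S
  refine LinearMap.ext fun F => ?_
  funext J
  rw [ad_apply, MT_apply, MT_apply]
  simp only [LinearMap.add_apply, LinearMap.smul_apply, LinearMap.neg_apply,
    LinearMap.comp_apply, Pi.add_apply, Pi.smul_apply, Pi.neg_apply, epsop_apply, div_apply,
    divb_apply, MTU_apply, MT_unit_apply, MTUσ_apply, Sum.elim_inl, Sum.elim_comp_inr,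
    Xop_apply, grad_apply, gradb_apply, LinearMap.sum_apply, Finset.sum_apply, WS_apply]
  rw [map_sum, ← sum_sub_distrib]
  simp only [ad_MT_aux, sum_add_distrib]
  set Z := (univ : Finset (σ ⊕ β)).powerset.filter (fun s => s.Nonempty ∧ sᶜ.Nonempty) with hZ
  have A0 : ∀ (f : (σ → S.N) → S.A) (t : S.N → (σ → S.N) → S.A)
      (he : ∀ k' l k, S.e k' (t l k) = 0),
      (∑ k, (∑ l, (S.w l * t l k - S.d l (t l k))) * f k =
      ∑ l, (S.w l * ∑ k, t l k * f k - S.d l (∑ k, t l k * f k)) +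
      ∑ l, ∑ k, t l k * S.d l (f k)) ∧
      (∑ k, (S.et • (S.eps * ∑ k', ∑ l, S.b k' * (S.T {k', l} * t l k))) * f k =
      S.et • (S.eps * ∑ k', (S.b k' * (∑ l, S.T {k', l} * ∑ k, t l k * f k) -
        S.e k' (∑ l, S.T {k', l} * ∑ k, t l k * f k))) +
      S.et • (S.eps * ∑ l, ∑ k, t l k * ∑ k', S.T {l, k'} * S.e k' (f k))) := by
    intro f t he
    constructor
    · rw [← sum_add_distrib]
      simp only [sum_mul]
      rw [sum_comm]
      refine sum_congr rfl fun l _ => ?_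
      rw [map_sum, mul_sum, ← sum_sub_distrib, ← sum_add_distrib]
      refine sum_congr rfl fun k _ => ?_
      rw [Derivation.leibniz]
      simp only [smul_eq_mul]
      ring
    · have B1 : ∀ k', S.e k' (∑ l, S.T {k', l} * ∑ k, t l k * f k) =
          ∑ l, S.T {k', l} * ∑ k, t l k * S.e k' (f k) := by
        intro k'
        rw [map_sum]
        refine sum_congr rfl fun l _ => ?_
        rw [Derivation.leibniz, e_T_pair, map_sum]
        simp only [smul_eq_mul, mul_zero, add_zero]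
        congr 1
        refine sum_congr rfl fun k _ => ?_
        rw [Derivation.leibniz, he]
        simp only [smul_eq_mul, mul_zero, add_zero]
      simp only [B1]
      have B2 : ∑ l, ∑ k, t l k * ∑ k', S.T {l, k'} * S.e k' (f k) =
          ∑ k', ∑ l, S.T {k', l} * ∑ k, t l k * S.e k' (f k) := by
        rw [sum_comm (f := fun k' l => S.T {k', l} * ∑ k, t l k * S.e k' (f k))]
        refine sum_congr rfl fun l _ => ?_
        simp only [mul_sum]
        rw [sum_comm]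
        refine sum_congr rfl fun k' _ => sum_congr rfl fun k _ => ?_
        rw [Multiset.pair_comm l k']
        ring
      rw [B2, ← smul_add, ← mul_add, sum_sub_distrib, sub_add_cancel]
      simp only [smul_mul_assoc, mul_assoc, ← smul_sum, ← mul_sum, sum_mul]
      congr 2
      rw [sum_comm]
      refine sum_congr rfl fun k' _ => ?_
      simp only [mul_sum]
      rw [sum_comm]
  have A3 : ∀ (f : (σ → S.N) → S.A) (q : Finset (σ ⊕ β) → (σ → S.N) → S.A),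
      ∑ k, (S.tau • (S.eps * ∑ s ∈ Z, q s k)) * f k =
      S.tau • (S.eps * ∑ s ∈ Z, ∑ k, q s k * f k) := by
    intro f q
    simp only [smul_mul_assoc, mul_assoc, ← smul_sum, ← mul_sum]
    congr 2
    rw [sum_comm]
    refine sum_congr rfl fun k _ => ?_
    rw [sum_mul]
  obtain ⟨A1, A2⟩ := A0 (fun k => F (Sum.elim k (J ∘ Sum.inr)))
    (fun l k => S.T (l ::ₘ (ml k + ml (J ∘ Sum.inl)))) (fun k' l k => e_T_cons S k' l _)
  rw [A1, A2, A3]
  abel

end

end Crest.Agent.R285.Sob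
end

-- ▼ part R285/SobSm
section

/-!
Row 285: all letters belong to all classes `Sm n`.
-/

set_option autoImplicit false
set_option linter.unusedSectionVars false
set_option linter.unusedVariables false

open Finset

namespace Crest.Agent.R285.Sob

variable {c : ℕ → ℝ}

section

variable {ι κ σ β γ N : Type} [Fintype ι] [DecidableEq ι] [Fintype κ] [DecidableEq κ]
  [Fintype σ] [DecidableEq σ] [Fintype β] [DecidableEq β] [Fintype γ] [DecidableEq γ]

theorem ml_subtype {α : Type} [Fintype α] [DecidableEq α] (p : α → Prop) [DecidablePred p]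
    (t : Finset α) (h : ∀ x, p x ↔ x ∈ t) (f : α → N) :
    ml (fun x : {x // p x} => f x) = t.val.map f := by
  have e1 : (univ : Finset {x // p x}).val.map (Subtype.val) = t.val := by
    refine (Multiset.Nodup.ext ?_ t.nodup).2 fun x => ?_
    · exact (univ : Finset {x // p x}).nodup.map Subtype.val_injective
    · rw [Multiset.mem_map]
      constructor
      · rintro ⟨y, -, rfl⟩
        exact (h _).1 y.2
      · intro hx
        exact ⟨⟨x, (h x).2 hx⟩, Finset.mem_univ _, rfl⟩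
  rw [← e1, Multiset.map_map]
  rfl

theorem map_finset_sum (s : Finset (σ ⊕ β)) (K : σ ⊕ β → N) (p : σ → Prop) (q : β → Prop)
    [DecidablePred p] [DecidablePred q] (hp : ∀ x, p x ↔ Sum.inl x ∈ s)
    (hq : ∀ x, q x ↔ Sum.inr x ∈ s) :
    s.val.map K = ml (fun x : {x : σ // p x} => K (Sum.inl x)) +
      ml (fun x : {x : β // q x} => K (Sum.inr x)) := by
  rw [ml_subtype p s.toLeft (fun x => by rw [hp]; simp) (fun x => K (Sum.inl x)),
    ml_subtype q s.toRight (fun x => by rw [hq]; simp) (fun x => K (Sum.inr x))]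
  conv_lhs => rw [← Finset.toLeft_disjSum_toRight (u := s)]
  rw [Finset.val_disjSum, Multiset.disjSum, Multiset.map_add, Multiset.map_map,
    Multiset.map_map]
  rfl

/-- first reindexing -/
def E1 (s : Finset (σ ⊕ β)) (γ : Type) : σ ⊕ γ ≃
    {x : σ // Sum.inl x ∈ s} ⊕ ({x : σ // ¬ Sum.inl x ∈ s} ⊕ γ) :=
  (Equiv.sumCongr (Equiv.sumCompl (fun x : σ => (Sum.inl x : σ ⊕ β) ∈ s)).symm
    (Equiv.refl γ)).trans (Equiv.sumAssoc _ _ _)

/-- second reindexing -/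
def E2 (s : Finset (σ ⊕ β)) (γ : Type) :
    (Unit ⊕ {x : β // Sum.inr x ∈ s}) ⊕ ({x : σ // ¬ Sum.inl x ∈ s} ⊕ γ) ≃
    (Unit ⊕ {x : σ // ¬ Sum.inl x ∈ s}) ⊕ ({x : β // Sum.inr x ∈ s} ⊕ γ) :=
  Equiv.sumSumSumComm _ _ _ _

/-- third reindexing -/
def E3 (s : Finset (σ ⊕ β)) (γ : Type) :
    {x : β // ¬ Sum.inr x ∈ s} ⊕ ({x : β // Sum.inr x ∈ s} ⊕ γ) ≃ β ⊕ γ :=
  (Equiv.sumAssoc _ _ _).symm.trans (Equiv.sumCongr
    ((Equiv.sumComm _ _).trans (Equiv.sumCompl (fun x : β => (Sum.inr x : σ ⊕ β) ∈ s)))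
    (Equiv.refl γ))

theorem sum_split_arrow {N M : Type} [Fintype N] [DecidableEq N] [AddCommMonoid M]
    (p : σ → Prop) [DecidablePred p] (f : (σ → N) → M) :
    ∑ k, f k = ∑ k₁ : {x // p x} → N, ∑ k₂ : {x // ¬ p x} → N,
      f (Sum.elim k₁ k₂ ∘ (Equiv.sumCompl p).symm) := by
  rw [← sum_sum_arrow (fun k => f (k ∘ (Equiv.sumCompl p).symm))]
  exact (Equiv.sum_comp (Equiv.arrowCongr (Equiv.sumCompl p) (Equiv.refl N)) f).symm

theorem WS_key (S : Sett c) (s : Finset (σ ⊕ β)) (F : Fl S (σ ⊕ γ)) (J : β ⊕ γ → S.N)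
    (k₁ : {x : σ // Sum.inl x ∈ s} → S.N) (k₂ : {x : σ // ¬ Sum.inl x ∈ s} → S.N) (l : S.N) :
    S.T (l ::ₘ s.val.map (Sum.elim (Sum.elim k₁ k₂ ∘
        (Equiv.sumCompl (fun x : σ => (Sum.inl x : σ ⊕ β) ∈ s)).symm) (J ∘ Sum.inl))) *
      S.T (l ::ₘ sᶜ.val.map (Sum.elim (Sum.elim k₁ k₂ ∘
        (Equiv.sumCompl (fun x : σ => (Sum.inl x : σ ⊕ β) ∈ s)).symm) (J ∘ Sum.inl))) *
      F (Sum.elim (Sum.elim k₁ k₂ ∘
        (Equiv.sumCompl (fun x : σ => (Sum.inl x : σ ⊕ β) ∈ s)).symm) (J ∘ Sum.inr)) =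
    S.T (ml (Sum.elim (fun _ : Unit => l) k₂) + ml ((J ∘ ⇑(E3 s γ)) ∘ Sum.inl)) *
      (S.T (ml k₁ + ml ((Sum.elim (Sum.elim (fun _ : Unit => l) k₂)
          ((J ∘ ⇑(E3 s γ)) ∘ Sum.inr) ∘ ⇑(E2 s γ)) ∘ Sum.inl)) *
        F (Sum.elim k₁ ((Sum.elim (Sum.elim (fun _ : Unit => l) k₂)
          ((J ∘ ⇑(E3 s γ)) ∘ Sum.inr) ∘ ⇑(E2 s γ)) ∘ Sum.inr) ∘ ⇑(E1 s γ))) := by
  set K : σ ⊕ β → S.N := Sum.elim (Sum.elim k₁ k₂ ∘
        (Equiv.sumCompl (fun x : σ => (Sum.inl x : σ ⊕ β) ∈ s)).symm) (J ∘ Sum.inl) with hK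
  have hpos : ∀ (x : σ) (hx : (Sum.inl x : σ ⊕ β) ∈ s),
      (Equiv.sumCompl (fun x : σ => (Sum.inl x : σ ⊕ β) ∈ s)).symm x = Sum.inl ⟨x, hx⟩ :=
    fun x hx => Equiv.sumCompl_symm_apply_of_pos (p := fun x : σ => (Sum.inl x : σ ⊕ β) ∈ s) hx
  have hneg : ∀ (x : σ) (hx : ¬ (Sum.inl x : σ ⊕ β) ∈ s),
      (Equiv.sumCompl (fun x : σ => (Sum.inl x : σ ⊕ β) ∈ s)).symm x = Sum.inr ⟨x, hx⟩ :=
    fun x hx => Equiv.sumCompl_symm_apply_of_neg (p := fun x : σ => (Sum.inl x : σ ⊕ β) ∈ s) hx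
  have h1 : s.val.map K = ml k₁ + ml (fun x : {x : β // Sum.inr x ∈ s} => J (Sum.inl x)) := by
    rw [map_finset_sum s K (fun x => Sum.inl x ∈ s) (fun x => Sum.inr x ∈ s) (fun x => Iff.rfl)
      (fun x => Iff.rfl)]
    congr 2
    funext x
    simp only [hK, Sum.elim_inl, Function.comp_apply]
    rw [hpos x.1 x.2]
    rfl
  have h2 : sᶜ.val.map K = ml k₂ +
      ml (fun x : {x : β // ¬ Sum.inr x ∈ s} => J (Sum.inl x)) := by
    rw [map_finset_sum sᶜ K (fun x => ¬ Sum.inl x ∈ s) (fun x => ¬ Sum.inr x ∈ s)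
      (fun x => by simp) (fun x => by simp)]
    congr 2
    funext x
    simp only [hK, Sum.elim_inl, Function.comp_apply]
    rw [hneg x.1 x.2]
    rfl
  have h3 : (Sum.elim k₁ ((Sum.elim (Sum.elim (fun _ : Unit => l) k₂)
          ((J ∘ ⇑(E3 s γ)) ∘ Sum.inr) ∘ ⇑(E2 s γ)) ∘ Sum.inr) ∘ ⇑(E1 s γ)) =
      (Sum.elim (Sum.elim k₁ k₂ ∘
        (Equiv.sumCompl (fun x : σ => (Sum.inl x : σ ⊕ β) ∈ s)).symm) (J ∘ Sum.inr)) := by
    funext x
    rcases x with x | x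
    · simp only [Function.comp_apply, E1, Equiv.trans_apply, Equiv.sumCongr_apply, Sum.map_inl,
        Sum.elim_inl]
      by_cases hx : (Sum.inl x : σ ⊕ β) ∈ s
      · rw [hpos x hx]
        rfl
      · rw [hneg x hx]
        rfl
    · rfl
  have h4 : ml ((Sum.elim (Sum.elim (fun _ : Unit => l) k₂)
          ((J ∘ ⇑(E3 s γ)) ∘ Sum.inr) ∘ ⇑(E2 s γ)) ∘ Sum.inl) =
      l ::ₘ ml (fun x : {x : β // Sum.inr x ∈ s} => J (Sum.inl x)) := by
    rw [ml_unit_sum]
    rfl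
  have h5 : ml ((J ∘ ⇑(E3 s γ)) ∘ Sum.inl) =
      ml (fun x : {x : β // ¬ Sum.inr x ∈ s} => J (Sum.inl x)) := rfl
  have h6 : ml (Sum.elim (fun _ : Unit => l) k₂) = l ::ₘ ml k₂ := by
    rw [ml_unit_sum]
    rfl
  rw [h1, h2, h3, h4, h5, h6, Multiset.add_cons, Multiset.cons_add]
  ring

theorem WS_eq (s : Finset (σ ⊕ β)) : WS (c := c) σ β γ s = fun S =>
    re (E3 s γ) S ∘ₗ MT (Unit ⊕ {x : σ // ¬ Sum.inl x ∈ s}) {x : β // ¬ Sum.inr x ∈ s}
      ({x : β // Sum.inr x ∈ s} ⊕ γ) S ∘ₗ re (E2 s γ) S ∘ₗ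
    MT {x : σ // Sum.inl x ∈ s} (Unit ⊕ {x : β // Sum.inr x ∈ s})
      ({x : σ // ¬ Sum.inl x ∈ s} ⊕ γ) S ∘ₗ re (E1 s γ) S := by
  funext S
  refine LinearMap.ext fun F => ?_
  funext J
  simp only [LinearMap.comp_apply]
  rw [WS_apply, re_apply, MT_apply, sum_unit_sum_arrow,
    sum_split_arrow (fun x : σ => (Sum.inl x : σ ⊕ β) ∈ s)]
  simp only [re_apply, MT_apply, sum_mul, mul_sum, WS_key]
  rw [sum_comm, sum_comm (s := (univ : Finset S.N))]
  refine sum_congr rfl fun k₂ _ => ?_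
  rw [sum_comm]

theorem WS_compl' (s : Finset (σ ⊕ β)) :
    WS (c := c) σ β γ s = WS σ β γ sᶜ :=
  (WS_compl s).symm

/-- All the letters are in `Sm n`. -/
structure AllSm (c : ℕ → ℝ) (n : ℕ) : Prop where
  grad : ∀ (ι : Type) [Fintype ι] [DecidableEq ι], Sm n (grad (c := c) ι)
  gradb : ∀ (ι : Type) [Fintype ι] [DecidableEq ι], Sm n (gradb (c := c) ι)
  div : ∀ (ι : Type) [Fintype ι] [DecidableEq ι], Sm n (div (c := c) ι)
  divb : ∀ (ι : Type) [Fintype ι] [DecidableEq ι], Sm n (divb (c := c) ι)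
  MT : ∀ (σ β γ : Type) [Fintype σ] [DecidableEq σ] [Nonempty σ] [Fintype β] [DecidableEq β]
    [Nonempty β] [Fintype γ] [DecidableEq γ], Sm n (MT (c := c) σ β γ)

theorem Sm.re {ι κ : Type} [Fintype ι] [DecidableEq ι] [Fintype κ] [DecidableEq κ] (e : ι ≃ κ)
    (n : ℕ) : Sm n (re (c := c) e) :=
  Sm.of_ad_zero (Bd.re e) (ad_re e) n

theorem ad_id {ι : Type} [Fintype ι] [DecidableEq ι] :
    ad (fun _ => LinearMap.id : Op c ι ι) = fun _ => 0 := by
  funext S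
  simp [ad]

theorem Sm.id {ι : Type} [Fintype ι] [DecidableEq ι] (n : ℕ) :
    Sm n (fun _ => LinearMap.id : Op c ι ι) :=
  Sm.of_ad_zero Bd.id ad_id n

theorem Sm.epsop (ι : Type) [Fintype ι] [DecidableEq ι] (n : ℕ) : Sm n (epsop (c := c) ι) := by
  cases n with
  | zero => exact Bd.epsop ι
  | succ n => exact ⟨Bd.epsop ι, by rw [ad_epsop]; exact Sm.id n⟩

theorem Sm.tau {n : ℕ} {ι κ : Type} [Fintype ι] [DecidableEq ι] [Fintype κ] [DecidableEq κ]
    {O : Op c ι κ} (h : Sm n O) : Sm n (fun S => S.tau • O S) :=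
  Sm.smul (fun S => S.tau) (fun S => S.abs_tau) h

theorem Sm.et {n : ℕ} {ι κ : Type} [Fintype ι] [DecidableEq ι] [Fintype κ] [DecidableEq κ]
    {O : Op c ι κ} (h : Sm n O) : Sm n (fun S => S.et • O S) :=
  Sm.smul (fun S => S.et) (fun S => S.abs_et) h

theorem Sm.WS {n : ℕ} (h : AllSm c n) (s : Finset (σ ⊕ β)) [Nonempty σ] [Nonempty β]
    (hs : s.Nonempty) (hs' : sᶜ.Nonempty) : Sm n (WS (c := c) σ β γ s) := by
  have main : ∀ s : Finset (σ ⊕ β), (∃ x : σ, Sum.inl x ∈ s) → (∃ x : β, ¬ Sum.inr x ∈ s) →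
      Sm n (Sob.WS (c := c) σ β γ s) := by
    intro s h1 h2
    have : Nonempty {x : σ // Sum.inl x ∈ s} := ⟨⟨h1.choose, h1.choose_spec⟩⟩
    have : Nonempty {x : β // ¬ Sum.inr x ∈ s} := ⟨⟨h2.choose, h2.choose_spec⟩⟩
    rw [WS_eq]
    exact (Sm.re _ n).comp ((h.MT _ _ _).comp ((Sm.re _ n).comp ((h.MT _ _ _).comp
      (Sm.re _ n))))
  by_cases h1 : ∃ x : σ, Sum.inl x ∈ s
  · by_cases h2 : ∃ x : β, ¬ Sum.inr x ∈ s
    · exact main s h1 h2
    · push Not at h2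
      rw [WS_compl']
      refine main sᶜ ?_ ?_
      · obtain ⟨x, hx⟩ := hs'
        rcases x with x | x
        · exact ⟨x, hx⟩
        · exact absurd (h2 x) (by simpa using hx)
      · exact ⟨Classical.arbitrary β, by simpa using h2 _⟩
  · push Not at h1
    rw [WS_compl']
    refine main sᶜ ⟨Classical.arbitrary σ, by simpa using h1 _⟩ ?_
    obtain ⟨x, hx⟩ := hs
    rcases x with x | x
    · exact absurd hx (h1 x)
    · exact ⟨x, by simpa using hx⟩

theorem allSm (c : ℕ → ℝ) (n : ℕ) : AllSm c n := by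
  induction n with
  | zero => exact ⟨fun ι _ _ => Bd.grad ι, fun ι _ _ => Bd.gradb ι, fun ι _ _ => Bd.div ι,
      fun ι _ _ => Bd.divb ι, fun σ β γ _ _ _ _ _ _ _ _ => Bd.MT σ β γ⟩
  | succ n ih =>
    refine ⟨fun ι _ _ => ⟨Bd.grad ι, ?_⟩, fun ι _ _ => ⟨Bd.gradb ι, ?_⟩,
      fun ι _ _ => ⟨Bd.div ι, ?_⟩, fun ι _ _ => ⟨Bd.divb ι, ?_⟩,
      fun σ β γ _ _ _ _ _ _ _ _ => ⟨Bd.MT σ β γ, ?_⟩⟩
    · rw [ad_grad]
      refine (Sm.epsop _ n |>.comp ((ih.MT _ _ _).comp (ih.grad ι))).tau.add ?_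
      refine (((Sm.epsop _ n).comp ((ih.divb _).comp ((Sm.re _ n).comp ((ih.MT _ _ _).comp
        (ih.grad ι))))).neg).et.add ?_
      refine ((Sm.epsop _ n).comp ((ih.div _).comp ((Sm.re _ n).comp ((ih.MT _ _ _).comp
        (ih.gradb ι))))).et.add ?_
      refine ((ih.MT _ _ _).comp (ih.gradb ι)).et.add ?_
      exact ((Sm.epsop _ n).comp ((Sm.epsop _ n).comp ((ih.MT _ _ _).comp ((ih.MT _ _ _).comp
        (ih.gradb ι))))).et.tau
    · rw [ad_gradb]
      exact ((ih.MT _ _ _).comp (ih.grad ι)).neg.et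
    · rw [ad_div]
      refine ((Sm.epsop _ n).comp ((ih.div _).comp (ih.MT _ _ _))).tau.add ?_
      refine (((Sm.epsop _ n).comp ((ih.div _).comp ((ih.MT _ _ _).comp ((Sm.re _ n).comp
        (ih.gradb _))))).neg).et.add ?_
      refine ((Sm.epsop _ n).comp ((ih.divb _).comp ((ih.MT _ _ _).comp ((Sm.re _ n).comp
        (ih.grad _))))).et.add ?_
      refine ((ih.divb _).comp (ih.MT _ _ _)).et.add ?_
      exact ((Sm.epsop _ n).comp ((Sm.epsop _ n).comp ((ih.divb _).comp ((ih.MT _ _ _).comp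
        (ih.MT _ _ _))))).et.tau
    · rw [ad_divb]
      exact ((ih.div _).comp (ih.MT _ _ _)).neg.et
    · rw [ad_MT]
      refine ((ih.div _).comp ((Sm.re _ n).comp (ih.MT _ _ _))).add ?_
      refine ((ih.MT _ _ _).comp ((Sm.re _ n).comp (ih.grad _))).add ?_
      refine ((Sm.epsop _ n).comp ((ih.divb _).comp ((ih.MT _ _ _).comp ((Sm.re _ n).comp
        (ih.MT _ _ _))))).et.add ?_
      refine ((Sm.epsop _ n).comp ((ih.MT _ _ _).comp ((Sm.re _ n).comp ((ih.MT _ _ _).comp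
        (ih.gradb _))))).et.add ?_
      refine ((Sm.epsop _ n).comp (Sm.sum _ _ fun s hs => ?_)).tau
      rw [mem_filter] at hs
      exact Sm.WS ih s hs.2.1 hs.2.2

end

end Crest.Agent.R285.Sob
end

-- ▼ part R285/SobExp
section

/-!
Row 285: export of the abstract smoothness theorem.
-/

set_option autoImplicit false
set_option linter.unusedSectionVars false
set_option linter.unusedVariables false

open Finset

namespace Crest.Agent.R285.Sob

variable {c : ℕ → ℝ}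

/-- constant fields with one slot -/
def cst (S : Sett c) (v : S.N → ℝ) : Fl S (Unit ⊕ Empty) :=
  fun J => algebraMap ℝ S.A (v (J (Sum.inl ())))

theorem grad_cst (S : Sett c) (v : S.N → ℝ) : grad _ S (cst S v) = 0 := by
  funext J
  rw [grad_apply]
  exact Derivation.map_algebraMap _ _

theorem gradb_cst (S : Sett c) (v : S.N → ℝ) : gradb _ S (cst S v) = 0 := by
  funext J
  rw [gradb_apply]
  exact Derivation.map_algebraMap _ _

theorem Xop_cst (S : Sett c) (v : S.N → ℝ) : Xop S _ (cst S v) = 0 := by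
  funext J
  exact Derivation.map_algebraMap _ _

theorem nsq_cst (S : Sett c) (v : S.N → ℝ) : nsq S (cst S v) = ∑ i, v i ^ 2 := by
  unfold nsq
  rw [sum_unit_sum_arrow]
  refine sum_congr rfl fun i _ => ?_
  rw [Fintype.sum_unique]
  have : cst S v (Sum.elim (fun _ => i) default) * cst S v (Sum.elim (fun _ => i) default) =
      (v i ^ 2) • (1 : S.A) := by
    rw [← Algebra.algebraMap_eq_smul_one, sq, map_mul]
    rfl
  rw [this, map_smul, S.I_one, smul_eq_mul, mul_one]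

theorem Sq_cst (S : Sett c) (v : S.N → ℝ) (r : ℕ) : Sq r S _ (cst S v) = ∑ i, v i ^ 2 := by
  induction r with
  | zero => exact nsq_cst S v
  | succ r ih => rw [Sq_succ, grad_cst, gradb_cst, Sq_null, ih, add_zero, add_zero]

/-- the unique multi-index without slots -/
def J0 (S : Sett c) : Empty → S.N := fun x => x.elim

theorem Sm.scalar (n : ℕ) : ∀ (O : Op c (Unit ⊕ Empty) Empty), Sm n O →
    ∃ (C : ℝ) (P : ℕ), 0 ≤ C ∧ ∀ (S : Sett c) (v : S.N → ℝ), ∑ i, v i ^ 2 ≤ 1 →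
      S.I ((fun f => S.X f)^[n] (O S (cst S v) (J0 S)) *
        (fun f => S.X f)^[n] (O S (cst S v) (J0 S))) ≤ C * S.K ^ P := by
  induction n with
  | zero =>
    intro O hO
    obtain ⟨C, P, m, hC, H⟩ := hO 0
    refine ⟨C, P, hC, fun S v hv => ?_⟩
    have h := H S (cst S v)
    rw [Sq_cst, Sq_zero] at h
    unfold nsq at h
    rw [Fintype.sum_unique] at h
    have e : (default : Empty → S.N) = J0 S := Subsingleton.elim _ _
    rw [e] at h
    refine h.trans ?_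
    have := K_pos S
    calc C * S.K ^ P * ∑ i, v i ^ 2 ≤ C * S.K ^ P * 1 := by gcongr
      _ = _ := mul_one _
  | succ n ih =>
    intro O hO
    obtain ⟨C, P, hC, H⟩ := ih (ad O) hO.2
    refine ⟨C, P, hC, fun S v hv => ?_⟩
    have h := H S v hv
    have e : ad O S (cst S v) (J0 S) = S.X (O S (cst S v) (J0 S)) := by
      rw [ad_apply, Xop_cst, map_zero, Pi.zero_apply, sub_zero]
    rw [e] at h
    rw [Function.iterate_succ_apply]
    exact h

theorem MT_cst (S : Sett c) (v : S.N → ℝ) (l : S.N) :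
    MT Unit Unit Empty S (cst S v) (Sum.elim (fun _ => l) (J0 S)) =
      ∑ i, v i • S.T {l, i} := by
  rw [MT_unit_apply]
  refine sum_congr rfl fun i _ => ?_
  rw [Sum.elim_inl, mul_comm, Algebra.smul_def]
  rfl

theorem e_MT_cst (S : Sett c) (v : S.N → ℝ) (k l : S.N) :
    S.e k (∑ i, v i • S.T {l, i}) = 0 := by
  rw [map_sum]
  refine sum_eq_zero fun i _ => ?_
  rw [Derivation.map_smul, e_T_pair, smul_zero]

theorem X_T_single (S : Sett c) (i : S.N) : S.X (S.T {i}) =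
    (∑ l, (S.w l * S.T {l, i} - S.d l (S.T {l, i}))) +
      S.et • (S.eps * ∑ k, ∑ l, S.b k * (S.T {k, l} * S.T {l, i})) := by
  have h := S.X_T Unit (fun _ => i)
  have e0 : (univ : Finset Unit).val.map (fun _ => i) = {i} := rfl
  rw [e0] at h
  have e1 : (univ : Finset Unit).powerset.filter (fun s => s.Nonempty ∧ sᶜ.Nonempty) = ∅ := by
    decide
  rw [e1, sum_empty, mul_zero, smul_zero, add_zero] at h
  exact h

/-- **Export, scalar form.** -/
theorem export_scalar (c : ℕ → ℝ) (n : ℕ) : ∃ (C : ℝ) (P : ℕ), 0 ≤ C ∧ ∀ (S : Sett c)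
    (v : S.N → ℝ), ∑ i, v i ^ 2 ≤ 1 →
    S.I ((fun f => S.X f)^[n + 1] (∑ i, v i • S.T {i}) *
      (fun f => S.X f)^[n + 1] (∑ i, v i • S.T {i})) ≤ C * S.K ^ P ∧
    S.I ((fun f => S.X f)^[n] (∑ k, S.b k * ∑ i, v i • S.T {k, i}) *
      (fun f => S.X f)^[n] (∑ k, S.b k * ∑ i, v i • S.T {k, i})) ≤ C * S.K ^ P ∧
    S.I ((fun f => S.X f)^[n] (∑ k, S.b k * ∑ l, S.T {k, l} * ∑ i, v i • S.T {l, i}) *
      (fun f => S.X f)^[n] (∑ k, S.b k * ∑ l, S.T {k, l} * ∑ i, v i • S.T {l, i})) ≤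
        C * S.K ^ P := by
  have A := allSm c n
  have hM : Sm n (MT (c := c) Unit Unit Empty) := A.MT _ _ _
  have h1 : Sm n (fun S => div Empty S ∘ₗ MT (c := c) Unit Unit Empty S +
      S.et • (epsop _ S ∘ₗ divb Empty S ∘ₗ MT Unit Unit Empty S ∘ₗ MT Unit Unit Empty S)) :=
    ((A.div Empty).comp hM).add (((Sm.epsop _ n).comp ((A.divb Empty).comp (hM.comp hM))).et)
  have h2 : Sm n (fun S => divb Empty S ∘ₗ MT (c := c) Unit Unit Empty S) :=
    (A.divb Empty).comp hM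
  have h3 : Sm n (fun S => divb Empty S ∘ₗ MT (c := c) Unit Unit Empty S ∘ₗ
      MT Unit Unit Empty S) := (A.divb Empty).comp (hM.comp hM)
  obtain ⟨C₁, P₁, hC₁, H₁⟩ := Sm.scalar n _ h1
  obtain ⟨C₂, P₂, hC₂, H₂⟩ := Sm.scalar n _ h2
  obtain ⟨C₃, P₃, hC₃, H₃⟩ := Sm.scalar n _ h3
  refine ⟨C₁ + C₂ + C₃, P₁ + P₂ + P₃, by positivity, fun S v hv => ?_⟩
  have hK := S.one_le_K
  have hKp := K_pos S
  have b1 : C₁ * S.K ^ P₁ ≤ (C₁ + C₂ + C₃) * S.K ^ (P₁ + P₂ + P₃) := by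
    have := pow_le_pow_right₀ hK (show P₁ ≤ P₁ + P₂ + P₃ by omega)
    have h0 : 0 ≤ S.K ^ P₁ := by positivity
    exact mul_le_mul (by linarith) this h0 (by positivity)
  have b2 : C₂ * S.K ^ P₂ ≤ (C₁ + C₂ + C₃) * S.K ^ (P₁ + P₂ + P₃) := by
    have := pow_le_pow_right₀ hK (show P₂ ≤ P₁ + P₂ + P₃ by omega)
    have h0 : 0 ≤ S.K ^ P₂ := by positivity
    exact mul_le_mul (by linarith) this h0 (by positivity)
  have b3 : C₃ * S.K ^ P₃ ≤ (C₁ + C₂ + C₃) * S.K ^ (P₁ + P₂ + P₃) := by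
    have := pow_le_pow_right₀ hK (show P₃ ≤ P₁ + P₂ + P₃ by omega)
    have h0 : 0 ≤ S.K ^ P₃ := by positivity
    exact mul_le_mul (by linarith) this h0 (by positivity)
  have MM : ∀ l, MT Unit Unit Empty S (MT Unit Unit Empty S (cst S v))
      (Sum.elim (fun _ => l) (J0 S)) = ∑ m, S.T {l, m} * ∑ i, v i • S.T {m, i} := by
    intro l
    rw [MT_unit_apply]
    refine sum_congr rfl fun m _ => ?_
    rw [Sum.elim_comp_inr, MT_cst, Sum.elim_inl]
  have eMM : ∀ k l, S.e k (∑ m, S.T {l, m} * ∑ i, v i • S.T {m, i}) = 0 := by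
    intro k l
    rw [map_sum]
    refine sum_eq_zero fun m _ => ?_
    rw [Derivation.leibniz, e_T_pair, e_MT_cst]
    simp
  refine ⟨(le_of_eq ?_).trans ((H₁ S v hv).trans b1), (le_of_eq ?_).trans ((H₂ S v hv).trans b2),
    (le_of_eq ?_).trans ((H₃ S v hv).trans b3)⟩
  · have e : S.X (∑ i, v i • S.T {i}) = (div Empty S ∘ₗ MT Unit Unit Empty S +
      S.et • (epsop _ S ∘ₗ divb Empty S ∘ₗ MT Unit Unit Empty S ∘ₗ MT Unit Unit Empty S))
        (cst S v) (J0 S) := by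
      rw [LinearMap.add_apply, LinearMap.smul_apply, Pi.add_apply, Pi.smul_apply]
      simp only [LinearMap.comp_apply, epsop_apply, div_apply, divb_apply, MM, MT_cst, eMM,
        sub_zero]
      rw [map_sum]
      simp only [Derivation.map_smul, X_T_single, smul_add, sum_add_distrib]
      congr 1
      · simp only [smul_sum, mul_sum, map_sum, ← sum_sub_distrib]
        rw [sum_comm]
        refine sum_congr rfl fun l _ => sum_congr rfl fun i _ => ?_
        rw [Derivation.map_smul, mul_smul_comm, ← smul_sub]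
      · simp only [smul_sum, mul_sum]
        rw [sum_comm]
        refine sum_congr rfl fun k _ => ?_
        rw [sum_comm]
        refine sum_congr rfl fun l _ => sum_congr rfl fun i _ => ?_
        simp only [mul_smul_comm, smul_smul, mul_comm (v i) S.et]
    rw [Function.iterate_succ_apply, e]
  · have e : (∑ k, S.b k * ∑ i, v i • S.T {k, i}) =
        (divb Empty S ∘ₗ MT Unit Unit Empty S) (cst S v) (J0 S) := by
      simp only [LinearMap.comp_apply, divb_apply, MT_cst, e_MT_cst, sub_zero]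
    rw [e]
  · have e : (∑ k, S.b k * ∑ l, S.T {k, l} * ∑ i, v i • S.T {l, i}) =
        (divb Empty S ∘ₗ MT Unit Unit Empty S ∘ₗ MT Unit Unit Empty S) (cst S v) (J0 S) := by
      simp only [LinearMap.comp_apply, divb_apply, MM, eMM, sub_zero]
    rw [e]

/-- **Export, coordinates.** -/
theorem export_coord (c : ℕ → ℝ) (n : ℕ) : ∃ (C : ℝ) (P : ℕ), 0 ≤ C ∧ ∀ (S : Sett c) (i : S.N),
    S.I ((fun f => S.X f)^[n + 1] (S.T {i}) * (fun f => S.X f)^[n + 1] (S.T {i})) ≤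
      C * S.K ^ P ∧
    S.I ((fun f => S.X f)^[n] (∑ k, S.T {i, k} * S.b k) *
      (fun f => S.X f)^[n] (∑ k, S.T {i, k} * S.b k)) ≤ C * S.K ^ P ∧
    S.I ((fun f => S.X f)^[n] (∑ l, S.T {i, l} * ∑ k, S.T {l, k} * S.b k) *
      (fun f => S.X f)^[n] (∑ l, S.T {i, l} * ∑ k, S.T {l, k} * S.b k)) ≤ C * S.K ^ P := by
  obtain ⟨C, P, hC, H⟩ := export_scalar c n
  refine ⟨C, P, hC, fun S i => ?_⟩
  have hv : ∑ j, (Pi.single i (1 : ℝ) : S.N → ℝ) j ^ 2 ≤ 1 := by
    rw [Finset.sum_eq_single i]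
    · simp
    · intro j _ hj; rw [Pi.single_eq_of_ne hj]; simp
    · intro h; exact absurd (mem_univ i) h
  have h := H S (Pi.single i 1) hv
  have e1 : ∀ g : S.N → S.A, ∑ j, (Pi.single i (1 : ℝ) : S.N → ℝ) j • g j = g i := by
    intro g
    rw [Finset.sum_eq_single i]
    · simp
    · intro j _ hj; rw [Pi.single_eq_of_ne hj, zero_smul]
    · intro h; exact absurd (mem_univ i) h
  simp only [e1] at h
  refine ⟨h.1, ?_, ?_⟩
  · have e2 : ∑ k, S.T {i, k} * S.b k = ∑ k, S.b k * S.T {k, i} :=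
      sum_congr rfl fun k _ => by rw [Multiset.pair_comm i k, mul_comm]
    rw [e2]
    exact h.2.1
  · have e3 : ∑ l, S.T {i, l} * ∑ k, S.T {l, k} * S.b k =
        ∑ k, S.b k * ∑ l, S.T {k, l} * S.T {l, i} := by
      simp only [mul_sum]
      rw [sum_comm]
      refine sum_congr rfl fun k _ => sum_congr rfl fun l _ => ?_
      rw [Multiset.pair_comm i l, Multiset.pair_comm l k]
      ring
    rw [e3]
    exact h.2.2

end Crest.Agent.R285.Sob
end

-- ▼ part R285/SMInner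

/-!
Row 285 (S0430): final smoothness statement (SM2) for the uncoupled flow (1) and for the inner flow
at a frozen centre, in original units: from the flattening bounds `AFall c` (helper635) and the
abstract bounds (`Sob.export_coord`, helper682).
-/

set_option autoImplicit false
set_option linter.unusedSectionVars false

open MeasureTheory ProbabilityTheory Real Filter Topology Set
open Crest.OracleSampling (E)
open scoped RealInnerProductSpace ENNReal ContDiff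

noncomputable section

namespace Crest.Agent.R285.SM

open Crest.Agent.R285 Crest.Agent.R285.Inst Crest.Agent.R285.InstFix Crest.Agent.R285.PolyDv

/-- All flattening bounds, with universal constants `c`. -/
def AFall (c : ℕ → ℝ) : Prop :=
  ∀ {d : ℕ} {f : E d → ℝ} {τ κ : ℝ}, PotP τ f → 0 < τ → τ ≤ 1 → 0 < κ → κ ≤ 1 →
    AFB c κ⁻¹ τ f κ

variable {c : ℕ → ℝ}

theorem kappa_le {t : ℝ} : √(1 - t ^ 2) ≤ 1 := by
  rw [Real.sqrt_le_left (by norm_num)]
  nlinarith [sq_nonneg t]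

/-- The smoothness constant. -/
theorem exists_law1 (hAF : AFall c) (n : ℕ) : ∃ (C : ℝ) (P : ℕ), 0 ≤ C ∧
    ∀ {d : ℕ} {f : E d → ℝ} {τ : ℝ}, PotP τ f → 0 < τ → τ ≤ 1 → ∀ (a : E d) {t : ℝ},
      t ∈ Ioo (-1 : ℝ) 1 →
      eLpNorm ((Dv (vY f a 1))^[n + 1] (vY f a 1) t) 2 (Scale.law1 f a t) ≤
        ENNReal.ofReal (τ * (C * (√(1 - t ^ 2))⁻¹ ^ P) * √d) := by
  obtain ⟨C, P, hC, H⟩ := Sob.export_coord c n
  refine ⟨C + 1, P, by linarith, fun {d f τ} hf hτ hτ1 a t ht => ?_⟩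
  have hκ := sqrt_pos' ht
  have hK : 1 ≤ (√(1 - t ^ 2))⁻¹ := (one_le_inv₀ hκ).2 kappa_le
  have hKp : 1 ≤ (√(1 - t ^ 2))⁻¹ ^ P := one_le_pow₀ hK
  refine eLpNorm_vY_law1 hf hτ hτ1 a (n + 1) ht hK (hAF hf hτ hτ1 hκ kappa_le)
    (by positivity) ?_
  intro het hε hτ0 hτ1' i
  have h1 := (H (fixSett c (√(1 - t ^ 2))⁻¹ 0 hK het hf (sqrt_pos' ht) a t hε hτ0 hτ1'
    (hAF hf hτ hτ1 hκ kappa_le)) i).1
  refine le_trans h1 ?_
  have e : (fixSett c (√(1 - t ^ 2))⁻¹ 0 hK het hf (sqrt_pos' ht) a t hε hτ0 hτ1'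
    (hAF hf hτ hτ1 hκ kappa_le)).K = (√(1 - t ^ 2))⁻¹ := rfl
  rw [e, mul_pow]
  set X := (√(1 - t ^ 2))⁻¹ ^ P with hX
  have h2 : C * X ≤ (C + 1) ^ 2 * X := by
    have : C ≤ (C + 1) ^ 2 := by nlinarith
    exact mul_le_mul_of_nonneg_right this (by positivity)
  have h3 : (C + 1) ^ 2 * X ≤ (C + 1) ^ 2 * X ^ 2 := by
    have : X ≤ X ^ 2 := by nlinarith
    exact mul_le_mul_of_nonneg_left this (by positivity)
  exact h2.trans h3

/-- **SM2**: smoothness along flow (1), original units. -/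
theorem exists_vY (hAF : AFall c) (n : ℕ) : ∃ (C : ℝ) (P : ℕ), 0 ≤ C ∧
    ∀ {d : ℕ} {U : E d → ℝ} {h s : ℝ}, PotP h U → 0 < h → 0 < s → h * s ^ 2 ≤ 1 →
      ∀ (y : E d) {t : ℝ}, t ∈ Ioo (-1 : ℝ) 1 →
      eLpNorm (fun x => ((Dv (vY U y s))^[n + 1] (vY U y s)) t
        (evol (vY U y s) (Ioo (-1 : ℝ) 1) 0 t x)) 2 (stdGaussian (E d)) ≤
        ENNReal.ofReal (h * s ^ 2 * (C * (√(1 - t ^ 2))⁻¹ ^ P) * √d) := by
  obtain ⟨C, P, hC, H⟩ := exists_law1 hAF n
  refine ⟨C, P, hC, fun {d U h s} hU hh hs hτ1 y t ht => ?_⟩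
  have hf := Scale.potP_fs hU s
  have hτ : 0 < h * s ^ 2 := by positivity
  have h1 := H hf hτ hτ1 (s⁻¹ • y) ht
  rw [← Scale.map_evol_law1 hf (s⁻¹ • y) ht] at h1
  rw [Scale.vY_fs' hU hs.ne' y]
  have hc0 : Continuous ((Dv (vY (Scale.fs U s) (s⁻¹ • y) 1))^[n + 1]
      (vY (Scale.fs U s) (s⁻¹ • y) 1) t) := by
    rw [← continuousOn_univ]
    exact ((smOn_vY hf (s⁻¹ • y) one_pos).iterate_Dv isOpen_Ioo
      (smOn_vY hf (s⁻¹ • y) one_pos) (n + 1)).continuousOn.comp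
      (f := fun x : E d => (t, x)) (by fun_prop) (fun x _ => ⟨ht, mem_univ _⟩)
  have hm : Measurable (evol (vY (Scale.fs U s) (s⁻¹ • y) 1) (Ioo (-1 : ℝ) 1) 0 t) :=
    ((goodOn_vY hf (s⁻¹ • y) one_pos).continuous_evol ⟨by norm_num, by norm_num⟩ ht).measurable
  rw [eLpNorm_map_measure hc0.aestronglyMeasurable hm.aemeasurable] at h1
  exact h1

/-- **SM2 at a frozen centre** in the shape of `InnB`. -/
theorem exists_InnB (hAF : AFall c) (n : ℕ) : ∃ (C : ℝ) (P : ℕ), 0 ≤ C ∧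
    ∀ {d : ℕ} {U : E d → ℝ} {h s : ℝ}, PotP h U → 0 < h → 0 < s → h * s ^ 2 ≤ 1 →
      ∀ (y : E d) {t0 : ℝ}, 0 < t0 → t0 < 1 →
      InnB U y s (n + 1) t0
        (ENNReal.ofReal (h * s ^ 2 * (C * (√(1 - t0 ^ 2))⁻¹ ^ P) * √d)) := by
  obtain ⟨C, P, hC, H⟩ := exists_vY hAF n
  refine ⟨C, P, hC, fun {d U h s} hU hh hs hτ1 y t0 h0 h1 t ht => ?_⟩
  have ht' : t ∈ Ioo (-1 : ℝ) 1 := ⟨by linarith [ht.1], ht.2.trans_lt h1⟩
  refine (H hU hh hs hτ1 y ht').trans (ENNReal.ofReal_le_ofReal ?_)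
  have e1 : √(1 - t0 ^ 2) ≤ √(1 - t ^ 2) := by
    refine Real.sqrt_le_sqrt ?_
    have := ht.1
    have := ht.2
    nlinarith
  have e2 : (√(1 - t ^ 2))⁻¹ ≤ (√(1 - t0 ^ 2))⁻¹ :=
    inv_anti₀ (sqrt_pos' ⟨by linarith, h1⟩) e1
  have e3 : (√(1 - t ^ 2))⁻¹ ^ P ≤ (√(1 - t0 ^ 2))⁻¹ ^ P := pow_le_pow_left₀ (by positivity) e2 P
  gcongr

end Crest.Agent.R285.SM
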