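import Crest.Agent.R285.Prog
import Crest.Agent.R285.Conv3

/-!
Row 285 (S0430): sweeps of a flat system from an arbitrary start (`gvalF`, `pointF`, `outF`), and the
UNROLLED system `S.unroll z K`, whose sweep `K + 1` is the sweep `K + 1` of `S` from the start
`g_i = p z` (visible vector `z`).

(The Q-system has to be started from `g_i = X₁`, not from `g_i = 0`.)
-/

set_option autoImplicit false
set_option linter.unusedSectionVars false

open MeasureTheory ProbabilityTheory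
open Crest.OracleSampling (E Admissible)
open scoped NNReal

noncomputable section

namespace Crest.Agent.R285

namespace LF

variable {P ι : Type} [Fintype P] [Fintype ι] {X : Type} [NormedAddCommGroup X] [NormedSpace ℝ X]

/-- all calls replaced by `θ` times the visible vector `z` -/
def start {ι' : Type} [DecidableEq P] (θ : ℝ) (z : P) (f : LF P ι) : LF P ι' :=
  (f.1, f.2.1 + Pi.single z (θ * ∑ j, f.2.2 j), 0)

/-- calls to layer `k` -/
def lift {K : ℕ} (k : Fin (K + 1)) (f : LF P ι) : LF P (Fin (K + 1) × ι) :=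
  (f.1, f.2.1, fun x => if x.1 = k then f.2.2 x.2 else 0)

theorem eval_start {ι' : Type} [Fintype ι'] [DecidableEq P] (θ : ℝ) (z : P) (f : LF P ι) (c : X)
    (p : P → X) (g : ι' → X) : eval c p g (start θ z f) = eval c p (fun _ => θ • p z) f := by
  simp only [eval_apply, start, Pi.add_apply, add_smul, Finset.sum_add_distrib, Pi.zero_apply,
    zero_smul, Finset.sum_const_zero, add_zero, ← Finset.sum_smul]
  rw [Finset.sum_eq_single z (f := fun k => (Pi.single z (θ * ∑ j, f.2.2 j) : P → ℝ) k • p k)]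
  · rw [Pi.single_eq_same, smul_smul, add_assoc, mul_comm θ]
  · intro b _ hb; rw [Pi.single_eq_of_ne hb, zero_smul]
  · intro h; exact absurd (Finset.mem_univ z) h

theorem sum_lift {K : ℕ} (k : Fin (K + 1)) {β : Type*} [AddCommMonoid β]
    (F : Fin (K + 1) × ι → β) (hF : ∀ x, x.1 ≠ k → F x = 0) : ∑ x, F x = ∑ i, F (k, i) := by
  rw [Fintype.sum_prod_type]
  exact Finset.sum_eq_single k (fun b _ hb => Finset.sum_eq_zero fun i _ => hF (b, i) hb)
    (fun h => absurd (Finset.mem_univ k) h)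

theorem eval_lift {K : ℕ} (k : Fin (K + 1)) (f : LF P ι) (c : X) (p : P → X)
    (g : Fin (K + 1) × ι → X) : eval c p g (lift k f) = eval c p (fun i => g (k, i)) f := by
  simp only [eval_apply, lift]
  rw [sum_lift k]
  · simp
  · intro x hx; simp [hx]

theorem nz_start_le {ι' : Type} [Fintype ι'] [DecidableEq P] (θ : ℝ) (z : P) (f : LF P ι) (ρ : ℝ)
    (σ : ι → ℝ) (σ' : ι' → ℝ) : nz ρ σ' (start θ z f) ≤ nz ρ σ f := by
  refine le_of_sq_le_sq ?_ (nz_nonneg _ _ _)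
  rw [nz_sq, nz_sq]
  simp only [start, Pi.zero_apply, zero_mul, ne_eq, OfNat.ofNat_ne_zero, not_false_eq_true,
    zero_pow, Finset.sum_const_zero, add_zero]
  have : 0 ≤ ∑ i, (f.2.2 i * σ i) ^ 2 := Finset.sum_nonneg fun _ _ => sq_nonneg _
  linarith

theorem nz_lift {K : ℕ} (k : Fin (K + 1)) (f : LF P ι) (ρ : ℝ) (σ : Fin (K + 1) × ι → ℝ) :
    nz ρ σ (lift k f) = nz ρ (fun i => σ (k, i)) f := by
  have h : nz ρ σ (lift k f) ^ 2 = nz ρ (fun i => σ (k, i)) f ^ 2 := by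
    rw [nz_sq, nz_sq]
    simp only [lift]
    rw [sum_lift k]
    · simp
    · intro x hx; simp [hx]
  exact (pow_left_inj₀ (nz_nonneg _ _ _) (nz_nonneg _ _ _) two_ne_zero).mp h

theorem sum_abs_lift {K : ℕ} (k : Fin (K + 1)) (f : LF P ι) :
    ∑ x, |(lift k f).2.2 x| = ∑ i, |f.2.2 i| := by
  rw [sum_lift k]
  · simp [lift]
  · intro x hx; simp [lift, hx]

theorem tot_lift {K : ℕ} (k : Fin (K + 1)) (f : LF P ι) : tot (lift k f) = tot f := by
  unfold tot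
  rw [sum_abs_lift]
  rfl

theorem tot_start_le {ι' : Type} [Fintype ι'] [DecidableEq P] {θ : ℝ} (hθ : |θ| ≤ 1) (z : P)
    (f : LF P ι) : tot (start (ι' := ι') θ z f) ≤ tot f := by
  simp only [tot, start, Pi.add_apply, Pi.zero_apply, abs_zero, Finset.sum_const_zero, add_zero]
  have h1 : ∑ k, |f.2.1 k + (Pi.single z (θ * ∑ j, f.2.2 j) : P → ℝ) k|
      ≤ ∑ k, |f.2.1 k| + ∑ k, |(Pi.single z (θ * ∑ j, f.2.2 j) : P → ℝ) k| := by
    rw [← Finset.sum_add_distrib]; exact Finset.sum_le_sum fun k _ => abs_add_le _ _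
  have h2 : ∑ k, |(Pi.single z (θ * ∑ j, f.2.2 j) : P → ℝ) k| = |θ * ∑ j, f.2.2 j| := by
    rw [Finset.sum_eq_single z]
    · simp
    · intro b _ hb; rw [Pi.single_eq_of_ne hb, abs_zero]
    · intro h; exact absurd (Finset.mem_univ z) h
  have h3 : |∑ j, f.2.2 j| ≤ ∑ j, |f.2.2 j| := Finset.abs_sum_le_sum_abs _ _
  have h4 : |θ * ∑ j, f.2.2 j| ≤ |∑ j, f.2.2 j| := by
    rw [abs_mul]; exact mul_le_of_le_one_left (abs_nonneg _) hθ
  linarith

end LF

namespace FlatSys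

variable {P ι : Type} [Fintype P] [Fintype ι] {X : Type} [NormedAddCommGroup X] [NormedSpace ℝ X]

/-- The `G`-values after `k` sweeps from the start `g0`. -/
def gvalF (S : FlatSys P ι) (G : ℝ → X → X) (c : X) (p : P → X) (g0 : ι → X) : ℕ → ι → X
  | 0 => g0
  | k + 1 => fun i => G (S.r i) (LF.eval c p (gvalF S G c p g0 k) (S.pt i))

/-- The evaluation points of sweep `k` from the start `g0`. -/
def pointF (S : FlatSys P ι) (G : ℝ → X → X) (c : X) (p : P → X) (g0 : ι → X) (k : ℕ) (i : ι) : X :=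
  LF.eval c p (S.gvalF G c p g0 k) (S.pt i)

/-- The output after `k` sweeps from the start `g0`. -/
def outF (S : FlatSys P ι) (G : ℝ → X → X) (c : X) (p : P → X) (g0 : ι → X) (k : ℕ) : X :=
  LF.eval c p (S.gvalF G c p g0 k) S.out


theorem gvalF_succ (S : FlatSys P ι) (G : ℝ → X → X) (c : X) (p : P → X) (g0 : ι → X) (k : ℕ)
    (i : ι) : S.gvalF G c p g0 (k + 1) i = G (S.r i) (S.pointF G c p g0 k i) := rfl


/-- The unrolled system, start `g_i = θ • p z`. -/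
def unroll [DecidableEq P] (S : FlatSys P ι) (θ : ℝ) (z : P) (K : ℕ) :
    FlatSys P (Fin (K + 1) × ι) where
  r x := S.r x.2
  pt x := Fin.cases (LF.start θ z (S.pt x.2)) (fun k => LF.lift k.castSucc (S.pt x.2)) x.1
  out := LF.lift (Fin.last K) S.out

theorem unroll_pt_zero [DecidableEq P] (S : FlatSys P ι) (θ : ℝ) (z : P) (K : ℕ) (i : ι) :
    (S.unroll θ z K).pt (0, i) = LF.start θ z (S.pt i) := rfl

theorem unroll_pt_succ [DecidableEq P] (S : FlatSys P ι) (θ : ℝ) (z : P) (K : ℕ) (k : Fin K) (i : ι) :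
    (S.unroll θ z K).pt (k.succ, i) = LF.lift k.castSucc (S.pt i) := rfl

theorem gval_unroll [DecidableEq P] (S : FlatSys P ι) (θ : ℝ) (z : P) (K : ℕ) (G : ℝ → X → X) (c : X)
    (p : P → X) (m : ℕ) (k : Fin (K + 1)) (hk : k.val < m) (i : ι) :
    (S.unroll θ z K).gval G c p m (k, i) = S.gvalF G c p (fun _ => θ • p z) (k.val + 1) i := by
  induction m generalizing k i with
  | zero => exact absurd hk (Nat.not_lt_zero _)
  | succ m ih =>
    rw [gval_succ, gvalF_succ]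
    change G (S.r i) _ = G (S.r i) _
    congr 1
    unfold point pointF
    rcases Fin.eq_zero_or_eq_succ k with rfl | ⟨j, rfl⟩
    · rw [unroll_pt_zero, LF.eval_start]; rfl
    · rw [unroll_pt_succ, LF.eval_lift]
      have hj : ∀ i, (S.unroll θ z K).gval G c p m (j.castSucc, i)
          = S.gvalF G c p (fun _ => θ • p z) (j.val + 1) i := fun i =>
        ih j.castSucc (by simp only [Fin.val_succ] at hk; simp only [Fin.val_castSucc]; omega) i
      simp only [hj, Fin.val_succ]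

/-- Sweep `K + 1` of the unrolled system is sweep `K + 1` of `S` from the start `θ • p z`. -/
theorem outv_unroll [DecidableEq P] (S : FlatSys P ι) (θ : ℝ) (z : P) (K : ℕ) (G : ℝ → X → X) (c : X)
    (p : P → X) : (S.unroll θ z K).outv G c p (K + 1) = S.outF G c p (fun _ => θ • p z) (K + 1) := by
  unfold outv outF
  change LF.eval c p _ (LF.lift (Fin.last K) S.out) = _
  rw [LF.eval_lift]
  have h : ∀ i, (S.unroll θ z K).gval G c p (K + 1) (Fin.last K, i)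
      = S.gvalF G c p (fun _ => θ • p z) (K + 1) i := fun i => by
    rw [gval_unroll S θ z K G c p (K + 1) (Fin.last K) (by simp) i, Fin.val_last]
  simp only [h]

/-! ### original units -/

section orig

variable (S : FlatSys P ι) (s : ℝ) (a e : P → ℝ) (o : LF P ι) (Gf : ℝ → X → X) (c : X) (p : P → X)
  (g0 : ι → X)

theorem gvalF_orig (k : ℕ) (i : ι) :
    s • (S.orig s a e o).gvalF Gf c p g0 k i
      = S.gvalF (fun r y => s • Gf (s * r) (c + s • y)) 0 (fun k => a k • (p k - e k • c))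
          (fun i => s • g0 i) k i := by
  induction k generalizing i with
  | zero => rfl
  | succ k ih =>
    have hg : (fun i => s • (S.orig s a e o).gvalF Gf c p g0 k i)
        = S.gvalF (fun r y => s • Gf (s * r) (c + s • y)) 0 (fun k => a k • (p k - e k • c))
          (fun i => s • g0 i) k :=
      funext ih
    rw [gvalF_succ, gvalF_succ]
    change s • Gf (s * S.r i) (LF.eval c p _ (LF.pos s a e (S.pt i))) = _
    rw [LF.eval_pos, hg]
    rfl

/-- Gradient-like outputs, any start. -/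
theorem outF_orig_grd (k : ℕ) :
    (S.orig s a e (LF.grd s a e S.out)).outF Gf c p g0 k
      = s⁻¹ • S.outF (fun r y => s • Gf (s * r) (c + s • y)) 0
          (fun k => a k • (p k - e k • c)) (fun i => s • g0 i) k := by
  simp only [outF]
  have hg : (fun i => s • (S.orig s a e (LF.grd s a e S.out)).gvalF Gf c p g0 k i)
      = S.gvalF (fun r y => s • Gf (s * r) (c + s • y)) 0 (fun k => a k • (p k - e k • c))
          (fun i => s • g0 i) k :=
    funext fun i => S.gvalF_orig s a e _ Gf c p g0 k i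
  change LF.eval c p _ (LF.grd s a e S.out) = _
  rw [LF.eval_grd, hg]

end orig

/-! ### Picard iterates from an arbitrary start versus a point of small defect -/

/-- One step. -/
theorem pointF_succ_sub_le (S : FlatSys P ι) {G : ℝ → X → X} {Λ : ℝ} {w : ι → ℝ} {L : ℝ}
    (hS : S.Contr Λ w L) (hG : ∀ i x y, ‖G (S.r i) x - G (S.r i) y‖ ≤ Λ * ‖x - y‖)
    (c : X) (p : P → X) (g0 : ι → X) (x : ι → X) {δ e : ℝ} (hΛ : 0 ≤ Λ) (he : 0 ≤ e)
    (hdef : ∀ i, ‖x i - S.evalAt G c p x (S.pt i)‖ ≤ δ * w i) (k : ℕ)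
    (hk : ∀ i, ‖S.pointF G c p g0 k i - x i‖ ≤ e * w i) (i : ι) :
    ‖S.pointF G c p g0 (k + 1) i - x i‖ ≤ (L * e + δ) * w i := by
  have h1 : S.pointF G c p g0 (k + 1) i - x i
      = (S.pointF G c p g0 (k + 1) i - S.evalAt G c p x (S.pt i))
        - (x i - S.evalAt G c p x (S.pt i)) := by abel
  have h2 : ‖S.pointF G c p g0 (k + 1) i - S.evalAt G c p x (S.pt i)‖ ≤ L * e * w i := by
    unfold pointF evalAt
    refine (LF.norm_eval_sub_le _ _ _ _ _).trans ?_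
    have h3 : ∀ j, ‖S.gvalF G c p g0 (k + 1) j - G (S.r j) (x j)‖ ≤ Λ * (e * w j) := fun j => by
      rw [gvalF_succ]
      exact (hG j _ _).trans (mul_le_mul_of_nonneg_left (hk j) hΛ)
    calc ∑ j, |(S.pt i).2.2 j| * ‖S.gvalF G c p g0 (k + 1) j - G (S.r j) (x j)‖
        ≤ ∑ j, |(S.pt i).2.2 j| * (Λ * (e * w j)) :=
          Finset.sum_le_sum fun j _ => mul_le_mul_of_nonneg_left (h3 j) (abs_nonneg _)
      _ = e * (Λ * LF.l1 w (S.pt i)) := by
          rw [LF.l1, Finset.mul_sum, Finset.mul_sum]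
          exact Finset.sum_congr rfl fun j _ => by ring
      _ ≤ e * (L * w i) := mul_le_mul_of_nonneg_left (hS.le i) he
      _ = L * e * w i := by ring
  rw [h1]
  calc _ ≤ _ := norm_sub_le _ _
    _ ≤ L * e * w i + δ * w i := add_le_add h2 (hdef i)
    _ = _ := by ring

/-- Picard iterates (any start) versus a point of small defect. -/
theorem pointF_sub_le (S : FlatSys P ι) {G : ℝ → X → X} {Λ : ℝ} {w : ι → ℝ} {L : ℝ}
    (hS : S.Contr Λ w L) (hL0 : 0 ≤ L) (hL : L ≤ 1 / 2)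
    (hG : ∀ i x y, ‖G (S.r i) x - G (S.r i) y‖ ≤ Λ * ‖x - y‖) (hΛ : 0 ≤ Λ)
    (c : X) (p : P → X) (g0 : ι → X) (x : ι → X) {δ B : ℝ} (hδ : 0 ≤ δ) (hB : 0 ≤ B)
    (hdef : ∀ i, ‖x i - S.evalAt G c p x (S.pt i)‖ ≤ δ * w i)
    (h0 : ∀ i, ‖S.pointF G c p g0 0 i - x i‖ ≤ B * w i) (k : ℕ) (i : ι) :
    ‖S.pointF G c p g0 k i - x i‖ ≤ (L ^ k * B + 2 * δ) * w i := by
  induction k generalizing i with
  | zero =>
    refine (h0 i).trans (mul_le_mul_of_nonneg_right ?_ (hS.pos i))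
    simp only [pow_zero, one_mul]; linarith
  | succ k ih =>
    have he : 0 ≤ L ^ k * B + 2 * δ := by positivity
    refine (S.pointF_succ_sub_le hS hG c p g0 x hΛ he hdef k ih i).trans
      (mul_le_mul_of_nonneg_right ?_ (hS.pos i))
    rw [pow_succ]
    nlinarith

/-- The start error: defect plus the error of the start values. -/
theorem pointF_zero_sub_le (S : FlatSys P ι) {G : ℝ → X → X}
    (c : X) (p : P → X) (g0 : ι → X) (x : ι → X) {δ D : ℝ} {w : ι → ℝ} (i : ι)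
    (hdef : ‖x i - S.evalAt G c p x (S.pt i)‖ ≤ δ * w i)
    (h0 : ∀ j, ‖g0 j - G (S.r j) (x j)‖ ≤ D) :
    ‖S.pointF G c p g0 0 i - x i‖ ≤ (∑ j, |(S.pt i).2.2 j|) * D + δ * w i := by
  have h1 : S.pointF G c p g0 0 i - x i
      = (S.pointF G c p g0 0 i - S.evalAt G c p x (S.pt i))
        - (x i - S.evalAt G c p x (S.pt i)) := by abel
  have h2 : ‖S.pointF G c p g0 0 i - S.evalAt G c p x (S.pt i)‖ ≤ (∑ j, |(S.pt i).2.2 j|) * D := by
    unfold pointF evalAt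
    refine (LF.norm_eval_sub_le _ _ _ _ _).trans ?_
    rw [Finset.sum_mul]
    exact Finset.sum_le_sum fun j _ => mul_le_mul_of_nonneg_left (h0 j) (abs_nonneg _)
  rw [h1]
  exact (norm_sub_le _ _).trans (add_le_add h2 hdef)

/-- The output after `k + 1` sweeps (any start) versus the exact output. -/
theorem outF_sub_le (S : FlatSys P ι) {G : ℝ → X → X} {Λ : ℝ} {w : ι → ℝ} {L : ℝ}
    (hS : S.Contr Λ w L) (hL0 : 0 ≤ L) (hL : L ≤ 1 / 2)
    (hG : ∀ i x y, ‖G (S.r i) x - G (S.r i) y‖ ≤ Λ * ‖x - y‖) (hΛ : 0 ≤ Λ)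
    (c : X) (p : P → X) (g0 : ι → X) (x : ι → X) {δ B : ℝ} (hδ : 0 ≤ δ) (hB : 0 ≤ B)
    (hdef : ∀ i, ‖x i - S.evalAt G c p x (S.pt i)‖ ≤ δ * w i)
    (h0 : ∀ i, ‖S.pointF G c p g0 0 i - x i‖ ≤ B * w i) (k : ℕ) :
    ‖S.outF G c p g0 (k + 1) - S.evalAt G c p x S.out‖
      ≤ Λ * LF.l1 w S.out * (L ^ k * B + 2 * δ) := by
  unfold outF evalAt
  refine (LF.norm_eval_sub_le _ _ _ _ _).trans ?_
  rw [LF.l1, Finset.mul_sum, Finset.sum_mul]
  refine Finset.sum_le_sum fun j _ => ?_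
  have h1 : ‖S.gvalF G c p g0 (k + 1) j - G (S.r j) (x j)‖ ≤ Λ * ((L ^ k * B + 2 * δ) * w j) := by
    rw [gvalF_succ]
    exact (hG j _ _).trans
      (mul_le_mul_of_nonneg_left (S.pointF_sub_le hS hL0 hL hG hΛ c p g0 x hδ hB hdef h0 k j) hΛ)
  calc _ ≤ |S.out.2.2 j| * (Λ * ((L ^ k * B + 2 * δ) * w j)) :=
        mul_le_mul_of_nonneg_left h1 (abs_nonneg _)
    _ = _ := by ring

end FlatSys

/-! ### the program theorem for the unrolled system -/

section prog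

variable {d : ℕ} {Pt ι : Type} [Fintype Pt] [Fintype ι] [DecidableEq Pt] {S : FlatSys Pt ι} {rc : ℝ}
    {σ rin : ι → ℝ} {N' q' : ℕ} {L' : ℝ≥0} {D' Λ : ℝ} {T : ℝ≥0} {b : ℝ}

theorem ProgData.unroll (h : ProgData d S rc σ rin N' q' L' D' Λ T b) {θ : ℝ} (hθ : |θ| ≤ 1)
    (z : Pt) (K : ℕ) :
    ProgData d (S.unroll θ z K) rc (fun x => σ x.2) (fun x => rin x.2) N' q' L' D' Λ T b where
  rc0 := h.rc0
  σ0 x := h.σ0 x.2
  N1 := h.N1
  D0 := h.D0
  Λ1 := h.Λ1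
  T1 := h.T1
  b0 := h.b0
  bT := h.bT
  growth V hV x := h.growth V hV x.2
  tot x := by
    obtain ⟨k, i⟩ := x
    rcases Fin.eq_zero_or_eq_succ k with rfl | ⟨j, rfl⟩
    · rw [FlatSys.unroll_pt_zero]; exact (LF.tot_start_le hθ z _).trans (h.tot i)
    · rw [FlatSys.unroll_pt_succ, LF.tot_lift]; exact h.tot i
  bet x := by
    obtain ⟨k, i⟩ := x
    rcases Fin.eq_zero_or_eq_succ k with rfl | ⟨j, rfl⟩
    · rw [FlatSys.unroll_pt_zero]
      simp only [LF.start, Pi.zero_apply, abs_zero, Finset.sum_const_zero]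
      exact h.b0
    · rw [FlatSys.unroll_pt_succ, LF.sum_abs_lift]; exact h.bet i
  margin x := by
    obtain ⟨k, i⟩ := x
    rcases Fin.eq_zero_or_eq_succ k with rfl | ⟨j, rfl⟩
    · rw [FlatSys.unroll_pt_zero]; exact (LF.nz_start_le θ z _ _ σ _).trans (h.margin i)
    · rw [FlatSys.unroll_pt_succ, LF.nz_lift]; exact h.margin i
  con x := h.con x.2

end prog

/-! ### mean error, arbitrary start -/

namespace FlatSys

open Finset
open scoped ENNReal

variable {Pt ι : Type} [Fintype Pt] [Fintype ι] {X : Type} [NormedAddCommGroup X]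
  [NormedSpace ℝ X]

/-- Pathwise: sums instead of suprema of the defects; all weights `1`. -/
theorem outF_sub_le_sum (S : FlatSys Pt ι) {G : ℝ → X → X} {Λ L : ℝ}
    (hS : S.Contr Λ (fun _ => 1) L) (hL0 : 0 ≤ L) (hL : L ≤ 1 / 2)
    (hG : ∀ i x y, ‖G (S.r i) x - G (S.r i) y‖ ≤ Λ * ‖x - y‖) (hΛ : 0 ≤ Λ)
    (c : X) (p : Pt → X) (g0 : ι → X) (x : ι → X) (X0 : X) {B : ℝ}
    (hB : ∀ i, ∑ j, |(S.pt i).2.2 j| ≤ B) (k : ℕ) :
    ‖S.outF G c p g0 (k + 1) - X0‖ ≤ Λ * LF.l1 (fun _ => 1) S.out *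
        (L ^ k * B * (∑ i, ‖g0 i - G (S.r i) (x i)‖) +
          3 * ∑ i, ‖x i - S.evalAt G c p x (S.pt i)‖) +
      ‖S.evalAt G c p x S.out - X0‖ := by
  set D := ∑ i, ‖g0 i - G (S.r i) (x i)‖ with hD
  set δ := ∑ i, ‖x i - S.evalAt G c p x (S.pt i)‖ with hδ
  have hD0 : 0 ≤ D := Finset.sum_nonneg fun _ _ => norm_nonneg _
  have hδ0 : 0 ≤ δ := Finset.sum_nonneg fun _ _ => norm_nonneg _
  have hdef : ∀ i, ‖x i - S.evalAt G c p x (S.pt i)‖ ≤ δ * 1 := fun i => by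
    rw [mul_one]
    exact Finset.single_le_sum (f := fun i => ‖x i - S.evalAt G c p x (S.pt i)‖)
      (fun _ _ => norm_nonneg _) (Finset.mem_univ i)
  have hst : ∀ i, ‖g0 i - G (S.r i) (x i)‖ ≤ D := fun i =>
    Finset.single_le_sum (f := fun i => ‖g0 i - G (S.r i) (x i)‖)
      (fun _ _ => norm_nonneg _) (Finset.mem_univ i)
  have h0 : ∀ i, ‖S.pointF G c p g0 0 i - x i‖ ≤ (|B| * D + δ) * 1 := fun i => by
    refine (S.pointF_zero_sub_le c p g0 x (w := fun _ => 1) i (hdef i) hst).trans ?_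
    have : (∑ j, |(S.pt i).2.2 j|) * D ≤ |B| * D :=
      mul_le_mul_of_nonneg_right ((hB i).trans (le_abs_self B)) hD0
    linarith
  have h1 := S.outF_sub_le hS hL0 hL hG hΛ c p g0 x hδ0 (by positivity) hdef h0 k
  have hl1 : 0 ≤ LF.l1 (fun _ => (1 : ℝ)) S.out := LF.l1_nonneg (fun _ => zero_le_one) _
  have hLk : L ^ k ≤ 1 := pow_le_one₀ hL0 (by linarith)
  have hLk0 : 0 ≤ L ^ k := pow_nonneg hL0 k
  have hB0 : ∀ i : ι, |B| * D = B * D := fun i => by
    rw [abs_of_nonneg]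
    exact (Finset.sum_nonneg fun _ _ => abs_nonneg _).trans (hB i)
  have hBD : |B| * D = B * D := by
    rcases isEmpty_or_nonempty ι with h | ⟨⟨i⟩⟩
    · simp [hD]
    · exact hB0 i
  calc ‖S.outF G c p g0 (k + 1) - X0‖ ≤ ‖S.outF G c p g0 (k + 1) - S.evalAt G c p x S.out‖ +
        ‖S.evalAt G c p x S.out - X0‖ := norm_sub_le_norm_sub_add_norm_sub _ _ _
    _ ≤ Λ * LF.l1 (fun _ => 1) S.out * (L ^ k * (|B| * D + δ) + 2 * δ) +
        ‖S.evalAt G c p x S.out - X0‖ := add_le_add h1 le_rfl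
    _ ≤ _ := by
        refine add_le_add (mul_le_mul_of_nonneg_left ?_ (mul_nonneg hΛ hl1)) le_rfl
        rw [hBD]
        nlinarith

variable {Ω : Type*} [MeasurableSpace Ω] {P : Measure Ω}

/-- **Mean error of the output**, arbitrary start. -/
theorem outF_mean (S : FlatSys Pt ι) {G : ℝ → X → X} {Λ L : ℝ}
    (hS : S.Contr Λ (fun _ => 1) L) (hL0 : 0 ≤ L) (hL : L ≤ 1 / 2)
    (hG : ∀ i x y, ‖G (S.r i) x - G (S.r i) y‖ ≤ Λ * ‖x - y‖) (hΛ : 0 ≤ Λ)
    (c : X) (p : Ω → Pt → X) (g0 : Ω → ι → X) (x : Ω → ι → X) (X0 : Ω → X) {B : ℝ} (hB0 : 0 ≤ B)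
    (hB : ∀ i, ∑ j, |(S.pt i).2.2 j| ≤ B) (k : ℕ)
    (hm0 : ∀ i, AEMeasurable (fun ω => ‖g0 ω i - G (S.r i) (x ω i)‖ₑ) P)
    (hm1 : ∀ i, AEMeasurable (fun ω => ‖x ω i - S.evalAt G c (p ω) (x ω) (S.pt i)‖ₑ) P)
    {D0 δ : ι → ℝ≥0∞} {δo : ℝ≥0∞}
    (hD : ∀ i, ∫⁻ ω, ‖g0 ω i - G (S.r i) (x ω i)‖ₑ ∂P ≤ D0 i)
    (hδ : ∀ i, ∫⁻ ω, ‖x ω i - S.evalAt G c (p ω) (x ω) (S.pt i)‖ₑ ∂P ≤ δ i)
    (hδo : ∫⁻ ω, ‖S.evalAt G c (p ω) (x ω) S.out - X0 ω‖ₑ ∂P ≤ δo) :
    ∫⁻ ω, ‖S.outF G c (p ω) (g0 ω) (k + 1) - X0 ω‖ₑ ∂P ≤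
      ENNReal.ofReal (Λ * LF.l1 (fun _ => 1) S.out) *
        (ENNReal.ofReal (L ^ k * B) * (∑ i, D0 i) + 3 * ∑ i, δ i) + δo := by
  have hl1 : 0 ≤ LF.l1 (fun _ => (1 : ℝ)) S.out := LF.l1_nonneg (fun _ => zero_le_one) _
  have key : ∀ ω, ‖S.outF G c (p ω) (g0 ω) (k + 1) - X0 ω‖ₑ ≤
      ENNReal.ofReal (Λ * LF.l1 (fun _ => 1) S.out) *
        (ENNReal.ofReal (L ^ k * B) * (∑ i, ‖g0 ω i - G (S.r i) (x ω i)‖ₑ) +
          3 * ∑ i, ‖x ω i - S.evalAt G c (p ω) (x ω) (S.pt i)‖ₑ) +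
      ‖S.evalAt G c (p ω) (x ω) S.out - X0 ω‖ₑ := by
    intro ω
    have h1 := S.outF_sub_le_sum hS hL0 hL hG hΛ c (p ω) (g0 ω) (x ω) (X0 ω) hB k
    have e : ∀ a : ι → X, ∑ i, ‖a i‖ₑ = ENNReal.ofReal (∑ i, ‖a i‖) := by
      intro a
      rw [ENNReal.ofReal_sum_of_nonneg fun _ _ => norm_nonneg _]
      exact Finset.sum_congr rfl fun i _ => (ofReal_norm _).symm
    rw [← ofReal_norm, e, e]
    refine (ENNReal.ofReal_le_ofReal h1).trans (le_of_eq ?_)
    have s1 : 0 ≤ ∑ i, ‖g0 ω i - G (S.r i) (x ω i)‖ :=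
      Finset.sum_nonneg fun _ _ => norm_nonneg _
    have s2 : 0 ≤ ∑ i, ‖x ω i - S.evalAt G c (p ω) (x ω) (S.pt i)‖ :=
      Finset.sum_nonneg fun _ _ => norm_nonneg _
    have hLk : 0 ≤ L ^ k * B := mul_nonneg (pow_nonneg hL0 k) hB0
    have h2 : (3 : ℝ≥0∞) = ENNReal.ofReal 3 := by simp
    have h3 : (0 : ℝ) ≤ 3 := by norm_num
    rw [h2, ← ENNReal.ofReal_mul hLk, ← ENNReal.ofReal_mul h3,
      ← ENNReal.ofReal_add (mul_nonneg hLk s1) (mul_nonneg h3 s2),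
      ← ENNReal.ofReal_mul (mul_nonneg hΛ hl1), ← ofReal_norm,
      ← ENNReal.ofReal_add (mul_nonneg (mul_nonneg hΛ hl1)
        (add_nonneg (mul_nonneg hLk s1) (mul_nonneg h3 s2))) (norm_nonneg _)]
  refine (lintegral_mono key).trans ?_
  have hs0 : AEMeasurable (fun ω => ∑ i, ‖g0 ω i - G (S.r i) (x ω i)‖ₑ) P :=
    Finset.aemeasurable_fun_sum _ fun i _ => hm0 i
  have hs1 : AEMeasurable (fun ω => ∑ i, ‖x ω i - S.evalAt G c (p ω) (x ω) (S.pt i)‖ₑ) P :=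
    Finset.aemeasurable_fun_sum _ fun i _ => hm1 i
  have hs2 : AEMeasurable (fun ω => ENNReal.ofReal (L ^ k * B) *
      (∑ i, ‖g0 ω i - G (S.r i) (x ω i)‖ₑ) +
        3 * ∑ i, ‖x ω i - S.evalAt G c (p ω) (x ω) (S.pt i)‖ₑ) P :=
    (hs0.const_mul _).add (hs1.const_mul _)
  rw [lintegral_add_left' (hs2.const_mul _), lintegral_const_mul'' _ hs2,
    lintegral_add_left' (hs0.const_mul _), lintegral_const_mul'' _ hs0,
    lintegral_const_mul'' _ hs1, lintegral_finsetSum' _ fun i _ => hm0 i,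
    lintegral_finsetSum' _ fun i _ => hm1 i]
  gcongr with i _ i _
  · exact hD i
  · exact hδ i

end FlatSys

end Crest.Agent.R285
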