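import Crest.Agent.R285.QFlat
import Crest.Agent.R285.ProgW
import Crest.Agent.R285.DrawAvg
import Crest.Agent.R285.Unroll
import Crest.Agent.R285.LawPX

-- ▼ part R285/QProg
section

/-!
Row 285 (S0430): the Q-system: contraction (rescaled units), the system in original units, noise
margins, `ProgData`, and the draw of the output.

Original units: `ρ = s σb`, visible `p = ![y₁, x₁, q]`.
-/

set_option autoImplicit false
set_option linter.unusedSectionVars false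

open MeasureTheory ProbabilityTheory
open Crest.OracleSampling (E Admissible)
open scoped NNReal

noncomputable section

namespace Crest.Agent.R285

open Crest.Agent.R285.Num

namespace QPar

variable (Q : QPar)

/-- The Q-system in original units; the output is gradient-like. -/
def osys (s : ℝ) : FlatSys (Fin 3) (QI Q.n Q.M) :=
  Q.sys.orig s (LF.a3 s) LF.e3 (LF.grd s (LF.a3 s) LF.e3 Q.sys.out)

variable {Q}



theorem card_QI (n M : ℕ) :
    Fintype.card (QI n M) = M * (n + 1) * (1 + (2 * n + 5) * (n + 2)) := by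
  simp only [Fintype.card_sum, Fintype.card_prod, Fintype.card_fin, Fintype.card_unit]
  ring

theorem one_le_cN (n : ℕ) : 1 ≤ cN n := by
  unfold cN
  have h1 := cW_nonneg n
  have h2 := derC_nonneg n
  have h3 := intC_nonneg (n + 2)
  have h4 : 0 ≤ cW n * (1 + derC n) := by positivity
  have h5 : 0 ≤ cW n * derC n ^ 2 := by positivity
  have h6 : 0 ≤ intC (n + 2) * derC n := by positivity
  linarith

/-- bound of the call coefficients of the points in original units -/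
def bq (Q : QPar) (s σb : ℝ) : ℝ := cN Q.n * (s ^ 2 + Q.a0 * s / (σb * Q.k1))

/-- weights of the visible vectors -/
def ww (w : ℝ) : Fin 3 → ℝ := ![1, w, 1]

namespace Ok

/-- **Contraction**, rescaled units. -/
theorem contr (h : Q.Ok) {τ : ℝ} (hτ : 0 ≤ τ) :
    Q.sys.Contr τ (fun _ => 1) (τ * (cN Q.n * (1 + Q.a0 / (Q.ρ * Q.k1)))) where
  pos := fun _ => zero_le_one
  le := fun i => by
    rw [mul_one]
    exact mul_le_mul_of_nonneg_left (h.NN_pt i) hτ

theorem bq_nonneg (h : Q.Ok) {s σb : ℝ} (hs : 0 < s) (hσb : 0 < σb) : 0 ≤ Q.bq s σb := by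
  have := (cN_pos Q.n).le
  have := h.a0
  have := h.k1_pos
  unfold bq
  positivity

/-- the size of the call coefficients in original units -/
theorem s_sq_NN_le (h : Q.Ok) {s σb : ℝ} (hs : 0 < s) (hσb : 0 < σb) (hρ : Q.ρ = s * σb)
    (i : QI Q.n Q.M) : s ^ 2 * LF.NN (Q.sys.pt i) ≤ Q.bq s σb := by
  have h1 := mul_le_mul_of_nonneg_left (h.NN_pt i) (sq_nonneg s)
  refine h1.trans (le_of_eq ?_)
  rw [hρ]
  have := h.k1_pos.ne'
  unfold bq
  field_simp

theorem s_div_le (h : Q.Ok) {s σb : ℝ} (hs : 0 < s) (hσb : 0 < σb)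
    (hb : Q.bq s σb ≤ 1) : s / σb ≤ 1 := by
  have h1 := one_le_cN Q.n
  have h2 := h.a1
  have h3 := h.k1_pos
  have h4 := h.k1_le
  have h5 : s / σb ≤ Q.a0 * s / (σb * Q.k1) := by
    rw [div_le_div_iff₀ hσb (by positivity)]
    calc s * (σb * Q.k1) ≤ s * (σb * 1) := by gcongr
      _ = 1 * (s * σb) := by ring
      _ ≤ Q.a0 * (s * σb) := by gcongr; linarith
      _ = Q.a0 * s * σb := by ring
  have h6 : 0 ≤ Q.a0 * s / (σb * Q.k1) := by have := h.a0; positivity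
  unfold bq at hb
  nlinarith [sq_nonneg s]

/-- **Noise margin**, original units: hidden centre with noise `s / 8`. -/
theorem margin (h : Q.Ok) {s σb σin : ℝ} (hs : 0 < s) (hσb : 0 < σb) (hρ : Q.ρ = s * σb)
    (hσin : 0 ≤ σin) (hin : σin * (cN Q.n * (s + Q.a0 / (σb * Q.k1))) ≤ Q.k1 / 16)
    (i : QI Q.n Q.M) :
    LF.nz (s / 8) (fun _ => σin) ((Q.osys s).pt i) ≤ s * Q.sys.r i / 4 := by
  have h1 := LF.nz_pos3_le hs (rc := s / 8) (by positivity) (σ := fun _ => σin) (fun _ => hσin)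
    (Q.sys.pt i)
  refine h1.trans ?_
  have h2 := (h.visc_pt i).1
  have h3 := h.r_ge i
  have h4 : s / 8 / s = 1 / 8 := by field_simp
  rw [abs_of_nonneg (by linarith [h2.2.1]), h4, LF.l1_const]
  have h5 : s * σin * LF.NN (Q.sys.pt i) ≤ Q.k1 / 16 := by
    have h6 := mul_le_mul_of_nonneg_left (h.NN_pt i) (mul_nonneg hs.le hσin)
    refine (h6.trans (le_of_eq ?_)).trans hin
    rw [hρ]
    have := h.k1_pos.ne'
    field_simp
  have h7 : (1 - (Q.sys.pt i).2.1 0) * (1 / 8) + s * σin * LF.NN (Q.sys.pt i)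
      ≤ Q.sys.r i / 4 := by
    have := h2.2.2
    linarith
  calc s * _ ≤ s * (Q.sys.r i / 4) := mul_le_mul_of_nonneg_left h7 hs.le
    _ = _ := by ring

theorem visc1_osys_le (h : Q.Ok) {s σb : ℝ} (hs : 0 < s) (hσb : 0 < σb)
    (hρ : Q.ρ = s * σb) (i : QI Q.n Q.M) :
    s ^ 2 * |(Q.sys.pt i).2.1 1| ≤ s / σb := by
  have h5 := mul_le_mul_of_nonneg_left (h.visc_pt i).2.1 (sq_nonneg s)
  refine h5.trans (le_of_eq ?_)
  rw [hρ]
  field_simp

theorem tot_pt (h : Q.Ok) {s σb : ℝ} (hs : 0 < s) (hs1 : s ≤ 1) (hσb : 0 < σb)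
    (hρ : Q.ρ = s * σb) (hb : Q.bq s σb ≤ 1) (i : QI Q.n Q.M) :
    LF.tot ((Q.osys s).pt i) ≤ 4 := by
  change LF.tot (LF.pos s (LF.a3 s) LF.e3 (Q.sys.pt i)) ≤ 4
  rw [LF.tot_pos3 hs]
  have h2 := h.visc_pt i
  have h3 : s ^ 2 * ∑ i_1, |(Q.sys.pt i).2.2 i_1| ≤ 1 := by
    rw [← LF.NN_eq]
    exact (h.s_sq_NN_le hs hσb hρ i).trans hb
  have h4 := (h.visc1_osys_le hs hσb hρ i).trans (h.s_div_le hs hσb hb)
  have h5 : s * |(Q.sys.pt i).2.1 2| ≤ 1 := by
    calc s * |(Q.sys.pt i).2.1 2| ≤ 1 * 1 := mul_le_mul hs1 h2.2.2 (abs_nonneg _) zero_le_one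
      _ = 1 := one_mul _
  rw [abs_of_nonneg (by linarith [h2.1.2.1]), abs_of_nonneg h2.1.1]
  linarith

/-- total size with weights -/
theorem tot_ptW (h : Q.Ok) {s σb w : ℝ} (hs : 0 < s) (hs1 : s ≤ 1) (hσb : 0 < σb)
    (hρ : Q.ρ = s * σb) (hb : Q.bq s σb ≤ 1) (hw : 0 < w) (hw1 : s / σb ≤ w) (i : QI Q.n Q.M) :
    LF.tot (LF.wdiv (ww w) ((Q.osys s).pt i)) ≤ 4 := by
  have h2 := h.visc_pt i
  have h3 : s ^ 2 * ∑ i_1, |(Q.sys.pt i).2.2 i_1| ≤ 1 := by
    rw [← LF.NN_eq]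
    exact (h.s_sq_NN_le hs hσb hρ i).trans hb
  have h4 : s ^ 2 * |(Q.sys.pt i).2.1 1| / w ≤ 1 := by
    rw [div_le_one hw]
    exact (h.visc1_osys_le hs hσb hρ i).trans hw1
  have h5 : s * |(Q.sys.pt i).2.1 2| ≤ 1 := by
    calc s * |(Q.sys.pt i).2.1 2| ≤ 1 * 1 := mul_le_mul hs1 h2.2.2 (abs_nonneg _) zero_le_one
      _ = 1 := one_mul _
  have key : LF.tot (LF.wdiv (ww w) ((Q.osys s).pt i))
      = |1 - (Q.sys.pt i).2.1 0| + |(Q.sys.pt i).2.1 0| + s ^ 2 * |(Q.sys.pt i).2.1 1| / w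
        + s * |(Q.sys.pt i).2.1 2| + s ^ 2 * ∑ j, |(Q.sys.pt i).2.2 j| := by
    change LF.tot (LF.wdiv (ww w) (LF.pos s (LF.a3 s) LF.e3 (Q.sys.pt i))) = _
    rw [LF.tot, LF.wdiv_beta, LF.sum_call_pos, Fin.sum_univ_three]
    simp only [LF.wdiv]
    rw [LF.pos3_fst hs.ne']
    simp only [ww, LF.pos_vis, LF.a3, Matrix.cons_val_zero,
      Matrix.cons_val_one, Matrix.cons_val_two, Matrix.tail_cons, Matrix.head_cons, mul_one,
      abs_mul, abs_of_pos hs, abs_inv, div_one, abs_div, abs_of_pos hw]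
    field_simp
    ring
  rw [key, abs_of_nonneg (by linarith [h2.1.2.1]), abs_of_nonneg h2.1.1]
  linarith

theorem out_osys (h : Q.Ok) {s : ℝ} (hs : 0 < s) :
    (Q.osys s).out = (0, ![0, 1, 0], Q.sys.out.2.2) :=
  LF.grd3_out hs _ h.visc_out.1 h.visc_out.2.1 h.visc_out.2.2

theorem sum_out (h : Q.Ok) {s : ℝ} (hs : 0 < s) :
    ∑ i, |(Q.osys s).out.2.2 i| ≤ cO Q.n / (Q.a0 * Q.t0 * Q.k1) := by
  rw [h.out_osys hs, ← LF.NN_eq]
  have := h.NN_out
  rw [LF.NN_eq] at this ⊢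
  exact this

theorem tot_out (h : Q.Ok) {s : ℝ} (hs : 0 < s) :
    LF.tot (Q.osys s).out ≤ 1 + cO Q.n / (Q.a0 * Q.t0 * Q.k1) := by
  rw [h.out_osys hs, LF.tot_out3]
  have := h.NN_out
  rw [LF.NN_eq] at this
  linarith

theorem nz_out (h : Q.Ok) {s rc σo : ℝ} (hs : 0 < s) (hσo : 0 ≤ σo) :
    LF.nz rc (fun _ => σo) (Q.osys s).out ≤ cO Q.n / (Q.a0 * Q.t0 * Q.k1) * σo := by
  rw [h.out_osys hs]
  refine (LF.nz_out3_le rc (fun _ => hσo) _).trans ?_
  rw [← Finset.sum_mul]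
  have := h.NN_out
  rw [LF.NN_eq] at this
  exact mul_le_mul_of_nonneg_right this hσo


/-- **`ProgDataW` of the Q-system**, weights `![1, w, 1]`, `s / σb ≤ w ≤ 1`. -/
theorem progDataW {d : ℕ} (h : Q.Ok) {s σb σin D' Λ w : ℝ} {N' q' : ℕ} {L' : ℝ≥0} (hs : 0 < s)
    (hs1 : s ≤ 1) (hσb : 0 < σb) (hρ : Q.ρ = s * σb)
    (hb : Q.bq s σb ≤ 1) (hσin : 0 ≤ σin)
    (hin : σin * (cN Q.n * (s + Q.a0 / (σb * Q.k1))) ≤ Q.k1 / 16) (hN : 1 ≤ N') (hD : 0 ≤ D')
    (hΛ : 1 ≤ Λ) (hw : 0 < w) (hw1 : s / σb ≤ w)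
    (growth : ∀ V : E d → ℝ, Admissible d V → ∀ (i : QI Q.n Q.M) x,
      ‖G V (s * Q.sys.r i) x‖ ≤ Λ * (√(d : ℝ) + ‖x‖))
    (con : ∀ i : QI Q.n Q.M, Con (d := d) (s * Q.sys.r i / 4) N' q' L'
      (fun V c => gN (G V (s * Q.sys.r i) c) σin) D') :
    ProgDataW d (Q.osys s) (ww w) (s / 8) (fun _ => σin) (fun i => s * Q.sys.r i / 4) N' q' L' D'
      Λ 4 (Q.bq s σb) where
  rc0 := by positivity
  ω0 := fun k => by fin_cases k <;> simp [ww, hw]
  totw := fun i => by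
    have := h.tot_ptW hs hs1 hσb hρ hb hw hw1 i
    simpa using this
  σ0 := fun _ => hσin
  N1 := hN
  D0 := hD
  Λ1 := hΛ
  T1 := by norm_num
  b0 := h.bq_nonneg hs hσb
  bT := hb.trans (by norm_num)
  growth := growth
  tot := fun i => by
    have := h.tot_pt hs hs1 hσb hρ hb i
    simpa using this
  bet := fun i => by
    have h1 : ∑ j, |((Q.osys s).pt i).2.2 j| = s ^ 2 * LF.NN (Q.sys.pt i) := by
      rw [LF.NN_eq]
      exact LF.sum_call_pos s _ _ _
    rw [h1]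
    exact h.s_sq_NN_le hs hσb hρ i
  margin := fun i => h.margin hs hσb hρ hσin hin i
  con := con


end Ok

end QPar

end Crest.Agent.R285
end
end

-- ▼ part R285/SemQDef

/-!
Row 285 (S0430): the statement SEM_Q (interface between the analysis and STEP Q).

`qpar n M s σ κ t0 a0` = the numerical parameters; `qout` = the semantic output (original units) of
`K + 1` sweeps from the start `g_i = θ • x₁`; `θ = 1` for `σ ≤ 1` and `θ = 0` for `σ > 1`.
The visible data are `p = ![y₁, x₁, q]` with the exact law `Rec.PX (TY s κ) (G · (s κ)) σ`.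
-/

set_option autoImplicit false
set_option linter.unusedSectionVars false

open MeasureTheory ProbabilityTheory
open Crest.OracleSampling (E Admissible)

noncomputable section

namespace Crest.Agent.R285

/-- numerical parameters of the Q-system at scale `s`, noise `σ`, `κ₁ = κ` -/
def qpar (n M : ℕ) (s σ κ t0 a0 : ℝ) : QPar := ⟨n, M, √(1 - κ ^ 2), t0, a0, s * σ⟩

/-- the start factor -/
def qth (σ : ℝ) : ℝ := if σ ≤ 1 then 1 else 0


/-- the output of `K + 1` sweeps in original units, from the start `θ • x₁` -/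
def qout {d : ℕ} (Q : QPar) (s θ : ℝ) (K : ℕ) (V : E d → ℝ) (c : E d) (p : Fin 3 → E d) : E d :=
  (Q.osys s).outF (G V) c p (fun _ => θ • p 1) (K + 1)

theorem FlatSys.continuous_gvalF {P ι : Type} [Fintype P] [Fintype ι] {X : Type}
    [NormedAddCommGroup X] [NormedSpace ℝ X] (S : FlatSys P ι) {G : ℝ → X → X}
    (hG : ∀ σ, Continuous (G σ)) (c : X) {g0 : (P → X) → ι → X}
    (hg : ∀ i, Continuous fun p => g0 p i) (k : ℕ) (i : ι) :
    Continuous fun p : P → X => S.gvalF G c p (g0 p) k i := by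
  induction k generalizing i with
  | zero => exact hg i
  | succ k ih =>
    refine (hG _).comp ?_
    simp only [LF.eval_apply]
    exact (continuous_const.add (continuous_finsetSum _ fun k _ =>
      (continuous_apply k).const_smul _)).add (continuous_finsetSum _ fun i _ => (ih i).const_smul _)

theorem FlatSys.continuous_outF {P ι : Type} [Fintype P] [Fintype ι] {X : Type}
    [NormedAddCommGroup X] [NormedSpace ℝ X] (S : FlatSys P ι) {G : ℝ → X → X}
    (hG : ∀ σ, Continuous (G σ)) (c : X) {g0 : (P → X) → ι → X}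
    (hg : ∀ i, Continuous fun p => g0 p i) (k : ℕ) :
    Continuous fun p : P → X => S.outF G c p (g0 p) k := by
  unfold FlatSys.outF
  simp only [LF.eval_apply]
  exact (continuous_const.add (continuous_finsetSum _ fun k _ =>
    (continuous_apply k).const_smul _)).add
      (continuous_finsetSum _ fun i _ => (S.continuous_gvalF hG c hg k i).const_smul _)

theorem continuous_qout {d : ℕ} (Q : QPar) (s θ : ℝ) (K : ℕ) {V : E d → ℝ} {h : ℝ} (hV : PotP h V)
    (c : E d) : Continuous (qout Q s θ K V c) := by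
  refine FlatSys.continuous_outF _ (fun σ => ?_) c (fun _ => (continuous_apply 1).const_smul θ) _
  exact (LipschitzWith.of_dist_le_mul (K := ⟨h, hV.hh⟩) fun x y => by
    rw [dist_eq_norm, dist_eq_norm]; exact gr_lip hV σ x y).continuous

theorem measurable_qout {d : ℕ} (Q : QPar) (s θ : ℝ) (K : ℕ) {V : E d → ℝ} (hV : Admissible d V)
    (c : E d) : Measurable (qout Q s θ K V c) :=
  (continuous_qout Q s θ K ⟨Pot.of_admissible hV, by norm_num⟩ c).measurable

/-- The output in rescaled units. -/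
theorem qout_eq {d : ℕ} (Q : QPar) (s θ : ℝ) (K : ℕ) (V : E d → ℝ) (c : E d) (p : Fin 3 → E d) :
    qout Q s θ K V c p = s⁻¹ • Q.sys.outF (fun r y => G (resc V c s) r y) 0
      ![s⁻¹ • (p 0 - c), s • p 1, p 2] (fun _ => θ • s • p 1) (K + 1) := by
  unfold qout QPar.osys
  rw [FlatSys.outF_orig_grd, LF.resc3]
  simp only [G_resc, smul_comm s θ]

/-- **SEM_Q**: the output of the Q-system is close, in mean, to a variable of law `N(G V s c, σ²)`. -/
def SEMQ : Prop :=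
  ∀ n : ℕ, ∃ (C : ℝ) (P : ℕ), 1 ≤ C ∧ ∀ (d : ℕ) (V : E d → ℝ), Admissible d V →
    ∀ (s σ κ t0 a0 : ℝ), 0 < s → 0 < σ → 0 < κ → κ ≤ 1 / 2 → 0 < t0 → t0 ≤ 1 / 2 → 1 ≤ a0 * t0 →
    C * (s ^ 2 + a0 * s / (σ * κ)) ≤ 1 → ∀ (c : E d) (M : ℕ), 0 < M → ∀ K : ℕ,
    ∃ (p : (E d × E d) × E d → Fin 3 → E d) (X₀ : (E d × E d) × E d → E d),
      Measurable p ∧ Measurable X₀ ∧
      (gam3 (E d)).map p = Rec.PX (TY s κ) (fun V => G V (s * κ)) σ V c ∧
      (gam3 (E d)).map X₀ = gN (G V s c) σ ∧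
      Integrable (fun ω => ‖qout (qpar n M s σ κ t0 a0) s (qth σ) K V c (p ω) - X₀ ω‖)
        (gam3 (E d)) ∧
      ∫ ω, ‖qout (qpar n M s σ κ t0 a0) s (qth σ) K V c (p ω) - X₀ ω‖ ∂(gam3 (E d)) ≤
        σ * (C * a0 * M * (κ ^ P)⁻¹ * ((C * (s ^ 2 + a0 * s / (σ * κ))) ^ K +
          (M : ℝ)⁻¹ ^ (n + 1) + t0 ^ (n + 1) + (a0 * s / σ) ^ (n + 1))) * (√(d : ℝ) + ‖c‖)

end Crest.Agent.R285
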