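import Crest.Agent.R285.Froz
import Crest.Agent.R285.PostMean
import Crest.Agent.R285.Flat
import Crest.Agent.R285.NumL2
import Crest.Agent.R285.SemQ
import Crest.Agent.R285.SemQDef
import Crest.Agent.R285.Scale

-- ▼ part R285/FrozMom
section

/-!
Row 285: crude pathwise bounds of the exact points of the block at a frozen centre.
-/

set_option autoImplicit false
set_option linter.unusedSectionVars false

open Set Filter Topology MeasureTheory ProbabilityTheory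
open scoped ENNReal NNReal RealInnerProductSpace

noncomputable section

namespace Crest.Agent.R285

variable {V : Type} [NormedAddCommGroup V] [InnerProductSpace ℝ V] [FiniteDimensional ℝ V]
  [MeasurableSpace V] [BorelSpace V]

variable {h : ℝ} {U : V → ℝ}

theorem norm_vY_le (hU : PotP h U) (y : V) {r : ℝ} (hr : 0 < r) (hh : h * r ^ 2 ≤ 1 / 2) {t : ℝ}
    (ht : t ∈ Jm) (x : V) :
    ‖vY U y r t x‖ ≤ 2 * h * r ^ 2 * ‖x‖ + 2 * h * r * (‖y‖ + r * √(Module.finrank ℝ V)) := by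
  have hU0 := hU.hh
  have hs : 0 < r * √(1 - t ^ 2) := mul_pos hr (Real.sqrt_pos.mpr (Jm_pos ht))
  have hs1 : √(1 - t ^ 2) ≤ 1 := by rw [Real.sqrt_le_one]; nlinarith
  have hs2 : r * √(1 - t ^ 2) ≤ r := by nlinarith [Real.sqrt_nonneg (1 - t ^ 2)]
  have h1 := norm_G_le hU (y + (r * t) • x) hs (by
    calc h * (r * √(1 - t ^ 2)) ^ 2 ≤ h * r ^ 2 := by gcongr
      _ ≤ 1 / 2 := hh)
  have h2 : |t| ≤ 1 := abs_le.mpr ⟨ht.1.le, ht.2.le⟩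
  have h3 : ‖y + (r * t) • x‖ ≤ ‖y‖ + r * ‖x‖ := by
    refine (norm_add_le _ _).trans (add_le_add le_rfl ?_)
    rw [norm_smul, Real.norm_eq_abs, abs_mul, abs_of_pos hr]
    have : r * |t| * ‖x‖ ≤ r * 1 * ‖x‖ := by gcongr
    linarith
  rw [vY, norm_neg, norm_smul, Real.norm_eq_abs, abs_of_pos hr]
  calc r * ‖G U (r * √(1 - t ^ 2)) (y + (r * t) • x)‖ ≤
        r * (2 * h * ((‖y‖ + r * ‖x‖) + r * √(Module.finrank ℝ V))) := by
        refine mul_le_mul_of_nonneg_left (h1.trans ?_) hr.le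
        gcongr
    _ = _ := by ring

theorem norm_ievol_le (hU : PotP h U) (y : V) {r : ℝ} (hr : 0 < r) (hh : h * r ^ 2 ≤ 1 / 2)
    {t : ℝ} (h0 : 0 ≤ t) (h1 : t < 1) (x : V) :
    ‖ievol U y r t x‖ ≤ 3 * (‖x‖ + 2 * h * r * (‖y‖ + r * √(Module.finrank ℝ V))) := by
  have hU0 := hU.hh
  set ε : ℝ := 2 * h * r * (‖y‖ + r * √(Module.finrank ℝ V)) with hε
  have hε0 : 0 ≤ ε := by positivity
  have hsub : Icc 0 t ⊆ Jm := fun u hu => ⟨by linarith [hu.1], by linarith [hu.2]⟩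
  have hg := norm_le_gronwallBound_of_norm_deriv_right_le (f := fun u => ievol U y r u x)
    (f' := fun u => vY U y r u (ievol U y r u x)) (δ := ‖x‖) (K := 1) (ε := ε) (a := 0) (b := t)
    (fun u hu => (hasDerivAt_ievol hU y hr (hsub hu) x).continuousAt.continuousWithinAt)
    (fun u hu => (hasDerivAt_ievol hU y hr (hsub (Ico_subset_Icc_self hu)) x).hasDerivWithinAt)
    (by simp only [ievol_zero hU y hr]; exact le_rfl)
    (fun u hu => (norm_vY_le hU y hr hh (hsub (Ico_subset_Icc_self hu)) _).trans (by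
      have := norm_nonneg (ievol U y r u x)
      have : 2 * h * r ^ 2 * ‖ievol U y r u x‖ ≤ 1 * ‖ievol U y r u x‖ := by
        refine mul_le_mul_of_nonneg_right ?_ this
        linarith
      linarith)) t ⟨h0, le_rfl⟩
  simp only [sub_zero] at hg
  refine hg.trans ?_
  rw [gronwallBound_of_K_ne_0 one_ne_zero]
  simp only [one_mul, div_one]
  have he : Real.exp t ≤ 3 := by
    have h2 : Real.exp t ≤ Real.exp 1 := Real.exp_le_exp.mpr h1.le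
    have := Real.exp_one_lt_d9
    linarith
  have hx := norm_nonneg x
  have he1 : 1 ≤ Real.exp t := Real.one_le_exp h0
  nlinarith


theorem norm_toLp_le (p : V × V) : ‖WithLp.toLp 2 p‖ ≤ ‖p.1‖ + ‖p.2‖ := by
  have h1 := WithLp.prod_norm_sq_eq_of_L2 (WithLp.toLp 2 p)
  have h2 : ‖WithLp.toLp 2 p‖ ^ 2 ≤ (‖p.1‖ + ‖p.2‖) ^ 2 := by
    rw [h1]
    show ‖p.1‖ ^ 2 + ‖p.2‖ ^ 2 ≤ _
    nlinarith [norm_nonneg p.1, norm_nonneg p.2, mul_nonneg (norm_nonneg p.1) (norm_nonneg p.2)]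
  exact (pow_le_pow_iff_left₀ (norm_nonneg _) (by positivity) two_ne_zero).mp h2

theorem norm_rotC_le {B : V →L[ℝ] V} (hB : ∀ x y, ⟪B x, y⟫ = ⟪x, B y⟫) (c : Bool) (a : ℝ)
    (p : V × V) : ‖rotC B c a p‖ ≤ ‖p.1‖ + ‖p.2‖ := by
  have h1 := norm_rotE B hB a (WithLp.toLp 2 p)
  have h2 := norm_toLp_le p
  have h3 := WithLp.prod_norm_sq_eq_of_L2 (rotE B a (WithLp.toLp 2 p))
  have h4 : ‖(rotE B a (WithLp.toLp 2 p)).fst‖ ≤ ‖rotE B a (WithLp.toLp 2 p)‖ := by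
    refine (pow_le_pow_iff_left₀ (norm_nonneg _) (norm_nonneg _) two_ne_zero).mp ?_
    rw [h3]; nlinarith [sq_nonneg ‖(rotE B a (WithLp.toLp 2 p)).snd‖]
  have h5 : ‖(rotE B a (WithLp.toLp 2 p)).snd‖ ≤ ‖rotE B a (WithLp.toLp 2 p)‖ := by
    refine (pow_le_pow_iff_left₀ (norm_nonneg _) (norm_nonneg _) two_ne_zero).mp ?_
    rw [h3]; nlinarith [sq_nonneg ‖(rotE B a (WithLp.toLp 2 p)).fst‖]
  cases c
  · exact (h5.trans_eq h1).trans h2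
  · exact (h4.trans_eq h1).trans h2

theorem norm_xdir_le {A : V →L[ℝ] V} (hA : ∀ x y, ⟪A x, y⟫ = ⟪x, A y⟫) (ρ : ℝ) (n : ℕ) (a0 : ℝ)
    (p : V × V) (v : FDir n) : ‖xdir A ρ n a0 p v‖ ≤ ‖p.1‖ + ‖p.2‖ := by
  rcases v with _ | m | m
  · show ‖p.1‖ ≤ _
    linarith [norm_nonneg p.2]
  · exact norm_rotC_le (smul_symm hA _) true _ p
  · exact norm_rotC_le (smul_symm hA _) false _ p


end Crest.Agent.R285
end
end

-- ▼ part R285/FlatMean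
section

/-!
Row 285: mean error of the output of a flat system against random exact points
(Picard iterates versus points of small defect, in mean).
-/

set_option autoImplicit false
set_option linter.unusedSectionVars false

open MeasureTheory Finset
open scoped ENNReal

noncomputable section

namespace Crest.Agent.R285

namespace FlatSys

variable {Pt ι : Type} [Fintype Pt] [Fintype ι] {X : Type} [NormedAddCommGroup X]
  [NormedSpace ℝ X]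


variable {Ω : Type*} [MeasurableSpace Ω] {P : Measure Ω}


/-- `L¹ ≤ L²` on a probability space. -/
theorem lintegral_enorm_le_eLpNorm {H : Type*} [NormedAddCommGroup H] [IsProbabilityMeasure P]
    {f : Ω → H} (hf : AEStronglyMeasurable f P) : ∫⁻ ω, ‖f ω‖ₑ ∂P ≤ eLpNorm f 2 P := by
  rw [← eLpNorm_one_eq_lintegral_enorm]
  exact eLpNorm_le_eLpNorm_of_exponent_le (by norm_num) hf

end FlatSys

end Crest.Agent.R285
end
end

-- ▼ part R285/SemQCore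
section

/-!
Row 285 (S0430): the mean error of the Q-system, from the defects (41's `ExQ`/`LB`) and the start
error (`θ X₁` against the exact values of the field).
-/

set_option autoImplicit false
set_option linter.unusedSectionVars false

open Set Filter Topology MeasureTheory ProbabilityTheory
open Crest.OracleSampling (E Admissible)
open scoped ENNReal NNReal RealInnerProductSpace

noncomputable section

namespace Crest.Agent.R285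

namespace SemQ

section gen

variable {V : Type} [NormedAddCommGroup V] [InnerProductSpace ℝ V] [FiniteDimensional ℝ V]
  [MeasurableSpace V] [BorelSpace V]

/-- The field near the centre `a` is close to `∇ f (a)`. -/
theorem norm_Gt_sub_le {τ : ℝ} {f : V → ℝ} (hf : PotP τ f) (hτ : τ ≤ 1 / 2) (a x : V) {r : ℝ}
    (hr : 0 < r) (hr1 : r ≤ 1) :
    ‖Gt f a r x - gradient f a‖ ≤ τ * (‖x‖ + 2 * √(Module.finrank ℝ V) + 2 * (τ * ‖a‖)) := by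
  have hτ0 := hf.hh
  have h1 : ‖G f r (a + x) - G f r a‖ ≤ τ * ‖x‖ := by
    have := gr_lip hf r (a + x) a
    rwa [add_sub_cancel_left] at this
  have hr2 : r ^ 2 ≤ 1 := by nlinarith
  have h2 := norm_G_sub_gradient_le hf a hr (by
    calc τ * r ^ 2 ≤ τ * 1 := by gcongr
      _ ≤ 1 / 2 := by linarith)
  have h3 : Gt f a r x - gradient f a = (G f r (a + x) - G f r a) + (G f r a - gradient f a) := by
    unfold Gt; abel
  rw [h3]
  refine (norm_add_le _ _).trans ?_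
  have h4 : τ * (2 * r * √(Module.finrank ℝ V) + 2 * τ * r ^ 2 * ‖a‖) ≤
      τ * (2 * √(Module.finrank ℝ V) + 2 * (τ * ‖a‖)) := by
    refine mul_le_mul_of_nonneg_left (add_le_add ?_ ?_) hτ0
    · have : 0 ≤ √(Module.finrank ℝ V : ℝ) := Real.sqrt_nonneg _
      nlinarith
    · have : 0 ≤ τ * ‖a‖ := by positivity
      nlinarith
  calc ‖G f r (a + x) - G f r a‖ + ‖G f r a - gradient f a‖
      ≤ τ * ‖x‖ + τ * (2 * √(Module.finrank ℝ V) + 2 * (τ * ‖a‖)) := by linarith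
    _ = _ := by ring

/-- Size of the field. -/
theorem norm_Gt_le {τ : ℝ} {f : V → ℝ} (hf : PotP τ f) (hτ : τ ≤ 1 / 2) (a x : V) {r : ℝ}
    (hr : 0 < r) (hr1 : r ≤ 1) :
    ‖Gt f a r x‖ ≤ τ * (‖x‖ + 2 * √(Module.finrank ℝ V) + 2 * (τ * ‖a‖)) + τ * ‖a‖ := by
  have h1 := norm_Gt_sub_le hf hτ a x hr hr1
  have h2 := norm_gradient_le hf a
  have h3 : Gt f a r x = (Gt f a r x - gradient f a) + gradient f a := by abel
  rw [h3]
  exact (norm_add_le _ _).trans (add_le_add h1 h2)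

variable {Ω : Type*} [MeasurableSpace Ω] {P : Measure Ω}
variable {Q : QPar} {f : V → ℝ} {a : V} {y b : QJ Q.n Q.M → Ω → V} {q : Ω → V}

/-- the main node of a point -/
def qj {n M : ℕ} : QI n M → QJ n M
  | Sum.inl j => j
  | Sum.inr (j, _, _) => j

/-- Size of the exact points (relative to the centre). -/
theorem norm_xq_le {τ : ℝ} (hQ : Q.Ok) (hf : PotP τ f) (hτ : τ ≤ 1 / 2) (ω : Ω)
    (i : QI Q.n Q.M) : ‖xq Q f a y b q ω i‖ ≤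
      4 * ‖y (qj i) ω‖ + 3 * ‖b (qj i) ω‖ + 3 * ‖q ω‖ + 3 * √(Module.finrank ℝ V) +
        6 * (τ * ‖a‖) := by
  have hτ0 := hf.hh
  have hq := norm_nonneg (q ω)
  have hs : 0 ≤ √(Module.finrank ℝ V : ℝ) := Real.sqrt_nonneg _
  have ha : 0 ≤ τ * ‖a‖ := by positivity
  rcases i with j | ⟨j, v, k⟩
  · have := norm_nonneg (y j ω)
    have := norm_nonneg (b j ω)
    change ‖y j ω‖ ≤ 4 * ‖y j ω‖ + 3 * ‖b j ω‖ + 3 * ‖q ω‖ + 3 * √(Module.finrank ℝ V) +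
        6 * (τ * ‖a‖)
    linarith
  · change ‖xq Q f a y b q ω (Sum.inr (j, v, k))‖ ≤ 4 * ‖y j ω‖ + 3 * ‖b j ω‖ + 3 * ‖q ω‖ +
      3 * √(Module.finrank ℝ V) + 6 * (τ * ‖a‖)
    have hκ := hQ.kj_pos j
    have hκ1 := hQ.kj_le j
    have ht1 : Q.t0 < 1 := lt_of_le_of_lt hQ.t1 (by norm_num)
    have hn := node_mem_Jm hQ.t0.le ht1 k
    have hn0 : 0 ≤ Q.t0 * Num.node (Q.n + 2) k := mul_nonneg hQ.t0.le (Num.node_pos _ k).le
    have hhr : τ * Q.kj j ^ 2 ≤ 1 / 2 := by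
      have : Q.kj j ^ 2 ≤ 1 := by nlinarith
      calc τ * Q.kj j ^ 2 ≤ τ * 1 := by gcongr
        _ ≤ 1 / 2 := by linarith
    set D := xdir (DGr f (Q.kj j, a + y j ω)) Q.ρ Q.n Q.a0 (b j ω, q ω) v with hD
    have h2 := norm_ievol_le hf (a + y j ω) hκ hhr hn0 hn.2 D
    have h3 := norm_xdir_le (DGr_symm hf (Q.kj j, a + y j ω)) Q.ρ Q.n Q.a0 (b j ω, q ω) v
    have e : xq Q f a y b q ω (Sum.inr (j, v, k)) = y j ω +
        (Q.kj j * (Q.t0 * Num.node (Q.n + 2) k)) •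
          ievol f (a + y j ω) (Q.kj j) (Q.t0 * Num.node (Q.n + 2) k) D := by
      change xpt f (Q.kj j) Q.ρ Q.n Q.t0 Q.a0 (a + y j ω) (b j ω, q ω) v k - a = _
      unfold xpt ipt
      abel
    rw [e]
    refine (norm_add_le _ _).trans ?_
    rw [norm_smul, Real.norm_eq_abs, abs_of_nonneg (by positivity)]
    have hI := norm_nonneg (ievol f (a + y j ω) (Q.kj j) (Q.t0 * Num.node (Q.n + 2) k) D)
    have h4 : Q.kj j * (Q.t0 * Num.node (Q.n + 2) k) ≤ 1 := by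
      have := hn.2
      nlinarith
    have h5 : ‖a + y j ω‖ ≤ ‖a‖ + ‖y j ω‖ := norm_add_le _ _
    have hy := norm_nonneg (y j ω)
    have h6 : 2 * τ * Q.kj j * (‖a + y j ω‖ + Q.kj j * √(Module.finrank ℝ V)) ≤
        2 * τ * 1 * ((‖a‖ + ‖y j ω‖) + 1 * √(Module.finrank ℝ V)) := by gcongr
    have h7 : τ * ‖y j ω‖ ≤ 1 / 2 * ‖y j ω‖ := by gcongr
    have h8 : τ * √(Module.finrank ℝ V) ≤ 1 / 2 * √(Module.finrank ℝ V) := by gcongr
    have h9 : Q.kj j * (Q.t0 * Num.node (Q.n + 2) k) *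
        ‖ievol f (a + y j ω) (Q.kj j) (Q.t0 * Num.node (Q.n + 2) k) D‖ ≤
        3 * (‖D‖ + 2 * τ * Q.kj j * (‖a + y j ω‖ + Q.kj j * √(Module.finrank ℝ V))) := by
      nlinarith
    have h10 : ‖D‖ ≤ ‖b j ω‖ + ‖q ω‖ := h3
    nlinarith

end gen

/-! ### the numerical parameters -/

theorem qpar_k1 {n M : ℕ} {s σ κ t0 a0 : ℝ} (hκ : 0 ≤ κ) (hκ1 : κ ≤ 1 / 2) :
    (qpar n M s σ κ t0 a0).k1 = κ := by
  change √(1 - (√(1 - κ ^ 2)) ^ 2) = κ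
  rw [Real.sq_sqrt (by nlinarith)]
  rw [sub_sub_cancel, Real.sqrt_sq hκ]

theorem qpar_ok {n M : ℕ} {s σ κ t0 a0 : ℝ} (hM : 0 < M) (hs : 0 < s) (hσ : 0 < σ) (hκ : 0 < κ)
    (hκ1 : κ ≤ 1 / 2) (ht0 : 0 < t0) (ht1 : t0 ≤ 1 / 2) (hat : 1 ≤ a0 * t0) :
    (qpar n M s σ κ t0 a0).Ok where
  M0 := hM
  e0 := Real.sqrt_pos.mpr (by nlinarith)
  e1 := by
    change √(1 - κ ^ 2) < 1
    rw [Real.sqrt_lt' one_pos]
    nlinarith
  t0 := ht0
  t1 := ht1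
  at1 := hat
  ρ0 := mul_pos hs hσ

/-- number of points per block -/
def cI (n : ℕ) : ℝ := (n + 1) * (1 + (2 * n + 5) * (n + 2))

theorem card_QI_cast (n M : ℕ) : (Fintype.card (QI n M) : ℝ) = M * cI n := by
  rw [QPar.card_QI]
  unfold cI
  push_cast
  ring

theorem cI_nonneg (n : ℕ) : 0 ≤ cI n := by unfold cI; positivity

/-! ### the field in the two units -/

section units

variable {d : ℕ} {V : E d → ℝ}

theorem resc_eq_Gt {h : ℝ} (hV : PotP h V) (c : E d) {s : ℝ} (hs : s ≠ 0) (r : ℝ) (x : E d) :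
    G (resc V c s) r x = Gt (Scale.fs V s) (s⁻¹ • c) r x := by
  rw [G_resc]
  unfold Gt
  rw [Scale.G_fs hV, smul_add, smul_smul, mul_inv_cancel₀ hs, one_smul]

theorem tau_norm_a (c : E d) {s : ℝ} (hs : 0 < s) : 2 * s ^ 2 * ‖s⁻¹ • c‖ = 2 * s * ‖c‖ := by
  rw [norm_smul, norm_inv, Real.norm_eq_abs, abs_of_pos hs]
  field_simp

end units

/-! ### mean values -/

section mean

variable {V : Type} [NormedAddCommGroup V] [InnerProductSpace ℝ V] [FiniteDimensional ℝ V]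
  [MeasurableSpace V] [BorelSpace V]
variable {Ω : Type*} [MeasurableSpace Ω] {P : Measure Ω} [IsProbabilityMeasure P]

theorem lintegral_affine_le {k : ℕ} {A0 : ℝ} (hA0 : 0 ≤ A0) {A m : Fin k → ℝ} (hA : ∀ i, 0 ≤ A i)
    (hm : ∀ i, 0 ≤ m i) {Z : Fin k → Ω → V} (hZ : ∀ i, Measurable (Z i))
    (hb : ∀ i, ∫⁻ ω, ‖Z i ω‖ₑ ∂P ≤ ENNReal.ofReal (m i)) :
    ∫⁻ ω, ENNReal.ofReal (A0 + ∑ i, A i * ‖Z i ω‖) ∂P ≤ ENNReal.ofReal (A0 + ∑ i, A i * m i) := by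
  have e : ∀ ω, ENNReal.ofReal (A0 + ∑ i, A i * ‖Z i ω‖) =
      ENNReal.ofReal A0 + ∑ i, ENNReal.ofReal (A i) * ‖Z i ω‖ₑ := fun ω => by
    rw [ENNReal.ofReal_add hA0 (Finset.sum_nonneg fun i _ => mul_nonneg (hA i) (norm_nonneg _)),
      ENNReal.ofReal_sum_of_nonneg fun i _ => mul_nonneg (hA i) (norm_nonneg _)]
    congr 1
    refine Finset.sum_congr rfl fun i _ => ?_
    rw [ENNReal.ofReal_mul (hA i), ofReal_norm]
  simp_rw [e]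
  rw [lintegral_add_left measurable_const, lintegral_const, measure_univ, mul_one,
    lintegral_finsetSum _ fun i _ => ((hZ i).enorm.const_mul _)]
  rw [ENNReal.ofReal_add hA0 (Finset.sum_nonneg fun i _ => mul_nonneg (hA i) (hm i)),
      ENNReal.ofReal_sum_of_nonneg fun i _ => mul_nonneg (hA i) (hm i)]
  refine add_le_add le_rfl (Finset.sum_le_sum fun i _ => ?_)
  rw [lintegral_const_mul _ (hZ i).enorm, ENNReal.ofReal_mul (hA i)]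
  exact mul_le_mul' le_rfl (hb i)

/-- Pathwise start error. -/
theorem start_le {Q : QPar} {f : V → ℝ} {a : V} {y b : QJ Q.n Q.M → Ω → V} {q : Ω → V}
    {τ : ℝ} (hQ : Q.Ok) (hf : PotP τ f) (hτ : τ ≤ 1 / 2) {θ : ℝ} (hθ : θ = 1 ∨ θ = 0)
    (y1 b1 : V) (ω : Ω) (i : QI Q.n Q.M) :
    ‖θ • (Q.ρ • b1 + G f Q.k1 (a + y1)) - Gt f a (Q.sys.r i) (xq Q f a y b q ω i)‖ ≤
      (τ * (7 * √(Module.finrank ℝ V) + 10 * (τ * ‖a‖)) + (1 - θ) * (τ * ‖a‖)) +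
      ((4 * τ) * ‖y (qj i) ω‖ + (3 * τ) * ‖b (qj i) ω‖ + (3 * τ) * ‖q ω‖ + (θ * τ) * ‖y1‖ +
        (θ * Q.ρ) * ‖b1‖) := by
  have hτ0 := hf.hh
  have hj := norm_xq_le (y := y) (b := b) (q := q) (a := a) hQ hf hτ ω i
  have hr := hQ.r_pos i
  have hr1 := hQ.r_le i
  have h2 := norm_Gt_sub_le hf hτ a (xq Q f a y b q ω i) hr hr1
  have hs : 0 ≤ √(Module.finrank ℝ V : ℝ) := Real.sqrt_nonneg _
  have ha : 0 ≤ τ * ‖a‖ := by positivity
  have h3 := mul_le_mul_of_nonneg_left hj hτ0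
  rcases hθ with rfl | rfl
  · have h1 := norm_Gt_sub_le hf hτ a y1 hQ.k1_pos hQ.k1_le
    have e : (1 : ℝ) • (Q.ρ • b1 + G f Q.k1 (a + y1)) - Gt f a (Q.sys.r i) (xq Q f a y b q ω i) =
        Q.ρ • b1 + (Gt f a Q.k1 y1 - gradient f a) -
          (Gt f a (Q.sys.r i) (xq Q f a y b q ω i) - gradient f a) := by
      unfold Gt
      rw [one_smul]
      abel
    rw [e]
    refine (norm_sub_le _ _).trans ((add_le_add (norm_add_le _ _) le_rfl).trans ?_)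
    rw [norm_smul, Real.norm_eq_abs, abs_of_pos hQ.ρ0]
    nlinarith
  · have h1 := norm_Gt_le hf hτ a (xq Q f a y b q ω i) hr hr1
    rw [zero_smul, zero_sub, norm_neg]
    nlinarith

end mean

/-! ### the mean error -/

section core

variable {d : ℕ} {V : E d → ℝ}
variable {Ω : Type*} [MeasurableSpace Ω] {P : Measure Ω} [IsProbabilityMeasure P]

/-- Mean start error. -/
theorem start_mean {Q : QPar} (c : E d) {s : ℝ} (hs : 0 < s)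
    (hs2 : s ≤ 1 / 2) {y b : QJ Q.n Q.M → Ω → E d} {y1 b1 X1 X0 q : Ω → E d} {B βy βX : ℝ≥0∞}
    (hE : ExQ Q (Scale.fs V s) (s⁻¹ • c) y b y1 X1 X0 q (2 * s ^ 2) P B βy βX)
    (hX1 : ∀ ω, X1 ω = Q.ρ • b1 ω + G (Scale.fs V s) Q.k1 (s⁻¹ • c + y1 ω))
    (hb1 : Measurable b1)
    (my : ∀ j, ∫⁻ ω, ‖y j ω‖ₑ ∂P ≤ ENNReal.ofReal (3 * (√(d : ℝ) + ‖c‖)))
    (my1 : ∫⁻ ω, ‖y1 ω‖ₑ ∂P ≤ ENNReal.ofReal (3 * (√(d : ℝ) + ‖c‖)))
    (mb : ∀ j, ∫⁻ ω, ‖b j ω‖ₑ ∂P ≤ ENNReal.ofReal (√(d : ℝ)))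
    (mb1 : ∫⁻ ω, ‖b1 ω‖ₑ ∂P ≤ ENNReal.ofReal (√(d : ℝ)))
    (mq : ∫⁻ ω, ‖q ω‖ₑ ∂P ≤ ENNReal.ofReal (√(d : ℝ)))
    {θ : ℝ} (hθ : θ = 1 ∨ θ = 0) (i : QI Q.n Q.M) :
    ∫⁻ ω, ‖θ • X1 ω - Gt (Scale.fs V s) (s⁻¹ • c) (Q.sys.r i)
        (xq Q (Scale.fs V s) (s⁻¹ • c) y b q ω i)‖ₑ ∂P ≤
      ENNReal.ofReal ((θ * Q.ρ + 31 * (2 * s ^ 2) + 2 * (1 - θ) * s) * (√(d : ℝ) + ‖c‖)) := by
  have hτ : 2 * s ^ 2 ≤ 1 / 2 := by nlinarith
  have hθ0 : 0 ≤ θ := by rcases hθ with rfl | rfl <;> norm_num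
  have hθ1 : θ ≤ 1 := by rcases hθ with rfl | rfl <;> norm_num
  have hpot := hE.pot
  have hτ0 : 0 ≤ 2 * s ^ 2 := by positivity
  have hρ := hE.ok.ρ0
  have hd : (Module.finrank ℝ (E d) : ℝ) = d := by simp
  have hta := tau_norm_a c hs
  have hW : 0 ≤ √(d : ℝ) + ‖c‖ := by positivity
  have h1 : ∀ ω, ‖θ • X1 ω - Gt (Scale.fs V s) (s⁻¹ • c) (Q.sys.r i)
        (xq Q (Scale.fs V s) (s⁻¹ • c) y b q ω i)‖ₑ ≤
      ENNReal.ofReal (((2 * s ^ 2) * (7 * √(d : ℝ) + 10 * (2 * s * ‖c‖)) +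
        (1 - θ) * (2 * s * ‖c‖)) + ∑ k : Fin 5, (![4 * (2 * s ^ 2), 3 * (2 * s ^ 2),
          3 * (2 * s ^ 2), θ * (2 * s ^ 2), θ * Q.ρ] : Fin 5 → ℝ) k *
          ‖(![y (qj i), b (qj i), q, y1, b1] : Fin 5 → Ω → E d) k ω‖) := fun ω => by
    rw [← ofReal_norm]
    refine ENNReal.ofReal_le_ofReal ?_
    have := start_le (y := y) (b := b) (q := q) (a := s⁻¹ • c) hE.ok hpot hτ hθ (y1 ω) (b1 ω) ω i
    rw [← hX1 ω, hd, hta] at this
    refine this.trans (le_of_eq ?_)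
    simp [Fin.sum_univ_succ]
    ring
  refine (lintegral_mono h1).trans ?_
  obtain ⟨j0⟩ : Nonempty (QJ Q.n Q.M) := ⟨qj i⟩
  have hmq : Measurable q := (hE.law j0).mq
  refine (lintegral_affine_le (m := ![3 * (√(d : ℝ) + ‖c‖), √(d : ℝ), √(d : ℝ),
    3 * (√(d : ℝ) + ‖c‖), √(d : ℝ)]) ?_ ?_ ?_ ?_ ?_).trans (ENNReal.ofReal_le_ofReal ?_)
  · have : 0 ≤ 1 - θ := by linarith
    positivity
  · intro k
    fin_cases k <;> simp <;> positivity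
  · intro k
    fin_cases k <;> simp <;> positivity
  · intro k
    fin_cases k
    · exact hE.my _
    · exact (hE.law _).mb
    · exact hmq
    · exact hE.my1
    · exact hb1
  · intro k
    fin_cases k
    · exact my _
    · exact mb _
    · exact mq
    · exact my1
    · exact mb1
  · have e : ∑ k : Fin 5, (![4 * (2 * s ^ 2), 3 * (2 * s ^ 2),
          3 * (2 * s ^ 2), θ * (2 * s ^ 2), θ * Q.ρ] : Fin 5 → ℝ) k *
          (![3 * (√(d : ℝ) + ‖c‖), √(d : ℝ), √(d : ℝ),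
            3 * (√(d : ℝ) + ‖c‖), √(d : ℝ)] : Fin 5 → ℝ) k =
        4 * (2 * s ^ 2) * (3 * (√(d : ℝ) + ‖c‖)) + 3 * (2 * s ^ 2) * √(d : ℝ) +
          3 * (2 * s ^ 2) * √(d : ℝ) + θ * (2 * s ^ 2) * (3 * (√(d : ℝ) + ‖c‖)) +
          θ * Q.ρ * √(d : ℝ) := by
      simp [Fin.sum_univ_succ]
      ring
    rw [e]
    have hd0 := Real.sqrt_nonneg (d : ℝ)
    have hc0 := norm_nonneg c
    have a1 : 2 * s * ‖c‖ ≤ ‖c‖ := by nlinarith
    have a2 : θ * (2 * s ^ 2) * (3 * (√(d : ℝ) + ‖c‖)) ≤ 1 * (2 * s ^ 2) * (3 * (√(d : ℝ) + ‖c‖)) := by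
      gcongr
    have a3 : θ * Q.ρ * √(d : ℝ) ≤ θ * Q.ρ * (√(d : ℝ) + ‖c‖) := by
      gcongr; linarith
    have a4 : (2 * s ^ 2) * (7 * √(d : ℝ) + 10 * (2 * s * ‖c‖)) ≤
        (2 * s ^ 2) * (10 * (√(d : ℝ) + ‖c‖)) := by
      refine mul_le_mul_of_nonneg_left ?_ hτ0
      linarith
    have a5 : (1 - θ) * (2 * s * ‖c‖) ≤ 2 * (1 - θ) * s * (√(d : ℝ) + ‖c‖) := by
      have : 0 ≤ (1 - θ) * s * √(d : ℝ) := by
        have : 0 ≤ 1 - θ := by linarith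
        positivity
      nlinarith
    have a6 : 3 * (2 * s ^ 2) * √(d : ℝ) ≤ 3 * (2 * s ^ 2) * (√(d : ℝ) + ‖c‖) := by
      gcongr; linarith
    linarith

/-- The start error times the size of the call coefficients. -/
theorem start_mul_le {A s σ : ℝ} (hA : 1 ≤ A) (hs : 0 < s) (hs2 : s ≤ 1 / 2) (hσ : 0 < σ)
    (hsσ : 2 * s ≤ σ) :
    (1 + A / (s * σ)) * (qth σ * (s * σ) + 31 * (2 * s ^ 2) + 2 * (1 - qth σ) * s) ≤ 66 * A := by
  have hA0 : 0 < A := by linarith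
  unfold qth
  split_ifs with h
  · have e : (1 + A / (s * σ)) * (1 * (s * σ) + 31 * (2 * s ^ 2) + 2 * (1 - 1) * s) =
        s * σ + 62 * s ^ 2 + A + 62 * A * (s / σ) := by
      field_simp
      ring
    rw [e]
    have h1 : s / σ ≤ 1 / 2 := by rw [div_le_iff₀ hσ]; linarith
    have h2 : 62 * A * (s / σ) ≤ 62 * A * (1 / 2) := by gcongr
    nlinarith
  · have hσ1 : 1 < σ := not_le.mp h
    have e : (1 + A / (s * σ)) * (0 * (s * σ) + 31 * (2 * s ^ 2) + 2 * (1 - 0) * s) =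
        62 * s ^ 2 + 2 * s + (62 * s + 2) * (A / σ) := by
      field_simp
      ring
    rw [e]
    have h1 : A / σ ≤ A := div_le_self hA0.le hσ1.le
    have h2 : (62 * s + 2) * (A / σ) ≤ (62 * (1 / 2) + 2) * A := by gcongr
    nlinarith

/-- the real inequality of the final estimate -/
theorem real_final {s σ ρ l cO cN A k1 N Lc Bc D W E₁ : ℝ} {K : ℕ} (hs : 0 < s) (hσ : 0 < σ)
    (hsσ : 2 * s ≤ σ) (hρ : ρ = s * σ) (hl : 0 ≤ l) (hN : 0 ≤ N) (hLc : 0 ≤ Lc)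
    (hBD : 0 ≤ Bc * D) (hE : 0 ≤ E₁) (b2 : Bc * D ≤ 66 * cN * A * W) (b3 : l ≤ cO / k1) :
    s⁻¹ * (2 * s ^ 2 * l * (Lc ^ K * Bc * (N * D) + 3 * (N * E₁)) + ρ * E₁) ≤
      σ * (cO / k1 * (N * (Lc ^ K * (66 * cN * A) * W + 3 * E₁)) + E₁) := by
  have b4 : s⁻¹ * (2 * s ^ 2) ≤ σ := by
    have : s⁻¹ * (2 * s ^ 2) = 2 * s := by field_simp
    rw [this]; exact hsσ
  have b5 : s⁻¹ * (ρ * E₁) = σ * E₁ := by
    rw [hρ]; field_simp
  have h0 : 0 ≤ N * (Lc ^ K * (Bc * D) + 3 * E₁) := by positivity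
  have h1 : 0 ≤ s⁻¹ * (2 * s ^ 2) := by positivity
  have h2 : 0 ≤ cO / k1 := hl.trans b3
  calc s⁻¹ * (2 * s ^ 2 * l * (Lc ^ K * Bc * (N * D) + 3 * (N * E₁)) + ρ * E₁) =
      (s⁻¹ * (2 * s ^ 2)) * l * (N * (Lc ^ K * (Bc * D) + 3 * E₁)) + s⁻¹ * (ρ * E₁) := by ring
    _ ≤ σ * (cO / k1) * (N * (Lc ^ K * (66 * cN * A * W) + 3 * E₁)) + σ * E₁ := by
        rw [b5]
        refine add_le_add (mul_le_mul ?_ ?_ h0 (mul_nonneg hσ.le h2)) le_rfl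
        · exact mul_le_mul b4 b3 hl hσ.le
        · refine mul_le_mul_of_nonneg_left (add_le_add ?_ le_rfl) hN
          exact mul_le_mul_of_nonneg_left b2 (pow_nonneg hLc K)
    _ = _ := by ring

/-- the same with `ℝ≥0∞` -/
theorem enn_final {s σ ρ l cO cN A k1 Lc Bc D W E₁ : ℝ} {K N : ℕ} (hs : 0 < s) (hσ : 0 < σ)
    (hsσ : 2 * s ≤ σ) (hρ : ρ = s * σ) (hl : 0 ≤ l) (hLc : 0 ≤ Lc) (hBc : 0 ≤ Bc)
    (hD : 0 ≤ D) (hE : 0 ≤ E₁) (b2 : Bc * D ≤ 66 * cN * A * W) (b3 : l ≤ cO / k1) :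
    ENNReal.ofReal s⁻¹ * (ENNReal.ofReal (2 * s ^ 2 * l) * (ENNReal.ofReal (Lc ^ K * Bc) *
      ((N : ℝ≥0∞) * ENNReal.ofReal D) + 3 * ((N : ℝ≥0∞) * ENNReal.ofReal E₁)) +
        ENNReal.ofReal (ρ * E₁)) ≤
      ENNReal.ofReal (σ * (cO / k1 * (N * (Lc ^ K * (66 * cN * A) * W + 3 * E₁)) + E₁)) := by
  have eN : (N : ℝ≥0∞) = ENNReal.ofReal (N : ℝ) := (ENNReal.ofReal_natCast N).symm
  have e3 : (3 : ℝ≥0∞) = ENNReal.ofReal 3 := by simp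
  have hN0 : (0 : ℝ) ≤ N := Nat.cast_nonneg N
  have hρ0 : 0 ≤ ρ := by rw [hρ]; positivity
  rw [eN, e3, ← ENNReal.ofReal_mul hN0, ← ENNReal.ofReal_mul hN0,
    ← ENNReal.ofReal_mul (by positivity), ← ENNReal.ofReal_mul (by norm_num),
    ← ENNReal.ofReal_add (by positivity) (by positivity),
    ← ENNReal.ofReal_mul (by positivity),
    ← ENNReal.ofReal_add (by positivity) (by positivity),
    ← ENNReal.ofReal_mul (by positivity)]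
  exact ENNReal.ofReal_le_ofReal
    (real_final hs hσ hsσ hρ hl hN0 hLc (mul_nonneg hBc hD) hE b2 b3)

/-- The output in rescaled units, against `X₀`. -/
theorem qout_sub_eq {Q : QPar} (hV : PotP 2 V) (c : E d) {s σ : ℝ} (hs : 0 < s)
    (hρ : Q.ρ = s * σ) {y1 b1 X1 X0 q : E d} (θ : ℝ)
    (hX1 : X1 = Q.ρ • b1 + G (Scale.fs V s) Q.k1 (s⁻¹ • c + y1)) (K : ℕ) :
    ‖qout Q s θ K V c (![c + s • y1, G V (s * Q.k1) (c + s • y1) + σ • b1, q]) - s⁻¹ • X0‖ₑ =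
      ENNReal.ofReal s⁻¹ * ‖Q.sys.outF (Gt (Scale.fs V s) (s⁻¹ • c)) 0 ![y1, X1, q]
        (fun _ => θ • X1) (K + 1) - X0‖ₑ := by
  have hG : (fun r y => G (resc V c s) r y) = Gt (Scale.fs V s) (s⁻¹ • c) := by
    funext r x
    exact resc_eq_Gt hV c hs.ne' r x
  have hX : s • (G V (s * Q.k1) (c + s • y1) + σ • b1) = X1 := by
    rw [hX1, Scale.G_fs hV, smul_add, smul_add, smul_smul, smul_smul, mul_inv_cancel₀ hs.ne',
      one_smul, hρ, add_comm]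
  have hy : s⁻¹ • (c + s • y1 - c) = y1 := by
    rw [add_sub_cancel_left, smul_smul, inv_mul_cancel₀ hs.ne', one_smul]
  rw [qout_eq, hG]
  simp only [Matrix.cons_val_zero, Matrix.cons_val_one, Matrix.cons_val_two, Matrix.head_cons,
    Matrix.tail_cons]
  rw [hX, hy, ← smul_sub, enorm_smul]
  congr 1
  rw [← ofReal_norm, Real.norm_eq_abs, abs_of_pos (inv_pos.mpr hs)]

end core

end SemQ

end Crest.Agent.R285
end
end

-- ▼ part R285/SemQCore2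

/-!
Row 285 (S0430): the mean error of the Q-system, final form.
-/

set_option autoImplicit false
set_option linter.unusedSectionVars false

open Set Filter Topology MeasureTheory ProbabilityTheory
open Crest.OracleSampling (E Admissible)
open scoped ENNReal NNReal RealInnerProductSpace

noncomputable section

namespace Crest.Agent.R285

namespace SemQ

section core

variable {d : ℕ} {V : E d → ℝ}
variable {Ω : Type*} [MeasurableSpace Ω] {P : Measure Ω} [IsProbabilityMeasure P]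

/-- Picard against defects, in the mean (rescaled units). -/
theorem core_picard {Q : QPar} (c : E d) {s : ℝ} (hs : 0 < s)
    (hs2 : s ≤ 1 / 2)
    (hL : 2 * s ^ 2 * (QPar.cN Q.n * (1 + Q.a0 / (Q.ρ * Q.k1))) ≤ 1 / 2)
    {y b : QJ Q.n Q.M → Ω → E d} {y1 b1 X1 X0 q : Ω → E d} {B βy βX : ℝ≥0∞}
    (hE : ExQ Q (Scale.fs V s) (s⁻¹ • c) y b y1 X1 X0 q (2 * s ^ 2) P B βy βX)
    (hX1 : ∀ ω, X1 ω = Q.ρ • b1 ω + G (Scale.fs V s) Q.k1 (s⁻¹ • c + y1 ω))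
    (hb1 : Measurable b1)
    (my : ∀ j, ∫⁻ ω, ‖y j ω‖ₑ ∂P ≤ ENNReal.ofReal (3 * (√(d : ℝ) + ‖c‖)))
    (my1 : ∫⁻ ω, ‖y1 ω‖ₑ ∂P ≤ ENNReal.ofReal (3 * (√(d : ℝ) + ‖c‖)))
    (mb : ∀ j, ∫⁻ ω, ‖b j ω‖ₑ ∂P ≤ ENNReal.ofReal (√(d : ℝ)))
    (mb1 : ∫⁻ ω, ‖b1 ω‖ₑ ∂P ≤ ENNReal.ofReal (√(d : ℝ)))
    (mq : ∫⁻ ω, ‖q ω‖ₑ ∂P ≤ ENNReal.ofReal (√(d : ℝ)))
    {E₁ : ℝ}
    (hP : eP Q (2 * s ^ 2) (Module.finrank ℝ (E d)) B βy βX ≤ ENNReal.ofReal E₁)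
    (hO : eO Q (2 * s ^ 2) (Module.finrank ℝ (E d)) B βX ≤ ENNReal.ofReal (Q.ρ * E₁)) (K : ℕ)
    {θ : ℝ} (hθ : θ = 1 ∨ θ = 0) :
    ∫⁻ ω, ‖Q.sys.outF (Gt (Scale.fs V s) (s⁻¹ • c)) 0 ![y1 ω, X1 ω, q ω] (fun _ => θ • X1 ω)
        (K + 1) - X0 ω‖ₑ ∂P ≤
      ENNReal.ofReal (2 * s ^ 2 * LF.l1 (fun _ => 1) Q.sys.out) *
        (ENNReal.ofReal ((2 * s ^ 2 * (QPar.cN Q.n * (1 + Q.a0 / (Q.ρ * Q.k1)))) ^ K *
          (QPar.cN Q.n * (1 + Q.a0 / (Q.ρ * Q.k1)))) *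
          ((Fintype.card (QI Q.n Q.M) : ℝ≥0∞) * ENNReal.ofReal
            ((θ * Q.ρ + 31 * (2 * s ^ 2) + 2 * (1 - θ) * s) * (√(d : ℝ) + ‖c‖))) +
          3 * ((Fintype.card (QI Q.n Q.M) : ℝ≥0∞) * ENNReal.ofReal E₁)) +
        ENNReal.ofReal (Q.ρ * E₁) := by
  have hpot := hE.pot
  have hok := hE.ok
  have hτ0 : 0 ≤ 2 * s ^ 2 := by positivity
  have hk := hok.k1_pos
  have ha0 := hok.a0
  have hρ0 := hok.ρ0
  have hcN := (QPar.cN_pos Q.n).le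
  have hBc : 0 ≤ QPar.cN Q.n * (1 + Q.a0 / (Q.ρ * Q.k1)) := by positivity
  have hcont : ∀ r, Continuous (Gt (Scale.fs V s) (s⁻¹ • c) r) := fun r =>
    (contDiff_gr hpot).continuous.comp (f := fun x : E d => (r, s⁻¹ • c + x)) (by fun_prop)
  have m0 : ∀ i, AEMeasurable (fun ω => ‖θ • X1 ω - Gt (Scale.fs V s) (s⁻¹ • c) (Q.sys.r i)
      (xq Q (Scale.fs V s) (s⁻¹ • c) y b q ω i)‖ₑ) P := by
    intro i
    have a1 : Measurable (fun ω => θ • X1 ω) := hE.mX1.const_smul θ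
    have a2 : Measurable (Gt (Scale.fs V s) (s⁻¹ • c) (Q.sys.r i)) :=
      (hcont (Q.sys.r i)).measurable
    have a3 := hE.mx i
    have a4 : Measurable (fun ω => Gt (Scale.fs V s) (s⁻¹ • c) (Q.sys.r i)
      (xq Q (Scale.fs V s) (s⁻¹ • c) y b q ω i)) := a2.comp a3
    exact (a1.sub a4).enorm.aemeasurable
  have h2 := Q.sys.outF_mean (P := P) (G := Gt (Scale.fs V s) (s⁻¹ • c)) (Λ := 2 * s ^ 2)
    (hok.contr hτ0) (mul_nonneg hτ0 hBc) hL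
    (fun i x x' => by
      have := gr_lip hpot (Q.sys.r i) (s⁻¹ • c + x) (s⁻¹ • c + x')
      rwa [add_sub_add_left_eq_sub] at this) hτ0 0 (pq y1 X1 q) (fun ω _ => θ • X1 ω)
    (xq Q (Scale.fs V s) (s⁻¹ • c) y b q) X0 hBc
    (fun i => by rw [← LF.NN_eq]; exact hok.NN_pt i) K
    m0
    (fun i => ((hE.mx i).sub (hE.mev (Q.sys.pt i))).enorm.aemeasurable)
    (D0 := fun _ => ENNReal.ofReal ((θ * Q.ρ + 31 * (2 * s ^ 2) + 2 * (1 - θ) * s) *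
      (√(d : ℝ) + ‖c‖)))
    (δ := fun _ => ENNReal.ofReal E₁) (δo := ENNReal.ofReal (Q.ρ * E₁))
    (fun i => start_mean c hs hs2 hE hX1 hb1 my my1 mb mb1 mq hθ i)
    (fun i => by
      have h := hE.lb_pt i
      exact (FlatSys.lintegral_enorm_le_eLpNorm h.m).trans (h.le.trans hP))
    (by
      have h := hE.lb_out
      have h3 := (FlatSys.lintegral_enorm_le_eLpNorm h.m).trans (h.le.trans hO)
      refine le_trans (le_of_eq (lintegral_congr fun ω => ?_)) h3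
      rw [enorm_sub_rev]; rfl)
  simp only [Finset.sum_const, Finset.card_univ, nsmul_eq_mul] at h2
  exact h2

/-- **The mean error of the Q-system** (original units). -/
theorem core_mean {Q : QPar} (hV : PotP 2 V) (c : E d) {s σ : ℝ} (hs : 0 < s)
    (hs2 : s ≤ 1 / 2) (hσ : 0 < σ) (hsσ : 2 * s ≤ σ) (hρ : Q.ρ = s * σ)
    (hL : 2 * s ^ 2 * (QPar.cN Q.n * (1 + Q.a0 / (Q.ρ * Q.k1))) ≤ 1 / 2)
    {y b : QJ Q.n Q.M → Ω → E d} {y1 b1 X1 X0 q : Ω → E d} {B βy βX : ℝ≥0∞}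
    (hE : ExQ Q (Scale.fs V s) (s⁻¹ • c) y b y1 X1 X0 q (2 * s ^ 2) P B βy βX)
    (hX1 : ∀ ω, X1 ω = Q.ρ • b1 ω + G (Scale.fs V s) Q.k1 (s⁻¹ • c + y1 ω))
    (hb1 : Measurable b1)
    (my : ∀ j, ∫⁻ ω, ‖y j ω‖ₑ ∂P ≤ ENNReal.ofReal (3 * (√(d : ℝ) + ‖c‖)))
    (my1 : ∫⁻ ω, ‖y1 ω‖ₑ ∂P ≤ ENNReal.ofReal (3 * (√(d : ℝ) + ‖c‖)))
    (mb : ∀ j, ∫⁻ ω, ‖b j ω‖ₑ ∂P ≤ ENNReal.ofReal (√(d : ℝ)))
    (mb1 : ∫⁻ ω, ‖b1 ω‖ₑ ∂P ≤ ENNReal.ofReal (√(d : ℝ)))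
    (mq : ∫⁻ ω, ‖q ω‖ₑ ∂P ≤ ENNReal.ofReal (√(d : ℝ)))
    {E₁ : ℝ} (hE₁ : 0 ≤ E₁)
    (hP : eP Q (2 * s ^ 2) (Module.finrank ℝ (E d)) B βy βX ≤ ENNReal.ofReal E₁)
    (hO : eO Q (2 * s ^ 2) (Module.finrank ℝ (E d)) B βX ≤ ENNReal.ofReal (Q.ρ * E₁)) (K : ℕ) :
    ∫⁻ ω, ‖qout Q s (qth σ) K V c (![c + s • y1 ω, G V (s * Q.k1) (c + s • y1 ω) + σ • b1 ω,
        q ω]) - s⁻¹ • X0 ω‖ₑ ∂P ≤
      ENNReal.ofReal (σ * (QPar.cO Q.n / Q.k1 * (Fintype.card (QI Q.n Q.M) *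
        ((2 * s ^ 2 * (QPar.cN Q.n * (1 + Q.a0 / (Q.ρ * Q.k1)))) ^ K *
          (66 * QPar.cN Q.n * (Q.a0 / Q.k1)) * (√(d : ℝ) + ‖c‖) + 3 * E₁)) + E₁)) := by
  have hok := hE.ok
  have hτ0 : 0 ≤ 2 * s ^ 2 := by positivity
  have hk := hok.k1_pos
  have hk1 := hok.k1_le
  have ha0 := hok.a0
  have hρ0 := hok.ρ0
  have hcN := (QPar.cN_pos Q.n).le
  have hcO := QPar.cO_nonneg Q.n
  have hBc : 0 ≤ QPar.cN Q.n * (1 + Q.a0 / (Q.ρ * Q.k1)) := by positivity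
  have hW : 0 ≤ √(d : ℝ) + ‖c‖ := by positivity
  have hθ : qth σ = 1 ∨ qth σ = 0 := by unfold qth; split_ifs <;> simp
  have e1 : ∀ ω, _ := fun ω => qout_sub_eq (X0 := X0 ω) (q := q ω) hV c hs hρ (qth σ) (hX1 ω) K
  simp_rw [e1]
  rw [lintegral_const_mul' _ _ ENNReal.ofReal_ne_top]
  have h2 := core_picard c hs hs2 hL hE hX1 hb1 my my1 mb mb1 mq hP hO K hθ
  refine (mul_le_mul' le_rfl h2).trans ?_
  have hA : 1 ≤ Q.a0 / Q.k1 := by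
    rw [le_div_iff₀ hk, one_mul]
    linarith [hok.a1]
  have b1 := start_mul_le hA hs hs2 hσ hsσ
  have b2 : QPar.cN Q.n * (1 + Q.a0 / (Q.ρ * Q.k1)) *
      ((qth σ * Q.ρ + 31 * (2 * s ^ 2) + 2 * (1 - qth σ) * s) * (√(d : ℝ) + ‖c‖)) ≤
      66 * QPar.cN Q.n * (Q.a0 / Q.k1) * (√(d : ℝ) + ‖c‖) := by
    have e : QPar.cN Q.n * (1 + Q.a0 / (Q.ρ * Q.k1)) *
      ((qth σ * Q.ρ + 31 * (2 * s ^ 2) + 2 * (1 - qth σ) * s) * (√(d : ℝ) + ‖c‖)) =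
        QPar.cN Q.n * (√(d : ℝ) + ‖c‖) * ((1 + Q.a0 / Q.k1 / (s * σ)) *
        (qth σ * (s * σ) + 31 * (2 * s ^ 2) + 2 * (1 - qth σ) * s)) := by
      rw [hρ, div_div, mul_comm Q.k1 (s * σ)]
      ring
    rw [e]
    calc QPar.cN Q.n * (√(d : ℝ) + ‖c‖) * _ ≤
          QPar.cN Q.n * (√(d : ℝ) + ‖c‖) * (66 * (Q.a0 / Q.k1)) :=
          mul_le_mul_of_nonneg_left b1 (by positivity)
      _ = _ := by ring
  have b3 : LF.l1 (fun _ => (1 : ℝ)) Q.sys.out ≤ QPar.cO Q.n / Q.k1 := by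
    refine (hok.NN_out).trans ?_
    refine div_le_div_of_nonneg_left hcO hk ?_
    have := hok.at1
    nlinarith
  have hl1 : 0 ≤ LF.l1 (fun _ => (1 : ℝ)) Q.sys.out := LF.l1_nonneg (fun _ => zero_le_one) _
  have hD0 : 0 ≤ (qth σ * Q.ρ + 31 * (2 * s ^ 2) + 2 * (1 - qth σ) * s) *
      (√(d : ℝ) + ‖c‖) := by
    have : 0 ≤ qth σ ∧ qth σ ≤ 1 := by rcases hθ with h | h <;> rw [h] <;> norm_num
    have h1 : 0 ≤ 1 - qth σ := by linarith [this.2]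
    have h2 := this.1
    positivity
  exact enn_final hs hσ hsσ hρ hl1 (mul_nonneg hτ0 hBc) hBc hD0 hE₁ b2 b3

end core

end SemQ

end Crest.Agent.R285
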