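import Crest.Agent.R285.StepQ_Mg
import Crest.Agent.R285.SM2
import Crest.Agent.R285.CoupGen
import Crest.Agent.R285.SMInner
import Mathlib
import Crest.Agent.R285.Flow1
import Crest.Agent.R285.Channel
import Crest.Agent.R285.Inner
import Crest.Agent.R285.QFlat
import Crest.Agent.R285.Skew
import Crest.Agent.R285.SemQ
import Crest.Agent.R285.LawQ
import Crest.Agent.R285.AFAll_Mg
import Crest.Agent.R285.Scale
import Crest.Agent.R285.LawPX
import Crest.Agent.R285.SemQCore2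

-- ▼ part R285/PlugQ
section

/-!
Row 285 (S0430): the final chain from the single remaining input `SEMQ`.
-/

set_option autoImplicit false

open MeasureTheory ProbabilityTheory Filter Topology
open Crest.OracleSampling (E Admissible)

noncomputable section

namespace Crest.Agent.R285.Plug

open Crest.Agent.R285

/-- The statement of S0430 from `SEMQ`. -/
theorem S0430_of_SEMQ (hS : SEMQ) :
    ∀ ε : ℝ, 0 < ε → ∃ C : ℝ, ∀ d : ℕ, 2 ≤ d →
      ∃ (q : ℕ) (A : Crest.OracleSampling.QueryAlg d q), (q : ℝ) ≤ C * (d : ℝ) ^ ε ∧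
        ∀ V : Crest.OracleSampling.E d → ℝ, Crest.OracleSampling.Admissible d V →
          Crest.OracleSampling.Succeeds A V :=
  S0430_of_StepQ fun _ hx => StepQ.stepQ_of_SEMQ hS hx

end Crest.Agent.R285.Plug
end
end

-- ▼ part R285/SM1
section

/-!
Row 285 (S0430): smoothness along a general exact flow `v` on a state space `W` whose `η`- and
`b`-coordinates are `H`, `B` (hypotheses of `InstEv.iterate_Dv_evt`) and whose law at time `t` is
mapped by `(H, B)` to `law1 f a t × γ`.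
-/

set_option autoImplicit false
set_option linter.unusedSectionVars false

open MeasureTheory ProbabilityTheory Real Filter Topology Set
open Crest.OracleSampling (E)
open MvPolynomial (C)
open scoped RealInnerProductSpace ENNReal ContDiff

noncomputable section

namespace Crest.Agent.R285.SM

open Crest.Agent.R285 Crest.Agent.R285.Inst Crest.Agent.R285.InstFix Crest.Agent.R285.PolyDv

variable {d : ℕ}

theorem evt_eq_evp {W : Type} [NormedAddCommGroup W] [NormedSpace ℝ W] (τ : ℝ) (f : E d → ℝ)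
    (a : E d) (H B : ℝ → W → E d) (t : ℝ) (x : W) (g : A (Fin d)) :
    evt τ (AF.uT f) a H B t x g = PolyEv.evp (gval f (√(1 - t ^ 2)) a t τ) (H t x, B t x) g := by
  unfold evt PolyEv.evp
  congr 2
  funext g
  cases g <;> rfl

/-- **General smoothness transfer.** -/
theorem eLpNorm_iterate {c : ℕ → ℝ} {K τ et : ℝ} {f : E d → ℝ} (hf : PotP τ f) (hτ : 0 < τ)
    (hτ1 : τ ≤ 1) (a : E d) {W : Type} [NormedAddCommGroup W] [NormedSpace ℝ W]
    [MeasurableSpace W] [BorelSpace W] {v : ℝ → W → W} {H B : ℝ → W → E d} {J : Set ℝ}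
    (hJo : IsOpen J) (hJ : J ⊆ Ioo (-1 : ℝ) 1) (hv : SmOn v J) (hH : SmOn H J) (hB : SmOn B J)
    (hvH : ∀ t ∈ J, ∀ x i, Dv v H t x i = evt τ (AF.uT f) a H B t x (XX τ et (gη i)))
    (hvB : ∀ t ∈ J, ∀ x i, Dv v B t x i = evt τ (AF.uT f) a H B t x (XX τ et (gb i)))
    {t : ℝ} (ht : t ∈ J) {P : Measure W}
    (hP : P.map (fun x => (H t x, B t x)) = (Scale.law1 f a t).prod (stdGaussian (E d)))
    (hK : 1 ≤ K) (het : |et| ≤ 1) (hAF : AFB c K τ f (√(1 - t ^ 2)))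
    {m : ℕ} {F : ℝ → W → E m} (hF : SmOn F J) (φ : Fin m → A (Fin d))
    (hφ : ∀ t ∈ J, ∀ x i, F t x i = evt τ (AF.uT f) a H B t x (φ i))
    (n : ℕ) {B₀ : ℝ} (hB0 : 0 ≤ B₀)
    (hB₀ : ∀ het hε hτ0 hτ1, ∀ i,
      (fixSett c K et hK het hf (sqrt_pos' (hJ ht)) a t hε hτ0 hτ1 hAF).I
        ((XX τ et)^[n] (φ i) * (XX τ et)^[n] (φ i)) ≤ B₀ ^ 2) :
    eLpNorm ((Dv v)^[n] F t) 2 P ≤ ENNReal.ofReal (B₀ * √m) := by
  have ht1 := hJ ht
  have hε : |t| ≤ 1 := abs_le.2 ⟨ht1.1.le, ht1.2.le⟩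
  have hB' := hB₀ het hε hτ.ne' (by rw [abs_of_pos hτ]; exact hτ1)
  have hvals := vals hf (sqrt_pos' ht1) a t hτ.ne' (bdd_of_AF hτ.ne' hAF)
  have hcont : Continuous ((Dv v)^[n] F t) := by
    rw [← continuousOn_univ]
    exact (hF.iterate_Dv hJo hv n).continuousOn.comp
      (f := fun x : W => (t, x)) (by fun_prop) (fun x _ => ⟨ht, mem_univ _⟩)
  have hHc : Continuous (H t) := by
    rw [← continuousOn_univ]
    exact ContDiffOn.continuousOn hH |>.comp (f := fun x : W => (t, x)) (by fun_prop)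
      (fun x _ => ⟨ht, mem_univ _⟩)
  have hBc : Continuous (B t) := by
    rw [← continuousOn_univ]
    exact ContDiffOn.continuousOn hB |>.comp (f := fun x : W => (t, x)) (by fun_prop)
      (fun x _ => ⟨ht, mem_univ _⟩)
  -- the squared norm as a function of `(η, b)`
  have key : ∀ x, ‖(Dv v)^[n] F t x‖ ^ 2 =
      ∑ i, (PolyEv.evp (gval f (√(1 - t ^ 2)) a t τ) (H t x, B t x)
        ((XX τ et)^[n] (φ i))) ^ 2 := by
    intro x
    rw [EuclideanSpace.norm_sq_eq]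
    refine Finset.sum_congr rfl fun i _ => ?_
    rw [Real.norm_eq_abs, sq_abs]
    congr 1
    set L : E m →L[ℝ] ℝ := EuclideanSpace.proj (𝕜 := ℝ) i with hL
    have h1 := iterate_Dv_clm L hJo hF hv n t ht x
    have h2 : ∀ t ∈ J, ∀ p : W, L (F t p) = evt τ (AF.uT f) a H B t p (φ i) := by
      intro t ht p
      exact hφ t ht p i
    have h3 := iterate_Dv_congr (v := v) hJo h2 n t ht x
    have h4 := iterate_Dv_evt (v := v) (et := et) hτ.ne' (AF.joint_uT hf) (AF.hj_uT hf) hJo hJ hH hB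
      hvH hvB (φ i) n ht x
    have h6 : L ((Dv v)^[n] F t x) = ((Dv v)^[n] F t x) i := rfl
    rw [← h6, ← h1, h3, h4, evt_eq_evp]
  -- compare with the vector valued function on `E d × E d`
  set F₂ : E d × E d → E m := fun p => WithLp.toLp 2 fun i =>
    PolyEv.evp (gval f (√(1 - t ^ 2)) a t τ) p ((XX τ et)^[n] (φ i)) with hF₂
  have hF₂c : Continuous F₂ := by
    refine (PiLp.continuous_toLp 2 _).comp (continuous_pi fun i => ?_)
    exact PolyEv.continuous_evp hvals.cont _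
  have e1 : eLpNorm ((Dv v)^[n] F t) 2 P = eLpNorm (F₂ ∘ fun x => (H t x, B t x)) 2 P := by
    refine eLpNorm_congr_norm_ae (ae_of_all _ fun x => ?_)
    have h1 := key x
    have h2 : ‖F₂ (H t x, B t x)‖ ^ 2 = ∑ i, (PolyEv.evp (gval f (√(1 - t ^ 2)) a t τ)
        (H t x, B t x) ((XX τ et)^[n] (φ i))) ^ 2 := by
      rw [EuclideanSpace.norm_sq_eq]
      refine Finset.sum_congr rfl fun i _ => ?_
      rw [Real.norm_eq_abs, sq_abs]
    rw [← h2] at h1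
    exact (sq_eq_sq₀ (norm_nonneg _) (norm_nonneg _)).1 h1
  have hmap : Measurable fun x : W => (H t x, B t x) := (hHc.prodMk hBc).measurable
  rw [e1, ← eLpNorm_map_measure (by rw [hP]; exact hF₂c.aestronglyMeasurable)
    hmap.aemeasurable, hP, Scale.law1_prod hf a ht1]
  refine Scale.eLpNorm_M2_le hvals (fun i : Fin m => (XX τ et)^[n] (φ i)) (fun x => ?_)
    (by positivity) ?_
  · rw [EuclideanSpace.norm_sq_eq]
    refine Finset.sum_congr rfl fun i _ => ?_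
    rw [Real.norm_eq_abs, sq_abs]
  · calc _ ≤ ∑ _i : Fin m, B₀ ^ 2 := Finset.sum_le_sum fun i _ => hB' i
      _ = (B₀ * √m) ^ 2 := by
        rw [Finset.sum_const, Finset.card_univ, Fintype.card_fin, nsmul_eq_mul, mul_pow,
          Real.sq_sqrt (Nat.cast_nonneg m)]
        ring

end Crest.Agent.R285.SM
end
end

-- ▼ part R285/SM1C
section

/-!
Row 285 (S0430): `L²` smoothness along the COUPLED flow (unit scale, `(η, X)`-coordinates).
-/

set_option autoImplicit false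
set_option linter.unusedSectionVars false

open MeasureTheory ProbabilityTheory Real Filter Topology Set
open Crest.OracleSampling (E)
open scoped RealInnerProductSpace ENNReal ContDiff

noncomputable section

namespace Crest.Agent.R285.SM

open Crest.Agent.R285 Crest.Agent.R285.Inst Crest.Agent.R285.InstFix Crest.Agent.R285.PolyDv

variable {d : ℕ}

theorem iterate_smul_XX (τ et r : ℝ) (w : A (Fin d)) (n : ℕ) :
    (XX τ et)^[n] (r • w) = r • (XX τ et)^[n] w := by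
  induction n with
  | zero => rfl
  | succ n ih => rw [Function.iterate_succ_apply', Function.iterate_succ_apply', ih,
      Derivation.map_smul]

section

variable {τ : ℝ} {f : E d → ℝ}

/-- General bound for a vector field with word coordinates along the coupled flow. -/
theorem coupled_word {c : ℕ → ℝ} (hf : PotP τ f) (hτ : 0 < τ) (hτ1 : τ ≤ 1) (a : E d) {ρ : ℝ}
    (hρ : τ ≤ ρ) {t : ℝ} (ht : t ∈ Ioo (-1 : ℝ) 1)
    (hAF : AFB c (√(1 - t ^ 2))⁻¹ τ f (√(1 - t ^ 2))) {P : Measure (E d × E d)}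
    (hP : P.map (fun x => (x.1, bC f a ρ t x)) = (Scale.law1 f a t).prod (stdGaussian (E d)))
    {F : ℝ → E d × E d → E d} (hF : SmOn F (Ioo (-1 : ℝ) 1)) (r : ℝ) (w : Fin d → A (Fin d))
    (hw : ∀ t ∈ Ioo (-1 : ℝ) 1, ∀ x i, F t x i =
      r * PolyEv.evp (gval f √(1 - t ^ 2) a t τ) (x.1, bC f a ρ t x) (w i))
    (n : ℕ) {B : ℝ} (hB0 : 0 ≤ B)
    (hB' : ∀ hK het hε hτ0 hτ1 i,
      (fixSett c (√(1 - t ^ 2))⁻¹ (τ / ρ) hK het hf (sqrt_pos' ht) a t hε hτ0 hτ1 hAF).I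
        ((XX τ (τ / ρ))^[n] (w i) * (XX τ (τ / ρ))^[n] (w i)) ≤ B) :
    eLpNorm ((Dv (vC f a ρ))^[n] F t) 2 P ≤ ENNReal.ofReal (|r| * √B * √d) := by
  have hρ0 : 0 < ρ := hτ.trans_le hρ
  have hK : 1 ≤ (√(1 - t ^ 2))⁻¹ := by
    rw [one_le_inv₀ (sqrt_pos' ht)]
    rw [Real.sqrt_le_one]
    nlinarith [sq_nonneg t]
  have het : |τ / ρ| ≤ 1 := by
    rw [abs_of_pos (div_pos hτ hρ0), div_le_one hρ0]
    exact hρ
  refine eLpNorm_iterate (c := c) (et := τ / ρ) hf hτ hτ1 a isOpen_Ioo subset_rfl (smOn_vC hf a ρ)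
    (H := fun _ x => x.1) (B := bC f a ρ) smOn_fst (smOn_bC hf a ρ) ?_ ?_ ht hP hK het hAF hF
    (fun i => r • w i) ?_ n (by positivity) ?_
  · intro t ht x i
    rw [Dv_fst, evt_eq_evp' τ f a (fun _ x => x.1) (bC f a ρ) t x]
    exact vC_fst hf a hτ.ne' ht x i
  · intro t ht x i
    rw [evt_eq_evp' τ f a (fun _ x => x.1) (bC f a ρ) t x]
    exact Dv_bC hf a hτ.ne' hρ0.ne' ht x i
  · intro t ht x i
    rw [evt_eq_evp' τ f a (fun _ x => x.1) (bC f a ρ) t x, map_smul, smul_eq_mul]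
    exact hw t ht x i
  · intro het hε hτ0 hτ1 i
    have h1 := hB' hK het hε hτ0 hτ1 i
    rw [iterate_smul_XX]
    have e : (r • (XX τ (τ / ρ))^[n] (w i)) * (r • (XX τ (τ / ρ))^[n] (w i)) =
        (r ^ 2) • ((XX τ (τ / ρ))^[n] (w i) * (XX τ (τ / ρ))^[n] (w i)) := by
      rw [smul_mul_smul_comm, sq]
    rw [e, mul_pow, sq_abs, Real.sq_sqrt hB0]
    have h2 : ∀ (S : Sob.Sett c) (z : S.A), S.I ((r ^ 2) • z) = r ^ 2 * S.I z := fun S z => by
      rw [map_smul, smul_eq_mul]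
    exact le_of_eq_of_le (h2 (fixSett c (√(1 - t ^ 2))⁻¹ (τ / ρ) hK het hf (sqrt_pos' ht) a t hε hτ0
      hτ1 hAF) _) (mul_le_mul_of_nonneg_left h1 (sq_nonneg r))


/-! ### quadratic estimates for `I` -/

theorem I2_add {c : ℕ → ℝ} (S : Sob.Sett c) (x y : S.A) :
    S.I ((x + y) * (x + y)) ≤ 2 * S.I (x * x) + 2 * S.I (y * y) := by
  have h := Sob.I_sq_nonneg S (x - y)
  have e : (x - y) * (x - y) + (x + y) * (x + y) = (2 : ℝ) • (x * x) + (2 : ℝ) • (y * y) := by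
    simp only [two_smul]
    ring
  have e2 := congrArg S.I e
  simp only [map_add, map_smul, smul_eq_mul] at e2
  linarith

theorem I2_smul {c : ℕ → ℝ} (S : Sob.Sett c) (r : ℝ) (x : S.A) :
    S.I ((r • x) * (r • x)) = r ^ 2 * S.I (x * x) := by
  have e : (r • x) * (r • x) = (r ^ 2) • (x * x) := by rw [smul_mul_smul_comm, sq]
  rw [e, map_smul, smul_eq_mul]

theorem I2_eps {c : ℕ → ℝ} (S : Sob.Sett c) (x : S.A) :
    S.I ((S.eps * x) * (S.eps * x)) ≤ S.I (x * x) := by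
  refine Sob.I_mono S fun p => ?_
  simp only [map_mul]
  have h := S.abs_ev_eps p
  have h1 : (S.ev p S.eps) ^ 2 ≤ 1 := by
    rw [sq_le_one_iff_abs_le_one]; exact h
  nlinarith [mul_self_nonneg (S.ev p x)]

theorem iterate_add_XX (τ et : ℝ) (w w' : A (Fin d)) (n : ℕ) :
    (XX τ et)^[n] (w + w') = (XX τ et)^[n] w + (XX τ et)^[n] w' := by
  induction n with
  | zero => rfl
  | succ n ih => simp only [Function.iterate_succ_apply', ih, map_add]


/-- constants -/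
theorem sqrt_CK {C K : ℝ} (hC : 0 ≤ C) (hK : 1 ≤ K) (P : ℕ) : √(C * K ^ P) ≤ (C + 1) * K ^ P := by
  have hKp : 1 ≤ K ^ P := one_le_pow₀ hK
  rw [Real.sqrt_le_left (by positivity), mul_pow]
  have h2 : C * K ^ P ≤ (C + 1) ^ 2 * K ^ P := by
    have : C ≤ (C + 1) ^ 2 := by nlinarith
    exact mul_le_mul_of_nonneg_right this (by positivity)
  have h3 : (C + 1) ^ 2 * K ^ P ≤ (C + 1) ^ 2 * (K ^ P) ^ 2 := by
    have : K ^ P ≤ (K ^ P) ^ 2 := by nlinarith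
    exact mul_le_mul_of_nonneg_left this (by positivity)
  exact h2.trans h3

variable {c : ℕ → ℝ}

/-- **Coupled flow, first component** (the velocity of `η`). -/
theorem exists_C1 (hAF : AFall c) (n : ℕ) : ∃ (C : ℝ) (P : ℕ), 0 ≤ C ∧
    ∀ {d : ℕ} {f : E d → ℝ} {τ : ℝ}, PotP τ f → 0 < τ → τ ≤ 1 → ∀ (a : E d) {ρ : ℝ}, τ ≤ ρ →
      ∀ {t : ℝ}, t ∈ Ioo (-1 : ℝ) 1 → ∀ {Q : Measure (E d × E d)},
      Q.map (fun x => (x.1, bC f a ρ t x)) = (Scale.law1 f a t).prod (stdGaussian (E d)) →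
      eLpNorm ((Dv (vC f a ρ))^[n + 1] (fun t x => (vC f a ρ t x).1) t) 2 Q ≤
        ENNReal.ofReal ((τ + τ / ρ) * (C * (√(1 - t ^ 2))⁻¹ ^ P) * √d) := by
  obtain ⟨C, P, hC, H⟩ := Sob.export_coord c (n + 1)
  obtain ⟨C₀, P₀, hC₀, H₀⟩ := Sob.export_coord c n
  refine ⟨2 * (C₀ + 1) + 2 * (C + 1), P + P₀, by linarith, fun {d f τ} hf hτ hτ1 a ρ hρ t ht Q hQ => ?_⟩
  have hκ := sqrt_pos' ht
  have hK : 1 ≤ (√(1 - t ^ 2))⁻¹ := (one_le_inv₀ hκ).2 kappa_le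
  have hρ0 : 0 < ρ := hτ.trans_le hρ
  have hAF' := hAF hf hτ hτ1 hκ kappa_le
  set K := (√(1 - t ^ 2))⁻¹ with hKd
  have hF : SmOn (fun t x => (vC f a ρ t x).1) (Ioo (-1 : ℝ) 1) := by
    have := smOn_vC hf a ρ
    exact this.fst
  have key := coupled_word (c := c) hf hτ hτ1 a hρ ht hAF' hQ hF 1
    (fun i => (-τ) • gT {i} + (τ / ρ) • wAb i) ?_ (n + 1)
    (B := 2 * (τ ^ 2 * (C₀ * K ^ P₀)) + 2 * ((τ / ρ) ^ 2 * (C * K ^ P))) (by positivity) ?_
  · refine key.trans (ENNReal.ofReal_le_ofReal ?_)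
    rw [abs_one, one_mul]
    refine mul_le_mul_of_nonneg_right ?_ (Real.sqrt_nonneg _)
    have h1 : √(2 * (τ ^ 2 * (C₀ * K ^ P₀)) + 2 * ((τ / ρ) ^ 2 * (C * K ^ P))) ≤
        2 * τ * √(C₀ * K ^ P₀) + 2 * (τ / ρ) * √(C * K ^ P) := by
      have hτρ : 0 < τ / ρ := by positivity
      rw [Real.sqrt_le_left (by positivity)]
      have a1 : √(C₀ * K ^ P₀) ^ 2 = C₀ * K ^ P₀ := Real.sq_sqrt (by positivity)
      have a2 : √(C * K ^ P) ^ 2 = C * K ^ P := Real.sq_sqrt (by positivity)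
      have a3 : 0 ≤ τ * √(C₀ * K ^ P₀) * ((τ / ρ) * √(C * K ^ P)) := by positivity
      have a4 : 0 ≤ τ ^ 2 * (C₀ * K ^ P₀) := by positivity
      have a5 : 0 ≤ (τ / ρ) ^ 2 * (C * K ^ P) := by positivity
      have a6 : (2 * τ * √(C₀ * K ^ P₀) + 2 * (τ / ρ) * √(C * K ^ P)) ^ 2 =
          4 * (τ ^ 2 * √(C₀ * K ^ P₀) ^ 2) + 4 * ((τ / ρ) ^ 2 * √(C * K ^ P) ^ 2) +
          8 * (τ * √(C₀ * K ^ P₀) * ((τ / ρ) * √(C * K ^ P))) := by ring
      rw [a6, a1, a2]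
      linarith
    have h2 := sqrt_CK hC₀ hK P₀
    have h3 := sqrt_CK hC hK P
    have hk1 : K ^ P₀ ≤ K ^ (P + P₀) := pow_le_pow_right₀ hK (by omega)
    have hk2 : K ^ P ≤ K ^ (P + P₀) := pow_le_pow_right₀ hK (by omega)
    have hτρ : 0 < τ / ρ := by positivity
    calc _ ≤ 2 * τ * √(C₀ * K ^ P₀) + 2 * (τ / ρ) * √(C * K ^ P) := h1
      _ ≤ 2 * τ * ((C₀ + 1) * K ^ (P + P₀)) + 2 * (τ / ρ) * ((C + 1) * K ^ (P + P₀)) := by
        gcongr
        · exact h2.trans (mul_le_mul_of_nonneg_left hk1 (by positivity))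
        · exact h3.trans (mul_le_mul_of_nonneg_left hk2 (by positivity))
      _ ≤ _ := by
        have b1 : 0 ≤ τ * (C + 1) * K ^ (P + P₀) := by positivity
        have b2 : 0 ≤ (τ / ρ) * (C₀ + 1) * K ^ (P + P₀) := by positivity
        nlinarith
  · intro t ht x i
    rw [one_mul, map_add, map_smul, map_smul]
    have h1 := G_word hf a hτ.ne' ht (x.1, bC f a ρ t x) i
    have h2 := DGr_word hf a hτ.ne' ht (x.1, bC f a ρ t x) i
    have e1 : (vC f a ρ t x).1 i = -(G f √(1 - t ^ 2) (a + t • x.1) i) +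
      ρ⁻¹ * DGr f (√(1 - t ^ 2), a + t • x.1) (bC f a ρ t x) i := rfl
    change (vC f a ρ t x).1 i = _
    rw [e1]
    change G f √(1 - t ^ 2) (a + t • x.1) i = _ at h1
    change DGr f (√(1 - t ^ 2), a + t • x.1) (bC f a ρ t x) i = _ at h2
    rw [h1, h2]
    simp only [smul_eq_mul]
    field_simp
  · intro hK' het hε hτ0 hτ1' i
    rw [iterate_add_XX, iterate_smul_XX, iterate_smul_XX]
    set S := fixSett c K (τ / ρ) hK' het hf (sqrt_pos' ht) a t hε hτ0 hτ1' hAF' with hS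
    refine (I2_add S ((-τ) • (XX τ (τ / ρ))^[n + 1] (gT {i})) _).trans ?_
    have g1 := (H₀ S i).1
    have g2 := (H S i).2.1
    have g3 := I2_smul S (-τ) ((XX τ (τ / ρ))^[n + 1] (gT {i}))
    have g4 := I2_smul S (τ / ρ) ((XX τ (τ / ρ))^[n + 1] (wAb i))
    refine add_le_add (mul_le_mul_of_nonneg_left ?_ (by norm_num))
      (mul_le_mul_of_nonneg_left ?_ (by norm_num))
    · refine le_of_eq_of_le g3 ?_
      rw [neg_sq]
      exact mul_le_mul_of_nonneg_left g1 (sq_nonneg _)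
    · refine le_of_eq_of_le g4 ?_
      exact mul_le_mul_of_nonneg_left g2 (sq_nonneg _)


theorem wAAb_bound (c : ℕ → ℝ) (n : ℕ) : ∃ (C : ℝ) (P : ℕ), 0 ≤ C ∧ ∀ (S : Sob.Sett c) (i : S.N),
    S.I ((fun f => S.X f)^[n] (S.eps * ∑ l, S.T {i, l} * ∑ k, S.T {l, k} * S.b k) *
      (fun f => S.X f)^[n] (S.eps * ∑ l, S.T {i, l} * ∑ k, S.T {l, k} * S.b k)) ≤
        C * S.K ^ P := by
  cases n with
  | zero =>
    obtain ⟨C, P, hC, H⟩ := Sob.export_coord c 0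
    refine ⟨C, P, hC, fun S i => ?_⟩
    exact (I2_eps S _).trans (H S i).2.2
  | succ n =>
    obtain ⟨C, P, hC, H⟩ := Sob.export_coord c (n + 1)
    obtain ⟨C₀, P₀, hC₀, H₀⟩ := Sob.export_coord c n
    refine ⟨2 * C + 2 * ((n : ℝ) + 1) ^ 2 * C₀, P + P₀, by positivity, fun S i => ?_⟩
    have hit : ∀ (w : S.A) (n : ℕ), (fun f => S.X f)^[n + 1] (S.eps * w) =
        S.eps * (fun f => S.X f)^[n + 1] w + ((n : ℝ) + 1) • (fun f => S.X f)^[n] w := by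
      intro w n
      induction n with
      | zero =>
        simp only [zero_add, Function.iterate_one, Function.iterate_zero, id_eq]
        rw [Derivation.leibniz, S.X_eps]
        simp
      | succ n ih =>
        rw [Function.iterate_succ_apply', ih]
        rw [map_add, Derivation.leibniz, S.X_eps, Derivation.map_smul]
        rw [show S.X ((fun f => S.X f)^[n + 1] w) = (fun f => S.X f)^[n + 1 + 1] w from
          (Function.iterate_succ_apply' (fun f => S.X f) (n + 1) w).symm,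
          show S.X ((fun f => S.X f)^[n] w) = (fun f => S.X f)^[n + 1] w from
          (Function.iterate_succ_apply' (fun f => S.X f) n w).symm]
        simp only [smul_eq_mul, mul_one]
        push_cast
        rw [add_assoc, add_smul ((n : ℝ) + 1) 1, one_smul, add_comm ((fun f => S.X f)^[n + 1] w)]
    rw [hit]
    have hK := S.one_le_K
    have hk1 : S.K ^ P ≤ S.K ^ (P + P₀) := pow_le_pow_right₀ hK (by omega)
    have hk2 : S.K ^ P₀ ≤ S.K ^ (P + P₀) := pow_le_pow_right₀ hK (by omega)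
    refine (I2_add S _ _).trans ?_
    have g1 := (I2_eps S ((fun f => S.X f)^[n + 1]
      (∑ l, S.T {i, l} * ∑ k, S.T {l, k} * S.b k))).trans (H S i).2.2
    have g2 := (I2_smul S ((n : ℝ) + 1) ((fun f => S.X f)^[n]
      (∑ l, S.T {i, l} * ∑ k, S.T {l, k} * S.b k)))
    have g3 := (H₀ S i).2.2
    rw [g2]
    calc _ ≤ 2 * (C * S.K ^ P) + 2 * (((n : ℝ) + 1) ^ 2 * (C₀ * S.K ^ P₀)) := by gcongr
      _ ≤ 2 * (C * S.K ^ (P + P₀)) + 2 * (((n : ℝ) + 1) ^ 2 * (C₀ * S.K ^ (P + P₀))) := by gcongr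
      _ = _ := by ring

/-- **Coupled flow, second component** (the velocity of `X`). -/
theorem exists_C2 (hAF : AFall c) (n : ℕ) : ∃ (C : ℝ) (P : ℕ), 0 ≤ C ∧
    ∀ {d : ℕ} {f : E d → ℝ} {τ : ℝ}, PotP τ f → 0 < τ → τ ≤ 1 → ∀ (a : E d) {ρ : ℝ}, τ ≤ ρ →
      ∀ {t : ℝ}, t ∈ Ioo (-1 : ℝ) 1 → ∀ {Q : Measure (E d × E d)},
      Q.map (fun x => (x.1, bC f a ρ t x)) = (Scale.law1 f a t).prod (stdGaussian (E d)) →
      eLpNorm ((Dv (vC f a ρ))^[n] (fun t x => (vC f a ρ t x).2) t) 2 Q ≤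
        ENNReal.ofReal (τ ^ 2 / ρ * (C * (√(1 - t ^ 2))⁻¹ ^ P) * √d) := by
  obtain ⟨C, P, hC, H⟩ := wAAb_bound c n
  refine ⟨C + 1, P, by linarith, fun {d f τ} hf hτ hτ1 a ρ hρ t ht Q hQ => ?_⟩
  have hκ := sqrt_pos' ht
  have hK : 1 ≤ (√(1 - t ^ 2))⁻¹ := (one_le_inv₀ hκ).2 kappa_le
  have hρ0 : 0 < ρ := hτ.trans_le hρ
  have hAF' := hAF hf hτ hτ1 hκ kappa_le
  set K := (√(1 - t ^ 2))⁻¹ with hKd
  have hF : SmOn (fun t x => (vC f a ρ t x).2) (Ioo (-1 : ℝ) 1) := by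
    have := smOn_vC hf a ρ
    exact this.snd
  have key := coupled_word (c := c) hf hτ hτ1 a hρ ht hAF' hQ hF (τ ^ 2 / ρ)
    (fun i => ge * wAAb i) ?_ n (B := C * K ^ P) (by positivity) ?_
  · refine key.trans (ENNReal.ofReal_le_ofReal ?_)
    rw [abs_of_pos (by positivity)]
    refine mul_le_mul_of_nonneg_right ?_ (Real.sqrt_nonneg _)
    exact mul_le_mul_of_nonneg_left (sqrt_CK hC hK P) (by positivity)
  · intro t ht x i
    rw [map_mul, InstFix.evp_ge]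
    have h1 := DGr_DGr_word hf a hτ.ne' ht (x.1, bC f a ρ t x) i
    change DGr f (√(1 - t ^ 2), a + t • x.1) (DGr f (√(1 - t ^ 2), a + t • x.1)
      (bC f a ρ t x)) i = _ at h1
    change (t * ρ⁻¹) * DGr f (√(1 - t ^ 2), a + t • x.1) (DGr f (√(1 - t ^ 2), a + t • x.1)
      (bC f a ρ t x)) i = _
    rw [h1]
    field_simp
  · intro hK' het hε hτ0 hτ1' i
    exact H (fixSett c K (τ / ρ) hK' het hf (sqrt_pos' ht) a t hε hτ0 hτ1' hAF') i

end

end Crest.Agent.R285.SM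
end
end

-- ▼ part R285/Burgers
section

/-!
Row 285: third derivatives of `Ub` and the Burgers equation for `G = ∇ Ub` (`σ > 0`).
-/

set_option autoImplicit false
set_option maxSynthPendingDepth 3
set_option linter.unusedSectionVars false

open MeasureTheory ProbabilityTheory Real Filter Topology Set
open scoped RealInnerProductSpace

noncomputable section

namespace Crest.Agent.R285

variable {V : Type} [NormedAddCommGroup V] [InnerProductSpace ℝ V] [FiniteDimensional ℝ V]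
  [MeasurableSpace V] [BorelSpace V]

variable {h : ℝ} {U : V → ℝ}

theorem isOpen_pos : IsOpen {p : ℝ × V | 0 < p.1} :=
  isOpen_lt (f := fun _ : ℝ × V => (0 : ℝ)) (g := fun p : ℝ × V => p.1) continuous_const
    continuous_fst

theorem contDiffOn_zp2_top (hU : PotP h U) :
    ContDiffOn ℝ (⊤ : ℕ∞) (Zp2 U) {p : ℝ × V | 0 < p.1} :=
  contDiffOn_avg_top ((ph_cd1 hU).continuous_fderiv one_ne_zero) (C := gC h) fun y => by
    simpa using (gg_ph' hU).b1 y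

theorem contDiffOn_ub2_top (hU : PotP h U) :
    ContDiffOn ℝ (⊤ : ℕ∞) (Ub2 U) {p : ℝ × V | 0 < p.1} := by
  have hz := contDiffOn_zp_top hU
  have hz1 := contDiffOn_zp1_top hU
  have hz2 := contDiffOn_zp2_top hU
  have hi : ContDiffOn ℝ (⊤ : ℕ∞) (fun p => (Zp U p)⁻¹) {p : ℝ × V | 0 < p.1} :=
    hz.inv fun p _ => (zp_pos hU p).ne'
  have hi2 : ContDiffOn ℝ (⊤ : ℕ∞) (fun p => ((Zp U p) ^ 2)⁻¹) {p : ℝ × V | 0 < p.1} :=
    (hz.pow 2).inv fun p _ => (pow_pos (zp_pos hU p) 2).ne'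
  refine ContDiffOn.sub ?_ (hi.smul hz2)
  exact ContDiffOn.clm_apply (f := fun p => ContinuousLinearMap.smulRightL ℝ V (V →L[ℝ] ℝ) (Zp1 U p))
    ((ContinuousLinearMap.smulRightL ℝ V (V →L[ℝ] ℝ)).contDiff.comp_contDiffOn hz1) (hi2.smul hz1)

/-- The third derivative. -/
def Ub3 (U : V → ℝ) (p : ℝ × V) : V →L[ℝ] V →L[ℝ] V →L[ℝ] ℝ :=
  fderiv ℝ (fun x => Ub2 U (p.1, x)) p.2

theorem ub2_slice (hU : PotP h U) {σ : ℝ} (hσ : 0 < σ) :
    ContDiff ℝ (⊤ : ℕ∞) (fun x : V => Ub2 U (σ, x)) := by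
  rw [← contDiffOn_univ]
  exact (contDiffOn_ub2_top hU).comp (f := fun x : V => (σ, x)) (by fun_prop) fun _ _ => hσ

theorem hasFDerivAt_ub2_x (hU : PotP h U) {σ : ℝ} (hσ : 0 < σ) (x : V) :
    HasFDerivAt (fun x => Ub2 U (σ, x)) (Ub3 U (σ, x)) x :=
  ((ub2_slice hU hσ).differentiable (by simp) x).hasFDerivAt

theorem ub3_symm23 (hU : PotP h U) {σ : ℝ} (hσ : 0 < σ) (x a b c : V) :
    Ub3 U (σ, x) a b c = Ub3 U (σ, x) a c b := by
  have h1 := hasFDerivAt_ub2_x hU hσ x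
  have h2 : ∀ b c : V, HasFDerivAt (fun x => Ub2 U (σ, x) b c)
      ((ContinuousLinearMap.apply ℝ ℝ c).comp ((ContinuousLinearMap.apply ℝ (V →L[ℝ] ℝ) b).comp
        (Ub3 U (σ, x)))) x := fun b c =>
    (ContinuousLinearMap.apply ℝ ℝ c).hasFDerivAt.comp x
      ((ContinuousLinearMap.apply ℝ (V →L[ℝ] ℝ) b).hasFDerivAt.comp x h1)
  have h3 : (fun x => Ub2 U (σ, x) b c) = fun x => Ub2 U (σ, x) c b :=
    funext fun x => ub2_symm hU (σ, x) b c
  have h4 := h2 b c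
  rw [h3] at h4
  have h5 := congrArg (fun L : V →L[ℝ] ℝ => L a) (h4.unique (h2 c b))
  simpa using h5

theorem ub3_symm12 (hU : PotP h U) {σ : ℝ} (hσ : 0 < σ) (x a b c : V) :
    Ub3 U (σ, x) a b c = Ub3 U (σ, x) b a c := by
  have hf : ∀ x, HasFDerivAt (fun x => Ub1 U (σ, x)) (Ub2 U (σ, x)) x :=
    fun x => hasFDerivAt_ub1_x hU σ x
  have h1 := second_derivative_symmetric (𝕜 := ℝ) hf (hasFDerivAt_ub2_x hU hσ x) a b
  rw [h1]

theorem lap_ub3 (hU : PotP h U) {σ : ℝ} (hσ : 0 < σ) (x : V) :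
    HasFDerivAt (fun x => dvg (G U σ) x) ((lap V).comp (Ub3 U (σ, x))) x := by
  have h1 : (fun x => dvg (G U σ) x) = fun x => lap V (Ub2 U (σ, x)) :=
    funext fun x => dvg_gr hU σ x
  rw [h1]
  exact (lap V).hasFDerivAt.comp x (hasFDerivAt_ub2_x hU hσ x)

theorem ub1_fderiv_x (hU : PotP h U) (σ : ℝ) (x w : V) :
    fderiv ℝ (Ub1 U) (σ, x) (0, w) = Ub2 U (σ, x) w := by
  have hd : HasFDerivAt (Ub1 U) _ (σ, x) :=
    ((contDiff_ub1 hU).differentiable one_ne_zero (σ, x)).hasFDerivAt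
  have h2 : HasFDerivAt (fun x' : V => ((σ, x') : ℝ × V)) (ContinuousLinearMap.inr ℝ ℝ V) x := by
    have h0 := (hasFDerivAt_const (𝕜 := ℝ) σ x).prodMk (hasFDerivAt_id (𝕜 := ℝ) x)
    exact h0
  have h3 := HasFDerivAt.unique (f := fun x => Ub1 U (σ, x)) (hd.comp x h2)
    (hasFDerivAt_ub1_x hU σ x)
  have h4 := congrArg (fun L : V →L[ℝ] V →L[ℝ] ℝ => L w) h3
  simpa using h4

/-- **Burgers equation.** -/
theorem burgers (hU : PotP h U) {σ : ℝ} (hσ : 0 < σ) (x v : V) :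
    fderiv ℝ (Ub1 U) (σ, x) (1, 0) v =
      σ * (lap V (Ub3 U (σ, x) v) - 2 * Ub2 U (σ, x) v (G U σ x)) := by
  set F : ℝ × V → ℝ := fun p => Ub U p.1 p.2 with hF
  have hFc : ContDiffOn ℝ 2 F {p : ℝ × V | 0 < p.1} :=
    contDiffOn_infty.1 (contDiffOn_ub_top hU) 2
  have hmem : (σ, x) ∈ {p : ℝ × V | 0 < p.1} := hσ
  have hFa : ContDiffAt ℝ 2 F (σ, x) := hFc.contDiffAt (isOpen_pos.mem_nhds hmem)
  have hsym := (hFa.isSymmSndFDerivAt (by simp)) (1, 0) (0, v)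
  have hF1 : HasFDerivAt (fderiv ℝ F) (fderiv ℝ (fderiv ℝ F) (σ, x)) (σ, x) :=
    ((hFa.fderiv_right (m := 1) (by norm_num)).differentiableAt one_ne_zero).hasFDerivAt
  -- first side
  have e1 : fderiv ℝ (fderiv ℝ F) (σ, x) (1, 0) (0, v) = fderiv ℝ (Ub1 U) (σ, x) (1, 0) v := by
    have h1 : HasFDerivAt (fun p => fderiv ℝ F p (0, v))
        ((ContinuousLinearMap.apply ℝ ℝ ((0 : ℝ), v)).comp (fderiv ℝ (fderiv ℝ F) (σ, x))) (σ, x) :=
      (ContinuousLinearMap.apply ℝ ℝ ((0 : ℝ), v)).hasFDerivAt.comp (σ, x) hF1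
    have h2 : (fun p => fderiv ℝ F p (0, v)) = fun p => Ub1 U p v := by
      funext p
      rw [hF, show p = (p.1, p.2) from rfl, ub_fderiv hU, zero_mul, zero_add, inner_gr hU]
    have hd : HasFDerivAt (Ub1 U) _ (σ, x) :=
      ((contDiff_ub1 hU).differentiable one_ne_zero (σ, x)).hasFDerivAt
    have h3 : HasFDerivAt (fun p => Ub1 U p v)
        ((ContinuousLinearMap.apply ℝ ℝ v).comp (fderiv ℝ (Ub1 U) (σ, x))) (σ, x) :=
      (ContinuousLinearMap.apply ℝ ℝ v).hasFDerivAt.comp (σ, x) hd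
    rw [h2] at h1
    have h4 := congrArg (fun L : ℝ × V →L[ℝ] ℝ => L (1, 0)) (h1.unique h3)
    simpa using h4
  -- second side
  have e2 : fderiv ℝ (fderiv ℝ F) (σ, x) (0, v) (1, 0) =
      σ * (lap V (Ub3 U (σ, x) v) - 2 * Ub2 U (σ, x) v (G U σ x)) := by
    have h1 : HasFDerivAt (fun p => fderiv ℝ F p (1, 0))
        ((ContinuousLinearMap.apply ℝ ℝ ((1 : ℝ), (0 : V))).comp (fderiv ℝ (fderiv ℝ F) (σ, x)))
        (σ, x) :=
      (ContinuousLinearMap.apply ℝ ℝ ((1 : ℝ), (0 : V))).hasFDerivAt.comp (σ, x) hF1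
    have h2 : HasFDerivAt (fun x' : V => ((σ, x') : ℝ × V)) (ContinuousLinearMap.inr ℝ ℝ V) x := by
      have h0 := (hasFDerivAt_const (𝕜 := ℝ) σ x).prodMk (hasFDerivAt_id (𝕜 := ℝ) x)
      exact h0
    have h3 := h1.comp x h2
    have h4 : ((fun p => fderiv ℝ F p (1, 0)) ∘ fun x' : V => ((σ, x') : ℝ × V)) =
        fun x' => σ * (dvg (G U σ) x' - ‖G U σ x'‖ ^ 2) := by
      funext x'
      simp only [Function.comp_apply, hF]
      rw [ub_fderiv hU, one_mul, inner_zero_right, add_zero]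
    rw [h4] at h3
    have h5 : HasFDerivAt (fun x' => σ * (dvg (G U σ) x' - ‖G U σ x'‖ ^ 2)) _ x :=
      ((lap_ub3 hU hσ x).sub (hasFDerivAt_gr_x hU σ x).norm_sq).const_mul σ
    have h6 := congrArg (fun L : V →L[ℝ] ℝ => L v) (h3.unique h5)
    simp only [ContinuousLinearMap.comp_apply, ContinuousLinearMap.inr_apply,
      ContinuousLinearMap.apply_apply, _root_.smul_apply, _root_.sub_apply, smul_eq_mul,
      innerSL_apply_apply, nsmul_eq_mul, Nat.cast_ofNat] at h6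
    rw [h6, DGr, ContinuousLinearMap.comp_apply, inner_rz']
  rw [← e1, hsym, e2]

end Crest.Agent.R285
end
end

-- ▼ part R285/Flow3
section

/-!
Row 285: the coupled flow in the coordinates `(η, X)`, `X = s G(y) + ρ b`, `y = c + s t η`:

  `η' = -s G + ρ⁻² 𝔸 (X - s G)`,  `X' = t ρ⁻² 𝔸 𝔸 (X - s G)`,  `𝔸 = s² DG`.

It transports the law of `(η, s G(y) + ρ b)`, `η ∼ μ_t`, `b ∼ γ` independent.
-/

set_option autoImplicit false
set_option maxSynthPendingDepth 3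
set_option linter.unusedSectionVars false

open MeasureTheory ProbabilityTheory Real Filter Topology Set
open scoped RealInnerProductSpace ENNReal

noncomputable section

namespace Crest.Agent.R285

/-! ### Divergence on products -/

theorem trace_prod {V W : Type} [NormedAddCommGroup V] [NormedSpace ℝ V] [FiniteDimensional ℝ V]
    [NormedAddCommGroup W] [NormedSpace ℝ W] [FiniteDimensional ℝ W]
    (L : V × W →L[ℝ] V × W) :
    LinearMap.trace ℝ (V × W) (L : V × W →ₗ[ℝ] V × W) =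
      LinearMap.trace ℝ V (((ContinuousLinearMap.fst ℝ V W).comp
        (L.comp (ContinuousLinearMap.inl ℝ V W)) : V →L[ℝ] V) : V →ₗ[ℝ] V) +
      LinearMap.trace ℝ W (((ContinuousLinearMap.snd ℝ V W).comp
        (L.comp (ContinuousLinearMap.inr ℝ V W)) : W →L[ℝ] W) : W →ₗ[ℝ] W) := by
  have h1 : (L : V × W →ₗ[ℝ] V × W) =
      ((L : V × W →ₗ[ℝ] V × W) ∘ₗ LinearMap.inl ℝ V W) ∘ₗ LinearMap.fst ℝ V W +
      ((L : V × W →ₗ[ℝ] V × W) ∘ₗ LinearMap.inr ℝ V W) ∘ₗ LinearMap.snd ℝ V W := by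
    refine LinearMap.ext fun x => ?_
    simp only [LinearMap.add_apply, LinearMap.comp_apply, LinearMap.fst_apply, LinearMap.snd_apply,
      LinearMap.inl_apply, LinearMap.inr_apply]
    rw [← map_add]
    simp
  have h2 := LinearMap.trace_comp_comm' (LinearMap.fst ℝ V W)
    ((L : V × W →ₗ[ℝ] V × W) ∘ₗ LinearMap.inl ℝ V W)
  have h3 := LinearMap.trace_comp_comm' (LinearMap.snd ℝ V W)
    ((L : V × W →ₗ[ℝ] V × W) ∘ₗ LinearMap.inr ℝ V W)
  rw [h1, map_add, h2, h3]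
  rfl

theorem dvg_prod {V W : Type} [NormedAddCommGroup V] [NormedSpace ℝ V] [FiniteDimensional ℝ V]
    [NormedAddCommGroup W] [NormedSpace ℝ W] [FiniteDimensional ℝ W]
    {F : V × W → V × W} {x : V} {y : W} (hF : DifferentiableAt ℝ F (x, y)) :
    dvg F (x, y) = dvg (fun x' => (F (x', y)).1) x + dvg (fun y' => (F (x, y')).2) y := by
  unfold dvg
  rw [trace_prod]
  have hi : HasFDerivAt (fun x' : V => ((x', y) : V × W)) (ContinuousLinearMap.inl ℝ V W) x := by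
    have h0 := (hasFDerivAt_id (𝕜 := ℝ) x).prodMk (hasFDerivAt_const (𝕜 := ℝ) y x)
    exact h0
  have hj : HasFDerivAt (fun y' : W => ((x, y') : V × W)) (ContinuousLinearMap.inr ℝ V W) y := by
    have h0 := (hasFDerivAt_const (𝕜 := ℝ) x y).prodMk (hasFDerivAt_id (𝕜 := ℝ) y)
    exact h0
  have h1 := (ContinuousLinearMap.fst ℝ V W).hasFDerivAt.comp x (hF.hasFDerivAt.comp x hi)
  have h2 := (ContinuousLinearMap.snd ℝ V W).hasFDerivAt.comp y (hF.hasFDerivAt.comp y hj)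
  have e1 : fderiv ℝ (fun x' => (F (x', y)).1) x = _ := h1.fderiv
  have e2 : fderiv ℝ (fun y' => (F (x, y')).2) y = _ := h2.fderiv
  rw [e1, e2]

variable {V : Type} [NormedAddCommGroup V] [InnerProductSpace ℝ V] [FiniteDimensional ℝ V]
  [MeasurableSpace V] [BorelSpace V]

variable {h : ℝ} {U : V → ℝ}

/-- `s G` at time `t`. -/
def gS (U : V → ℝ) (c : V) (s t : ℝ) (η : V) : V := s • G U (s * √(1 - t ^ 2)) (c + (s * t) • η)

/-- `𝔸 = s² DG` at time `t`. -/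
def opA (U : V → ℝ) (c : V) (s t : ℝ) (η : V) : V →L[ℝ] V :=
  s ^ 2 • DGr U (s * √(1 - t ^ 2), c + (s * t) • η)

/-- The coupled field. -/
def vQ (U : V → ℝ) (c : V) (s ρ t : ℝ) (p : V × V) : V × V :=
  (-(gS U c s t p.1) + (ρ ^ 2)⁻¹ • opA U c s t p.1 (p.2 - gS U c s t p.1),
    (t * (ρ ^ 2)⁻¹) • opA U c s t p.1 (opA U c s t p.1 (p.2 - gS U c s t p.1)))

theorem inner_opA (U : V → ℝ) (c : V) (s t : ℝ) (η u z : V) :
    ⟪opA U c s t η u, z⟫ = s ^ 2 * Ub2 U (s * √(1 - t ^ 2), c + (s * t) • η) u z := by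
  rw [opA, _root_.smul_apply, inner_smul_left, DGr, ContinuousLinearMap.comp_apply, inner_rz]
  simp

theorem opA_symm (hU : PotP h U) (c : V) (s t : ℝ) (η u z : V) :
    ⟪opA U c s t η u, z⟫ = ⟪u, opA U c s t η z⟫ := by
  rw [inner_opA, real_inner_comm, inner_opA, ub2_symm hU]

theorem norm_opA_le (hU : PotP h U) (c : V) (s t : ℝ) (η : V) : ‖opA U c s t η‖ ≤ h * s ^ 2 := by
  rw [opA, norm_smul, Real.norm_of_nonneg (sq_nonneg s), mul_comm]
  exact mul_le_mul_of_nonneg_right (dgr_norm hU _) (sq_nonneg s)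

/-! ### Regularity -/

theorem smOn_gS (hU : PotP h U) (c : V) {s : ℝ} (hs : 0 < s) :
    SmOn (gS U c s) (Ioo (-1 : ℝ) 1) :=
  contDiffOn_const.smul (smOn_G hU c hs)

theorem smOn_Ub2 (hU : PotP h U) (c : V) {s : ℝ} (hs : 0 < s) :
    SmOn (fun t η => Ub2 U (s * √(1 - t ^ 2), c + (s * t) • η)) (Ioo (-1 : ℝ) 1) :=
  ContDiffOn.comp (g := fun q : ℝ × V => Ub2 U q) (f := thY c s) (contDiffOn_ub2_top hU)
    (contDiffOn_thY c s) fun _ hp => thY_mem c hs hp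

theorem smOn_opA (hU : PotP h U) (c : V) {s : ℝ} (hs : 0 < s) :
    SmOn (opA U c s) (Ioo (-1 : ℝ) 1) := by
  have h1 : ContDiffOn ℝ (⊤ : ℕ∞) (fun p : ℝ × V => ContinuousLinearMap.compL ℝ V (V →L[ℝ] ℝ) V
      (rz V) (Ub2 U (s * √(1 - p.1 ^ 2), c + (s * p.1) • p.2))) (Ioo (-1 : ℝ) 1 ×ˢ univ) :=
    (ContinuousLinearMap.compL ℝ V (V →L[ℝ] ℝ) V (rz V)).contDiff.comp_contDiffOn
      (smOn_Ub2 hU c hs)
  exact ContDiffOn.const_smul (s ^ 2) h1

theorem smOn_vQ (hU : PotP h U) (c : V) {s : ℝ} (hs : 0 < s) (ρ : ℝ) :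
    SmOn (vQ U c s ρ) (Ioo (-1 : ℝ) 1) := by
  have hproj : ContDiffOn ℝ (⊤ : ℕ∞) (fun q : ℝ × (V × V) => ((q.1, q.2.1) : ℝ × V))
      (Ioo (-1 : ℝ) 1 ×ˢ univ) := by fun_prop
  have hmaps : MapsTo (fun q : ℝ × (V × V) => ((q.1, q.2.1) : ℝ × V))
      (Ioo (-1 : ℝ) 1 ×ˢ univ) (Ioo (-1 : ℝ) 1 ×ˢ univ) := fun q hq => ⟨hq.1, mem_univ _⟩
  have hg : ContDiffOn ℝ (⊤ : ℕ∞) (fun q : ℝ × (V × V) => gS U c s q.1 q.2.1)
      (Ioo (-1 : ℝ) 1 ×ˢ univ) :=
    ContDiffOn.comp (g := fun p : ℝ × V => gS U c s p.1 p.2)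
      (f := fun q : ℝ × (V × V) => ((q.1, q.2.1) : ℝ × V)) (smOn_gS hU c hs) hproj hmaps
  have hA : ContDiffOn ℝ (⊤ : ℕ∞) (fun q : ℝ × (V × V) => opA U c s q.1 q.2.1)
      (Ioo (-1 : ℝ) 1 ×ˢ univ) :=
    ContDiffOn.comp (g := fun p : ℝ × V => opA U c s p.1 p.2)
      (f := fun q : ℝ × (V × V) => ((q.1, q.2.1) : ℝ × V)) (smOn_opA hU c hs) hproj hmaps
  have hX : ContDiffOn ℝ (⊤ : ℕ∞) (fun q : ℝ × (V × V) => q.2.2) (Ioo (-1 : ℝ) 1 ×ˢ univ) := by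
    fun_prop
  have ht : ContDiffOn ℝ (⊤ : ℕ∞) (fun q : ℝ × (V × V) => q.1 * (ρ ^ 2)⁻¹)
      (Ioo (-1 : ℝ) 1 ×ˢ univ) := by
    fun_prop
  have h1 : ContDiffOn ℝ (⊤ : ℕ∞) (fun q : ℝ × (V × V) => opA U c s q.1 q.2.1
      (q.2.2 - gS U c s q.1 q.2.1)) (Ioo (-1 : ℝ) 1 ×ˢ univ) := hA.clm_apply (hX.sub hg)
  have h2 : ContDiffOn ℝ (⊤ : ℕ∞) (fun q : ℝ × (V × V) => opA U c s q.1 q.2.1
      (opA U c s q.1 q.2.1 (q.2.2 - gS U c s q.1 q.2.1))) (Ioo (-1 : ℝ) 1 ×ˢ univ) :=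
    hA.clm_apply h1
  have h3 : ContDiffOn ℝ (⊤ : ℕ∞) (fun q : ℝ × (V × V) => -(gS U c s q.1 q.2.1) +
      (ρ ^ 2)⁻¹ • opA U c s q.1 q.2.1 (q.2.2 - gS U c s q.1 q.2.1)) (Ioo (-1 : ℝ) 1 ×ˢ univ) :=
    hg.neg.add (ContDiffOn.const_smul _ h1)
  exact h3.prodMk (ht.smul h2)

theorem norm_gS_le (hU : PotP h U) (c : V) {s : ℝ} (hs : 0 < s) : ∃ g₀, 0 ≤ g₀ ∧
    ∀ t ∈ Ioo (-1 : ℝ) 1, ∀ η : V, ‖gS U c s t η‖ ≤ g₀ + h * s ^ 2 * ‖η‖ := by
  obtain ⟨C, hC, hb⟩ := gr_growth hU s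
  refine ⟨s * (C + h * ‖c‖), mul_nonneg hs.le (add_nonneg hC (mul_nonneg hU.hh (norm_nonneg _))),
    fun t ht η => ?_⟩
  have ht' : |t| ≤ 1 := abs_le.2 ⟨ht.1.le, ht.2.le⟩
  have h1 : |s * √(1 - t ^ 2)| ≤ s := by
    rw [abs_mul, abs_of_pos hs, abs_of_nonneg (Real.sqrt_nonneg _)]
    have : √(1 - t ^ 2) ≤ 1 := Real.sqrt_le_one.2 (by nlinarith [sq_nonneg t])
    nlinarith
  have h2 := hb _ h1 (c + (s * t) • η)
  have h3 : ‖c + (s * t) • η‖ ≤ ‖c‖ + s * ‖η‖ := by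
    refine (norm_add_le _ _).trans ?_
    rw [norm_smul, norm_mul, Real.norm_of_nonneg hs.le, Real.norm_eq_abs]
    have h4 : s * |t| * ‖η‖ ≤ s * 1 * ‖η‖ := by gcongr
    linarith
  rw [gS, norm_smul, Real.norm_of_nonneg hs.le]
  have h4 := mul_le_mul_of_nonneg_left h3 hU.hh
  calc s * ‖G U (s * √(1 - t ^ 2)) (c + (s * t) • η)‖ ≤ s * (C + h * (‖c‖ + s * ‖η‖)) :=
        mul_le_mul_of_nonneg_left (by linarith) hs.le
    _ = _ := by ring

theorem goodOn_vQ (hU : PotP h U) (c : V) {s : ℝ} (hs : 0 < s) (ρ : ℝ) :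
    GoodOn (vQ U c s ρ) (Ioo (-1 : ℝ) 1) := by
  refine ⟨isOpen_Ioo, ordConnected_Ioo, (smOn_vQ hU c hs ρ).of_le (by exact_mod_cast le_top),
    fun a ha b hb => ?_⟩
  obtain ⟨g₀, hg0, hg⟩ := norm_gS_le hU c hs
  set A := h * s ^ 2 with hA
  have hA0 : 0 ≤ A := mul_nonneg hU.hh (sq_nonneg _)
  set B := (ρ ^ 2)⁻¹ with hB
  have hB0 : 0 ≤ B := by positivity
  refine ⟨(g₀ + A) + (B * A + B * A ^ 2) * (1 + g₀ + A), fun t ht p => ?_⟩
  have htJ : t ∈ Ioo (-1 : ℝ) 1 := ordConnected_Ioo.out ha hb ht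
  have ht' : |t| ≤ 1 := abs_le.2 ⟨htJ.1.le, htJ.2.le⟩
  have hp1 : ‖p.1‖ ≤ ‖p‖ := norm_fst_le p
  have hp2 : ‖p.2‖ ≤ ‖p‖ := norm_snd_le p
  have hn := norm_nonneg p
  have e1 : ‖gS U c s t p.1‖ ≤ g₀ + A * ‖p‖ :=
    (hg t htJ p.1).trans (by nlinarith [mul_le_mul_of_nonneg_left hp1 hA0])
  have e2 : ‖p.2 - gS U c s t p.1‖ ≤ ‖p‖ + (g₀ + A * ‖p‖) :=
    (norm_sub_le _ _).trans (add_le_add hp2 e1)
  have e3 : ‖opA U c s t p.1 (p.2 - gS U c s t p.1)‖ ≤ A * (‖p‖ + (g₀ + A * ‖p‖)) :=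
    ((opA U c s t p.1).le_of_opNorm_le (norm_opA_le hU c s t _) _).trans
      (mul_le_mul_of_nonneg_left e2 hA0)
  have e4 : ‖opA U c s t p.1 (opA U c s t p.1 (p.2 - gS U c s t p.1))‖ ≤
      A * (A * (‖p‖ + (g₀ + A * ‖p‖))) :=
    ((opA U c s t p.1).le_of_opNorm_le (norm_opA_le hU c s t _) _).trans
      (mul_le_mul_of_nonneg_left e3 hA0)
  have hq : 0 ≤ ‖p‖ + (g₀ + A * ‖p‖) := by positivity
  have f1 : ‖(vQ U c s ρ t p).1‖ ≤ (g₀ + A * ‖p‖) + B * (A * (‖p‖ + (g₀ + A * ‖p‖))) := by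
    unfold vQ
    refine (norm_add_le _ _).trans ?_
    rw [norm_neg, norm_smul, Real.norm_of_nonneg hB0]
    exact add_le_add e1 (mul_le_mul_of_nonneg_left e3 hB0)
  have f2 : ‖(vQ U c s ρ t p).2‖ ≤ B * (A * (A * (‖p‖ + (g₀ + A * ‖p‖)))) := by
    unfold vQ
    simp only
    rw [norm_smul, norm_mul, Real.norm_of_nonneg hB0, Real.norm_eq_abs]
    calc |t| * B * _ ≤ 1 * B * (A * (A * (‖p‖ + (g₀ + A * ‖p‖)))) := by gcongr
      _ = _ := by ring
  rw [Prod.norm_def]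
  refine max_le (f1.trans ?_) (f2.trans ?_)
  · have : 0 ≤ B * A ^ 2 * (1 + g₀ + A) * (‖p‖ + 1) := by positivity
    have h5 : 0 ≤ B * A * (1 + g₀ * ‖p‖ + A) := by positivity
    have h6 : 0 ≤ g₀ * ‖p‖ + A := by positivity
    nlinarith
  · have h5 : 0 ≤ B * A ^ 2 * (1 + g₀ * ‖p‖ + A) := by positivity
    have h6 : 0 ≤ B * A * (1 + g₀ + A) * (‖p‖ + 1) := by positivity
    have h7 : 0 ≤ (g₀ + A) * (‖p‖ + 1) := by positivity
    nlinarith

/-! ### Derivatives at fixed time -/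

theorem hasFDerivAt_gS (hU : PotP h U) (c : V) (s t : ℝ) (η : V) :
    HasFDerivAt (gS U c s t) (t • opA U c s t η) η := by
  have h1 : HasFDerivAt (fun η : V => c + (s * t) • η) ((s * t) • ContinuousLinearMap.id ℝ V) η :=
    ((hasFDerivAt_id η).const_smul (s * t)).const_add c
  have h2 := ((hasFDerivAt_gr_x hU (s * √(1 - t ^ 2)) (c + (s * t) • η)).comp η h1).const_smul s
  refine HasFDerivAt.congr_fderiv (f := gS U c s t) h2 ?_
  ext v
  simp [opA, smul_smul]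
  congr 1
  ring

theorem trace_opA (U : V → ℝ) (hU : PotP h U) (c : V) (s t : ℝ) (η : V) :
    LinearMap.trace ℝ V (opA U c s t η : V →ₗ[ℝ] V) =
      s ^ 2 * dvg (G U (s * √(1 - t ^ 2))) (c + (s * t) • η) := by
  unfold dvg
  rw [(hasFDerivAt_gr_x hU (s * √(1 - t ^ 2)) (c + (s * t) • η)).fderiv]
  rw [show (opA U c s t η : V →ₗ[ℝ] V) =
    (s ^ 2) • ((DGr U (s * √(1 - t ^ 2), c + (s * t) • η) : V →L[ℝ] V) : V →ₗ[ℝ] V) from rfl,
    map_smul, smul_eq_mul]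

/-- Derivative of `𝔸` in `η`. -/
def opA' (U : V → ℝ) (c : V) (s t : ℝ) (η : V) : V →L[ℝ] V →L[ℝ] V :=
  s ^ 2 • (ContinuousLinearMap.compL ℝ V (V →L[ℝ] ℝ) V (rz V)).comp
    ((s * t) • Ub3 U (s * √(1 - t ^ 2), c + (s * t) • η))

theorem hasFDerivAt_opA (hU : PotP h U) (c : V) {s t : ℝ} (hs : 0 < s)
    (ht : t ∈ Ioo (-1 : ℝ) 1) (η : V) :
    HasFDerivAt (opA U c s t) (opA' U c s t η) η := by
  have hσ : 0 < s * √(1 - t ^ 2) := mul_pos hs (Real.sqrt_pos.2 (one_sub_sq_pos ht))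
  have h1 : HasFDerivAt (fun η : V => c + (s * t) • η) ((s * t) • ContinuousLinearMap.id ℝ V) η :=
    ((hasFDerivAt_id η).const_smul (s * t)).const_add c
  have h2 := (hasFDerivAt_ub2_x hU hσ (c + (s * t) • η)).comp η h1
  have h3 := ((ContinuousLinearMap.compL ℝ V (V →L[ℝ] ℝ) V (rz V)).hasFDerivAt.comp η h2).const_smul
    (s ^ 2)
  refine HasFDerivAt.congr_fderiv (f := opA U c s t) h3 ?_
  ext u v
  simp [opA']

theorem trace_opA'_flip (hU : PotP h U) (c : V) {s t : ℝ} (hs : 0 < s)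
    (ht : t ∈ Ioo (-1 : ℝ) 1) (η w : V) :
    LinearMap.trace ℝ V (((opA' U c s t η).flip w : V →L[ℝ] V) : V →ₗ[ℝ] V) =
      s ^ 3 * t * lap V (Ub3 U (s * √(1 - t ^ 2), c + (s * t) • η) w) := by
  have hσ : 0 < s * √(1 - t ^ 2) := mul_pos hs (Real.sqrt_pos.2 (one_sub_sq_pos ht))
  rw [trace_eq_sum_inner', lap_apply, Finset.mul_sum]
  refine Finset.sum_congr rfl fun i _ => ?_
  rw [ub3_symm12 hU hσ, ub3_symm23 hU hσ]
  simp only [opA', ContinuousLinearMap.flip_apply, _root_.smul_apply,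
    ContinuousLinearMap.comp_apply, ContinuousLinearMap.compL_apply, map_smul, inner_smul_right,
    inner_rz']
  rw [ub3_symm23 hU hσ]
  ring

theorem dvg_vQ (hU : PotP h U) (c : V) {s t : ℝ} (hs : 0 < s) (ht : t ∈ Ioo (-1 : ℝ) 1) (ρ : ℝ)
    (η X : V) :
    dvg (vQ U c s ρ t) (η, X) =
      -(s ^ 2 * t * dvg (G U (s * √(1 - t ^ 2))) (c + (s * t) • η)) +
      (ρ ^ 2)⁻¹ * (s ^ 3 * t * lap V (Ub3 U (s * √(1 - t ^ 2), c + (s * t) • η)
        (X - gS U c s t η))) := by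
  have hd : DifferentiableAt ℝ (vQ U c s ρ t) (η, X) := by
    have h1 : ContDiff ℝ (⊤ : ℕ∞) (vQ U c s ρ t) := by
      rw [← contDiffOn_univ]
      exact (smOn_vQ hU c hs ρ).comp (f := fun p : V × V => (t, p)) (by fun_prop)
        (fun p _ => ⟨ht, mem_univ _⟩)
    exact h1.differentiable (by simp) _
  rw [dvg_prod hd]
  have hg := hasFDerivAt_gS hU c s t η
  have hA := hasFDerivAt_opA hU c hs ht η
  have h1 : HasFDerivAt (fun x' => (vQ U c s ρ t (x', X)).1) _ η :=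
    hg.neg.add ((hA.clm_apply (hg.const_sub X)).const_smul ((ρ ^ 2)⁻¹))
  have h2 : HasFDerivAt (fun y' => (vQ U c s ρ t (η, y')).2) _ X :=
    (((opA U c s t η).hasFDerivAt.comp X ((opA U c s t η).hasFDerivAt.comp X
      ((hasFDerivAt_id (𝕜 := ℝ) X).sub_const (gS U c s t η))))).const_smul (t * (ρ ^ 2)⁻¹)
  unfold dvg
  rw [h1.fderiv, h2.fderiv]
  have t1 := trace_opA U hU c s t η
  have t2 := trace_opA'_flip hU c hs ht η (X - gS U c s t η)
  unfold dvg at t1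
  set T := LinearMap.trace ℝ V (((opA U c s t η).comp (opA U c s t η) : V →L[ℝ] V) : V →ₗ[ℝ] V)
    with hT
  have e1 : LinearMap.trace ℝ V ((-(t • opA U c s t η) + (ρ ^ 2)⁻¹ • ((opA U c s t η).comp
      (-(t • opA U c s t η)) + (opA' U c s t η).flip (X - gS U c s t η)) : V →L[ℝ] V) : V →ₗ[ℝ] V) =
      -(t * LinearMap.trace ℝ V (opA U c s t η : V →ₗ[ℝ] V)) + (ρ ^ 2)⁻¹ * (-(t * T) +
        LinearMap.trace ℝ V (((opA' U c s t η).flip (X - gS U c s t η) : V →L[ℝ] V) : V →ₗ[ℝ] V)) := by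
    rw [hT, ← smul_eq_mul t, ← smul_eq_mul t, ← map_smul, ← map_smul, ← map_neg, ← map_neg,
      ← map_add, ← smul_eq_mul, ← map_smul, ← map_add]
    congr 1
    ext v
    simp
  have e2 : LinearMap.trace ℝ V (((t * (ρ ^ 2)⁻¹) • ((opA U c s t η).comp ((opA U c s t η).comp
      (ContinuousLinearMap.id ℝ V))) : V →L[ℝ] V) : V →ₗ[ℝ] V) = t * (ρ ^ 2)⁻¹ * T := by
    have h3 : (((t * (ρ ^ 2)⁻¹) • ((opA U c s t η).comp ((opA U c s t η).comp
      (ContinuousLinearMap.id ℝ V))) : V →L[ℝ] V) : V →ₗ[ℝ] V) = (t * (ρ ^ 2)⁻¹) •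
        (((opA U c s t η).comp (opA U c s t η) : V →L[ℝ] V) : V →ₗ[ℝ] V) := rfl
    rw [h3, map_smul, smul_eq_mul]
  rw [e1, e2, t1, t2]
  ring

/-! ### The continuity equation -/

theorem fderiv_lY (hU : PotP h U) (c : V) {s t : ℝ} (ht : t ∈ Ioo (-1 : ℝ) 1) (η : V) :
    ∃ L : ℝ × V →L[ℝ] ℝ, HasFDerivAt (fun p : ℝ × V => lY U c s p.1 p.2) L (t, η) ∧ ∀ w : V,
      L (1, w) = -⟪η, w⟫ + s ^ 2 * t * (dvg (G U (s * √(1 - t ^ 2))) (c + (s * t) • η) -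
        ‖G U (s * √(1 - t ^ 2)) (c + (s * t) • η)‖ ^ 2) - ⟪gS U c s t η, η⟫ -
        t * ⟪gS U c s t η, w⟫ := by
  have hd : HasFDerivAt (fun p : ℝ × V => Ub U p.1 p.2) _ (thY c s (t, η)) :=
    ((contDiff_ub hU).differentiable one_ne_zero _).hasFDerivAt
  have h1 := hd.comp (t, η) (hasFDerivAt_thY c s ht η)
  have h2 : HasFDerivAt (fun p : ℝ × V => ‖p.2‖ ^ 2 / 2)
      ((innerSL ℝ η).comp (ContinuousLinearMap.snd ℝ ℝ V)) (t, η) := by
    have h3 : HasFDerivAt (fun η : V => ‖η‖ ^ 2 / 2) (innerSL ℝ η) η := by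
      have h2 := ((hasStrictFDerivAt_norm_sq η).hasFDerivAt).mul_const (2 : ℝ)⁻¹
      refine (h2.congr_fderiv ?_).congr_of_eventuallyEq (Eventually.of_forall fun x => ?_)
      · ext v
        simp
      · simp only
        ring
    exact h3.comp (t, η) (hasFDerivAt_snd (𝕜 := ℝ) (p := (t, η)))
  have h4 : HasFDerivAt (fun p : ℝ × V => lY U c s p.1 p.2) _ (t, η) := (h2.neg).sub h1
  refine ⟨_, h4, fun w => ?_⟩
  simp only [_root_.sub_apply, _root_.neg_apply, ContinuousLinearMap.comp_apply, thY'_apply]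
  rw [show thY c s (t, η) = (s * √(1 - t ^ 2), c + (s * t) • η) from rfl, ub_fderiv hU, gS]
  set g := G U (s * √(1 - t ^ 2)) (c + (s * t) • η) with hg
  set D := dvg (G U (s * √(1 - t ^ 2))) (c + (s * t) • η)
  have hκ : √(1 - t ^ 2) ≠ 0 := (Real.sqrt_pos.2 (one_sub_sq_pos ht)).ne'
  simp only [ContinuousLinearMap.coe_snd', innerSL_apply_apply, inner_smul_right, inner_smul_left,
    inner_add_right, one_smul, mul_one]
  simp only [conj_trivial]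
  field_simp
  ring

theorem fderiv_gS (hU : PotP h U) (c : V) {s t : ℝ} (hs : 0 < s) (ht : t ∈ Ioo (-1 : ℝ) 1)
    (η : V) :
    ∃ L : ℝ × V →L[ℝ] V, HasFDerivAt (fun p : ℝ × V => gS U c s p.1 p.2) L (t, η) ∧ ∀ w z : V,
      ⟪L (1, w), z⟫ = -(s ^ 3 * t * lap V (Ub3 U (s * √(1 - t ^ 2), c + (s * t) • η) z)) +
        2 * t * ⟪opA U c s t η (gS U c s t η), z⟫ + ⟪opA U c s t η η, z⟫ +
        t * ⟪opA U c s t η w, z⟫ := by
  have hσ : 0 < s * √(1 - t ^ 2) := mul_pos hs (Real.sqrt_pos.2 (one_sub_sq_pos ht))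
  have hd : HasFDerivAt (Ub1 U) _ (thY c s (t, η)) :=
    ((contDiff_ub1 hU).differentiable one_ne_zero _).hasFDerivAt
  have h1 := ((rz V).hasFDerivAt.comp (t, η) (hd.comp (t, η) (hasFDerivAt_thY c s ht η))).const_smul s
  have h2 : (s • (⇑(rz V) ∘ (Ub1 U ∘ thY c s))) = fun p : ℝ × V => gS U c s p.1 p.2 := by
    funext p
    simp only [Pi.smul_apply, Function.comp_apply, gS]
    rw [gr_eq hU]
    rfl
  have h3 : HasFDerivAt (fun p : ℝ × V => gS U c s p.1 p.2) _ (t, η) := h2 ▸ h1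
  refine ⟨_, h3, fun w z => ?_⟩
  simp only [_root_.smul_apply, ContinuousLinearMap.comp_apply, thY'_apply, inner_smul_left,
    inner_rz]
  rw [show thY c s (t, η) = (s * √(1 - t ^ 2), c + (s * t) • η) from rfl]
  set σ := s * √(1 - t ^ 2) with hσd
  set y := c + (s * t) • η with hy
  have e1 : ((s * (-t / √(1 - t ^ 2)) * 1, (1 : ℝ) • s • η + (s * t) • w) : ℝ × V) =
      (s * (-t / √(1 - t ^ 2))) • ((1 : ℝ), (0 : V)) + ((0 : ℝ), s • η + (s * t) • w) := by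
    simp
  rw [e1, map_add, map_smul, ub1_fderiv_x hU]
  simp only [_root_.add_apply, _root_.smul_apply, smul_eq_mul, map_add, map_smul, inner_opA,
    ← hσd, ← hy]
  rw [burgers hU hσ]
  have e2 : Ub2 U (σ, y) z (G U σ y) = Ub2 U (σ, y) (G U σ y) z := ub2_symm hU _ _ _
  have e3 : gS U c s t η = s • G U σ y := rfl
  rw [e2, e3]
  simp only [map_smul, _root_.smul_apply, smul_eq_mul, conj_trivial]
  have hκ : √(1 - t ^ 2) ≠ 0 := (Real.sqrt_pos.2 (one_sub_sq_pos ht)).ne'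
  have e4 : s * (-t / √(1 - t ^ 2)) * (σ * (lap V (Ub3 U (σ, y) z) -
      2 * Ub2 U (σ, y) (G U σ y) z)) = -(s ^ 2 * t) * (lap V (Ub3 U (σ, y) z) -
      2 * Ub2 U (σ, y) (G U σ y) z) := by
    rw [hσd]
    field_simp
  rw [e4]
  ring

/-- The log-density of the coupled flow in the coordinates `(η, X)`. -/
def lQ (U : V → ℝ) (c : V) (s ρ t : ℝ) (p : V × V) : ℝ :=
  lY U c s t p.1 - (2 * ρ ^ 2)⁻¹ * ‖p.2 - gS U c s t p.1‖ ^ 2

theorem lQ_continuity (hU : PotP h U) (c : V) {s t : ℝ} (hs : 0 < s) (ht : t ∈ Ioo (-1 : ℝ) 1)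
    (ρ : ℝ) (p : V × V) :
    fderiv ℝ (fun q : ℝ × (V × V) => lQ U c s ρ q.1 q.2) (t, p) (1, vQ U c s ρ t p) +
      dvg (vQ U c s ρ t) p = 0 := by
  obtain ⟨η, X⟩ := p
  obtain ⟨L, hL, hLw⟩ := fderiv_lY hU c (s := s) ht η
  obtain ⟨M, hM, hMw⟩ := fderiv_gS hU c hs ht η
  set pr0 : ℝ × (V × V) →L[ℝ] ℝ × V := (ContinuousLinearMap.fst ℝ ℝ (V × V)).prod
    ((ContinuousLinearMap.fst ℝ V V).comp (ContinuousLinearMap.snd ℝ ℝ (V × V))) with hpr0
  have hpr0d : HasFDerivAt (fun q : ℝ × (V × V) => ((q.1, q.2.1) : ℝ × V)) pr0 (t, (η, X)) :=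
    pr0.hasFDerivAt
  have h1 : HasFDerivAt (fun q : ℝ × (V × V) => lY U c s q.1 q.2.1) (L.comp pr0) (t, (η, X)) :=
    HasFDerivAt.comp (g := fun p : ℝ × V => lY U c s p.1 p.2)
      (f := fun q : ℝ × (V × V) => ((q.1, q.2.1) : ℝ × V)) (t, (η, X)) hL hpr0d
  have h2 : HasFDerivAt (fun q : ℝ × (V × V) => gS U c s q.1 q.2.1) (M.comp pr0) (t, (η, X)) :=
    HasFDerivAt.comp (g := fun p : ℝ × V => gS U c s p.1 p.2)
      (f := fun q : ℝ × (V × V) => ((q.1, q.2.1) : ℝ × V)) (t, (η, X)) hM hpr0d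
  have h3 : HasFDerivAt (fun q : ℝ × (V × V) => q.2.2)
      ((ContinuousLinearMap.snd ℝ V V).comp (ContinuousLinearMap.snd ℝ ℝ (V × V))) (t, (η, X)) :=
    ((ContinuousLinearMap.snd ℝ V V).comp (ContinuousLinearMap.snd ℝ ℝ (V × V))).hasFDerivAt
  have h4 := ((h3.fun_sub h2).norm_sq).const_mul ((2 * ρ ^ 2)⁻¹)
  have h5 : HasFDerivAt (fun q : ℝ × (V × V) => lQ U c s ρ q.1 q.2) _ (t, (η, X)) := h1.sub h4
  rw [h5.fderiv, dvg_vQ hU c hs ht]
  simp only [_root_.sub_apply, _root_.smul_apply, ContinuousLinearMap.comp_apply,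
    innerSL_apply_apply, smul_eq_mul, nsmul_eq_mul, Nat.cast_ofNat]
  have e1 : pr0 (1, vQ U c s ρ t (η, X)) = (1, (vQ U c s ρ t (η, X)).1) := rfl
  rw [e1, hLw, inner_sub_right]
  have e2 : (ContinuousLinearMap.snd ℝ V V) ((ContinuousLinearMap.snd ℝ ℝ (V × V))
      (1, vQ U c s ρ t (η, X))) = (vQ U c s ρ t (η, X)).2 := rfl
  rw [e2]
  set w := X - gS U c s t η with hw
  have e3 := hMw (vQ U c s ρ t (η, X)).1 w
  rw [real_inner_comm] at e3
  rw [e3]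
  set g := gS U c s t η with hg
  set A := opA U c s t η with hA
  have e4 : (vQ U c s ρ t (η, X)).1 = -g + (ρ ^ 2)⁻¹ • A w := rfl
  have e5 : (vQ U c s ρ t (η, X)).2 = (t * (ρ ^ 2)⁻¹) • A (A w) := rfl
  have e6 : ‖G U (s * √(1 - t ^ 2)) (c + (s * t) • η)‖ ^ 2 * s ^ 2 = ⟪g, g⟫ := by
    rw [real_inner_self_eq_norm_sq, hg, gS, norm_smul, mul_pow, Real.norm_of_nonneg hs.le]
    ring
  have s1 : ⟪A w, η⟫ = ⟪A η, w⟫ := by rw [opA_symm hU, real_inner_comm]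
  have s2 : ⟪A w, g⟫ = ⟪A g, w⟫ := by rw [opA_symm hU, real_inner_comm]
  have s3 : ⟪w, A (A w)⟫ = ⟪A w, A w⟫ := by rw [← opA_symm hU]
  have s4 : ⟪A (A w), w⟫ = ⟪A w, A w⟫ := by rw [opA_symm hU]
  rw [e4, e5]
  simp only [map_add, map_neg, map_smul, inner_add_left, inner_add_right, inner_neg_left,
    inner_neg_right, inner_smul_left, inner_smul_right, conj_trivial]
  rw [real_inner_comm (A w) η, real_inner_comm (A w) g, s1, s2, s3, s4, real_inner_comm η g]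
  have hinv : (2 * ρ ^ 2)⁻¹ = (ρ ^ 2)⁻¹ / 2 := by rw [mul_inv]; ring
  rw [hinv]
  linear_combination (-t) * e6

/-! ### The law -/

/-- The law `μ_t` of the uncoupled flow. -/
def muY (U : V → ℝ) (c : V) (s t : ℝ) : Measure V :=
  (stdGaussian V).withDensity fun η => ENNReal.ofReal
    (rexp (Ub U s c - Ub U (s * √(1 - t ^ 2)) (c + (s * t) • η)))











/-! ### Corollaries: the flow started at time `0` -/

theorem zero_mem_J : (0 : ℝ) ∈ Ioo (-1 : ℝ) 1 := ⟨by norm_num, by norm_num⟩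

@[simp] theorem gS_zero (U : V → ℝ) (c : V) (s : ℝ) (η : V) : gS U c s 0 η = s • G U s c := by
  simp [gS]

@[simp] theorem muY_zero (U : V → ℝ) (c : V) (s : ℝ) : muY U c s 0 = stdGaussian V := by
  have h1 : (fun η : V => ENNReal.ofReal
      (rexp (Ub U s c - Ub U (s * √(1 - (0 : ℝ) ^ 2)) (c + (s * 0) • η)))) = 1 := by
    funext η
    simp
  rw [muY, h1, withDensity_one]












end Crest.Agent.R285
end
end

-- ▼ part R285/SemQMain
section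

/-!
Row 285 (S0430), SEM_Q, MAIN GRID (helper367): quadrature defects of `y_j`, `X_j`, `X_0` along the
coupled flow, in rescaled units (`s = 1`, centre `a`), in `L²`.

* `curve_backward`, `curve_start` : abstract (any linear coordinate `L` of the state);
* `CoupField f a ρ v` : `v` is the field of the coupled flow of `(η, X)`;
* `CoupField.main_y`, `main_X`, `main_X0` : the defects, with values = exact integrands.
-/

set_option autoImplicit false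
set_option linter.unusedSectionVars false

open Set Filter Topology MeasureTheory ProbabilityTheory
open scoped ENNReal NNReal

noncomputable section

namespace Crest.Agent.R285

/-- constant of the main grid errors -/
def mgC (n M : ℕ) (e1 : ℝ) : ℝ := (1 + Num.intC (n + 1)) * (e1 / M) ^ (n + 1) * e1

theorem mgC_nonneg (n M : ℕ) {e1 : ℝ} (he : 0 ≤ e1) : 0 ≤ mgC n M e1 := by
  unfold mgC
  have := Num.intC_nonneg (n + 1)
  positivity

section abs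

variable {E : Type} [NormedAddCommGroup E] [NormedSpace ℝ E] [FiniteDimensional ℝ E]
  [MeasurableSpace E] [BorelSpace E]
  {F : Type*} [NormedAddCommGroup F] [NormedSpace ℝ F] [FiniteDimensional ℝ F]
  [MeasurableSpace F] [BorelSpace F]

variable {v : ℝ → E → E} {J : Set ℝ} {P : Measure E} [SFinite P]

/-- The increment of a linear coordinate along the flow is the integral of the field. -/
theorem coord_integral (hv : GoodOn v J) (L : E →L[ℝ] F) {s a b : ℝ} (hs : s ∈ J)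
    (hab : uIcc a b ⊆ J) (x : E) :
    ∫ t in a..b, L (v t (evol v J s t x)) = L (evol v J s b x) - L (evol v J s a x) := by
  have : CompleteSpace F := FiniteDimensional.complete ℝ F
  have hd : ∀ t ∈ uIcc a b, HasDerivAt (fun t => L (evol v J s t x))
      (L (v t (evol v J s t x))) t := fun t ht =>
    L.hasFDerivAt.comp_hasDerivAt t (hv.hasDerivAt_evol hs (hab ht) x)
  have hc : ContinuousOn (fun t => L (v t (evol v J s t x))) (uIcc a b) := by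
    have h1 := hv.contDiffOn.continuousOn
    refine L.continuous.comp_continuousOn (h1.comp (f := fun t => ((t, evol v J s t x) : ℝ × E))
      (continuousOn_id.prodMk fun t ht => ?_) (fun t ht => ⟨hab ht, mem_univ _⟩))
    exact (hv.hasDerivAt_evol hs (hab ht) x).continuousAt.continuousWithinAt
  exact intervalIntegral.integral_eq_sub_of_hasDerivAt hd hc.intervalIntegrable

theorem smOn_coord (hvs : SmOn v J) (L : E →L[ℝ] F) : SmOn (fun t x => L (v t x)) J :=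
  L.contDiff.comp_contDiffOn hvs

theorem continuous_val (hv : GoodOn v J) (L : E →L[ℝ] F) {s t : ℝ} (hs : s ∈ J) (ht : t ∈ J) :
    Continuous (fun x => L (v t (evol v J s t x))) := by
  have h1 := hv.contDiffOn.continuousOn
  have h2 : Continuous (fun x => ((t, evol v J s t x) : ℝ × E)) :=
    continuous_const.prodMk (hv.continuous_evol hs ht)
  exact L.continuous.comp (h1.comp_continuous h2 fun x => ⟨ht, mem_univ _⟩)

/-- From a node back to the end point of the grid, `L²` error. -/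
theorem curve_backward (hv : GoodOn v J) (hvs : SmOn v J) (L : E →L[ℝ] F) {s e1 : ℝ} (hs : s ∈ J)
    (he : 0 < e1) (hab : Icc 0 e1 ⊆ J) (n : ℕ) {M : ℕ} (hM : 0 < M) (j : Fin M × Fin (n + 1))
    {B : ℝ≥0∞} (hB : ∀ t ∈ Ioc 0 e1,
      eLpNorm (fun x => ((Dv v)^[n + 1] (fun t x => L (v t x))) t (evol v J s t x)) 2 P ≤ B) :
    eLpNorm (fun x => L (evol v J s (Num.qnode n M 0 e1 j) x) - (L (evol v J s e1 x) -
        ∑ l, (Num.qw n M 0 e1 l - Num.qW n M 0 e1 j l) •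
          L (v (Num.qnode n M 0 e1 l) (evol v J s (Num.qnode n M 0 e1 l) x)))) 2 P ≤
      ENNReal.ofReal (2 * mgC n M e1) * B := by
  have hnode : ∀ l, Num.qnode n M 0 e1 l ∈ Icc 0 e1 := fun l =>
    Ioo_subset_Icc_self (Num.qnode_mem he l)
  have h0J : (0 : ℝ) ∈ J := hab ⟨le_rfl, he.le⟩
  have h1J : e1 ∈ J := hab ⟨he.le, le_rfl⟩
  have hnJ : ∀ l, Num.qnode n M 0 e1 l ∈ J := fun l => hab (hnode l)
  have hf := smOn_coord hvs L
  have t1 := curve_total (P := P) hv hvs hf hs he.le hab n hM hB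
  have t2 := curve_partial (P := P) hv hvs hf hs he.le hab n j hB
  have i1 : ∀ x, ∫ t in (0 : ℝ)..e1, L (v t (evol v J s t x)) =
      L (evol v J s e1 x) - L (evol v J s 0 x) := fun x =>
    coord_integral hv L hs (by rw [uIcc_of_le he.le]; exact hab) x
  have i2 : ∀ x, ∫ t in (0 : ℝ)..(Num.qnode n M 0 e1 j), L (v t (evol v J s t x)) =
      L (evol v J s (Num.qnode n M 0 e1 j) x) - L (evol v J s 0 x) := fun x =>
    coord_integral hv L hs (by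
      rw [uIcc_of_le (hnode j).1]
      exact (Icc_subset_Icc_right (hnode j).2).trans hab) x
  have cL : ∀ {t : ℝ}, t ∈ J → Continuous (fun x => L (evol v J s t x)) := fun ht =>
    L.continuous.comp (hv.continuous_evol hs ht)
  have cS : ∀ w : Fin M × Fin (n + 1) → ℝ, Continuous (fun x => ∑ l, w l •
      L (v (Num.qnode n M 0 e1 l) (evol v J s (Num.qnode n M 0 e1 l) x))) := fun w =>
    continuous_finsetSum _ fun l _ => (continuous_val hv L hs (hnJ l)).const_smul _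
  have m1 : AEStronglyMeasurable (fun x => (∫ t in (0 : ℝ)..e1, L (v t (evol v J s t x))) -
      ∑ l, Num.qw n M 0 e1 l •
        L (v (Num.qnode n M 0 e1 l) (evol v J s (Num.qnode n M 0 e1 l) x))) P := by
    simp_rw [i1]
    exact (((cL h1J).sub (cL h0J)).sub (cS _)).aestronglyMeasurable
  have m2 : AEStronglyMeasurable (fun x => (∫ t in (0 : ℝ)..(Num.qnode n M 0 e1 j),
      L (v t (evol v J s t x))) - ∑ l, Num.qW n M 0 e1 j l •
        L (v (Num.qnode n M 0 e1 l) (evol v J s (Num.qnode n M 0 e1 l) x))) P := by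
    simp_rw [i2]
    exact (((cL (hnJ j)).sub (cL h0J)).sub (cS _)).aestronglyMeasurable
  have key := eLpNorm_sub_le m2 m1 (by norm_num : (1 : ℝ≥0∞) ≤ 2)
  have hC := mgC_nonneg n M he.le
  have hsum : ENNReal.ofReal (2 * mgC n M e1) * B =
      ENNReal.ofReal (mgC n M e1) * B + ENNReal.ofReal (mgC n M e1) * B := by
    rw [two_mul, ENNReal.ofReal_add hC hC, add_mul]
  rw [hsum]
  simp only [sub_zero] at t1 t2
  refine le_trans (le_of_eq ?_) (key.trans (add_le_add t2 t1))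
  congr 1
  funext x
  simp only [Pi.sub_apply]
  rw [i1 x, i2 x]
  simp_rw [sub_smul]
  rw [Finset.sum_sub_distrib]
  abel

/-- From the starting point of the grid back to its end point, `L²` error. -/
theorem curve_start (hv : GoodOn v J) (hvs : SmOn v J) (L : E →L[ℝ] F) {s e1 : ℝ} (hs : s ∈ J)
    (he : 0 < e1) (hab : Icc 0 e1 ⊆ J) (n : ℕ) {M : ℕ} (hM : 0 < M)
    {B : ℝ≥0∞} (hB : ∀ t ∈ Ioc 0 e1,
      eLpNorm (fun x => ((Dv v)^[n + 1] (fun t x => L (v t x))) t (evol v J s t x)) 2 P ≤ B) :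
    eLpNorm (fun x => L (evol v J s 0 x) - (L (evol v J s e1 x) -
        ∑ l, Num.qw n M 0 e1 l •
          L (v (Num.qnode n M 0 e1 l) (evol v J s (Num.qnode n M 0 e1 l) x)))) 2 P ≤
      ENNReal.ofReal (mgC n M e1) * B := by
  have hf := smOn_coord hvs L
  have t1 := curve_total (P := P) hv hvs hf hs he.le hab n hM hB
  have i1 : ∀ x, ∫ t in (0 : ℝ)..e1, L (v t (evol v J s t x)) =
      L (evol v J s e1 x) - L (evol v J s 0 x) := fun x =>
    coord_integral hv L hs (by rw [uIcc_of_le he.le]; exact hab) x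
  simp only [sub_zero] at t1
  refine le_trans (le_of_eq ?_) t1
  rw [← eLpNorm_neg]
  congr 1
  funext x
  simp only [Pi.neg_apply]
  rw [i1 x]
  abel

end abs

section coupled

variable {V : Type} [NormedAddCommGroup V] [InnerProductSpace ℝ V] [FiniteDimensional ℝ V]
  [MeasurableSpace V] [BorelSpace V]

/-- `G` at `y = t η`, centre `a` -/
def cG (f : V → ℝ) (a : V) (t : ℝ) (p : V × V) : V := G f (√(1 - t ^ 2)) (a + t • p.1)

/-- `A = D G` there -/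
def cA (f : V → ℝ) (a : V) (t : ℝ) (p : V × V) : V →L[ℝ] V :=
  DGr f (√(1 - t ^ 2), a + t • p.1)

/-- `b = (X - G) / ρ` -/
def cb (f : V → ℝ) (a : V) (ρ : ℝ) (t : ℝ) (p : V × V) : V := ρ⁻¹ • (p.2 - cG f a t p)

/-- `v` is the field of the coupled flow of `(η, X)`, rescaled units:
`η' = -(g - A b / ρ)`, `X' = t (A A b / ρ)`. -/
structure CoupField (f : V → ℝ) (a : V) (ρ : ℝ) (v : ℝ → V × V → V × V) : Prop where
  good : GoodOn v Jm
  smooth : SmOn v Jm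
  fst_eq : ∀ t ∈ Jm, ∀ p, (v t p).1 = -(cG f a t p - ρ⁻¹ • cA f a t p (cb f a ρ t p))
  snd_eq : ∀ t ∈ Jm, ∀ p, (v t p).2 = t • (ρ⁻¹ • cA f a t p (cA f a t p (cb f a ρ t p)))

/-- `y_t = t η_t` -/
def yv (v : ℝ → V × V → V × V) (t : ℝ) (x : V × V) : V := t • (evol v Jm 0 t x).1
/-- `X_t` -/
def Xv (v : ℝ → V × V → V × V) (t : ℝ) (x : V × V) : V := (evol v Jm 0 t x).2
/-- `b_t` -/
def bv (f : V → ℝ) (a : V) (ρ : ℝ) (v : ℝ → V × V → V × V) (t : ℝ) (x : V × V) : V :=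
  ρ⁻¹ • (Xv v t x - G f (√(1 - t ^ 2)) (a + yv v t x))

variable {f : V → ℝ} {a : V} {ρ : ℝ} {v : ℝ → V × V → V × V} {P : Measure (V × V)} [SFinite P]

/-- Smoothness hypotheses (SM1) of the main grid: `L²` bounds of the total derivatives of the two
components of the field along the flow. -/
structure MainB (v : ℝ → V × V → V × V) (P : Measure (V × V)) (n : ℕ) (e1 : ℝ)
    (B1 B2 : ℝ≥0∞) : Prop where
  b1 : ∀ t ∈ Ioc 0 e1, eLpNorm (fun x => ((Dv v)^[n + 1] (fun t x => (v t x).1)) t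
    (evol v Jm 0 t x)) 2 P ≤ B1
  b2 : ∀ t ∈ Ioc 0 e1, eLpNorm (fun x => ((Dv v)^[n + 1] (fun t x => (v t x).2)) t
    (evol v Jm 0 t x)) 2 P ≤ B2

theorem Icc_subset_Jm' {e1 : ℝ} (h1 : e1 < 1) : Icc (0 : ℝ) e1 ⊆ Jm := fun t ht =>
  ⟨by linarith [ht.1], by linarith [ht.2]⟩

namespace CoupField

variable (hv : CoupField f a ρ v) (Q : QPar)

include hv

/-- `X_t = ρ b_t + g_t`. -/
theorem Xv_eq (hρ : ρ ≠ 0) (t : ℝ) (x : V × V) :
    Xv v t x = ρ • bv f a ρ v t x + G f (√(1 - t ^ 2)) (a + yv v t x) := by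
  unfold bv
  rw [smul_inv_smul₀ hρ]
  abel

/-- **Main grid defect of `y_j`.** -/
theorem main_y (hM : 0 < Q.M) (h0 : 0 < Q.e1) (h1 : Q.e1 < 1) {B1 B2 : ℝ≥0∞}
    (hB : MainB v P Q.n Q.e1 B1 B2) (j : QJ Q.n Q.M) :
    eLpNorm (fun x => yv v (Q.nd j) x - ((Q.nd j / Q.e1) • yv v Q.e1 x +
      Q.nd j • ∑ l, Q.Wb j l • (G f (Q.kj l) (a + yv v (Q.nd l) x) -
        ρ⁻¹ • DGr f (Q.kj l, a + yv v (Q.nd l) x) (bv f a ρ v (Q.nd l) x)))) 2 P ≤
      ENNReal.ofReal (2 * mgC Q.n Q.M Q.e1) * B1 := by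
  have hJ := Icc_subset_Jm' h1
  have key := curve_backward (P := P) hv.good hv.smooth (ContinuousLinearMap.fst ℝ V V)
    zero_mem_Jm h0 hJ Q.n hM j hB.b1
  have hnd := Num.qnode_mem (n := Q.n) (M := Q.M) h0 j
  have hnJ : ∀ l, Num.qnode Q.n Q.M 0 Q.e1 l ∈ Jm := fun l =>
    hJ (Ioo_subset_Icc_self (Num.qnode_mem h0 l))
  have e : (fun x => yv v (Q.nd j) x - ((Q.nd j / Q.e1) • yv v Q.e1 x +
      Q.nd j • ∑ l, Q.Wb j l • (G f (Q.kj l) (a + yv v (Q.nd l) x) -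
        ρ⁻¹ • DGr f (Q.kj l, a + yv v (Q.nd l) x) (bv f a ρ v (Q.nd l) x)))) =
      (Q.nd j) • fun x => ContinuousLinearMap.fst ℝ V V (evol v Jm 0 (Num.qnode Q.n Q.M 0 Q.e1 j) x)
        - (ContinuousLinearMap.fst ℝ V V (evol v Jm 0 Q.e1 x) -
        ∑ l, (Num.qw Q.n Q.M 0 Q.e1 l - Num.qW Q.n Q.M 0 Q.e1 j l) •
          ContinuousLinearMap.fst ℝ V V (v (Num.qnode Q.n Q.M 0 Q.e1 l)
            (evol v Jm 0 (Num.qnode Q.n Q.M 0 Q.e1 l) x))) := by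
    funext x
    simp only [Pi.smul_apply, ContinuousLinearMap.coe_fst']
    have e2 : ∀ l, (v (Num.qnode Q.n Q.M 0 Q.e1 l) (evol v Jm 0 (Num.qnode Q.n Q.M 0 Q.e1 l) x)).1 =
        -(G f (Q.kj l) (a + yv v (Q.nd l) x) -
          ρ⁻¹ • DGr f (Q.kj l, a + yv v (Q.nd l) x) (bv f a ρ v (Q.nd l) x)) := fun l =>
      hv.fst_eq _ (hnJ l) _
    simp_rw [e2, smul_neg]
    rw [Finset.sum_neg_distrib, sub_neg_eq_add]
    have e3 : (Q.nd j / Q.e1) • yv v Q.e1 x = Q.nd j • (evol v Jm 0 Q.e1 x).1 := by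
      unfold yv
      rw [smul_smul, div_mul_cancel₀ _ h0.ne']
    rw [e3]
    unfold yv
    rw [← smul_add, ← smul_sub]
    rfl
  rw [e]
  refine (eLpNorm_const_smul_le (c := Q.nd j)).trans ?_
  have hle : ‖Q.nd j‖ₑ ≤ 1 := by
    have h5 : ‖Q.nd j‖ ≤ 1 := by
      have h6 : ‖Q.nd j‖ = Q.nd j := Real.norm_of_nonneg hnd.1.le
      rw [h6]
      exact hnd.2.le.trans h1.le
    calc ‖Q.nd j‖ₑ = ENNReal.ofReal ‖Q.nd j‖ := (ofReal_norm _).symm
      _ ≤ ENNReal.ofReal 1 := ENNReal.ofReal_le_ofReal h5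
      _ = 1 := ENNReal.ofReal_one
  calc _ ≤ 1 * (ENNReal.ofReal (2 * mgC Q.n Q.M Q.e1) * B1) := mul_le_mul' hle key
    _ = _ := one_mul _

/-- **Main grid defect of `X_j`.** -/
theorem main_X (hM : 0 < Q.M) (h0 : 0 < Q.e1) (h1 : Q.e1 < 1) {B1 B2 : ℝ≥0∞}
    (hB : MainB v P Q.n Q.e1 B1 B2) (j : QJ Q.n Q.M) :
    eLpNorm (fun x => Xv v (Q.nd j) x - (Xv v Q.e1 x -
      ∑ l, (Q.Wb j l * Q.nd l) • (ρ⁻¹ • DGr f (Q.kj l, a + yv v (Q.nd l) x)
        (DGr f (Q.kj l, a + yv v (Q.nd l) x) (bv f a ρ v (Q.nd l) x))))) 2 P ≤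
      ENNReal.ofReal (2 * mgC Q.n Q.M Q.e1) * B2 := by
  have hJ := Icc_subset_Jm' h1
  have key := curve_backward (P := P) hv.good hv.smooth (ContinuousLinearMap.snd ℝ V V)
    zero_mem_Jm h0 hJ Q.n hM j hB.b2
  have hnJ : ∀ l, Num.qnode Q.n Q.M 0 Q.e1 l ∈ Jm := fun l =>
    hJ (Ioo_subset_Icc_self (Num.qnode_mem h0 l))
  refine le_trans (le_of_eq ?_) key
  congr 1
  funext x
  simp only [ContinuousLinearMap.coe_snd']
  congr 2
  refine Finset.sum_congr rfl fun l _ => ?_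
  rw [hv.snd_eq _ (hnJ l), mul_smul]
  rfl

/-- **Main grid defect of the output.** -/
theorem main_X0 (hM : 0 < Q.M) (h0 : 0 < Q.e1) (h1 : Q.e1 < 1) {B1 B2 : ℝ≥0∞}
    (hB : MainB v P Q.n Q.e1 B1 B2) :
    eLpNorm (fun x => x.2 - (Xv v Q.e1 x -
      ∑ l, (Q.W0 l * Q.nd l) • (ρ⁻¹ • DGr f (Q.kj l, a + yv v (Q.nd l) x)
        (DGr f (Q.kj l, a + yv v (Q.nd l) x) (bv f a ρ v (Q.nd l) x))))) 2 P ≤
      ENNReal.ofReal (mgC Q.n Q.M Q.e1) * B2 := by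
  have hJ := Icc_subset_Jm' h1
  have key := curve_start (P := P) hv.good hv.smooth (ContinuousLinearMap.snd ℝ V V)
    zero_mem_Jm h0 hJ Q.n hM hB.b2
  have hnJ : ∀ l, Num.qnode Q.n Q.M 0 Q.e1 l ∈ Jm := fun l =>
    hJ (Ioo_subset_Icc_self (Num.qnode_mem h0 l))
  refine le_trans (le_of_eq ?_) key
  congr 1
  funext x
  simp only [ContinuousLinearMap.coe_snd']
  rw [hv.good.evol_self zero_mem_Jm x]
  congr 2
  refine Finset.sum_congr rfl fun l _ => ?_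
  rw [hv.snd_eq _ (hnJ l), mul_smul]
  rfl

/-! ### versions on a probability space -/

omit [SFinite P] in
theorem continuous_yv {t : ℝ} (ht : t ∈ Jm) : Continuous (yv v t) :=
  (continuous_fst.comp (hv.good.continuous_evol zero_mem_Jm ht)).const_smul t

omit [SFinite P] in
theorem continuous_Xv {t : ℝ} (ht : t ∈ Jm) : Continuous (Xv v t) :=
  continuous_snd.comp (hv.good.continuous_evol zero_mem_Jm ht)

omit [SFinite P] in
theorem continuous_gv {h : ℝ} (hf : PotP h f) {t : ℝ} (ht : t ∈ Jm) (σ : ℝ) :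
    Continuous (fun x => G f σ (a + yv v t x)) :=
  (contDiff_gr hf).continuous.comp (f := fun x => ((σ, a + yv v t x) : ℝ × V))
    (continuous_const.prodMk (continuous_const.add (hv.continuous_yv ht)))

omit [SFinite P] in
theorem continuous_bv {h : ℝ} (hf : PotP h f) {t : ℝ} (ht : t ∈ Jm) :
    Continuous (bv f a ρ v t) :=
  ((hv.continuous_Xv ht).sub (hv.continuous_gv hf ht _)).const_smul _

omit [SFinite P] in
theorem continuous_Av {h : ℝ} (hf : PotP h f) {t : ℝ} (ht : t ∈ Jm) (σ : ℝ) {w : V × V → V}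
    (hw : Continuous w) : Continuous (fun x => DGr f (σ, a + yv v t x) (w x)) :=
  ((continuous_DGr hf σ).comp (continuous_const.add (hv.continuous_yv ht))).clm_apply hw

variable {Ω : Type*} [MeasurableSpace Ω] {R : Measure Ω} [SFinite R] {X : Ω → V × V}

omit [SFinite P] in
theorem nd_mem_Jm (h0 : 0 < Q.e1) (h1 : Q.e1 < 1) (l : QJ Q.n Q.M) : Q.nd l ∈ Jm :=
  Icc_subset_Jm' h1 (Ioo_subset_Icc_self (Num.qnode_mem h0 l))

omit [SFinite P] in
theorem main_y' {h : ℝ} (hf : PotP h f) (hX : Measurable X) (hM : 0 < Q.M) (h0 : 0 < Q.e1)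
    (h1 : Q.e1 < 1) {B1 B2 : ℝ≥0∞}
    (hB : MainB v (R.map X) Q.n Q.e1 B1 B2) (j : QJ Q.n Q.M) :
    eLpNorm (fun ω => yv v (Q.nd j) (X ω) - ((Q.nd j / Q.e1) • yv v Q.e1 (X ω) +
      Q.nd j • ∑ l, Q.Wb j l • (G f (Q.kj l) (a + yv v (Q.nd l) (X ω)) -
        ρ⁻¹ • DGr f (Q.kj l, a + yv v (Q.nd l) (X ω)) (bv f a ρ v (Q.nd l) (X ω))))) 2 R ≤
      ENNReal.ofReal (2 * mgC Q.n Q.M Q.e1) * B1 := by
  have key := hv.main_y (P := R.map X) Q hM h0 h1 hB j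
  have hn := fun l => nd_mem_Jm hv Q h0 h1 l
  have he : Q.e1 ∈ Jm := Icc_subset_Jm' h1 ⟨h0.le, le_rfl⟩
  rwa [eLpNorm_map_measure (Continuous.aestronglyMeasurable ?_) hX.aemeasurable] at key
  refine (hv.continuous_yv (hn j)).sub (((hv.continuous_yv he).const_smul _).add
    (Continuous.const_smul (continuous_finsetSum _ fun l _ => ?_) _))
  exact ((hv.continuous_gv hf (hn l) _).sub
    ((hv.continuous_Av hf (hn l) _ (hv.continuous_bv hf (hn l))).const_smul _)).const_smul _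

omit [SFinite P] in
theorem main_X' {h : ℝ} (hf : PotP h f) (hX : Measurable X) (hM : 0 < Q.M) (h0 : 0 < Q.e1)
    (h1 : Q.e1 < 1) {B1 B2 : ℝ≥0∞}
    (hB : MainB v (R.map X) Q.n Q.e1 B1 B2) (j : QJ Q.n Q.M) :
    eLpNorm (fun ω => Xv v (Q.nd j) (X ω) - (Xv v Q.e1 (X ω) -
      ∑ l, (Q.Wb j l * Q.nd l) • (ρ⁻¹ • DGr f (Q.kj l, a + yv v (Q.nd l) (X ω))
        (DGr f (Q.kj l, a + yv v (Q.nd l) (X ω)) (bv f a ρ v (Q.nd l) (X ω)))))) 2 R ≤
      ENNReal.ofReal (2 * mgC Q.n Q.M Q.e1) * B2 := by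
  have key := hv.main_X (P := R.map X) Q hM h0 h1 hB j
  have hn := fun l => nd_mem_Jm hv Q h0 h1 l
  have he : Q.e1 ∈ Jm := Icc_subset_Jm' h1 ⟨h0.le, le_rfl⟩
  rwa [eLpNorm_map_measure (Continuous.aestronglyMeasurable ?_) hX.aemeasurable] at key
  refine (hv.continuous_Xv (hn j)).sub ((hv.continuous_Xv he).sub
    (continuous_finsetSum _ fun l _ => ?_))
  exact ((hv.continuous_Av hf (hn l) _
    (hv.continuous_Av hf (hn l) _ (hv.continuous_bv hf (hn l)))).const_smul _).const_smul _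

omit [SFinite P] in
theorem main_X0' {h : ℝ} (hf : PotP h f) (hX : Measurable X) (hM : 0 < Q.M) (h0 : 0 < Q.e1)
    (h1 : Q.e1 < 1) {B1 B2 : ℝ≥0∞} (hB : MainB v (R.map X) Q.n Q.e1 B1 B2) :
    eLpNorm (fun ω => (X ω).2 - (Xv v Q.e1 (X ω) -
      ∑ l, (Q.W0 l * Q.nd l) • (ρ⁻¹ • DGr f (Q.kj l, a + yv v (Q.nd l) (X ω))
        (DGr f (Q.kj l, a + yv v (Q.nd l) (X ω)) (bv f a ρ v (Q.nd l) (X ω)))))) 2 R ≤
      ENNReal.ofReal (mgC Q.n Q.M Q.e1) * B2 := by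
  have key := hv.main_X0 (P := R.map X) Q hM h0 h1 hB
  have hn := fun l => nd_mem_Jm hv Q h0 h1 l
  have he : Q.e1 ∈ Jm := Icc_subset_Jm' h1 ⟨h0.le, le_rfl⟩
  rwa [eLpNorm_map_measure (Continuous.aestronglyMeasurable ?_) hX.aemeasurable] at key
  refine continuous_snd.sub ((hv.continuous_Xv he).sub
    (continuous_finsetSum _ fun l _ => ?_))
  exact ((hv.continuous_Av hf (hn l) _
    (hv.continuous_Av hf (hn l) _ (hv.continuous_bv hf (hn l)))).const_smul _).const_smul _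

end CoupField

end coupled

end Crest.Agent.R285
end
end

-- ▼ part R285/CoupLaw
section

/-!
Row 285, module CHANNEL, part 7 (helper582): from the Liouville theorem for the coupled flow (in the
coordinates `(η, X)`, `X = m_t(η) + ρ b`, `m_t(η) = s G_{s√(1-t²)}(c + s t η)`) to the product law of
`(η_t, b_t)`.
-/

set_option autoImplicit false
set_option linter.unusedSectionVars false

open MeasureTheory ProbabilityTheory Real Set
open scoped RealInnerProductSpace ENNReal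

noncomputable section

namespace Crest.Agent.R285

variable {V : Type} [NormedAddCommGroup V] [InnerProductSpace ℝ V] [FiniteDimensional ℝ V]
  [MeasurableSpace V] [BorelSpace V] {h : ℝ} {U : V → ℝ}

open Chan

/-- `m_t(η) = s G_{s√(1-t²)}(c + s t η)` -/
def mC (U : V → ℝ) (c : V) (s t : ℝ) (η : V) : V := s • G U (s * √(1 - t ^ 2)) (c + (s * t) • η)


theorem measurable_mC (hU : PotP h U) (c : V) (s t : ℝ) : Measurable (mC U c s t) := by
  have : Continuous (mC U c s t) := by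
    unfold mC
    exact ((contDiff_gr hU).continuous.comp
      (f := fun η : V => ((s * √(1 - t ^ 2), c + (s * t) • η) : ℝ × V)) (by fun_prop)).const_smul s
  exact this.measurable

theorem measurable_lY (hU : PotP h U) (c : V) (s t : ℝ) : Measurable (lY U c s t) := by
  have : Continuous (lY U c s t) := by
    unfold lY
    refine Continuous.sub (by fun_prop) ?_
    exact (contDiff_ub hU).continuous.comp
      (f := fun η : V => (s * √(1 - t ^ 2), c + (s * t) • η)) (by fun_prop)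
  exact this.measurable

theorem smul_measure_cancel {α : Type*} [MeasurableSpace α] {k : ℝ≥0∞} (h0 : k ≠ 0) (ht : k ≠ ⊤)
    {μ ν : Measure α} (h : k • μ = k • ν) : μ = ν := by
  have := congrArg (fun m => k⁻¹ • m) h
  simpa [smul_smul, ENNReal.inv_mul_cancel h0 ht] using this

/-- **The product law of the coupled flow**, from Liouville's theorem for the map `T` (the flow from
time `0` to time `t` in the coordinates `(η, X)`). -/
theorem coup_law_of (hU : PotP h U) (c : V) {s ρ t : ℝ} (hs : 0 < s) (hρ : 0 < ρ)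
    (ht : t ∈ Ioo (-1 : ℝ) 1) {T : V × V → V × V} (hT : Measurable T)
    (hLi : (((volume : Measure V).prod volume).withDensity (fun p : V × V => ENNReal.ofReal
        (rexp (lY U c s 0 p.1 - ‖p.2 - mC U c s 0 p.1‖ ^ 2 / (2 * ρ ^ 2))))).map T =
      ((volume : Measure V).prod volume).withDensity (fun p : V × V => ENNReal.ofReal
        (rexp (lY U c s t p.1 - ‖p.2 - mC U c s t p.1‖ ^ 2 / (2 * ρ ^ 2))))) :
    ((stdGaussian V).prod (stdGaussian V)).map (fun w =>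
      ((T (w.1, mC U c s 0 w.1 + ρ • w.2)).1,
        ρ⁻¹ • ((T (w.1, mC U c s 0 w.1 + ρ • w.2)).2 -
          mC U c s t (T (w.1, mC U c s 0 w.1 + ρ • w.2)).1))) =
      ((stdGaussian V).map (evol (vY U c s) (Ioo (-1 : ℝ) 1) 0 t)).prod (stdGaussian V) := by
  have hK := gK_pos (V := V) hρ
  have hK0 : ENNReal.ofReal (gK V ρ) ≠ 0 := (ENNReal.ofReal_pos.2 hK).ne'
  rw [withDensity_exp_skew (measurable_lY hU c s 0) (measurable_mC hU c s 0) hρ,
    withDensity_exp_skew (measurable_lY hU c s t) (measurable_mC hU c s t) hρ,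
    Measure.map_smul] at hLi
  have h1 := smul_measure_cancel (ENNReal.inv_ne_zero.2 ENNReal.ofReal_ne_top)
    (ENNReal.inv_ne_top.2 hK0) hLi
  have hk1 : ENNReal.ofReal ((2 * π) ^ ((Module.finrank ℝ V : ℝ) / 2) * rexp (-Ub U s c)) ≠ 0 :=
    (ENNReal.ofReal_pos.2 (by positivity)).ne'
  have h0 : (0 : ℝ) ∈ Ioo (-1 : ℝ) 1 := ⟨by norm_num, by norm_num⟩
  have e0 : (stdGaussian V).withDensity (fun η => ENNReal.ofReal
      (rexp (Ub U s c - Ub U (s * √(1 - (0 : ℝ) ^ 2)) (c + (s * (0 : ℝ)) • η)))) = stdGaussian V := by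
    simp
  have hP : IsProbabilityMeasure ((stdGaussian V).withDensity fun η => ENNReal.ofReal
      (rexp (Ub U s c - Ub U (s * √(1 - t ^ 2)) (c + (s * t) • η)))) := by
    rw [← map_evol_vY hU c hs ht]
    exact Measure.isProbabilityMeasure_map (measurable_evol_vY hU c hs ht).aemeasurable
  rw [withDensity_lY hU c s 0, withDensity_lY hU c s t, e0,
    skew_smul _ (measurable_mC hU c s 0) ρ _ ENNReal.ofReal_ne_top,
    skew_smul _ (measurable_mC hU c s t) ρ _ ENNReal.ofReal_ne_top, Measure.map_smul] at h1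
  have h2 := smul_measure_cancel hk1 ENNReal.ofReal_ne_top h1
  rw [← map_evol_vY hU c hs ht] at h2
  exact map_of_skew hT (measurable_mC hU c s 0) (measurable_mC hU c s t) hρ.ne' h2

end Crest.Agent.R285
end
end

-- ▼ part R285/SemQPlug
section

/-!
Row 285 (S0430), SEM_Q (helper367): the data `ExQ` of the Q-system from the coupled flow:
main grid (`SemQMain`), product law (`CoupLaw`, `LawQ`), smoothness (`MainB`).
Rescaled units, centre `a`; sample space `gam3 V`, `ω = ((ξ, b₀), q)`.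
-/

set_option autoImplicit false
set_option linter.unusedSectionVars false

open Set Filter Topology MeasureTheory ProbabilityTheory Real
open scoped ENNReal NNReal RealInnerProductSpace

noncomputable section

namespace Crest.Agent.R285

variable {V : Type} [NormedAddCommGroup V] [InnerProductSpace ℝ V] [FiniteDimensional ℝ V]
  [MeasurableSpace V] [BorelSpace V]

/-- initial state `(ξ, G₁(a) + ρ b₀)` -/
def xin (f : V → ℝ) (a : V) (ρ : ℝ) (w : V × V) : V × V := (w.1, G f 1 a + ρ • w.2)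

theorem continuous_xin (f : V → ℝ) (a : V) (ρ : ℝ) : Continuous (xin f a ρ) := by
  unfold xin
  fun_prop

/-- Liouville's theorem for the coupled flow in the coordinates `(η, X)`, unit scale. -/
def CoupLi (f : V → ℝ) (a : V) (ρ : ℝ) (v : ℝ → V × V → V × V) : Prop :=
  ∀ t ∈ Jm, (((volume : Measure V).prod volume).withDensity (fun p : V × V => ENNReal.ofReal
        (rexp (lY f a 1 0 p.1 - ‖p.2 - mC f a 1 0 p.1‖ ^ 2 / (2 * ρ ^ 2))))).map (evol v Jm 0 t) =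
      ((volume : Measure V).prod volume).withDensity (fun p : V × V => ENNReal.ofReal
        (rexp (lY f a 1 t p.1 - ‖p.2 - mC f a 1 t p.1‖ ^ 2 / (2 * ρ ^ 2))))

theorem mC_one (f : V → ℝ) (a : V) (t : ℝ) (η : V) :
    mC f a 1 t η = G f (√(1 - t ^ 2)) (a + t • η) := by
  unfold mC
  rw [one_smul, one_mul, one_mul]

theorem mC_zero (f : V → ℝ) (a : V) (η : V) : mC f a 1 0 η = G f 1 a := by
  rw [mC_one]
  simp

variable {f : V → ℝ} {a : V} {ρ τ : ℝ} {v : ℝ → V × V → V × V}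

/-- The product law of `(η_t, b_t)`. -/
theorem coup_law (hf : PotP τ f) (hρ : 0 < ρ) (hv : CoupField f a ρ v) (hLi : CoupLi f a ρ v)
    {t : ℝ} (ht : t ∈ Jm) :
    ((stdGaussian V).prod (stdGaussian V)).map (fun w =>
      ((evol v Jm 0 t (xin f a ρ w)).1, bv f a ρ v t (xin f a ρ w))) =
      ((stdGaussian V).map (evol (vY f a 1) Jm 0 t)).prod (stdGaussian V) := by
  have h1 := coup_law_of hf a one_pos hρ ht
    (hv.good.continuous_evol zero_mem_Jm ht).measurable (hLi t ht)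
  refine Eq.trans ?_ h1
  congr 1
  funext w
  rw [mC_zero, mC_one]
  rfl

theorem measurable_evol_xin (hv : CoupField f a ρ v) {t : ℝ} (ht : t ∈ Jm) :
    Measurable (fun w => (evol v Jm 0 t (xin f a ρ w)).1) :=
  (continuous_fst.comp ((hv.good.continuous_evol zero_mem_Jm ht).comp
    (continuous_xin f a ρ))).measurable

theorem measurable_bv_xin (hf : PotP τ f) (hv : CoupField f a ρ v) {t : ℝ} (ht : t ∈ Jm) :
    Measurable (fun w => bv f a ρ v t (xin f a ρ w)) :=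
  ((hv.continuous_bv hf ht).comp (continuous_xin f a ρ)).measurable

theorem isProb_evol_vY (hf : PotP τ f) (a : V) {t : ℝ} (ht : t ∈ Jm) :
    IsProbabilityMeasure ((stdGaussian V).map (evol (vY f a 1) Jm 0 t)) :=
  Measure.isProbabilityMeasure_map (measurable_evol_vY hf a one_pos ht).aemeasurable

/-- 41's structure along the coupled flow. -/
theorem frozLaw_coup (hf : PotP τ f) (hρ : 0 < ρ) (hv : CoupField f a ρ v)
    (hLi : CoupLi f a ρ v) {t : ℝ} (ht : t ∈ Jm) :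
    FrozLaw (gam3 V) (fun ω => a + yv v t (xin f a ρ ω.1)) (fun ω => bv f a ρ v t (xin f a ρ ω.1))
      (fun ω => ω.2) := by
  have := isProb_evol_vY hf a ht
  exact frozLaw_of (measurable_evol_xin hv ht) (measurable_bv_xin hf hv ht)
    (coup_law hf hρ hv hLi ht) (Φ := fun η => a + t • η) (by fun_prop)

theorem map_xin_fst : (gam3 V).map (fun ω => xin f a ρ ω.1) =
    ((stdGaussian V).prod (stdGaussian V)).map (xin f a ρ) := by
  have h1 : (fun ω : (V × V) × V => xin f a ρ ω.1) = xin f a ρ ∘ Prod.fst := rfl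
  rw [h1, ← Measure.map_map (continuous_xin f a ρ).measurable measurable_fst]
  congr 1
  have : ((((stdGaussian V).prod (stdGaussian V)).prod (stdGaussian V)) : Measure _).map Prod.fst =
    (stdGaussian V).prod (stdGaussian V) := by
    rw [Measure.map_fst_prod]
    simp
  exact this

variable {Q : QPar}

/-- **The exact data of the Q-system** from the coupled flow. -/
theorem exq_of (hv : CoupField f a Q.ρ v) (hLi : CoupLi f a Q.ρ v) (ok : Q.Ok) (hf : PotP τ f)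
    {B B1 B2 : ℝ≥0∞} (inn : ∀ j Y, InnB f Y (Q.kj j) (Q.n + 2) Q.t0 B)
    (hB : MainB v (((stdGaussian V).prod (stdGaussian V)).map (xin f a Q.ρ)) Q.n Q.e1 B1 B2) :
    SemQ.ExQ Q f a (fun j (ω : (V × V) × V) => yv v (Q.nd j) (xin f a Q.ρ ω.1))
      (fun j ω => bv f a Q.ρ v (Q.nd j) (xin f a Q.ρ ω.1))
      (fun ω => yv v Q.e1 (xin f a Q.ρ ω.1)) (fun ω => Xv v Q.e1 (xin f a Q.ρ ω.1))
      (fun ω => G f 1 a + Q.ρ • ω.1.2) (fun ω => ω.2) τ (gam3 V) B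
      (ENNReal.ofReal (2 * mgC Q.n Q.M Q.e1) * B1) (ENNReal.ofReal (2 * mgC Q.n Q.M Q.e1) * B2) := by
  have he : Q.e1 ∈ Jm := Icc_subset_Jm' ok.e1 ⟨ok.e0.le, le_rfl⟩
  have hX : Measurable (fun ω : (V × V) × V => xin f a Q.ρ ω.1) :=
    (continuous_xin f a Q.ρ).measurable.comp measurable_fst
  rw [← map_xin_fst] at hB
  refine ⟨ok, hf, inn, fun j => ?_, ?_, ?_, ?_, fun j => ?_, fun j => ?_, ?_⟩
  · exact frozLaw_coup hf ok.ρ0 hv hLi (CoupField.nd_mem_Jm hv Q ok.e0 ok.e1 j)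
  · exact (hv.continuous_yv he).measurable.comp hX
  · exact (hv.continuous_Xv he).measurable.comp hX
  · fun_prop
  · exact hv.main_y' Q hf hX ok.M0 ok.e0 ok.e1 hB j
  · have key := hv.main_X' Q hf hX ok.M0 ok.e0 ok.e1 hB j
    refine le_trans (le_of_eq ?_) key
    congr 1
    funext ω
    rw [hv.Xv_eq ok.ρ0.ne' (Q.nd j) (xin f a Q.ρ ω.1)]
    rfl
  · have key := hv.main_X0' Q hf hX ok.M0 ok.e0 ok.e1 hB
    refine key.trans (mul_le_mul' (ENNReal.ofReal_le_ofReal ?_) le_rfl)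
    have := mgC_nonneg Q.n Q.M ok.e0.le
    linarith

/-! ### the field of 946 -/

open Crest.OracleSampling (E)


end Crest.Agent.R285
end
end

-- ▼ part R285/CoupInst
section

/-!
Row 285: the coupled flow of `Flow3` in the shapes of `CoupGen` (`vC`) and `SemQMain` (`CoupField`).
-/

set_option autoImplicit false
set_option maxSynthPendingDepth 3
set_option linter.unusedSectionVars false

open MeasureTheory ProbabilityTheory Real Filter Topology Set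
open scoped RealInnerProductSpace ENNReal
open Crest.OracleSampling (E)

noncomputable section

namespace Crest.Agent.R285

section general

variable {V : Type} [NormedAddCommGroup V] [InnerProductSpace ℝ V] [FiniteDimensional ℝ V]
  [MeasurableSpace V] [BorelSpace V] {h : ℝ} {f : V → ℝ}

/-- The coupled field at unit scale. -/
def vU (f : V → ℝ) (a : V) (ρ : ℝ) : ℝ → V × V → V × V := vQ f a 1 ρ

theorem vU_fst (f : V → ℝ) (a : V) (ρ t : ℝ) (p : V × V) :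
    (vU f a ρ t p).1 = -(G f √(1 - t ^ 2) (a + t • p.1)) + ρ⁻¹ • DGr f (√(1 - t ^ 2), a + t • p.1)
      (ρ⁻¹ • (p.2 - G f √(1 - t ^ 2) (a + t • p.1))) := by
  have e : (ρ ^ 2)⁻¹ = ρ⁻¹ * ρ⁻¹ := by rw [pow_two, mul_inv]
  simp only [vU, vQ, gS, opA, one_mul, one_smul, one_pow, map_smul, smul_smul, e]

theorem vU_snd (f : V → ℝ) (a : V) (ρ t : ℝ) (p : V × V) :
    (vU f a ρ t p).2 = (t * ρ⁻¹) • DGr f (√(1 - t ^ 2), a + t • p.1)
      (DGr f (√(1 - t ^ 2), a + t • p.1) (ρ⁻¹ • (p.2 - G f √(1 - t ^ 2) (a + t • p.1)))) := by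
  have e : (ρ ^ 2)⁻¹ = ρ⁻¹ * ρ⁻¹ := by rw [pow_two, mul_inv]
  simp only [vU, vQ, gS, opA, one_mul, one_smul, one_pow, map_smul, smul_smul, e, mul_assoc]

theorem goodOn_vU (hf : PotP h f) (a : V) (ρ : ℝ) : GoodOn (vU f a ρ) (Ioo (-1 : ℝ) 1) :=
  goodOn_vQ hf a one_pos ρ

theorem smOn_vU (hf : PotP h f) (a : V) (ρ : ℝ) : SmOn (vU f a ρ) (Ioo (-1 : ℝ) 1) :=
  smOn_vQ hf a one_pos ρ

theorem coupField_vU (hf : PotP h f) (a : V) (ρ : ℝ) : CoupField f a ρ (vU f a ρ) where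
  good := goodOn_vU hf a ρ
  smooth := smOn_vU hf a ρ
  fst_eq t _ p := by
    rw [vU_fst, neg_sub', cG, cA, cb]
    simp only [cG]
    abel
  snd_eq t _ p := by
    rw [vU_snd, cA, cb, smul_smul]
    rfl


/-- Liouville in density form (367's `CoupLi`). -/
theorem coupLi_vU (hf : PotP h f) (a : V) (ρ : ℝ) : CoupLi f a ρ (vU f a ρ) := by
  intro t ht
  have hl : ContDiffOn ℝ 1 (fun q : ℝ × (V × V) => lQ f a 1 ρ q.1 q.2)
      (Ioo (-1 : ℝ) 1 ×ˢ univ) := by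
    have hproj : ContDiffOn ℝ 1 (fun q : ℝ × (V × V) => ((q.1, q.2.1) : ℝ × V))
        (Ioo (-1 : ℝ) 1 ×ˢ univ) := by fun_prop
    have hmaps : MapsTo (fun q : ℝ × (V × V) => ((q.1, q.2.1) : ℝ × V))
        (Ioo (-1 : ℝ) 1 ×ˢ univ) (Ioo (-1 : ℝ) 1 ×ˢ univ) := fun q hq => ⟨hq.1, mem_univ _⟩
    have hg : ContDiffOn ℝ 1 (fun q : ℝ × (V × V) => gS f a 1 q.1 q.2.1)
        (Ioo (-1 : ℝ) 1 ×ˢ univ) :=
      ContDiffOn.comp (g := fun p : ℝ × V => gS f a 1 p.1 p.2)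
        (f := fun q : ℝ × (V × V) => ((q.1, q.2.1) : ℝ × V))
        ((smOn_gS hf a one_pos).of_le (by exact_mod_cast le_top)) hproj hmaps
    have hUb : ContDiffOn ℝ 1 (fun q : ℝ × (V × V) => Ub f (1 * √(1 - q.1 ^ 2))
        (a + (1 * q.1) • q.2.1)) (Ioo (-1 : ℝ) 1 ×ˢ univ) :=
      ContDiffOn.comp (g := fun p : ℝ × V => Ub f (1 * √(1 - p.1 ^ 2)) (a + (1 * p.1) • p.2))
        (f := fun q : ℝ × (V × V) => ((q.1, q.2.1) : ℝ × V))
        ((smOn_Ub hf a one_pos).of_le (by exact_mod_cast le_top)) hproj hmaps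
    have hn : ContDiff ℝ 1 (fun q : ℝ × (V × V) => ‖q.2.1‖ ^ 2 / 2) :=
      ((contDiff_norm_sq ℝ).comp (contDiff_fst.comp contDiff_snd)).div_const 2
    have hX : ContDiffOn ℝ 1 (fun q : ℝ × (V × V) => q.2.2) (Ioo (-1 : ℝ) 1 ×ˢ univ) := by
      fun_prop
    have h1 := (hn.neg.contDiffOn (s := Ioo (-1 : ℝ) 1 ×ˢ univ)).sub hUb
    have h2 := contDiffOn_const (c := (2 * ρ ^ 2)⁻¹) |>.mul ((hX.sub hg).norm_sq ℝ)
    exact h1.sub h2
  have key := (goodOn_vU hf a ρ).map_evol_exp ((volume : Measure V).prod (volume : Measure V))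
    (l := fun t p => lQ f a 1 ρ t p) hl (fun t ht p => lQ_continuity hf a one_pos ht ρ p)
    zero_mem_J ht
  have e : ∀ t (p : V × V), lY f a 1 t p.1 - ‖p.2 - mC f a 1 t p.1‖ ^ 2 / (2 * ρ ^ 2) =
      lQ f a 1 ρ t p := by
    intro t p
    rw [lQ, div_eq_inv_mul]
    rfl
  simp_rw [e]
  exact key

end general

section euclid

variable {d : ℕ} {h : ℝ} {f : E d → ℝ}

theorem vC_eq (f : E d → ℝ) (a : E d) (ρ : ℝ) : Inst.vC f a ρ = vU f a ρ := by
  funext t x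
  refine Prod.ext ?_ ?_
  · rw [vU_fst]; rfl
  · rw [vU_snd]; rfl


theorem coupField_vC' (hf : PotP h f) (a : E d) (ρ : ℝ) : CoupField f a ρ (Inst.vC f a ρ) := by
  rw [vC_eq]; exact coupField_vU hf a ρ

theorem coupLi_vC (hf : PotP h f) (a : E d) (ρ : ℝ) : CoupLi f a ρ (Inst.vC f a ρ) := by
  rw [vC_eq]; exact coupLi_vU hf a ρ

end euclid

end Crest.Agent.R285
end
end

-- ▼ part R285/SMAll
section

/-!
Row 285 (S0430): all smoothness inputs, unconditionally.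

* `SM.innB` : inner flow at a frozen centre (`InnB`);
* `SM.mainB` : the coupled flow (`MainB` for the field `Inst.vC`);
* `SM.semY_all : SEMY`, `SM.sm1Y_all : SM1Y`.
-/

set_option autoImplicit false
set_option linter.unusedSectionVars false

open MeasureTheory ProbabilityTheory Real Filter Topology Set
open Crest.OracleSampling (E)
open scoped RealInnerProductSpace ENNReal ContDiff

noncomputable section

namespace Crest.Agent.R285.SM

open Crest.Agent.R285 Crest.Agent.R285.Inst Crest.Agent.R285.YSys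

variable {c : ℕ → ℝ}

theorem inv_kappa_mono {t e : ℝ} (ht : 0 ≤ t) (hte : t ≤ e) (he : e < 1) :
    (√(1 - t ^ 2))⁻¹ ≤ (√(1 - e ^ 2))⁻¹ := by
  have e1 : √(1 - e ^ 2) ≤ √(1 - t ^ 2) := by
    refine Real.sqrt_le_sqrt ?_
    nlinarith
  exact inv_anti₀ (sqrt_pos' ⟨by linarith, he⟩) e1

/-- Law of `(η_t, b_t)` for the image of the starting law under the coupled flow. -/
theorem law_coup {d : ℕ} {f : E d → ℝ} {τ ρ : ℝ} (hf : PotP τ f) (hρ : 0 < ρ) (a : E d) {t : ℝ}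
    (ht : t ∈ Jm) :
    ((((stdGaussian (E d)).prod (stdGaussian (E d))).map (xin f a ρ)).map
      (evol (vC f a ρ) Jm 0 t)).map (fun x => (x.1, bC f a ρ t x)) =
      (Scale.law1 f a t).prod (stdGaussian (E d)) := by
  have hv := coupField_vC' hf a ρ
  have h1 := coup_law hf hρ hv (coupLi_vC hf a ρ) ht
  rw [Scale.map_evol_law1 hf a ht] at h1
  have hb : Continuous (fun x : E d × E d => (x.1, bC f a ρ t x)) := by
    refine continuous_fst.prodMk ?_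
    rw [← continuousOn_univ]
    exact ContDiffOn.continuousOn (smOn_bC hf a ρ) |>.comp (f := fun x : E d × E d => (t, x))
      (by fun_prop) (fun x _ => ⟨ht, mem_univ _⟩)
  have he := hv.good.continuous_evol zero_mem_Jm ht
  rw [Measure.map_map hb.measurable he.measurable,
    Measure.map_map (hb.comp he).measurable (continuous_xin f a ρ).measurable]
  exact h1

/-- **Smoothness along the coupled flow.** -/
theorem exists_MainB (hAF : AFall c) (n : ℕ) : ∃ (C : ℝ) (P : ℕ), 0 ≤ C ∧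
    ∀ {d : ℕ} {f : E d → ℝ} {τ : ℝ}, PotP τ f → 0 < τ → τ ≤ 1 → ∀ (a : E d) {ρ : ℝ}, τ ≤ ρ →
      ∀ {e1 : ℝ}, 0 < e1 → e1 < 1 →
      MainB (vC f a ρ) (((stdGaussian (E d)).prod (stdGaussian (E d))).map (xin f a ρ)) n e1
        (ENNReal.ofReal ((τ + τ / ρ) * (C * (√(1 - e1 ^ 2))⁻¹ ^ P) * √d))
        (ENNReal.ofReal (τ * (τ / ρ) * (C * (√(1 - e1 ^ 2))⁻¹ ^ P) * √d)) := by
  obtain ⟨C₁, P₁, hC₁, H₁⟩ := exists_C1 hAF n
  obtain ⟨C₂, P₂, hC₂, H₂⟩ := exists_C2 hAF (n + 1)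
  refine ⟨C₁ + C₂, P₁ + P₂, by linarith, fun {d f τ} hf hτ hτ1 a ρ hρ e1 he0 he1 => ?_⟩
  have hρ0 : 0 < ρ := hτ.trans_le hρ
  have hv := coupField_vC' hf a ρ
  have hcont : ∀ {t : ℝ}, t ∈ Jm → ∀ {F : ℝ → E d × E d → E d}, SmOn F Jm →
      Continuous ((Dv (vC f a ρ))^[n + 1] F t) := by
    intro t ht F hF
    rw [← continuousOn_univ]
    exact (hF.iterate_Dv isOpen_Ioo (smOn_vC hf a ρ) (n + 1)).continuousOn.comp
      (f := fun x : E d × E d => (t, x)) (by fun_prop) (fun x _ => ⟨ht, mem_univ _⟩)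
  have hpow : ∀ {t : ℝ}, t ∈ Ioc 0 e1 → ∀ {C' : ℝ} {P' : ℕ}, 0 ≤ C' → C' ≤ C₁ + C₂ →
      P' ≤ P₁ + P₂ → C' * (√(1 - t ^ 2))⁻¹ ^ P' ≤
        (C₁ + C₂) * (√(1 - e1 ^ 2))⁻¹ ^ (P₁ + P₂) := by
    intro t ht C' P' hC' hC'' hP'
    have h1 := inv_kappa_mono ht.1.le ht.2 he1
    have hκ := sqrt_pos' (t := t) ⟨by linarith [ht.1], by linarith [ht.2]⟩
    have hK : 1 ≤ (√(1 - t ^ 2))⁻¹ := (one_le_inv₀ hκ).2 kappa_le
    have h2 : (√(1 - t ^ 2))⁻¹ ^ P' ≤ (√(1 - t ^ 2))⁻¹ ^ (P₁ + P₂) :=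
      pow_le_pow_right₀ hK hP'
    have h3 : (√(1 - t ^ 2))⁻¹ ^ (P₁ + P₂) ≤ (√(1 - e1 ^ 2))⁻¹ ^ (P₁ + P₂) :=
      pow_le_pow_left₀ (by positivity) h1 _
    exact mul_le_mul hC'' (h2.trans h3) (by positivity) (by linarith)
  refine ⟨fun t ht => ?_, fun t ht => ?_⟩
  · have htJ : t ∈ Jm := ⟨by linarith [ht.1], by linarith [ht.2]⟩
    have h1 := H₁ hf hτ hτ1 a hρ htJ (law_coup hf hρ0 a htJ)
    rw [eLpNorm_map_measure (hcont htJ (smOn_vC hf a ρ).fst).aestronglyMeasurable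
      (hv.good.continuous_evol zero_mem_Jm htJ).measurable.aemeasurable] at h1
    refine h1.trans (ENNReal.ofReal_le_ofReal ?_)
    have h2 := hpow ht hC₁ (by linarith) (Nat.le_add_right P₁ P₂)
    have h3 : 0 ≤ τ + τ / ρ := by positivity
    exact mul_le_mul_of_nonneg_right (mul_le_mul_of_nonneg_left h2 h3) (Real.sqrt_nonneg _)
  · have htJ : t ∈ Jm := ⟨by linarith [ht.1], by linarith [ht.2]⟩
    have h1 := H₂ hf hτ hτ1 a hρ htJ (law_coup hf hρ0 a htJ)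
    rw [eLpNorm_map_measure (hcont htJ (smOn_vC hf a ρ).snd).aestronglyMeasurable
      (hv.good.continuous_evol zero_mem_Jm htJ).measurable.aemeasurable] at h1
    refine h1.trans (ENNReal.ofReal_le_ofReal ?_)
    have h2 := hpow ht hC₂ (by linarith) (Nat.le_add_left P₂ P₁)
    have h3 : 0 ≤ τ ^ 2 / ρ := by positivity
    have h4 : τ * (τ / ρ) = τ ^ 2 / ρ := by ring
    rw [h4]
    exact mul_le_mul_of_nonneg_right (mul_le_mul_of_nonneg_left h2 h3) (Real.sqrt_nonneg _)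

/-! ### Unconditional forms -/

/-- smoothness of the coupled flow -/
theorem mainB (n : ℕ) : ∃ (C : ℝ) (P : ℕ), 0 ≤ C ∧
    ∀ {d : ℕ} {f : E d → ℝ} {τ : ℝ}, PotP τ f → 0 < τ → τ ≤ 1 → ∀ (a : E d) {ρ : ℝ}, τ ≤ ρ →
      ∀ {e1 : ℝ}, 0 < e1 → e1 < 1 →
      MainB (vC f a ρ) (((stdGaussian (E d)).prod (stdGaussian (E d))).map (xin f a ρ)) n e1
        (ENNReal.ofReal ((τ + τ / ρ) * (C * (√(1 - e1 ^ 2))⁻¹ ^ P) * √d))
        (ENNReal.ofReal (τ * (τ / ρ) * (C * (√(1 - e1 ^ 2))⁻¹ ^ P) * √d)) :=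
  exists_MainB AF.AFall_afc n

/-- smoothness of the inner flow at a frozen centre -/
theorem innB (n : ℕ) : ∃ (C : ℝ) (P : ℕ), 0 ≤ C ∧
    ∀ {d : ℕ} {U : E d → ℝ} {h s : ℝ}, PotP h U → 0 < h → 0 < s → h * s ^ 2 ≤ 1 →
      ∀ (y : E d) {t0 : ℝ}, 0 < t0 → t0 < 1 →
      InnB U y s (n + 1) t0
        (ENNReal.ofReal (h * s ^ 2 * (C * (√(1 - t0 ^ 2))⁻¹ ^ P) * √d)) :=
  exists_InnB AF.AFall_afc n

/-- smoothness of the inner flow at a frozen centre, with a universal constant -/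
theorem innB_half (n : ℕ) : ∃ C : ℝ, 0 ≤ C ∧
    ∀ {d : ℕ} {f : E d → ℝ} {τ : ℝ}, PotP τ f → 0 < τ → τ ≤ 1 → ∀ (y : E d) {s : ℝ}, 0 < s →
      s ≤ 1 → ∀ {t0 : ℝ}, 0 < t0 → t0 ≤ 1 / 2 →
      InnB f y s (n + 1) t0 (ENNReal.ofReal (τ * C * √d)) := by
  obtain ⟨C, P, hC, H⟩ := innB n
  refine ⟨C * 2 ^ P, by positivity, fun {d f τ} hf hτ hτ1 y s hs hs1 t0 h0 h1 t ht => ?_⟩
  have hs2 : s ^ 2 ≤ 1 := by nlinarith
  have h2 : τ * s ^ 2 ≤ τ := by nlinarith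
  refine (H hf hτ hs (h2.trans hτ1) y h0 (by linarith) t ht).trans (ENNReal.ofReal_le_ofReal ?_)
  have hk : (2 : ℝ)⁻¹ ≤ √(1 - t0 ^ 2) := by
    refine Real.le_sqrt_of_sq_le ?_
    nlinarith
  have hk2 : (√(1 - t0 ^ 2))⁻¹ ≤ 2 := inv_le_of_inv_le₀ two_pos hk
  have hk3 : (√(1 - t0 ^ 2))⁻¹ ^ P ≤ 2 ^ P := pow_le_pow_left₀ (by positivity) hk2 P
  have h4 : τ * s ^ 2 * (C * (√(1 - t0 ^ 2))⁻¹ ^ P) ≤ τ * (C * 2 ^ P) :=
    mul_le_mul h2 (mul_le_mul_of_nonneg_left hk3 hC) (by positivity) hτ.le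
  exact mul_le_mul_of_nonneg_right h4 (Real.sqrt_nonneg _)



end Crest.Agent.R285.SM
end
end

-- ▼ part R285/SemQReal
section

/-!
Row 285: real-number form of the error bounds `eP`, `eO` of `SemQ.lean`, and the exact data `ExQ` from
the coupled flow (`CoupField`).
-/

set_option autoImplicit false
set_option linter.unusedSectionVars false

open Set Filter Topology MeasureTheory ProbabilityTheory
open scoped ENNReal NNReal RealInnerProductSpace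

noncomputable section

namespace Crest.Agent.R285

namespace SemQ

theorem oadd {x y : ℝ≥0∞} {a b : ℝ} (ha : 0 ≤ a) (hb : 0 ≤ b) (hx : x ≤ ENNReal.ofReal a)
    (hy : y ≤ ENNReal.ofReal b) : x + y ≤ ENNReal.ofReal (a + b) := by
  rw [ENNReal.ofReal_add ha hb]; exact add_le_add hx hy

theorem omul {x : ℝ≥0∞} {c a : ℝ} (hc : 0 ≤ c) (hx : x ≤ ENNReal.ofReal a) :
    ENNReal.ofReal c * x ≤ ENNReal.ofReal (c * a) := by
  rw [ENNReal.ofReal_mul hc]; exact mul_le_mul' le_rfl hx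

theorem ole {x : ℝ≥0∞} {a b : ℝ} (hx : x ≤ ENNReal.ofReal a) (hab : a ≤ b) :
    x ≤ ENNReal.ofReal b := hx.trans (ENNReal.ofReal_le_ofReal hab)

/-- The constant of the error bounds. -/
def cR (n : ℕ) (CB : ℝ) : ℝ :=
  3 + rcQ n * CB + 2 * QPar.cW n * Num.derC n * CB + 2 * rcQ n * Num.derC n * CB +
    QPar.cW n * Num.derC n ^ 2 * CB + 2 * rcQ n + 2 * QPar.cW n * Num.derC n +
    YSys.CY n * Num.derC n ^ 2 * CB + 2 * YSys.CY n * Num.derC n

theorem cR_pos (n : ℕ) {CB : ℝ} (hC : 0 ≤ CB) : 0 < cR n CB := by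
  have h1 := rcQ_nonneg n
  have h2 := QPar.cW_nonneg n
  have h3 := Num.derC_nonneg n
  have h4 := YSys.CY_nonneg n
  unfold cR
  positivity

theorem numP {D I W Y CB μ T R k sd : ℝ} (D0 : 0 ≤ D) (I0 : 0 ≤ I) (W0 : 0 ≤ W) (Y0 : 0 ≤ Y)
    (hC : 0 ≤ CB) (hμ : 0 ≤ μ) (T0 : 0 ≤ T) (R0 : 0 ≤ R) (k0 : 0 ≤ k) (hsd : 0 ≤ sd) :
    I * CB * T * k * sd + (2 * μ + W * D * CB * T * k) * sd +
      ((μ + (2 * I * R + I * D * CB * T + W * (2 * D * R + D ^ 2 * CB * T)) * k) * sd) ≤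
    (3 + I * CB + 2 * W * D * CB + 2 * I * D * CB + W * D ^ 2 * CB + 2 * I + 2 * W * D +
      Y * D ^ 2 * CB + 2 * Y * D) * (μ + (T + R) * k) * sd := by
  have e : (3 + I * CB + 2 * W * D * CB + 2 * I * D * CB + W * D ^ 2 * CB + 2 * I + 2 * W * D +
      Y * D ^ 2 * CB + 2 * Y * D) * (μ + (T + R) * k) * sd =
      (I * CB * T * k * sd + (2 * μ + W * D * CB * T * k) * sd +
      ((μ + (2 * I * R + I * D * CB * T + W * (2 * D * R + D ^ 2 * CB * T)) * k) * sd)) +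
      ((I * CB + 2 * W * D * CB + 2 * I * D * CB + W * D ^ 2 * CB + 2 * I + 2 * W * D +
        Y * D ^ 2 * CB + 2 * Y * D) * μ * sd +
      (3 + W * D * CB + I * D * CB + 2 * I + 2 * W * D + Y * D ^ 2 * CB + 2 * Y * D) *
        T * k * sd +
      (3 + I * CB + 2 * W * D * CB + 2 * I * D * CB + W * D ^ 2 * CB + Y * D ^ 2 * CB +
        2 * Y * D) * R * k * sd) := by ring
  rw [e]
  refine le_add_of_nonneg_right ?_
  positivity

theorem numO {D I W Y CB μ T R k sd : ℝ} (D0 : 0 ≤ D) (I0 : 0 ≤ I) (W0 : 0 ≤ W) (Y0 : 0 ≤ Y)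
    (hC : 0 ≤ CB) (hμ : 0 ≤ μ) (T0 : 0 ≤ T) (R0 : 0 ≤ R) (k0 : 0 ≤ k) (hsd : 0 ≤ sd) :
    μ * sd + Y * ((2 * D * R + D ^ 2 * CB * T) * k * sd) ≤
    (3 + I * CB + 2 * W * D * CB + 2 * I * D * CB + W * D ^ 2 * CB + 2 * I + 2 * W * D +
      Y * D ^ 2 * CB + 2 * Y * D) * (μ + (T + R) * k) * sd := by
  have e : (3 + I * CB + 2 * W * D * CB + 2 * I * D * CB + W * D ^ 2 * CB + 2 * I + 2 * W * D +
      Y * D ^ 2 * CB + 2 * Y * D) * (μ + (T + R) * k) * sd =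
      (μ * sd + Y * ((2 * D * R + D ^ 2 * CB * T) * k * sd)) +
      ((2 + I * CB + 2 * W * D * CB + 2 * I * D * CB + W * D ^ 2 * CB + 2 * I + 2 * W * D +
        Y * D ^ 2 * CB + 2 * Y * D) * μ * sd +
      (3 + I * CB + 2 * W * D * CB + 2 * I * D * CB + W * D ^ 2 * CB + 2 * I + 2 * W * D +
        2 * Y * D) * T * k * sd +
      (3 + I * CB + 2 * W * D * CB + 2 * I * D * CB + W * D ^ 2 * CB + 2 * I + 2 * W * D +
        Y * D ^ 2 * CB) * R * k * sd) := by ring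
  rw [e]
  refine le_add_of_nonneg_right ?_
  positivity

set_option maxHeartbeats 1000000 in
/-- **Real form of the error bounds.**  `μ` = relative error of the main grid, `κ = Q.k1`. -/
theorem real_bounds {Q : QPar} (hQ : Q.Ok) {τ CB μ sd dd : ℝ} (hτ : 0 < τ) (hτ1 : τ ≤ 1)
    (hη : τ ≤ Q.ρ) (haη : Q.a0 * (τ / Q.ρ) ≤ 1) (hC : 0 ≤ CB) (hμ : 0 ≤ μ) (hsd : 0 ≤ sd)
    (hdd : √(2 * dd) ≤ 2 * sd) {B βy βX : ℝ≥0∞}
    (hB : B ≤ ENNReal.ofReal (τ * CB * sd))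
    (hβy : βy ≤ ENNReal.ofReal ((τ + τ / Q.ρ) * μ * sd))
    (hβX : βX ≤ ENNReal.ofReal (τ * (τ / Q.ρ) * μ * sd)) :
    eP Q τ dd B βy βX ≤ ENNReal.ofReal (cR Q.n CB * (μ + (Q.t0 ^ (Q.n + 1) +
      (Q.a0 * (τ / Q.ρ)) ^ (Q.n + 1)) / Q.k1 ^ 2) * sd) ∧
    eO Q τ dd B βX ≤ ENNReal.ofReal (Q.ρ * (cR Q.n CB * (μ + (Q.t0 ^ (Q.n + 1) +
      (Q.a0 * (τ / Q.ρ)) ^ (Q.n + 1)) / Q.k1 ^ 2) * sd)) := by
  have hρ := hQ.ρ0
  have hκ := hQ.k1_pos
  have hκ1 := hQ.k1_le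
  have ht0 := hQ.t0
  have ht1 := hQ.t1
  have ha0 := hQ.a0
  have ha1 := hQ.a1
  set η : ℝ := τ / Q.ρ with hηd
  have hη0 : 0 < η := div_pos hτ hρ
  have hη1 : η ≤ 1 := by rw [hηd, div_le_one hρ]; exact hη
  have hτρ : τ = η * Q.ρ := by rw [hηd, div_mul_cancel₀ _ hρ.ne']
  set D := Num.derC Q.n with hD
  set I := rcQ Q.n with hI
  set W := QPar.cW Q.n with hW
  set Y := YSys.CY Q.n with hY
  have D0 : 0 ≤ D := Num.derC_nonneg Q.n
  have I0 : 0 ≤ I := rcQ_nonneg Q.n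
  have W0 : 0 ≤ W := QPar.cW_nonneg Q.n
  have Y0 : 0 ≤ Y := YSys.CY_nonneg Q.n
  set T : ℝ := Q.t0 ^ (Q.n + 1) with hT
  set R : ℝ := (Q.a0 * η) ^ (Q.n + 1) with hR
  have T0 : 0 ≤ T := by positivity
  have R0 : 0 ≤ R := by positivity
  set k : ℝ := (Q.k1 ^ 2)⁻¹ with hk
  have k0 : 0 < k := by positivity
  have k1 : 1 ≤ k := (one_le_inv₀ (by positivity)).mpr (by nlinarith)
  -- stencil
  have bS : eS Q B ≤ ENNReal.ofReal (τ * (D * CB * T * k * sd)) := by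
    unfold eS dS
    refine ole (omul (by positivity) hB) (le_of_eq ?_)
    rw [← hD, ← hT, hk]
    ring
  -- R
  have bR : eR Q τ dd B ≤ ENNReal.ofReal (τ * ((2 * D * R + D ^ 2 * CB * T) * k * sd)) := by
    unfold eR
    refine ole (oadd (a := τ * (2 * D * R * k * sd)) (b := τ * (D ^ 2 * CB * T * k * sd))
      (by positivity) (by positivity) ?_ ?_) (le_of_eq (by ring))
    · refine ENNReal.ofReal_le_ofReal ?_
      rw [← hD, ← hηd, ← hR]
      calc D * (τ * η) * R * √(2 * dd) ≤ D * (τ * 1) * R * (2 * sd) := by gcongr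
        _ = τ * (2 * D * R * 1 * sd) := by ring
        _ ≤ τ * (2 * D * R * k * sd) := by gcongr
    · refine ole (omul (by positivity) bS) ?_
      rw [← hD]
      calc D / Q.a0 * (τ * (D * CB * T * k * sd)) ≤ D / 1 * (τ * (D * CB * T * k * sd)) := by
            gcongr; linarith
        _ = _ := by ring
  -- X
  have bX : eX Q τ dd B βX ≤ ENNReal.ofReal (τ * ((μ + W * (2 * D * R + D ^ 2 * CB * T) * k) * sd)) := by
    unfold eX
    refine ole (oadd (a := τ * (μ * sd))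
      (b := W * (τ * ((2 * D * R + D ^ 2 * CB * T) * k * sd))) (by positivity)
      (by positivity) ?_ (omul W0 bR)) (le_of_eq (by ring))
    refine ole hβX ?_
    calc τ * η * μ * sd ≤ τ * 1 * μ * sd := by gcongr
      _ = _ := by ring
  -- U
  have bU : eU Q τ dd B ≤ ENNReal.ofReal ((2 * I * R + I * D * CB * T) * k * sd) := by
    unfold eU
    refine ole (oadd (a := 2 * I * R * k * sd) (b := I * D * CB * T * k * sd)
      (by positivity) (by positivity) ?_ ?_) (le_of_eq (by ring))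
    · refine ENNReal.ofReal_le_ofReal ?_
      rw [← hI, ← hηd]
      have e1 : (Q.a0 * η) ^ (Q.n + 3) ≤ R := by
        rw [hR]
        exact pow_le_pow_of_le_one (by positivity) haη (by omega)
      calc I * (Q.a0 * η) ^ (Q.n + 3) * √(2 * dd) ≤ I * R * (2 * sd) := by gcongr
        _ = 2 * I * R * 1 * sd := by ring
        _ ≤ 2 * I * R * k * sd := by gcongr
    · refine ole (omul (by positivity) bS) ?_
      rw [← hI]
      have e2 : Q.a0 / Q.ρ * τ ≤ 1 := by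
        have : Q.a0 / Q.ρ * τ = Q.a0 * η := by rw [hηd]; ring
        rw [this]; exact haη
      calc I * Q.a0 / Q.ρ * (τ * (D * CB * T * k * sd)) =
            (Q.a0 / Q.ρ * τ) * (I * (D * CB * T * k * sd)) := by ring
        _ ≤ 1 * (I * (D * CB * T * k * sd)) := by gcongr
        _ = _ := by ring
  -- D
  have bD : eD Q τ dd B βX ≤ ENNReal.ofReal ((μ + (2 * I * R + I * D * CB * T +
      W * (2 * D * R + D ^ 2 * CB * T)) * k) * sd) := by
    unfold eD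
    refine ole (oadd (a := (2 * I * R + I * D * CB * T) * k * sd)
      (b := Q.ρ⁻¹ * (τ * ((μ + W * (2 * D * R + D ^ 2 * CB * T) * k) * sd)))
      (by positivity) (by positivity) bU (omul (by positivity) bX)) ?_
    have e3 : Q.ρ⁻¹ * τ ≤ 1 := by
      have : Q.ρ⁻¹ * τ = η := by rw [hηd]; ring
      rw [this]; exact hη1
    calc (2 * I * R + I * D * CB * T) * k * sd +
          Q.ρ⁻¹ * (τ * ((μ + W * (2 * D * R + D ^ 2 * CB * T) * k) * sd)) =
          (2 * I * R + I * D * CB * T) * k * sd +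
          (Q.ρ⁻¹ * τ) * ((μ + W * (2 * D * R + D ^ 2 * CB * T) * k) * sd) := by ring
      _ ≤ (2 * I * R + I * D * CB * T) * k * sd +
          1 * ((μ + W * (2 * D * R + D ^ 2 * CB * T) * k) * sd) := by gcongr
      _ = _ := by ring
  -- Y
  have bY : eY Q B βy ≤ ENNReal.ofReal ((2 * μ + W * D * CB * T * k) * sd) := by
    unfold eY
    refine ole (oadd (a := 2 * μ * sd) (b := W * D * CB * T * k * sd)
      (by positivity) (by positivity) ?_ ?_) (le_of_eq (by ring))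
    · refine ole hβy ?_
      calc (τ + η) * μ * sd ≤ (1 + 1) * μ * sd := by gcongr
        _ = _ := by ring
    · refine ole (omul (by positivity) bS) ?_
      have e3 : τ / Q.ρ ≤ 1 := hη1
      calc W / Q.ρ * (τ * (D * CB * T * k * sd)) = (τ / Q.ρ) * (W * (D * CB * T * k * sd)) := by
            ring
        _ ≤ 1 * (W * (D * CB * T * k * sd)) := by gcongr
        _ = _ := by ring
  constructor
  · unfold eP
    refine ole (oadd (a := I * CB * T * k * sd + (2 * μ + W * D * CB * T * k) * sd)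
      (b := Q.t0 * ((μ + (2 * I * R + I * D * CB * T +
        W * (2 * D * R + D ^ 2 * CB * T)) * k) * sd)) (by positivity) (by positivity)
      (oadd (by positivity) (by positivity) ?_ bY) (omul ht0.le bD)) ?_
    · refine ole (omul (by positivity) hB) ?_
      have e4 : Q.t0 ^ (Q.n + 4) ≤ T := pow_le_pow_of_le_one ht0.le (by linarith) (by omega)
      rw [← hI]
      calc I * Q.t0 ^ (Q.n + 4) * (τ * CB * sd) ≤ I * T * (1 * CB * sd) := by gcongr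
        _ = I * CB * T * 1 * sd := by ring
        _ ≤ I * CB * T * k * sd := by gcongr
    · have e5 : Q.t0 * ((μ + (2 * I * R + I * D * CB * T +
          W * (2 * D * R + D ^ 2 * CB * T)) * k) * sd) ≤ 1 * ((μ + (2 * I * R + I * D * CB * T +
          W * (2 * D * R + D ^ 2 * CB * T)) * k) * sd) := by
        refine mul_le_mul_of_nonneg_right (by linarith) (by positivity)
      rw [one_mul] at e5
      rw [div_eq_mul_inv, ← hk]
      unfold cR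
      rw [← hI, ← hD, ← hW, ← hY]
      refine (add_le_add le_rfl e5).trans ?_
      exact numP D0 I0 W0 Y0 hC hμ T0 R0 k0.le hsd
  · unfold eO
    refine ole (oadd (a := Q.ρ * (μ * sd))
      (b := Y * (τ * ((2 * D * R + D ^ 2 * CB * T) * k * sd))) (by positivity) (by positivity)
      ?_ (omul Y0 bR)) ?_
    · refine ole hβX ?_
      calc τ * η * μ * sd = Q.ρ * (η * η * μ * sd) := by rw [hτρ]; ring
        _ ≤ Q.ρ * (1 * 1 * μ * sd) := by gcongr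
        _ = _ := by ring
    · have e6 : Y * (τ * ((2 * D * R + D ^ 2 * CB * T) * k * sd)) ≤
          Q.ρ * (Y * ((2 * D * R + D ^ 2 * CB * T) * k * sd)) := by
        calc Y * (τ * ((2 * D * R + D ^ 2 * CB * T) * k * sd)) =
              τ * (Y * ((2 * D * R + D ^ 2 * CB * T) * k * sd)) := by ring
          _ ≤ _ := mul_le_mul_of_nonneg_right hη (by positivity)
      refine (add_le_add le_rfl e6).trans ?_
      rw [← mul_add]
      refine mul_le_mul_of_nonneg_left ?_ hρ.le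
      rw [div_eq_mul_inv, ← hk]
      unfold cR
      rw [← hI, ← hD, ← hW, ← hY]
      exact numO D0 I0 W0 Y0 hC hμ T0 R0 k0.le hsd

/-! ### exact data from the coupled flow -/

section coup

variable {V : Type} [NormedAddCommGroup V] [InnerProductSpace ℝ V] [FiniteDimensional ℝ V]
  [MeasurableSpace V] [BorelSpace V]
variable {Ω : Type*} [MeasurableSpace Ω] {P : Measure Ω} [SFinite P]


end coup

end SemQ

end Crest.Agent.R285
end
end

-- ▼ part R285/SemQEx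
section

/-!
Row 285 (S0430), SEM_Q: the exact data `ExQ` of the Q-system along the coupled flow, with all error
bounds in closed real form (unconditional).
-/

set_option autoImplicit false
set_option linter.unusedSectionVars false

open MeasureTheory ProbabilityTheory Real Filter Topology Set
open Crest.OracleSampling (E)
open scoped RealInnerProductSpace ENNReal

noncomputable section

namespace Crest.Agent.R285.SemQ

open Crest.Agent.R285 Crest.Agent.R285.Inst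

/-- **The exact data of the Q-system, real form.** -/
theorem exQ_real (n : ℕ) : ∃ (C : ℝ) (P : ℕ), 1 ≤ C ∧ ∀ {Q : QPar}, Q.n = n → Q.Ok →
    ∀ {d : ℕ} {f : E d → ℝ} {τ : ℝ}, PotP τ f → 0 < τ → τ ≤ 1 → τ ≤ Q.ρ →
      Q.a0 * (τ / Q.ρ) ≤ 1 → ∀ a : E d, ∃ B βy βX : ℝ≥0∞,
      ExQ Q f a
        (fun j (ω : (E d × E d) × E d) => yv (vC f a Q.ρ) (Q.nd j) (xin f a Q.ρ ω.1))
        (fun j ω => bv f a Q.ρ (vC f a Q.ρ) (Q.nd j) (xin f a Q.ρ ω.1))
        (fun ω => yv (vC f a Q.ρ) Q.e1 (xin f a Q.ρ ω.1))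
        (fun ω => Xv (vC f a Q.ρ) Q.e1 (xin f a Q.ρ ω.1))
        (fun ω => G f 1 a + Q.ρ • ω.1.2) (fun ω => ω.2) τ (gam3 (E d)) B βy βX ∧
      eP Q τ (d : ℝ) B βy βX ≤ ENNReal.ofReal (C * (Q.k1⁻¹ ^ P *
        ((Q.M : ℝ)⁻¹ ^ (n + 1) + Q.t0 ^ (n + 1) + (Q.a0 * (τ / Q.ρ)) ^ (n + 1))) * √d) ∧
      eO Q τ (d : ℝ) B βX ≤ ENNReal.ofReal (Q.ρ * (C * (Q.k1⁻¹ ^ P *
        ((Q.M : ℝ)⁻¹ ^ (n + 1) + Q.t0 ^ (n + 1) + (Q.a0 * (τ / Q.ρ)) ^ (n + 1))) * √d)) := by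
  obtain ⟨C₁, P₁, hC₁, H₁⟩ := SM.mainB n
  obtain ⟨C₂, hC₂, H₂⟩ := SM.innB_half (n + 1)
  set D : ℝ := 2 * (1 + Num.intC (n + 1)) * C₁ + 1 with hD
  have hI := Num.intC_nonneg (n + 1)
  have hD0 : 0 < D := by positivity
  have hcR := cR_pos n hC₂
  refine ⟨cR n C₂ * D + 1, P₁ + 2, by
    have : 0 ≤ cR n C₂ * D := by positivity
    linarith, fun {Q} hn ok {d f τ} hf hτ hτ1 hη haη a => ?_⟩
  subst hn
  have hρ := ok.ρ0
  have hκ := ok.k1_pos
  have hκ1 := ok.k1_le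
  have hM : (0 : ℝ) < Q.M := by exact_mod_cast ok.M0
  have hK : 1 ≤ Q.k1⁻¹ := (one_le_inv₀ hκ).2 hκ1
  have hB := H₁ hf hτ hτ1 a hη ok.e0 ok.e1
  have hinn : ∀ j Y, InnB f Y (Q.kj j) (Q.n + 2) Q.t0 (ENNReal.ofReal (τ * C₂ * √d)) :=
    fun j Y => H₂ hf hτ hτ1 Y (ok.kj_pos j) (ok.kj_le j) ok.t0 ok.t1
  have hex := exq_of (coupField_vC' hf a Q.ρ) (coupLi_vC hf a Q.ρ) ok hf hinn hB
  refine ⟨_, _, _, hex, ?_⟩
  -- the relative error of the main grid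
  set μ : ℝ := 2 * mgC Q.n Q.M Q.e1 * (C₁ * Q.k1⁻¹ ^ P₁) with hμd
  have hmg := mgC_nonneg Q.n Q.M ok.e0.le
  have hμ : 0 ≤ μ := by positivity
  have hk1 : Q.k1 = √(1 - Q.e1 ^ 2) := rfl
  have hdd : √(2 * (d : ℝ)) ≤ 2 * √d := by
    rw [Real.sqrt_mul (by norm_num)]
    refine mul_le_mul_of_nonneg_right ?_ (Real.sqrt_nonneg _)
    rw [Real.sqrt_le_left (by norm_num)]
    norm_num
  have key := real_bounds ok hτ hτ1 hη haη hC₂ hμ (Real.sqrt_nonneg (d : ℝ)) hdd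
    (B := ENNReal.ofReal (τ * C₂ * √d))
    (βy := ENNReal.ofReal (2 * mgC Q.n Q.M Q.e1) *
      ENNReal.ofReal ((τ + τ / Q.ρ) * (C₁ * (√(1 - Q.e1 ^ 2))⁻¹ ^ P₁) * √d))
    (βX := ENNReal.ofReal (2 * mgC Q.n Q.M Q.e1) *
      ENNReal.ofReal (τ * (τ / Q.ρ) * (C₁ * (√(1 - Q.e1 ^ 2))⁻¹ ^ P₁) * √d)) le_rfl
    (by
      rw [← ENNReal.ofReal_mul (by positivity)]
      refine ENNReal.ofReal_le_ofReal (le_of_eq ?_)
      rw [hμd, hk1]
      ring)
    (by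
      rw [← ENNReal.ofReal_mul (by positivity)]
      refine ENNReal.ofReal_le_ofReal (le_of_eq ?_)
      rw [hμd, hk1]
      ring)
  -- final comparison
  have hfin : cR Q.n C₂ * (μ + (Q.t0 ^ (Q.n + 1) +
      (Q.a0 * (τ / Q.ρ)) ^ (Q.n + 1)) / Q.k1 ^ 2) ≤ (cR Q.n C₂ * D + 1) * (Q.k1⁻¹ ^ (P₁ + 2) *
        ((Q.M : ℝ)⁻¹ ^ (Q.n + 1) + Q.t0 ^ (Q.n + 1) + (Q.a0 * (τ / Q.ρ)) ^ (Q.n + 1))) := by
    have ha0 : 0 ≤ Q.a0 * (τ / Q.ρ) := by
      have := ok.a0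
      positivity
    have ht0 := ok.t0
    set X := (Q.M : ℝ)⁻¹ ^ (Q.n + 1) with hX
    set Y := Q.t0 ^ (Q.n + 1) + (Q.a0 * (τ / Q.ρ)) ^ (Q.n + 1) with hY
    have hX0 : 0 ≤ X := by positivity
    have hY0 : 0 ≤ Y := by positivity
    have h1 : mgC Q.n Q.M Q.e1 ≤ (1 + Num.intC (Q.n + 1)) * X := by
      unfold mgC
      have e1 : (Q.e1 / Q.M) ^ (Q.n + 1) ≤ X := by
        rw [hX, div_eq_mul_inv]
        have h1 : Q.e1 * (Q.M : ℝ)⁻¹ ≤ (Q.M : ℝ)⁻¹ := by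
          have := mul_le_mul_of_nonneg_right ok.e1.le (inv_nonneg.2 hM.le)
          linarith
        exact pow_le_pow_left₀ (mul_nonneg ok.e0.le (inv_nonneg.2 hM.le)) h1 _
      have e2 : (Q.e1 / Q.M) ^ (Q.n + 1) * Q.e1 ≤ X * 1 :=
        mul_le_mul e1 ok.e1.le ok.e0.le hX0
      calc (1 + Num.intC (Q.n + 1)) * (Q.e1 / Q.M) ^ (Q.n + 1) * Q.e1 =
          (1 + Num.intC (Q.n + 1)) * ((Q.e1 / Q.M) ^ (Q.n + 1) * Q.e1) := by ring
        _ ≤ (1 + Num.intC (Q.n + 1)) * (X * 1) := mul_le_mul_of_nonneg_left e2 (by positivity)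
        _ = _ := by ring
    have hKP : Q.k1⁻¹ ^ P₁ ≤ Q.k1⁻¹ ^ (P₁ + 2) := pow_le_pow_right₀ hK (by omega)
    have hK2 : Q.k1⁻¹ ^ 2 ≤ Q.k1⁻¹ ^ (P₁ + 2) := pow_le_pow_right₀ hK (by omega)
    have h2 : μ ≤ D * (Q.k1⁻¹ ^ (P₁ + 2) * X) := by
      calc μ = 2 * C₁ * (mgC Q.n Q.M Q.e1 * Q.k1⁻¹ ^ P₁) := by rw [hμd]; ring
        _ ≤ 2 * C₁ * (((1 + Num.intC (Q.n + 1)) * X) * Q.k1⁻¹ ^ (P₁ + 2)) :=
          mul_le_mul_of_nonneg_left (mul_le_mul h1 hKP (by positivity) (by positivity))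
            (by positivity)
        _ = (D - 1) * (Q.k1⁻¹ ^ (P₁ + 2) * X) := by rw [hD]; ring
        _ ≤ D * (Q.k1⁻¹ ^ (P₁ + 2) * X) :=
          mul_le_mul_of_nonneg_right (by linarith) (by positivity)
    have h3 : Y / Q.k1 ^ 2 ≤ D * (Q.k1⁻¹ ^ (P₁ + 2) * Y) := by
      have hD1 : 1 ≤ D := by
        rw [hD]
        have : 0 ≤ 2 * (1 + Num.intC (Q.n + 1)) * C₁ := by positivity
        linarith
      calc Y / Q.k1 ^ 2 = 1 * (Q.k1⁻¹ ^ 2 * Y) := by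
            rw [div_eq_mul_inv, inv_pow]; ring
        _ ≤ D * (Q.k1⁻¹ ^ (P₁ + 2) * Y) :=
          mul_le_mul hD1 (mul_le_mul_of_nonneg_right hK2 hY0) (by positivity) hD0.le
    calc cR Q.n C₂ * (μ + Y / Q.k1 ^ 2)
        ≤ cR Q.n C₂ * (D * (Q.k1⁻¹ ^ (P₁ + 2) * X) + D * (Q.k1⁻¹ ^ (P₁ + 2) * Y)) :=
          mul_le_mul_of_nonneg_left (add_le_add h2 h3) hcR.le
      _ = (cR Q.n C₂ * D) * (Q.k1⁻¹ ^ (P₁ + 2) * (X + Y)) := by ring
      _ ≤ (cR Q.n C₂ * D + 1) * (Q.k1⁻¹ ^ (P₁ + 2) * (X + Y)) :=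
          mul_le_mul_of_nonneg_right (by linarith) (by positivity)
      _ = _ := by rw [hY]; ring
  refine ⟨key.1.trans (ENNReal.ofReal_le_ofReal
    (mul_le_mul_of_nonneg_right hfin (Real.sqrt_nonneg _))),
    key.2.trans (ENNReal.ofReal_le_ofReal (mul_le_mul_of_nonneg_left
      (mul_le_mul_of_nonneg_right hfin (Real.sqrt_nonneg _)) hρ.le))⟩

end Crest.Agent.R285.SemQ
end
end

-- ▼ part R285/SemQMom
section

/-!
Row 285 (helper582): first moments of the exact points of the Q-system on `gam3`.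

`V` admissible, `0 < s ≤ 1/2`, `f = Scale.fs V s`, `a = s⁻¹ c`.
-/

set_option autoImplicit false
set_option linter.unusedSectionVars false

open MeasureTheory ProbabilityTheory Real Set
open Crest.OracleSampling (E Admissible)
open scoped RealInnerProductSpace ENNReal

noncomputable section

namespace Crest.Agent.R285

open Chan

section gen

variable {V : Type} [NormedAddCommGroup V] [InnerProductSpace ℝ V] [FiniteDimensional ℝ V]
  [MeasurableSpace V] [BorelSpace V]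

theorem lintegral_enorm_stdGaussian_le :
    ∫⁻ g : V, ‖g‖ₑ ∂(stdGaussian V) ≤ ENNReal.ofReal √(Module.finrank ℝ V) := by
  obtain ⟨h1, h2⟩ := integral_norm_stdGaussian_le (V := V)
  have h3 : Integrable (fun g : V => g) (stdGaussian V) :=
    ⟨measurable_id.aestronglyMeasurable, by
      have := h1.2
      rwa [hasFiniteIntegral_norm_iff] at this⟩
  rw [← ofReal_integral_norm_eq_lintegral_enorm h3]
  exact ENNReal.ofReal_le_ofReal h2

variable {f : V → ℝ} {a : V} {ρ τ : ℝ} {v : ℝ → V × V → V × V}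

/-- first moment of `b_t` -/
theorem lintegral_bv_le (hf : PotP τ f) (hρ : 0 < ρ) (hv : CoupField f a ρ v)
    (hLi : CoupLi f a ρ v) {t : ℝ} (ht : t ∈ Jm) :
    ∫⁻ ω : (V × V) × V, ‖bv f a ρ v t (xin f a ρ ω.1)‖ₑ ∂(gam3 V) ≤
      ENNReal.ofReal √(Module.finrank ℝ V) := by
  have hP := isProb_evol_vY hf a ht
  have hl := coup_law hf hρ hv hLi ht
  have hm : Measurable (fun w => ((evol v Jm 0 t (xin f a ρ w)).1, bv f a ρ v t (xin f a ρ w))) :=
    (measurable_evol_xin hv ht).prodMk (measurable_bv_xin hf hv ht)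
  have h1 : ∫⁻ ω : (V × V) × V, ‖bv f a ρ v t (xin f a ρ ω.1)‖ₑ ∂(gam3 V) =
      ∫⁻ w : V × V, ‖bv f a ρ v t (xin f a ρ w)‖ₑ ∂((stdGaussian V).prod (stdGaussian V)) := by
    have hg : Measurable fun w : V × V => ‖bv f a ρ v t (xin f a ρ w)‖ₑ :=
      (measurable_bv_xin hf hv ht).enorm
    have hg' : Measurable fun ω : (V × V) × V => ‖bv f a ρ v t (xin f a ρ ω.1)‖ₑ :=
      hg.comp measurable_fst
    rw [gam3, lintegral_prod _ hg'.aemeasurable]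
    simp
  have h2 : ∫⁻ w : V × V, ‖bv f a ρ v t (xin f a ρ w)‖ₑ ∂((stdGaussian V).prod (stdGaussian V)) =
      ∫⁻ p : V × V, ‖p.2‖ₑ ∂((((stdGaussian V).map (evol (vY f a 1) Jm 0 t))).prod
        (stdGaussian V)) := by
    rw [← hl, lintegral_map (by fun_prop) hm]
  rw [h1, h2, lintegral_prod _ (by fun_prop)]
  simp only [lintegral_const, measure_univ, mul_one]
  exact lintegral_enorm_stdGaussian_le

/-- first moment of `η_t` in terms of the single flow -/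
theorem lintegral_eta_eq (hf : PotP τ f) (hρ : 0 < ρ) (hv : CoupField f a ρ v)
    (hLi : CoupLi f a ρ v) {t : ℝ} (ht : t ∈ Jm) :
    ∫⁻ ω : (V × V) × V, ‖(evol v Jm 0 t (xin f a ρ ω.1)).1‖ₑ ∂(gam3 V) =
      ∫⁻ ξ : V, ‖evol (vY f a 1) Jm 0 t ξ‖ₑ ∂(stdGaussian V) := by
  have hP := isProb_evol_vY hf a ht
  have hl := coup_law hf hρ hv hLi ht
  have hm : Measurable (fun w => ((evol v Jm 0 t (xin f a ρ w)).1, bv f a ρ v t (xin f a ρ w))) :=
    (measurable_evol_xin hv ht).prodMk (measurable_bv_xin hf hv ht)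
  have h1 : ∫⁻ ω : (V × V) × V, ‖(evol v Jm 0 t (xin f a ρ ω.1)).1‖ₑ ∂(gam3 V) =
      ∫⁻ w : V × V, ‖(evol v Jm 0 t (xin f a ρ w)).1‖ₑ ∂((stdGaussian V).prod (stdGaussian V)) := by
    have hg : Measurable fun w : V × V => ‖(evol v Jm 0 t (xin f a ρ w)).1‖ₑ :=
      (measurable_evol_xin hv ht).enorm
    have hg' : Measurable fun ω : (V × V) × V => ‖(evol v Jm 0 t (xin f a ρ ω.1)).1‖ₑ :=
      hg.comp measurable_fst
    rw [gam3, lintegral_prod _ hg'.aemeasurable]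
    simp
  have h2 : ∫⁻ w : V × V, ‖(evol v Jm 0 t (xin f a ρ w)).1‖ₑ ∂((stdGaussian V).prod (stdGaussian V))
      = ∫⁻ p : V × V, ‖p.1‖ₑ ∂((((stdGaussian V).map (evol (vY f a 1) Jm 0 t))).prod
        (stdGaussian V)) := by
    rw [← hl, lintegral_map (by fun_prop) hm]
  rw [h1, h2, lintegral_prod _ (by fun_prop)]
  simp only [lintegral_const, measure_univ, mul_one]
  rw [lintegral_map (by fun_prop) (measurable_evol_vY hf a one_pos ht)]

theorem lintegral_q_le : ∫⁻ ω : (V × V) × V, ‖ω.2‖ₑ ∂(gam3 V) ≤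
    ENNReal.ofReal √(Module.finrank ℝ V) := by
  rw [gam3, lintegral_prod _ (by fun_prop)]
  simp only [lintegral_const, measure_univ, mul_one]
  exact lintegral_enorm_stdGaussian_le


end gen

section adm

variable {d : ℕ} {V : E d → ℝ}

/-- first moment of the single flow -/
theorem lintegral_evol_vY_le (hV : Admissible d V) (c : E d) {s : ℝ} (hs : 0 < s)
    (hs2 : s ≤ 1 / 2) {t : ℝ} (h0 : 0 ≤ t) (h1 : t < 1) :
    ∫⁻ ξ : E d, ‖evol (vY V c s) Jm 0 t ξ‖ₑ ∂(stdGaussian (E d)) ≤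
      ENNReal.ofReal (3 * (√(d : ℝ) + ‖c‖)) := by
  have hP := PotP.of_admissible hV
  have hpr := adm_isProb_post hV c hs
  have ht : t ∈ Jm := ⟨by linarith, h1⟩
  have e1 := evol_eta_law hP c hs h0 h1
  have hme := measurable_evol_vY hP c hs ht
  have e2 : ∫⁻ ξ : E d, ‖evol (vY V c s) Jm 0 t ξ‖ₑ ∂(stdGaussian (E d)) =
      ∫⁻ p : E d × E d, ‖(t / s) • (p.1 - c) + √(1 - t ^ 2) • p.2‖ₑ
        ∂((post V c s).prod (stdGaussian (E d))) := by
    have h2 : ∫⁻ x, ‖x‖ₑ ∂((stdGaussian (E d)).map (evol (vY V c s) (Ioo (-1 : ℝ) 1) 0 t)) =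
        ∫⁻ x, ‖x‖ₑ ∂(((post V c s).prod (stdGaussian (E d))).map
          (fun p => (t / s) • (p.1 - c) + √(1 - t ^ 2) • p.2)) := by rw [e1]
    rw [lintegral_map (by fun_prop) hme, lintegral_map (by fun_prop) (by fun_prop)] at h2
    exact h2
  rw [e2]
  have hk0 : 0 ≤ √(1 - t ^ 2) := Real.sqrt_nonneg _
  have hk1 : √(1 - t ^ 2) ≤ 1 := by
    rw [Real.sqrt_le_one]
    nlinarith
  have hts : 0 ≤ t / s := div_nonneg h0 hs.le
  have h3 : ∀ p : E d × E d, ‖(t / s) • (p.1 - c) + √(1 - t ^ 2) • p.2‖ₑ ≤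
      ENNReal.ofReal (t / s) * ‖p.1 - c‖ₑ + ‖p.2‖ₑ := by
    intro p
    refine (enorm_add_le _ _).trans (add_le_add ?_ ?_)
    · rw [enorm_smul, Real.enorm_of_nonneg hts]
    · rw [enorm_smul, Real.enorm_of_nonneg hk0]
      calc ENNReal.ofReal √(1 - t ^ 2) * ‖p.2‖ₑ ≤ 1 * ‖p.2‖ₑ := by
            gcongr
            exact ENNReal.ofReal_le_one.2 hk1
        _ = ‖p.2‖ₑ := one_mul _
  refine (lintegral_mono h3).trans ?_
  rw [lintegral_add_left (by fun_prop), lintegral_const_mul _ (by fun_prop),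
    lintegral_prod _ (by fun_prop), lintegral_prod _ (by fun_prop)]
  simp only [lintegral_const, measure_univ, mul_one]
  have h4 : ∫⁻ z, ‖z - c‖ₑ ∂(post V c s) ≤ ENNReal.ofReal (2 * s * (√(d : ℝ) + ‖c‖)) := by
    have hi : Integrable (fun z : E d => z - c) (post V c s) :=
      ⟨by fun_prop, by
        have := (adm_integrable_norm_sub hV c hs).2
        rwa [hasFiniteIntegral_norm_iff] at this⟩
    rw [← ofReal_integral_norm_eq_lintegral_enorm hi]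
    exact ENNReal.ofReal_le_ofReal (adm_post_disp hV c hs hs2)
  have h5 : ∫⁻ g : E d, ‖g‖ₑ ∂(stdGaussian (E d)) ≤ ENNReal.ofReal √(d : ℝ) := by
    have := lintegral_enorm_stdGaussian_le (V := E d)
    rwa [finrank_euclideanSpace_fin] at this
  calc ENNReal.ofReal (t / s) * ∫⁻ z, ‖z - c‖ₑ ∂(post V c s) +
        ∫⁻ g : E d, ‖g‖ₑ ∂(stdGaussian (E d))
      ≤ ENNReal.ofReal (t / s) * ENNReal.ofReal (2 * s * (√(d : ℝ) + ‖c‖)) +
        ENNReal.ofReal √(d : ℝ) := by gcongr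
    _ = ENNReal.ofReal ((t / s) * (2 * s * (√(d : ℝ) + ‖c‖)) + √(d : ℝ)) := by
      rw [← ENNReal.ofReal_mul hts, ← ENNReal.ofReal_add (by positivity) (by positivity)]
    _ ≤ ENNReal.ofReal (3 * (√(d : ℝ) + ‖c‖)) := by
      refine ENNReal.ofReal_le_ofReal ?_
      have e : (t / s) * (2 * s * (√(d : ℝ) + ‖c‖)) = 2 * t * (√(d : ℝ) + ‖c‖) := by
        field_simp
      rw [e]
      have h6 : 0 ≤ √(d : ℝ) + ‖c‖ := by positivity
      have h7 : 0 ≤ ‖c‖ := norm_nonneg c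
      nlinarith

/-- first moment of `η_t`, coupled flow -/
theorem lintegral_eta_le (hV : Admissible d V) (c : E d) {s ρ : ℝ} (hs : 0 < s)
    (hs2 : s ≤ 1 / 2) (hρ : 0 < ρ) {v : ℝ → E d × E d → E d × E d}
    (hv : CoupField (Scale.fs V s) (s⁻¹ • c) ρ v) (hLi : CoupLi (Scale.fs V s) (s⁻¹ • c) ρ v)
    {t : ℝ} (h0 : 0 ≤ t) (h1 : t < 1) :
    ∫⁻ ω : (E d × E d) × E d, ‖(evol v Jm 0 t (xin (Scale.fs V s) (s⁻¹ • c) ρ ω.1)).1‖ₑ
      ∂(gam3 (E d)) ≤ ENNReal.ofReal (3 * (√(d : ℝ) + ‖c‖)) := by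
  have hP := PotP.of_admissible hV
  rw [lintegral_eta_eq (Scale.potP_fs hP s) hρ hv hLi (t := t) ⟨by linarith, h1⟩,
    ← Scale.vY_fs' hP hs.ne' c]
  exact lintegral_evol_vY_le hV c hs hs2 h0 h1

/-- first moment of `y_t = t η_t`, coupled flow -/
theorem lintegral_yv_le (hV : Admissible d V) (c : E d) {s ρ : ℝ} (hs : 0 < s)
    (hs2 : s ≤ 1 / 2) (hρ : 0 < ρ) {v : ℝ → E d × E d → E d × E d}
    (hv : CoupField (Scale.fs V s) (s⁻¹ • c) ρ v) (hLi : CoupLi (Scale.fs V s) (s⁻¹ • c) ρ v)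
    {t : ℝ} (h0 : 0 ≤ t) (h1 : t < 1) :
    ∫⁻ ω : (E d × E d) × E d, ‖yv v t (xin (Scale.fs V s) (s⁻¹ • c) ρ ω.1)‖ₑ
      ∂(gam3 (E d)) ≤ ENNReal.ofReal (3 * (√(d : ℝ) + ‖c‖)) := by
  refine (lintegral_mono fun ω => ?_).trans (lintegral_eta_le hV c hs hs2 hρ hv hLi h0 h1)
  rw [yv, enorm_smul, Real.enorm_of_nonneg h0]
  calc ENNReal.ofReal t * ‖(evol v Jm 0 t (xin (Scale.fs V s) (s⁻¹ • c) ρ ω.1)).1‖ₑ
      ≤ 1 * ‖(evol v Jm 0 t (xin (Scale.fs V s) (s⁻¹ • c) ρ ω.1)).1‖ₑ := by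
        gcongr
        exact ENNReal.ofReal_le_one.2 h1.le
    _ = _ := one_mul _

/-- first moment of `b_t`, coupled flow, `E d` -/
theorem lintegral_bv_le' (hV : Admissible d V) (c : E d) (s : ℝ) {ρ : ℝ}
    (hρ : 0 < ρ) {v : ℝ → E d × E d → E d × E d}
    (hv : CoupField (Scale.fs V s) (s⁻¹ • c) ρ v) (hLi : CoupLi (Scale.fs V s) (s⁻¹ • c) ρ v)
    {t : ℝ} (ht : t ∈ Jm) :
    ∫⁻ ω : (E d × E d) × E d, ‖bv (Scale.fs V s) (s⁻¹ • c) ρ v t
      (xin (Scale.fs V s) (s⁻¹ • c) ρ ω.1)‖ₑ ∂(gam3 (E d)) ≤ ENNReal.ofReal √(d : ℝ) := by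
  have := lintegral_bv_le (Scale.potP_fs (PotP.of_admissible hV) s) hρ hv hLi ht
  rwa [finrank_euclideanSpace_fin] at this

theorem lintegral_q_le' : ∫⁻ ω : (E d × E d) × E d, ‖ω.2‖ₑ ∂(gam3 (E d)) ≤
    ENNReal.ofReal √(d : ℝ) := by
  have := lintegral_q_le (V := E d)
  rwa [finrank_euclideanSpace_fin] at this


end adm

end Crest.Agent.R285
end
end

-- ▼ part R285/SemQLawF
section

/-!
Row 285 (helper582): the law part of SEMQ for helper946's coupled field `Inst.vC`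
(`f = Scale.fs V s`, `a = s⁻¹ c`, `ρ = s σ`).
-/

set_option autoImplicit false
set_option linter.unusedSectionVars false

open MeasureTheory ProbabilityTheory Real Set
open Crest.OracleSampling (E Admissible)
open scoped RealInnerProductSpace ENNReal

noncomputable section

namespace Crest.Agent.R285.SemQ

variable {d : ℕ} {V : E d → ℝ} {h : ℝ}

/-- The visible data of the Q-system, original units. -/
def pvis (V : E d → ℝ) (c : E d) (s σ κ : ℝ) (ω : (E d × E d) × E d) : Fin 3 → E d :=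
  ![c + s • yv (Inst.vC (Scale.fs V s) (s⁻¹ • c) (s * σ)) √(1 - κ ^ 2)
      (xin (Scale.fs V s) (s⁻¹ • c) (s * σ) ω.1),
    G V (s * κ) (c + s • yv (Inst.vC (Scale.fs V s) (s⁻¹ • c) (s * σ)) √(1 - κ ^ 2)
      (xin (Scale.fs V s) (s⁻¹ • c) (s * σ) ω.1)) +
      σ • bv (Scale.fs V s) (s⁻¹ • c) (s * σ) (Inst.vC (Scale.fs V s) (s⁻¹ • c) (s * σ))
        √(1 - κ ^ 2) (xin (Scale.fs V s) (s⁻¹ • c) (s * σ) ω.1),
    ω.2]

/-- The target. -/
def x0vis (V : E d → ℝ) (c : E d) (s σ : ℝ) (ω : (E d × E d) × E d) : E d :=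
  s⁻¹ • (G (Scale.fs V s) 1 (s⁻¹ • c) + (s * σ) • ω.1.2)

theorem sqrt_mem_Jm {κ : ℝ} (hκ : 0 < κ) (hκ1 : κ < 1) : √(1 - κ ^ 2) ∈ Jm := by
  have h1 : 0 < 1 - κ ^ 2 := by nlinarith
  have h2 : 0 < √(1 - κ ^ 2) := Real.sqrt_pos.2 h1
  have h4 : √(1 - κ ^ 2) < 1 := by
    rw [Real.sqrt_lt' one_pos]; nlinarith
  exact ⟨by linarith, h4⟩

theorem measurable_pvis (hV : PotP h V) (c : E d) {s σ κ : ℝ} (hs : 0 < s) (hσ : 0 < σ)
    (hκ : 0 < κ) (hκ1 : κ < 1) : Measurable (pvis V c s σ κ) := by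
  have hf := Scale.potP_fs hV s
  have hv := coupField_vC' hf (s⁻¹ • c) (s * σ)
  have ht := sqrt_mem_Jm hκ hκ1
  have h1 : Measurable fun ω : (E d × E d) × E d =>
      yv (Inst.vC (Scale.fs V s) (s⁻¹ • c) (s * σ)) √(1 - κ ^ 2)
        (xin (Scale.fs V s) (s⁻¹ • c) (s * σ) ω.1) :=
    ((hv.continuous_yv ht).comp (continuous_xin _ _ _)).measurable.comp measurable_fst
  have h2 : Measurable fun ω : (E d × E d) × E d =>
      bv (Scale.fs V s) (s⁻¹ • c) (s * σ) (Inst.vC (Scale.fs V s) (s⁻¹ • c) (s * σ))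
        √(1 - κ ^ 2) (xin (Scale.fs V s) (s⁻¹ • c) (s * σ) ω.1) :=
    (measurable_bv_xin hf hv ht).comp measurable_fst
  have h3 : Measurable fun ω : (E d × E d) × E d => c + s •
      yv (Inst.vC (Scale.fs V s) (s⁻¹ • c) (s * σ)) √(1 - κ ^ 2)
      (xin (Scale.fs V s) (s⁻¹ • c) (s * σ) ω.1) :=
    measurable_const.add (h1.const_smul s)
  have hG : Measurable (G V (s * κ)) := ((contDiff_gr hV).continuous.comp
    (f := fun x : E d => ((s * κ, x) : ℝ × E d)) (by fun_prop)).measurable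
  have h4 := (hG.comp h3).add (h2.const_smul σ)
  refine measurable_pi_lambda _ fun i => ?_
  fin_cases i
  · exact h3
  · exact h4
  · exact measurable_snd

/-- **Law of the visible data.** -/
theorem map_pvis (hV : PotP h V) (c : E d) {s σ κ : ℝ} (hs : 0 < s) (hσ : 0 < σ)
    (hκ : 0 < κ) (hκ1 : κ < 1) :
    (gam3 (E d)).map (pvis V c s σ κ) = Rec.PX (TY s κ) (fun V => G V (s * κ)) σ V c := by
  have hf := Scale.potP_fs hV s
  have hv := coupField_vC' hf (s⁻¹ • c) (s * σ)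
  have hLi := coupLi_vC hf (s⁻¹ • c) (s * σ)
  have ht := sqrt_mem_Jm hκ hκ1
  have hl := coup_law hf (mul_pos hs hσ) hv hLi ht
  rw [← Scale.vY_fs' hV hs.ne' c] at hl
  have key := law_PX hV c hs hκ hκ1 σ (measurable_evol_xin hv ht) (measurable_bv_xin hf hv ht) hl
  rw [← key]
  congr 1
  funext ω
  simp only [pvis, yv, smul_smul]

theorem x0vis_eq (hV : PotP h V) (c : E d) {s : ℝ} (hs : 0 < s) (σ : ℝ)
    (ω : (E d × E d) × E d) : x0vis V c s σ ω = G V s c + σ • ω.1.2 := by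
  rw [x0vis, Scale.G_fs hV, mul_one, smul_smul s s⁻¹ c, mul_inv_cancel₀ hs.ne', one_smul,
    smul_add, smul_smul, smul_smul, inv_mul_cancel₀ hs.ne', one_smul, ← mul_assoc,
    inv_mul_cancel₀ hs.ne', one_mul]

theorem measurable_x0vis (c : E d) (s σ : ℝ) : Measurable (x0vis V c s σ) := by
  unfold x0vis
  fun_prop

theorem map_x0vis (hV : PotP h V) (c : E d) {s : ℝ} (hs : 0 < s) (σ : ℝ) :
    (gam3 (E d)).map (x0vis V c s σ) = gN (G V s c) σ := by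
  rw [← law_X0 (G V s c) σ]
  congr 1
  funext ω
  exact x0vis_eq hV c hs σ ω

end Crest.Agent.R285.SemQ
end
end

-- ▼ part R285/SemQFinal

/-!
Row 285 (S0430): **SEM_Q**, unconditional (`SemQ.semQ : SEMQ`).
-/

set_option autoImplicit false
set_option linter.unusedSectionVars false

open Set Filter Topology MeasureTheory ProbabilityTheory
open Crest.OracleSampling (E Admissible)
open scoped ENNReal NNReal RealInnerProductSpace

noncomputable section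

namespace Crest.Agent.R285

namespace SemQ

/-- the constants -/
theorem final_const {n P₁ K : ℕ} {σ κ a0 M x cO cI cN C₁ EE W E₁ C : ℝ} (hσ : 0 < σ)
    (hκ : 0 < κ) (hκ1 : κ ≤ 1) (ha : 1 ≤ a0) (hM : 1 ≤ M) (hx : 0 ≤ x) (hcO : 0 ≤ cO)
    (hcI : 0 ≤ cI) (hcN : 0 ≤ cN) (hC₁ : 0 ≤ C₁) (hEE : 0 ≤ EE) (hW : 0 ≤ W)
    (hE : E₁ ≤ C₁ * (κ⁻¹ ^ P₁ * (2 ^ (n + 1) * EE)) * W) (hE0 : 0 ≤ E₁)
    (hC : C = 4 + 4 * cN + 66 * cO * cI * cN + (3 * cO * cI + 1) * (C₁ * 2 ^ (n + 1))) :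
    σ * (cO / κ * ((M * cI) * ((2 * cN * x) ^ K * (66 * cN * (a0 / κ)) * W + 3 * E₁)) + E₁) ≤
      σ * (C * a0 * M * (κ ^ (P₁ + 2))⁻¹ * ((C * x) ^ K + EE)) * W := by
  set k := κ⁻¹ with hk
  have hk1 : 1 ≤ k := (one_le_inv₀ hκ).2 hκ1
  have hk0 : 0 < k := by positivity
  have hC0 : 0 ≤ C := by rw [hC]; positivity
  have e1 : (κ ^ (P₁ + 2))⁻¹ = k ^ (P₁ + 2) := by rw [hk, inv_pow]
  have e2 : cO / κ = cO * k := by rw [hk, div_eq_mul_inv]
  have e3 : a0 / κ = a0 * k := by rw [hk, div_eq_mul_inv]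
  rw [e1, e2, e3, mul_assoc σ]
  refine mul_le_mul_of_nonneg_left ?_ hσ.le
  have ha0 : 0 ≤ a0 := by linarith
  have hM0 : 0 ≤ M := by linarith
  have c1 : 66 * cO * cI * cN ≤ C := by
    rw [hC]
    have : 0 ≤ (3 * cO * cI + 1) * (C₁ * 2 ^ (n + 1)) := by positivity
    linarith
  have c2 : (3 * cO * cI + 1) * (C₁ * 2 ^ (n + 1)) ≤ C := by
    rw [hC]
    have : 0 ≤ 66 * cO * cI * cN := by positivity
    linarith
  have c3 : 2 * cN * x ≤ C * x := by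
    refine mul_le_mul_of_nonneg_right ?_ hx
    rw [hC]
    have : 0 ≤ (3 * cO * cI + 1) * (C₁ * 2 ^ (n + 1)) := by positivity
    have : 0 ≤ 66 * cO * cI * cN := by positivity
    linarith
  have c4 : (2 * cN * x) ^ K ≤ (C * x) ^ K := pow_le_pow_left₀ (by positivity) c3 K
  have c5 : k ^ 2 ≤ k ^ (P₁ + 2) := pow_le_pow_right₀ hk1 (by omega)
  have c6 : k * k ^ P₁ ≤ k ^ (P₁ + 2) := by
    calc k * k ^ P₁ = k ^ (P₁ + 1) := by ring
      _ ≤ k ^ (P₁ + 2) := pow_le_pow_right₀ hk1 (by omega)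
  have t1 : (66 * cO * cI * cN) * (a0 * M) * k ^ 2 * (2 * cN * x) ^ K * W ≤
      C * (a0 * M) * k ^ (P₁ + 2) * (C * x) ^ K * W := by
    gcongr
  have t2 : (3 * cO * cI * M * k + 1) * E₁ ≤ C * (a0 * M) * k ^ (P₁ + 2) * EE * W := by
    have h1 : 3 * cO * cI * M * k + 1 ≤ (3 * cO * cI + 1) * (a0 * M * k) := by
      have h2 : 1 ≤ M * k := one_le_mul_of_one_le_of_one_le hM hk1
      have h3 : M * k ≤ a0 * (M * k) := le_mul_of_one_le_left (by positivity) ha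
      have h4 : 3 * cO * cI * (M * k) ≤ 3 * cO * cI * (a0 * (M * k)) :=
        mul_le_mul_of_nonneg_left h3 (by positivity)
      nlinarith
    calc (3 * cO * cI * M * k + 1) * E₁ ≤
        ((3 * cO * cI + 1) * (a0 * M * k)) * (C₁ * (k ^ P₁ * (2 ^ (n + 1) * EE)) * W) :=
          mul_le_mul h1 hE hE0 (by positivity)
      _ = ((3 * cO * cI + 1) * (C₁ * 2 ^ (n + 1))) * (a0 * M) * (k * k ^ P₁) * EE * W := by ring
      _ ≤ C * (a0 * M) * k ^ (P₁ + 2) * EE * W := by gcongr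
  calc cO * k * ((M * cI) * ((2 * cN * x) ^ K * (66 * cN * (a0 * k)) * W + 3 * E₁)) + E₁ =
      (66 * cO * cI * cN) * (a0 * M) * k ^ 2 * (2 * cN * x) ^ K * W +
        (3 * cO * cI * M * k + 1) * E₁ := by ring
    _ ≤ C * (a0 * M) * k ^ (P₁ + 2) * (C * x) ^ K * W +
        C * (a0 * M) * k ^ (P₁ + 2) * EE * W := add_le_add t1 t2
    _ = _ := by ring

/-- The mean error for a general parameter structure. -/
theorem gen1 {d : ℕ} {V : E d → ℝ} (hV : Admissible d V) {Q : QPar} (hok : Q.Ok) (c : E d)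
    {s σ : ℝ} (hs : 0 < s) (hs2 : s ≤ 1 / 2) (hσ : 0 < σ) (hsσ : 2 * s ≤ σ) (hρ : Q.ρ = s * σ)
    (hL : 2 * s ^ 2 * (QPar.cN Q.n * (1 + Q.a0 / (Q.ρ * Q.k1))) ≤ 1 / 2) {B βy βX : ℝ≥0∞}
    (hE : ExQ Q (Scale.fs V s) (s⁻¹ • c)
      (fun j (ω : (E d × E d) × E d) => yv (Inst.vC (Scale.fs V s) (s⁻¹ • c) Q.ρ) (Q.nd j)
        (xin (Scale.fs V s) (s⁻¹ • c) Q.ρ ω.1))
      (fun j ω => bv (Scale.fs V s) (s⁻¹ • c) Q.ρ (Inst.vC (Scale.fs V s) (s⁻¹ • c) Q.ρ) (Q.nd j)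
        (xin (Scale.fs V s) (s⁻¹ • c) Q.ρ ω.1))
      (fun ω => yv (Inst.vC (Scale.fs V s) (s⁻¹ • c) Q.ρ) Q.e1
        (xin (Scale.fs V s) (s⁻¹ • c) Q.ρ ω.1))
      (fun ω => Xv (Inst.vC (Scale.fs V s) (s⁻¹ • c) Q.ρ) Q.e1
        (xin (Scale.fs V s) (s⁻¹ • c) Q.ρ ω.1))
      (fun ω => G (Scale.fs V s) 1 (s⁻¹ • c) + Q.ρ • ω.1.2) (fun ω => ω.2) (2 * s ^ 2)
      (gam3 (E d)) B βy βX)
    {E₁ : ℝ} (hE₁ : 0 ≤ E₁) (hP : eP Q (2 * s ^ 2) (d : ℝ) B βy βX ≤ ENNReal.ofReal E₁)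
    (hO : eO Q (2 * s ^ 2) (d : ℝ) B βX ≤ ENNReal.ofReal (Q.ρ * E₁)) (K : ℕ) :
    ∫⁻ ω : (E d × E d) × E d, ‖qout Q s (qth σ) K V c
        (![c + s • yv (Inst.vC (Scale.fs V s) (s⁻¹ • c) Q.ρ) Q.e1
          (xin (Scale.fs V s) (s⁻¹ • c) Q.ρ ω.1), G V (s * Q.k1) (c + s •
          yv (Inst.vC (Scale.fs V s) (s⁻¹ • c) Q.ρ) Q.e1 (xin (Scale.fs V s) (s⁻¹ • c) Q.ρ ω.1)) +
          σ • bv (Scale.fs V s) (s⁻¹ • c) Q.ρ (Inst.vC (Scale.fs V s) (s⁻¹ • c) Q.ρ) Q.e1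
            (xin (Scale.fs V s) (s⁻¹ • c) Q.ρ ω.1), ω.2]) -
        s⁻¹ • (G (Scale.fs V s) 1 (s⁻¹ • c) + Q.ρ • ω.1.2)‖ₑ ∂(gam3 (E d)) ≤
      ENNReal.ofReal (σ * (QPar.cO Q.n / Q.k1 * (Fintype.card (QI Q.n Q.M) *
        ((2 * s ^ 2 * (QPar.cN Q.n * (1 + Q.a0 / (Q.ρ * Q.k1)))) ^ K *
          (66 * QPar.cN Q.n * (Q.a0 / Q.k1)) * (√(d : ℝ) + ‖c‖) + 3 * E₁)) + E₁)) := by
  have hVp : PotP 2 V := PotP.of_admissible hV
  have hf : PotP (2 * s ^ 2) (Scale.fs V s) := Scale.potP_fs hVp s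
  have hρ0 : 0 < Q.ρ := hok.ρ0
  have hv := coupField_vC' hf (s⁻¹ • c) Q.ρ
  have hLi := coupLi_vC hf (s⁻¹ • c) Q.ρ
  have he1 : Q.e1 ∈ Jm := ⟨by linarith [hok.e0], hok.e1⟩
  have hnd : ∀ j, Q.nd j ∈ Jm := fun j => ⟨by linarith [(hok.nd_mem j).1], hok.nd_lt j⟩
  have mb1 := (measurable_bv_xin hf hv he1).comp
    (measurable_fst : Measurable (Prod.fst : (E d × E d) × E d → E d × E d))
  have k1 := fun j => lintegral_yv_le hV c hs hs2 hρ0 hv hLi (hok.nd_mem j).1.le (hok.nd_lt j)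
  have k2 := lintegral_yv_le hV c hs hs2 hρ0 hv hLi hok.e0.le hok.e1
  have k3 := fun j => lintegral_bv_le' hV c s hρ0 hv hLi (hnd j)
  have k4 := lintegral_bv_le' hV c s hρ0 hv hLi he1
  have k5 := lintegral_q_le' (d := d)
  have hP' : eP Q (2 * s ^ 2) (Module.finrank ℝ (E d)) B βy βX ≤ ENNReal.ofReal E₁ := by
    rw [finrank_euclideanSpace_fin]; exact hP
  have hO' : eO Q (2 * s ^ 2) (Module.finrank ℝ (E d)) B βX ≤ ENNReal.ofReal (Q.ρ * E₁) := by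
    rw [finrank_euclideanSpace_fin]; exact hO
  exact core_mean hVp c hs hs2 hσ hsσ hρ hL hE
    (fun ω => hv.Xv_eq hρ0.ne' Q.e1 (xin (Scale.fs V s) (s⁻¹ • c) Q.ρ ω.1)) mb1
    k1 k2 k3 k4 k5 hE₁ hP' hO' K

/-- The mean error, with explicit numbers. -/
theorem gen2 {d : ℕ} {V : E d → ℝ} (hV : Admissible d V) {n P₁ : ℕ} {C₁ : ℝ} (hC₁ : 0 ≤ C₁)
    {Q : QPar} (hQn : Q.n = n) (hok : Q.Ok) (c : E d) {s σ κ a0 t0 : ℝ} {M : ℕ} (hs : 0 < s)
    (hs2 : s ≤ 1 / 2) (hσ : 0 < σ) (hsσ : 2 * s ≤ σ) (hρ : Q.ρ = s * σ) (hk : Q.k1 = κ)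
    (ha : Q.a0 = a0) (ht : Q.t0 = t0) (hMM : Q.M = M) (hκ : 0 < κ) (hκ1 : κ ≤ 1) (ha1 : 1 ≤ a0)
    (ht0 : 0 ≤ t0)
    (hL : 2 * QPar.cN n * (s ^ 2 + a0 * s / (σ * κ)) ≤ 1 / 2) {B βy βX : ℝ≥0∞}
    (hE : ExQ Q (Scale.fs V s) (s⁻¹ • c)
      (fun j (ω : (E d × E d) × E d) => yv (Inst.vC (Scale.fs V s) (s⁻¹ • c) Q.ρ) (Q.nd j)
        (xin (Scale.fs V s) (s⁻¹ • c) Q.ρ ω.1))
      (fun j ω => bv (Scale.fs V s) (s⁻¹ • c) Q.ρ (Inst.vC (Scale.fs V s) (s⁻¹ • c) Q.ρ) (Q.nd j)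
        (xin (Scale.fs V s) (s⁻¹ • c) Q.ρ ω.1))
      (fun ω => yv (Inst.vC (Scale.fs V s) (s⁻¹ • c) Q.ρ) Q.e1
        (xin (Scale.fs V s) (s⁻¹ • c) Q.ρ ω.1))
      (fun ω => Xv (Inst.vC (Scale.fs V s) (s⁻¹ • c) Q.ρ) Q.e1
        (xin (Scale.fs V s) (s⁻¹ • c) Q.ρ ω.1))
      (fun ω => G (Scale.fs V s) 1 (s⁻¹ • c) + Q.ρ • ω.1.2) (fun ω => ω.2) (2 * s ^ 2)
      (gam3 (E d)) B βy βX)
    (hP : eP Q (2 * s ^ 2) (d : ℝ) B βy βX ≤ ENNReal.ofReal (C₁ * (Q.k1⁻¹ ^ P₁ *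
      ((Q.M : ℝ)⁻¹ ^ (n + 1) + Q.t0 ^ (n + 1) + (Q.a0 * (2 * s ^ 2 / Q.ρ)) ^ (n + 1))) * √d))
    (hO : eO Q (2 * s ^ 2) (d : ℝ) B βX ≤ ENNReal.ofReal (Q.ρ * (C₁ * (Q.k1⁻¹ ^ P₁ *
      ((Q.M : ℝ)⁻¹ ^ (n + 1) + Q.t0 ^ (n + 1) + (Q.a0 * (2 * s ^ 2 / Q.ρ)) ^ (n + 1))) * √d)))
    (K : ℕ) {C : ℝ}
    (hC : C = 4 + 4 * QPar.cN n + 66 * QPar.cO n * cI n * QPar.cN n +
      (3 * QPar.cO n * cI n + 1) * (C₁ * 2 ^ (n + 1))) :
    ∫⁻ ω : (E d × E d) × E d, ‖qout Q s (qth σ) K V c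
        (![c + s • yv (Inst.vC (Scale.fs V s) (s⁻¹ • c) Q.ρ) Q.e1
          (xin (Scale.fs V s) (s⁻¹ • c) Q.ρ ω.1), G V (s * Q.k1) (c + s •
          yv (Inst.vC (Scale.fs V s) (s⁻¹ • c) Q.ρ) Q.e1 (xin (Scale.fs V s) (s⁻¹ • c) Q.ρ ω.1)) +
          σ • bv (Scale.fs V s) (s⁻¹ • c) Q.ρ (Inst.vC (Scale.fs V s) (s⁻¹ • c) Q.ρ) Q.e1
            (xin (Scale.fs V s) (s⁻¹ • c) Q.ρ ω.1), ω.2]) -
        s⁻¹ • (G (Scale.fs V s) 1 (s⁻¹ • c) + Q.ρ • ω.1.2)‖ₑ ∂(gam3 (E d)) ≤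
      ENNReal.ofReal (σ * (C * a0 * M * (κ ^ (P₁ + 2))⁻¹ *
        ((C * (s ^ 2 + a0 * s / (σ * κ))) ^ K + ((M : ℝ)⁻¹ ^ (n + 1) + t0 ^ (n + 1) +
          (a0 * s / σ) ^ (n + 1)))) * (√(d : ℝ) + ‖c‖)) := by
  subst hQn ha ht hMM hk
  have eη : Q.a0 * (2 * s ^ 2 / Q.ρ) = 2 * (Q.a0 * s / σ) := by
    rw [hρ]; field_simp
  have eL : 2 * s ^ 2 * (QPar.cN Q.n * (1 + Q.a0 / (Q.ρ * Q.k1))) =
      2 * QPar.cN Q.n * (s ^ 2 + Q.a0 * s / (σ * Q.k1)) := by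
    rw [hρ]
    field_simp
  rw [eη] at hP hO
  have ha0s : 0 ≤ Q.a0 * s / σ := by positivity
  have hM1 : (1 : ℝ) ≤ Q.M := by exact_mod_cast hok.M0
  have hE₁0 : 0 ≤ C₁ * (Q.k1⁻¹ ^ P₁ * ((Q.M : ℝ)⁻¹ ^ (Q.n + 1) + Q.t0 ^ (Q.n + 1) +
      (2 * (Q.a0 * s / σ)) ^ (Q.n + 1))) * √d := by positivity
  have key := gen1 hV hok c hs hs2 hσ hsσ hρ (by rw [eL]; exact hL) hE hE₁0 hP hO K
  refine key.trans (ENNReal.ofReal_le_ofReal ?_)
  rw [eL, card_QI_cast]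
  have hx0 : 0 ≤ s ^ 2 + Q.a0 * s / (σ * Q.k1) := by positivity
  refine final_const (n := Q.n) (P₁ := P₁) (K := K) hσ hκ hκ1 ha1 hM1 hx0
    (QPar.cO_nonneg Q.n) (cI_nonneg Q.n) (QPar.cN_pos Q.n).le hC₁ (by positivity) (by positivity)
    ?_ hE₁0 hC
  have h2 : (1 : ℝ) ≤ 2 ^ (Q.n + 1) := one_le_pow₀ (by norm_num)
  have h1 : (Q.M : ℝ)⁻¹ ^ (Q.n + 1) + Q.t0 ^ (Q.n + 1) + (2 * (Q.a0 * s / σ)) ^ (Q.n + 1) ≤
      2 ^ (Q.n + 1) * ((Q.M : ℝ)⁻¹ ^ (Q.n + 1) + Q.t0 ^ (Q.n + 1) +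
        (Q.a0 * s / σ) ^ (Q.n + 1)) := by
    rw [mul_pow, mul_add, mul_add]
    have h3 : 0 ≤ (Q.M : ℝ)⁻¹ ^ (Q.n + 1) := by positivity
    have h4 : 0 ≤ Q.t0 ^ (Q.n + 1) := by positivity
    nlinarith
  have h5 : √(d : ℝ) ≤ √(d : ℝ) + ‖c‖ := by linarith [norm_nonneg c]
  gcongr

/-- **SEM_Q.** -/
theorem semQ : SEMQ := by
  intro n
  obtain ⟨C₁, P₁, hC₁, H⟩ := exQ_real n
  have hcN := QPar.cN_pos n
  have hcO := QPar.cO_nonneg n
  have hcI := cI_nonneg n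
  have hC₁0 : 0 ≤ C₁ := by linarith
  have hC4 : 4 + 4 * QPar.cN n ≤ 4 + 4 * QPar.cN n + 66 * QPar.cO n * cI n * QPar.cN n +
      (3 * QPar.cO n * cI n + 1) * (C₁ * 2 ^ (n + 1)) := by
    have : 0 ≤ 66 * QPar.cO n * cI n * QPar.cN n := by positivity
    have : 0 ≤ (3 * QPar.cO n * cI n + 1) * (C₁ * 2 ^ (n + 1)) := by positivity
    linarith
  obtain ⟨C, hC⟩ : ∃ C : ℝ, C = 4 + 4 * QPar.cN n + 66 * QPar.cO n * cI n * QPar.cN n +
      (3 * QPar.cO n * cI n + 1) * (C₁ * 2 ^ (n + 1)) := ⟨_, rfl⟩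
  rw [← hC] at hC4
  refine ⟨C, P₁ + 2, by linarith, fun d V hV s σ κ t0 a0 hs hσ hκ hκ2 ht0 ht1 hat hsm c M hM K => ?_⟩
  have hk1 : κ ≤ 1 := by linarith
  have ha2 : 2 ≤ a0 := by
    by_contra h
    push Not at h
    nlinarith
  -- smallness
  have hx0 : 0 ≤ s ^ 2 + a0 * s / (σ * κ) := by positivity
  have hx1 : (4 + 4 * QPar.cN n) * (s ^ 2 + a0 * s / (σ * κ)) ≤ 1 :=
    (mul_le_mul_of_nonneg_right hC4 hx0).trans hsm
  have hy0 : 0 ≤ a0 * s / (σ * κ) := by positivity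
  have hx2 : 4 * (s ^ 2 + a0 * s / (σ * κ)) ≤ 1 := by
    have : 0 ≤ 4 * QPar.cN n * (s ^ 2 + a0 * s / (σ * κ)) := by positivity
    linarith
  have hx3 : 4 * QPar.cN n * (s ^ 2 + a0 * s / (σ * κ)) ≤ 1 := by
    linarith
  have hs2 : s ≤ 1 / 2 := by nlinarith
  have h2a : 2 * (a0 * s / σ) ≤ a0 * s / (σ * κ) := by
    rw [← div_div, le_div_iff₀ hκ]
    have : 0 ≤ a0 * s / σ := by positivity
    nlinarith
  have haη : 2 * (a0 * s / σ) ≤ 1 := by
    have := sq_nonneg s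
    linarith
  have hsσ : 2 * s ≤ σ := by
    have h1 : a0 * s / σ ≤ 1 / 2 := by linarith
    rw [div_le_iff₀ hσ] at h1
    nlinarith
  have hok : (qpar n M s σ κ t0 a0).Ok := qpar_ok hM hs hσ hκ hκ2 ht0 ht1 hat
  have hQk : (qpar n M s σ κ t0 a0).k1 = κ := qpar_k1 hκ.le hκ2
  have hVp : PotP 2 V := PotP.of_admissible hV
  have hf : PotP (2 * s ^ 2) (Scale.fs V s) := Scale.potP_fs hVp s
  have hτ0 : 0 < 2 * s ^ 2 := by positivity
  have hτ1 : 2 * s ^ 2 ≤ 1 := by nlinarith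
  have hτρ : 2 * s ^ 2 ≤ s * σ := by nlinarith
  have hη : a0 * (2 * s ^ 2 / (s * σ)) ≤ 1 := by
    have : a0 * (2 * s ^ 2 / (s * σ)) = 2 * (a0 * s / σ) := by field_simp
    rw [this]; exact haη
  obtain ⟨B, βy, βX, hE, hP, hO⟩ := H (Q := qpar n M s σ κ t0 a0) rfl hok hf hτ0 hτ1 hτρ hη
    (s⁻¹ • c)
  have key := gen2 hV hC₁0 (Q := qpar n M s σ κ t0 a0) (n := n) (κ := κ) (a0 := a0) (t0 := t0)
    (M := M) rfl hok c hs hs2 hσ hsσ rfl hQk rfl rfl rfl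
    hκ hk1 (by linarith) ht0.le (by linarith) hE hP hO K hC
  rw [hQk] at key
  have hp := measurable_pvis (V := V) hVp c hs hσ hκ (by linarith : κ < 1)
  have hx := measurable_x0vis (V := V) c s σ
  refine ⟨pvis V c s σ κ, x0vis V c s σ, hp, hx, map_pvis hVp c hs hσ hκ (by linarith),
    map_x0vis hVp c hs σ, ?_⟩
  have key2 : ∫⁻ ω, ‖qout (qpar n M s σ κ t0 a0) s (qth σ) K V c (pvis V c s σ κ ω) -
      x0vis V c s σ ω‖ₑ ∂(gam3 (E d)) ≤
      ENNReal.ofReal (σ * (C * a0 * M * (κ ^ (P₁ + 2))⁻¹ *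
        ((C * (s ^ 2 + a0 * s / (σ * κ))) ^ K + (M : ℝ)⁻¹ ^ (n + 1) + t0 ^ (n + 1) +
          (a0 * s / σ) ^ (n + 1))) * (√(d : ℝ) + ‖c‖)) := by
    refine key.trans (le_of_eq ?_)
    congr 2
    ring
  have hmeas : Measurable (fun ω : (E d × E d) × E d =>
      qout (qpar n M s σ κ t0 a0) s (qth σ) K V c (pvis V c s σ κ ω) - x0vis V c s σ ω) :=
    ((measurable_qout (qpar n M s σ κ t0 a0) s (qth σ) K hV c).comp hp).sub hx
  have hint : Integrable (fun ω : (E d × E d) × E d =>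
      qout (qpar n M s σ κ t0 a0) s (qth σ) K V c (pvis V c s σ κ ω) - x0vis V c s σ ω)
      (gam3 (E d)) :=
    ⟨hmeas.aestronglyMeasurable, lt_of_le_of_lt key2 ENNReal.ofReal_lt_top⟩
  refine ⟨hint.norm, ?_⟩
  rw [integral_norm_eq_lintegral_enorm hmeas.aestronglyMeasurable]
  refine ENNReal.toReal_le_of_le_ofReal ?_ key2
  have hC0 : 0 ≤ C := by linarith
  have ha0 : 0 ≤ a0 := by linarith
  positivity

end SemQ

end Crest.Agent.R285
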