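import Crest.Agent.R285.TopPot
import Crest.Agent.R285.DLip
import Crest.Agent.R285.Query

-- ▼ part R285/TopMom
section

/-!
Row 285 (S0430), module TOP: second moments of Gibbs measures; the Gaussian noise `ns s`.
-/

set_option autoImplicit false

open MeasureTheory Crest.OracleSampling Set Filter Topology
open scoped ENNReal RealInnerProductSpace

noncomputable section

namespace Crest.Agent.R285.Top

variable {d : ℕ} {V : E d → ℝ}

/-- Second moment bound by scaling. -/
theorem mom_le {W : E d → ℝ} (hW : QG W) {κ : ℝ} (hκ : 0 < κ) (hd : 0 < d)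
    (h : ∀ x, ∀ t : ℝ, 0 < t → t < 1 → W (t • x) + (1 - t ^ 2) * κ * ‖x‖ ^ 2 / 2 ≤ W x) :
    Integrable (fun x => ‖x‖ ^ 2) (gibbs W) ∧ ∫ x, ‖x‖ ^ 2 ∂(gibbs W) ≤ 4 * d / κ := by
  have hd' : (1 : ℝ) ≤ d := by exact_mod_cast hd
  have hZ := hW.ZZ_pos
  -- integrability
  have hint : Integrable (fun x => ‖x‖ ^ 2) (gibbs W) := by
    refine hW.integrable_of_le (C := 2) (K := 1) (continuous_norm.pow 2).aestronglyMeasurable
      fun x => ?_
    have h1 := Real.quadratic_le_exp_of_nonneg (norm_nonneg x)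
    rw [Real.norm_eq_abs, abs_of_nonneg (by positivity), one_mul]
    nlinarith [norm_nonneg x]
  refine ⟨hint, ?_⟩
  set t : ℝ := 1 - 1 / (2 * d) with ht
  have ht1 : t < 1 := by rw [ht]; have : (0:ℝ) < 1 / (2 * d) := by positivity
                         linarith
  have ht0 : 0 < t := by
    rw [ht]
    have : 1 / (2 * (d : ℝ)) ≤ 1 / 2 := by
      apply one_div_le_one_div_of_le (by norm_num) (by linarith)
    linarith
  have htd : 1 / 2 ≤ t ^ d := by
    have h1 := one_add_mul_le_pow (a := -(1 / (2 * (d : ℝ)))) (by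
      have : 1 / (2 * (d : ℝ)) ≤ 1 / 2 := by
        apply one_div_le_one_div_of_le (by norm_num) (by linarith)
      linarith) d
    have e1 : 1 + (d : ℝ) * -(1 / (2 * (d : ℝ))) = 1 / 2 := by
      field_simp; ring
    have e2 : 1 + -(1 / (2 * (d : ℝ))) = t := by rw [ht]; ring
    rwa [e1, e2] at h1
  have e3 : ∫ x : E d, Real.exp (-W (t • x)) = (t ^ d)⁻¹ * ZZ W := by
    have := Measure.integral_comp_smul (volume : Measure (E d)) (fun x => Real.exp (-W x)) t
    rw [this, finrank_euclideanSpace_fin, smul_eq_mul, abs_of_pos (by positivity)]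
    rfl
  have iW := hW.integrable_exp_neg
  have it : Integrable (fun x : E d => Real.exp (-W (t • x))) := by
    exact iW.comp_smul (ne_of_gt ht0)
  have i2 : Integrable (fun x : E d => Real.exp (-W x) * ‖x‖ ^ 2) := by
    have := (integrable_gibbs_iff hW (fun x => ‖x‖ ^ 2)).mp hint
    simpa [smul_eq_mul] using this
  have h4 : ZZ W + (1 - t ^ 2) * κ / 2 * (∫ x : E d, Real.exp (-W x) * ‖x‖ ^ 2) ≤
      (t ^ d)⁻¹ * ZZ W := by
    rw [← e3]
    unfold ZZ
    rw [← integral_const_mul, ← integral_add iW (i2.const_mul _)]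
    refine integral_mono (iW.add (i2.const_mul _)) it fun x => ?_
    have h5 := h x t ht0 ht1
    have h6 : Real.exp (-W x) * Real.exp ((1 - t ^ 2) * κ * ‖x‖ ^ 2 / 2) ≤
        Real.exp (-W (t • x)) := by
      rw [← Real.exp_add]; apply Real.exp_le_exp.mpr; linarith
    have h7 := Real.add_one_le_exp ((1 - t ^ 2) * κ * ‖x‖ ^ 2 / 2)
    have h8 := Real.exp_pos (-W x)
    simp only
    nlinarith
  have h5 : (t ^ d)⁻¹ ≤ 2 := by
    rw [inv_le_comm₀ (by positivity) (by norm_num)]
    linarith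
  have h6 : (1 - t ^ 2) * κ / 2 * (∫ x : E d, Real.exp (-W x) * ‖x‖ ^ 2) ≤ ZZ W := by
    have : (t ^ d)⁻¹ * ZZ W ≤ 2 * ZZ W := by gcongr
    linarith
  have h7 : 1 / (2 * (d : ℝ)) ≤ 1 - t ^ 2 := by
    have e : 1 / (2 * (d : ℝ)) = 1 - t := by rw [ht]; ring
    rw [e]
    nlinarith
  have hI0 : 0 ≤ ∫ x : E d, Real.exp (-W x) * ‖x‖ ^ 2 := integral_nonneg fun x => by positivity
  have h8 : 1 / (2 * (d : ℝ)) * κ / 2 * (∫ x : E d, Real.exp (-W x) * ‖x‖ ^ 2) ≤ ZZ W := by
    refine le_trans ?_ h6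
    gcongr
  rw [integral_gibbs hW]
  simp only [smul_eq_mul]
  rw [inv_mul_le_iff₀ hZ]
  rw [show 1 / (2 * (d : ℝ)) * κ / 2 * (∫ x : E d, Real.exp (-W x) * ‖x‖ ^ 2) =
    (κ / (4 * d)) * (∫ x : E d, Real.exp (-W x) * ‖x‖ ^ 2) by field_simp; ring] at h8
  have h9 : (∫ x : E d, Real.exp (-W x) * ‖x‖ ^ 2) =
      4 * d / κ * ((κ / (4 * d)) * (∫ x : E d, Real.exp (-W x) * ‖x‖ ^ 2)) := by
    field_simp
  rw [h9, mul_comm (ZZ W)]
  gcongr

theorem adm_scale (hV : Admissible d V) (x : E d) (t : ℝ) (ht0 : 0 < t) (ht1 : t < 1) :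
    V (t • x) + (1 - t ^ 2) * 1 * ‖x‖ ^ 2 / 2 ≤ V x := by
  have h1 := adm_lower hV (t • x) ((1 - t) • x)
  have e : t • x + (1 - t) • x = x := by module
  rw [e, inner_smul_right, norm_smul, Real.norm_eq_abs, abs_of_pos (by linarith)] at h1
  have h2 := adm_inner_ge hV (t • x)
  rw [inner_smul_right, norm_smul, Real.norm_eq_abs, abs_of_pos ht0] at h2
  have h3 : t * ‖x‖ ^ 2 ≤ ⟪gradient V (t • x), x⟫ := by
    have : t * (t * ‖x‖ ^ 2) ≤ t * ⟪gradient V (t • x), x⟫ := by nlinarith
    exact le_of_mul_le_mul_left this ht0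
  nlinarith [mul_le_mul_of_nonneg_left h3 (by linarith : (0:ℝ) ≤ 1 - t)]

theorem adm_mom (hV : Admissible d V) (hd : 0 < d) :
    Integrable (fun x => ‖x‖ ^ 2) (gibbs V) ∧ ∫ x, ‖x‖ ^ 2 ∂(gibbs V) ≤ 4 * d := by
  have := mom_le (adm_sconv hV).toQG one_pos hd (adm_scale hV)
  simpa using this

/-- First moment from the second. -/
theorem first_of_second {X : Type} [MeasurableSpace X] {μ : Measure X} [IsProbabilityMeasure μ]
    {f : X → ℝ} (hf : AEStronglyMeasurable f μ) (h2 : Integrable (fun x => f x ^ 2) μ) :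
    Integrable f μ ∧ (∫ x, |f x| ∂μ) ≤ Real.sqrt (∫ x, f x ^ 2 ∂μ) := by
  have hi : Integrable f μ := ((memLp_two_iff_integrable_sq hf).mpr h2).integrable one_le_two
  refine ⟨hi, Real.le_sqrt_of_sq_le ?_⟩
  have := integral_mul_sq_le (u := fun x => |f x|) (v := fun _ => (1 : ℝ)) (μ := μ)
    (by simpa [sq_abs] using h2) (by simp) (by simpa using hi.abs)
  simpa [sq_abs] using this

/-- The quadratic potential. -/
def qp (s : ℝ) : E d → ℝ := fun y => ‖y‖ ^ 2 / (2 * s ^ 2)

/-- Gaussian noise of standard deviation `s`. -/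
def ns (d : ℕ) (s : ℝ) : Measure (E d) := gibbs (qp s)

theorem qp_sconv {s : ℝ} (hs : 0 < s) : SConv (1 / s ^ 2) (qp s : E d → ℝ) where
  cont := (continuous_norm.pow 2).div_const _
  lb := ⟨1 / (2 * s ^ 2), by positivity, 0, fun x => by
    unfold qp; rw [sub_zero]; apply le_of_eq; ring⟩
  mpos := by positivity
  mid := fun x y => by
    unfold qp
    rw [← smul_add, norm_smul, mul_pow]
    have h5 := parallelogram_law_with_norm ℝ x y
    have h6 : ‖(1 / 2 : ℝ)‖ ^ 2 = 1 / 4 := by norm_num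
    rw [h6]
    have h7 : (‖x‖ ^ 2 / (2 * s ^ 2) + ‖y‖ ^ 2 / (2 * s ^ 2)) / 2 =
        (‖x + y‖ ^ 2 + ‖x - y‖ ^ 2) / 4 / (2 * s ^ 2) := by
      have : ‖x‖ ^ 2 + ‖y‖ ^ 2 = (‖x + y‖ ^ 2 + ‖x - y‖ ^ 2) / 2 := by nlinarith
      rw [← add_div, this]; ring
    rw [h7]
    apply le_of_eq
    field_simp
    ring

theorem ns_prob (s : ℝ) (hs : 0 < s) : IsProbabilityMeasure (ns d s) := (qp_sconv hs).isProb

theorem ns_mom {s : ℝ} (hs : 0 < s) (hd : 0 < d) :
    Integrable (fun x => ‖x‖ ^ 2) (ns d s) ∧ ∫ x, ‖x‖ ^ 2 ∂(ns d s) ≤ 4 * d * s ^ 2 := by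
  have h := mom_le (d := d) (qp_sconv hs).toQG (κ := 1 / s ^ 2) (by positivity) hd
    (fun x t ht0 ht1 => by
      unfold qp
      rw [norm_smul, Real.norm_eq_abs, abs_of_pos ht0, mul_pow]
      apply le_of_eq
      field_simp
      ring)
  refine ⟨h.1, h.2.trans (le_of_eq ?_)⟩
  field_simp

end Crest.Agent.R285.Top
end
end

-- ▼ part R285/TopInv
section

/-!
Row 285 (S0430), module TOP: invariance of the target under "add Gaussian noise, sample the
posterior".
-/

set_option autoImplicit false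

open MeasureTheory Crest.OracleSampling Set Filter Topology
open scoped ENNReal RealInnerProductSpace NNReal

noncomputable section

namespace Crest.Agent.R285.Top

variable {d : ℕ} {V : E d → ℝ}

theorem measurable_dens {W : E d → ℝ} (hW : QG W) :
    Measurable fun x => ENNReal.ofReal (Real.exp (-W x) / ZZ W) :=
  ENNReal.measurable_ofReal.comp
    ((Real.continuous_exp.comp hW.cont.neg).div_const _).measurable

theorem lintegral_gibbs {W : E d → ℝ} (hW : QG W) {F : E d → ℝ≥0∞} (hF : Measurable F) :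
    ∫⁻ x, F x ∂(gibbs W) = ∫⁻ x, ENNReal.ofReal (Real.exp (-W x) / ZZ W) * F x := by
  rw [gibbs_eq hW, lintegral_withDensity_eq_lintegral_mul _ (measurable_dens hW) hF]
  rfl

theorem lintegral_ns {s : ℝ} (hs : 0 < s) (x : E d) {H : E d → ℝ≥0∞} (hH : Measurable H) :
    ∫⁻ g, H (x + g) ∂(ns d s) =
      ∫⁻ y, ENNReal.ofReal (Real.exp (-(‖y - x‖ ^ 2 / (2 * s ^ 2))) / ZZ (qp s : E d → ℝ)) * H y := by
  have m1 : Measurable fun g : E d => H (x + g) := hH.comp (measurable_const.add measurable_id)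
  rw [ns, lintegral_gibbs (qp_sconv hs).toQG m1,
    ← lintegral_add_left_eq_self (μ := (volume : Measure (E d)))
      (fun y => ENNReal.ofReal (Real.exp (-(‖y - x‖ ^ 2 / (2 * s ^ 2))) / ZZ (qp s : E d → ℝ)) * H y) x]
  congr 1
  funext g
  rw [add_sub_cancel_left]
  rfl

/-- The unnormalized joint density. -/
def jd (V : E d → ℝ) (s : ℝ) (p : E d × E d) : ℝ≥0∞ :=
  ENNReal.ofReal (Real.exp (-(pp V p.1 s p.2)))

theorem measurable_jd (hV : Continuous V) (s : ℝ) : Measurable (jd V s) := by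
  unfold jd pp
  have : Continuous fun p : E d × E d => Real.exp (-(V p.2 + ‖p.2 - p.1‖ ^ 2 / (2 * s ^ 2))) :=
    Real.continuous_exp.comp (((hV.comp continuous_snd).add
      (((continuous_snd.sub continuous_fst).norm.pow 2).div_const _)).neg)
  exact ENNReal.measurable_ofReal.comp this.measurable

theorem lintegral_post (hV : Admissible d V) {s : ℝ} (hs : 0 < s) (y : E d) {F : E d → ℝ≥0∞}
    (hF : Measurable F) :
    ∫⁻ z, F z ∂(post V y s) = (∫⁻ z, jd V s (y, z))⁻¹ * ∫⁻ z, jd V s (y, z) * F z := by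
  have hq := (adm_sconv_pp hV y hs).toQG
  have h0 : ∫⁻ z, jd V s (y, z) = ENNReal.ofReal (ZZ (pp V y s)) := hq.lintegral_exp_neg
  rw [post_eq, lintegral_gibbs hq hF, h0, ← lintegral_const_mul']
  · congr 1
    funext z
    unfold jd
    rw [← mul_assoc, ← ENNReal.ofReal_inv_of_pos hq.ZZ_pos,
      ← ENNReal.ofReal_mul (inv_nonneg.mpr hq.ZZ_pos.le), div_eq_inv_mul]
  · exact ENNReal.inv_ne_top.mpr (by simpa using hq.ZZ_pos)

theorem measurable_lintegral_post (hV : Admissible d V) {s : ℝ} (hs : 0 < s)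
    {F : E d → ℝ≥0∞} (hF : Measurable F) : Measurable fun y => ∫⁻ z, F z ∂(post V y s) := by
  have e : (fun y => ∫⁻ z, F z ∂(post V y s)) =
      fun y => (∫⁻ z, jd V s (y, z))⁻¹ * ∫⁻ z, jd V s (y, z) * F z := by
    funext y; exact lintegral_post hV hs y hF
  rw [e]
  have hj := measurable_jd (adm_cont hV) s
  exact (hj.lintegral_prod_right').inv.mul
    ((hj.mul (hF.comp measurable_snd)).lintegral_prod_right')

/-- **Invariance**, lintegral version. -/
theorem inv_lintegral (hV : Admissible d V) {s : ℝ} (hs : 0 < s) {F : E d → ℝ≥0∞}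
    (hF : Measurable F) :
    ∫⁻ x, ∫⁻ g, (∫⁻ z, F z ∂(post V (x + g) s)) ∂(ns d s) ∂(gibbs V) =
      ∫⁻ z, F z ∂(gibbs V) := by
  have hVq := (adm_sconv hV).toQG
  have hj := measurable_jd (adm_cont hV) s
  have hK := measurable_lintegral_post hV hs hF
  have mj1 : ∀ y, Measurable fun z => jd V s (y, z) := fun y => hj.comp measurable_prodMk_left
  have mj2 : ∀ z, Measurable fun y => jd V s (y, z) := fun z => hj.comp measurable_prodMk_right
  have hZ : 0 < ZZ V := hVq.ZZ_pos
  have hZs : 0 < ZZ (qp s : E d → ℝ) := (qp_sconv hs).ZZ_pos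
  -- rewrite the left side as a double integral
  have e1 : ∀ x, ∫⁻ g, (∫⁻ z, F z ∂(post V (x + g) s)) ∂(ns d s) =
      ∫⁻ y, ENNReal.ofReal (Real.exp (-(‖y - x‖ ^ 2 / (2 * s ^ 2))) / ZZ (qp s : E d → ℝ)) *
        (∫⁻ z, F z ∂(post V y s)) := fun x => lintegral_ns hs x hK
  have mk : Measurable fun p : E d × E d =>
      ENNReal.ofReal (Real.exp (-(‖p.2 - p.1‖ ^ 2 / (2 * s ^ 2))) / ZZ (qp s : E d → ℝ)) := by
    have : Continuous fun p : E d × E d =>
        Real.exp (-(‖p.2 - p.1‖ ^ 2 / (2 * s ^ 2))) / ZZ (qp s : E d → ℝ) :=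
      (Real.continuous_exp.comp
        ((((continuous_snd.sub continuous_fst).norm.pow 2).div_const _)).neg).div_const _
    exact ENNReal.measurable_ofReal.comp this.measurable
  have mH : Measurable fun x => ∫⁻ y, ENNReal.ofReal (Real.exp (-(‖y - x‖ ^ 2 / (2 * s ^ 2))) /
      ZZ (qp s : E d → ℝ)) * (∫⁻ z, F z ∂(post V y s)) :=
    (mk.mul (hK.comp measurable_snd)).lintegral_prod_right'
  simp_rw [e1]
  rw [lintegral_gibbs hVq mH]
  set c : ℝ≥0∞ := ENNReal.ofReal (1 / (ZZ V * ZZ (qp s : E d → ℝ))) with hc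
  have hctop : c ≠ ∞ := ENNReal.ofReal_ne_top
  have e2 : ∀ x, ENNReal.ofReal (Real.exp (-V x) / ZZ V) *
      ∫⁻ y, ENNReal.ofReal (Real.exp (-(‖y - x‖ ^ 2 / (2 * s ^ 2))) / ZZ (qp s : E d → ℝ)) *
        (∫⁻ z, F z ∂(post V y s)) =
      ∫⁻ y, c * (jd V s (y, x) * (∫⁻ z, F z ∂(post V y s))) := by
    intro x
    rw [← lintegral_const_mul' _ _ ENNReal.ofReal_ne_top]
    congr 1
    funext y
    rw [← mul_assoc, ← mul_assoc]
    congr 1
    unfold jd pp
    rw [hc, ← ENNReal.ofReal_mul (by positivity), ← ENNReal.ofReal_mul (by positivity)]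
    congr 1
    rw [neg_add, Real.exp_add, norm_sub_rev x y]
    field_simp
  simp_rw [e2]
  rw [lintegral_lintegral_swap]
  swap
  · refine Measurable.aemeasurable ?_
    exact measurable_const.mul ((hj.comp measurable_swap).mul (hK.comp measurable_snd))
  have e3 : ∀ y, ∫⁻ x, c * (jd V s (y, x) * (∫⁻ z, F z ∂(post V y s))) =
      c * ∫⁻ z, jd V s (y, z) * F z := by
    intro y
    rw [lintegral_const_mul' _ _ hctop, lintegral_mul_const _ (mj1 y)]
    congr 1
    have hq := (adm_sconv_pp hV y hs).toQG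
    have h0 : ∫⁻ z, jd V s (y, z) = ENNReal.ofReal (ZZ (pp V y s)) := hq.lintegral_exp_neg
    rw [lintegral_post hV hs y hF, ← mul_assoc]
    change (∫⁻ z, jd V s (y, z)) * (∫⁻ z, jd V s (y, z))⁻¹ * _ = _
    rw [ENNReal.mul_inv_cancel (by rw [h0]; simpa using hq.ZZ_pos)
      (by rw [h0]; exact ENNReal.ofReal_ne_top), one_mul]
  simp_rw [e3]
  rw [lintegral_const_mul' _ _ hctop]
  rw [lintegral_lintegral_swap (hj.mul (hF.comp measurable_snd)).aemeasurable]
  have e4 : ∀ z, ∫⁻ y, jd V s (y, z) * F z =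
      ENNReal.ofReal (Real.exp (-V z)) * ENNReal.ofReal (ZZ (qp s : E d → ℝ)) * F z := by
    intro z
    rw [lintegral_mul_const _ (mj2 z)]
    congr 1
    have e5 : ∀ y, jd V s (y, z) = ENNReal.ofReal (Real.exp (-V z)) *
        ENNReal.ofReal (Real.exp (-(‖y - z‖ ^ 2 / (2 * s ^ 2)))) := by
      intro y
      unfold jd pp
      rw [← ENNReal.ofReal_mul (by positivity), neg_add, Real.exp_add, norm_sub_rev z y]
    simp_rw [e5]
    rw [lintegral_const_mul' _ _ ENNReal.ofReal_ne_top]
    congr 1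
    have h1 := lintegral_sub_right_eq_self (μ := (volume : Measure (E d)))
      (fun y => ENNReal.ofReal (Real.exp (-(qp s y)))) z
    rw [(qp_sconv hs).toQG.lintegral_exp_neg] at h1
    exact h1
  simp_rw [e4]
  rw [lintegral_gibbs hVq hF, ← lintegral_const_mul' _ _ hctop]
  congr 1
  funext z
  rw [← mul_assoc]
  congr 1
  rw [hc, ← ENNReal.ofReal_mul (by positivity), ← ENNReal.ofReal_mul (by positivity)]
  congr 1
  field_simp

/-- The law of `x + noise`. -/
def noisy (P : Measure (E d)) (s : ℝ) : Measure (E d) :=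
  (P.prod (ns d s)).map fun p => p.1 + p.2

theorem noisy_prob {P : Measure (E d)} [IsProbabilityMeasure P] {s : ℝ} (hs : 0 < s) :
    IsProbabilityMeasure (noisy P s) := by
  have := ns_prob (d := d) s hs
  exact Measure.isProbabilityMeasure_map (measurable_fst.add measurable_snd).aemeasurable

theorem lintegral_noisy {P : Measure (E d)} {s : ℝ} (hs : 0 < s)
    {H : E d → ℝ≥0∞} (hH : Measurable H) :
    ∫⁻ y, H y ∂(noisy P s) = ∫⁻ x, ∫⁻ g, H (x + g) ∂(ns d s) ∂P := by
  have := ns_prob (d := d) s hs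
  have ma : Measurable fun p : E d × E d => p.1 + p.2 := measurable_fst.add measurable_snd
  have mb : Measurable fun p : E d × E d => H (p.1 + p.2) := hH.comp ma
  rw [noisy, lintegral_map hH ma, lintegral_prod _ mb.aemeasurable]

/-- Real version for nonnegative integrable functions. -/
theorem inv_integral_nonneg (hV : Admissible d V) {s : ℝ} (hs : 0 < s) {φ : E d → ℝ}
    (hφ : Measurable φ) (h0 : ∀ x, 0 ≤ φ x) (hi : ∀ y, Integrable φ (post V y s)) :
    ∫ y, (∫ z, φ z ∂(post V y s)) ∂(noisy (gibbs V) s) = ∫ z, φ z ∂(gibbs V) := by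
  have hF : Measurable fun z => ENNReal.ofReal (φ z) := ENNReal.measurable_ofReal.comp hφ
  have hK := measurable_lintegral_post hV hs hF
  have e1 : ∀ y, ∫ z, φ z ∂(post V y s) = (∫⁻ z, ENNReal.ofReal (φ z) ∂(post V y s)).toReal :=
    fun y => integral_eq_lintegral_of_nonneg_ae (Eventually.of_forall h0)
      hφ.aestronglyMeasurable
  have e2 : ∀ y, ENNReal.ofReal (∫ z, φ z ∂(post V y s)) =
      ∫⁻ z, ENNReal.ofReal (φ z) ∂(post V y s) :=
    fun y => ofReal_integral_eq_lintegral_ofReal (hi y) (Eventually.of_forall h0)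
  have hm : Measurable fun y => ∫ z, φ z ∂(post V y s) := by
    have : (fun y => ∫ z, φ z ∂(post V y s)) =
        fun y => (∫⁻ z, ENNReal.ofReal (φ z) ∂(post V y s)).toReal := funext e1
    rw [this]; exact hK.ennreal_toReal
  rw [integral_eq_lintegral_of_nonneg_ae
    (Eventually.of_forall fun y => integral_nonneg h0) hm.aestronglyMeasurable]
  simp_rw [e2]
  rw [lintegral_noisy hs hK, inv_lintegral hV hs hF,
    ← integral_eq_lintegral_of_nonneg_ae (Eventually.of_forall h0) hφ.aestronglyMeasurable]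

theorem Lip.pos {L : ℝ} {φ : E d → ℝ} (h : Lip L φ) : Lip L (fun x => max (φ x) 0) := by
  intro x y
  exact (abs_max_sub_max_le_abs _ _ _).trans (h x y)

theorem QG.integrable_norm {W : E d → ℝ} (hW : QG W) : Integrable (fun x => ‖x‖) (gibbs W) := by
  refine hW.integrable_of_le (C := 1) (K := 1) continuous_norm.aestronglyMeasurable fun x => ?_
  rw [norm_norm, one_mul, one_mul]
  linarith [Real.add_one_le_exp ‖x‖]

theorem noisy_int {P : Measure (E d)} [IsProbabilityMeasure P] (hP : Integrable (fun x => ‖x‖) P)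
    {s : ℝ} (hs : 0 < s) : Integrable (fun y => ‖y‖) (noisy P s) := by
  have := ns_prob (d := d) s hs
  have ma : Measurable fun p : E d × E d => p.1 + p.2 := measurable_fst.add measurable_snd
  rw [noisy, integrable_map_measure continuous_norm.aestronglyMeasurable ma.aemeasurable]
  have h1 : Integrable (fun p : E d × E d => ‖p.1‖) (P.prod (ns d s)) := hP.comp_fst _
  have h2 : Integrable (fun p : E d × E d => ‖p.2‖) (P.prod (ns d s)) :=
    Integrable.comp_snd (μ := P) (ν := ns d s) (QG.integrable_norm (qp_sconv hs).toQG)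
  refine (h1.add h2).mono' (ma.norm).aestronglyMeasurable (Eventually.of_forall fun p => ?_)
  simp only [Function.comp_apply, norm_norm, Pi.add_apply]
  exact norm_add_le _ _

theorem Lip.lipschitzWith {L : ℝ} {φ : E d → ℝ} (h : Lip L φ) :
    LipschitzWith (Real.toNNReal L) φ := by
  refine LipschitzWith.of_dist_le_mul fun x y => ?_
  rw [Real.dist_eq, dist_eq_norm]
  refine (h x y).trans ?_
  gcongr
  exact Real.le_coe_toNNReal L

theorem Lip.of_lipschitzWith {K : ℝ≥0} {φ : E d → ℝ} (h : LipschitzWith K φ) : Lip K φ := by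
  intro x y
  have := h.dist_le_mul x y
  rwa [Real.dist_eq, dist_eq_norm] at this

/-- Averages over the posterior are Lipschitz in the centre. -/
theorem lip_post (hV : Admissible d V) {s : ℝ} (hs : 0 < s) {L : ℝ} (hL : 0 ≤ L)
    {φ : E d → ℝ} (hφ : Lip L φ) : Lip (L / (1 + s ^ 2)) (fun y => ∫ z, φ z ∂(post V y s)) :=
  fun y y' => post_contract hV hs hL hφ y' y

/-- **Invariance**, for Lipschitz functions. -/
theorem inv_integral (hV : Admissible d V) {s : ℝ} (hs : 0 < s) {L : ℝ} (hL : 0 ≤ L)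
    {φ : E d → ℝ} (hφ : Lip L φ) :
    ∫ y, (∫ z, φ z ∂(post V y s)) ∂(noisy (gibbs V) s) = ∫ z, φ z ∂(gibbs V) := by
  have hVs := adm_sconv hV
  have := hVs.isProb
  have := noisy_prob (P := gibbs V) hs
  have hn := noisy_int (P := gibbs V) (QG.integrable_norm hVs.toQG) hs
  have hp := hφ.pos
  have hm := hφ.neg.pos
  have e : ∀ x, φ x = max (φ x) 0 - max (-φ x) 0 := by
    intro x
    rcases le_total 0 (φ x) with h | h
    · rw [max_eq_left h, max_eq_right (by linarith)]; ring
    · rw [max_eq_right h, max_eq_left (by linarith)]; ring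
  have ip : ∀ y, Integrable (fun x => max (φ x) 0) (post V y s) :=
    fun y => (adm_sconv_pp hV y hs).integrable_lip hp
  have im : ∀ y, Integrable (fun x => max (-φ x) 0) (post V y s) :=
    fun y => (adm_sconv_pp hV y hs).integrable_lip hm
  have h1 := inv_integral_nonneg hV hs hp.continuous.measurable (fun x => le_max_right _ _) ip
  have h2 := inv_integral_nonneg hV hs hm.continuous.measurable (fun x => le_max_right _ _) im
  have e2 : ∀ y, ∫ z, φ z ∂(post V y s) =
      (∫ z, max (φ z) 0 ∂(post V y s)) - ∫ z, max (-φ z) 0 ∂(post V y s) := by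
    intro y
    rw [← integral_sub (ip y) (im y)]
    congr 1
    funext x
    exact e x
  simp_rw [e2]
  rw [integral_sub (integrable_of_lipschitz hn (lip_post hV hs hL hp).lipschitzWith)
    (integrable_of_lipschitz hn (lip_post hV hs hL hm).lipschitzWith), h1, h2,
    ← integral_sub (hVs.integrable_lip hp) (hVs.integrable_lip hm)]
  congr 1
  funext x
  exact (e x).symm

end Crest.Agent.R285.Top
end
end

-- ▼ part R285/TopFinal
section

/-!
Row 285 (S0430), module TOP: the final total variation step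
`z ↦ y = z + σ g ↦ y - σ² ∇V(y) + σ g'`.
-/

set_option autoImplicit false

open MeasureTheory Crest.OracleSampling Set Filter Topology
open scoped ENNReal RealInnerProductSpace NNReal

noncomputable section

namespace Crest.Agent.R285.Top

variable {d : ℕ} {V : E d → ℝ}

/-- A shift of the Gaussian noise is a tilt. -/
theorem map_ns {σ : ℝ} (hσ : 0 < σ) (a : E d) :
    (ns d σ).map (fun g => a + g) = gibbs (tilt (qp σ) ((1 / σ ^ 2) • a)) := by
  have hq := (qp_sconv (d := d) hσ)
  have ht := hq.tilt ((1 / σ ^ 2) • a)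
  have e0 : ∀ y : E d, tilt (qp σ) ((1 / σ ^ 2) • a) y =
      ‖y - a‖ ^ 2 / (2 * σ ^ 2) + -(‖a‖ ^ 2 / (2 * σ ^ 2)) := by
    intro y
    unfold tilt qp
    rw [inner_smul_right, norm_sub_sq_real]
    field_simp
    ring
  have e1 : ZZ (tilt (qp σ) ((1 / σ ^ 2) • a)) =
      Real.exp (‖a‖ ^ 2 / (2 * σ ^ 2)) * ZZ (qp σ : E d → ℝ) := by
    unfold ZZ
    rw [← integral_sub_right_eq_self (μ := (volume : Measure (E d)))
      (fun x => Real.exp (-qp σ x)) a, ← integral_const_mul]
    congr 1
    funext y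
    rw [e0, ← Real.exp_add]
    congr 1
    unfold qp
    ring
  ext B hB
  have hI : Measurable (B.indicator (fun _ => (1 : ℝ≥0∞))) := measurable_const.indicator hB
  have hm : Measurable fun g : E d => a + g := measurable_const.add measurable_id
  have h1 : ((ns d σ).map (fun g => a + g)) B =
      ∫⁻ y, B.indicator (fun _ => (1 : ℝ≥0∞)) y ∂((ns d σ).map (fun g => a + g)) := by
    rw [lintegral_indicator_const hB, one_mul]
  have h2 : (gibbs (tilt (qp σ) ((1 / σ ^ 2) • a))) B =
      ∫⁻ y, B.indicator (fun _ => (1 : ℝ≥0∞)) y ∂(gibbs (tilt (qp σ) ((1 / σ ^ 2) • a))) := by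
    rw [lintegral_indicator_const hB, one_mul]
  rw [h1, h2, lintegral_map hI hm, lintegral_ns hσ a hI, lintegral_gibbs ht.toQG hI]
  congr 1
  funext y
  congr 2
  rw [e1, e0]
  have hZ := hq.ZZ_pos
  rw [neg_add, neg_neg, Real.exp_add]
  field_simp

theorem integral_ns {σ : ℝ} (hσ : 0 < σ) (a : E d) {F : E d → ℝ} (hF : Measurable F) :
    ∫ g, F (a + g) ∂(ns d σ) = ∫ z, F z ∂(gibbs (tilt (qp σ) ((1 / σ ^ 2) • a))) := by
  have hm : Measurable fun g : E d => a + g := measurable_const.add measurable_id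
  rw [← map_ns hσ a, integral_map hm.aemeasurable hF.aestronglyMeasurable]

/-- The averages over Gaussian shifts of a `[0,1]`-valued function are `1/σ`-Lipschitz. -/
theorem lip_ns {σ : ℝ} (hσ : 0 < σ) {F : E d → ℝ} (hF : Measurable F) (h0 : ∀ x, 0 ≤ F x)
    (h1 : ∀ x, F x ≤ 1) : Lip (1 / σ) (fun a => ∫ g, F (a + g) ∂(ns d σ)) := by
  intro a a'
  simp only
  rw [integral_ns hσ a hF, integral_ns hσ a' hF]
  have h := ((qp_sconv (d := d) hσ).tilt ((1 / σ ^ 2) • a')).tilt_le_bdd hF h0 h1
    ((1 / σ ^ 2) • (a - a'))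
  rw [tilt_tilt, ← smul_add, add_sub_cancel] at h
  refine h.trans (le_of_eq ?_)
  rw [norm_smul, Real.norm_eq_abs, abs_of_pos (by positivity), Real.sqrt_div zero_le_one,
    Real.sqrt_one, Real.sqrt_sq hσ.le]
  field_simp

/-- The gradient step. -/
def TT (V : E d → ℝ) (σ : ℝ) (y : E d) : E d := y - σ ^ 2 • gradient V y

theorem continuous_gradient (hV : Admissible d V) : Continuous (gradient V) := by
  have hc : Continuous (fderiv ℝ V) := hV.1.continuous_fderiv (by norm_num)
  exact (InnerProductSpace.toDual ℝ (E d)).symm.continuous.comp hc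

theorem continuous_TT (hV : Admissible d V) (σ : ℝ) : Continuous (TT V σ) := by
  have h := continuous_gradient hV
  unfold TT
  fun_prop

theorem measurable_TT (hV : Admissible d V) (σ : ℝ) : Measurable (TT V σ) :=
  (continuous_TT hV σ).measurable

set_option maxHeartbeats 1000000 in
/-- Comparison of the Gaussian and of the posterior. -/
theorem gauss_le_post (hV : Admissible d V) {σ : ℝ} (hσ : 0 < σ) (hd : 0 < d) (y : E d)
    {F : E d → ℝ} (hF : Measurable F) (h0 : ∀ x, 0 ≤ F x) (h1 : ∀ x, F x ≤ 1) :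
    ∫ g, F (TT V σ y + g) ∂(ns d σ) ≤
      ∫ z, F z ∂(post V y σ) + (8 * d * σ ^ 2 + 18 * σ ^ 4 * ‖y‖ ^ 2) := by
  set a := TT V σ y with ha
  have hp := adm_sconv_pp hV y hσ
  have hq := (qp_sconv (d := d) hσ).tilt ((1 / σ ^ 2) • a)
  have hnp := ns_prob (d := d) σ hσ
  have hpp := hp.isProb
  have hqp := hq.isProb
  have hZp := hp.ZZ_pos
  have hZq := hq.ZZ_pos
  set W := tilt (qp σ) ((1 / σ ^ 2) • a) with hW
  set R : E d → ℝ := fun z => V z - V y - ⟪gradient V y, z - y⟫ with hR
  have hR0 : ∀ z, 0 ≤ R z := by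
    intro z
    have := adm_lower hV y (z - y)
    rw [add_sub_cancel] at this
    simp only [hR]
    nlinarith [sq_nonneg ‖z - y‖]
  have hR1 : ∀ z, R z ≤ ‖z - y‖ ^ 2 := by
    intro z
    have := adm_upper hV y (z - y)
    rw [add_sub_cancel] at this
    simp only [hR]
    linarith
  -- the exponents
  set k : ℝ := V y - σ ^ 2 * ‖gradient V y‖ ^ 2 / 2 + ‖a‖ ^ 2 / (2 * σ ^ 2) with hk
  have hexp : ∀ z, pp V y σ z = R z + k + W z := by
    intro z
    have e1 : W z = ‖z - a‖ ^ 2 / (2 * σ ^ 2) - ‖a‖ ^ 2 / (2 * σ ^ 2) := by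
      rw [hW]; unfold tilt qp
      rw [inner_smul_right, norm_sub_sq_real]
      field_simp
      ring
    have e2 : z - a = (z - y) + σ ^ 2 • gradient V y := by
      rw [ha]; unfold TT; abel
    have e3 : ‖z - a‖ ^ 2 = ‖z - y‖ ^ 2 + 2 * (σ ^ 2 * ⟪z - y, gradient V y⟫) +
        σ ^ 4 * ‖gradient V y‖ ^ 2 := by
      rw [e2, norm_add_sq_real, inner_smul_right, norm_smul, Real.norm_eq_abs,
        abs_of_pos (by positivity)]
      ring
    rw [e1, e3, hk]
    simp only [hR]
    unfold pp
    rw [real_inner_comm (z - y) (gradient V y)]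
    field_simp
    ring
  have hZle : ZZ (pp V y σ) ≤ Real.exp (-k) * ZZ W := by
    unfold ZZ
    rw [← integral_const_mul]
    refine integral_mono hp.integrable_exp_neg (hq.integrable_exp_neg.const_mul _) fun z => ?_
    simp only
    rw [← Real.exp_add]
    apply Real.exp_le_exp.mpr
    rw [hexp z]
    linarith [hR0 z]
  -- densities
  have hdens : ∀ z, (Real.exp (-W z) / ZZ W) * (1 - R z) ≤ Real.exp (-pp V y σ z) / ZZ (pp V y σ) := by
    intro z
    have h2 := Real.add_one_le_exp (-(R z))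
    have h3 : Real.exp (-pp V y σ z) = Real.exp (-k) * (Real.exp (-W z) * Real.exp (-(R z))) := by
      rw [← Real.exp_add, ← Real.exp_add, hexp z]; congr 1; ring
    have h4 : Real.exp (-W z) / ZZ W * Real.exp (-(R z)) ≤
        Real.exp (-pp V y σ z) / ZZ (pp V y σ) := by
      rw [h3, div_mul_eq_mul_div, div_le_div_iff₀ hZq hZp]
      have h5 : 0 ≤ Real.exp (-W z) * Real.exp (-(R z)) := by positivity
      calc Real.exp (-W z) * Real.exp (-(R z)) * ZZ (pp V y σ)
          ≤ Real.exp (-W z) * Real.exp (-(R z)) * (Real.exp (-k) * ZZ W) := by gcongr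
        _ = _ := by ring
    refine le_trans ?_ h4
    have h6 : 0 ≤ Real.exp (-W z) / ZZ W := by positivity
    exact mul_le_mul_of_nonneg_left (by linarith) h6
  -- integrals of F
  rw [integral_ns hσ a hF]
  have iFq : Integrable F (gibbs W) := by
    refine (integrable_const (1 : ℝ)).mono' hF.aestronglyMeasurable
      (Eventually.of_forall fun x => ?_)
    rw [Real.norm_eq_abs, abs_of_nonneg (h0 x)]; exact h1 x
  have iFp : Integrable F (gibbs (pp V y σ)) := by
    refine (integrable_const (1 : ℝ)).mono' hF.aestronglyMeasurable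
      (Eventually.of_forall fun x => ?_)
    rw [Real.norm_eq_abs, abs_of_nonneg (h0 x)]; exact h1 x
  have hRm : Measurable R :=
    ((adm_cont hV).sub continuous_const |>.sub
      (continuous_const.inner (continuous_id.sub continuous_const))).measurable
  have i2 : Integrable (fun z => ‖z - y‖ ^ 2) (gibbs W) := by
    refine hq.integrable_of_le (C := 2 * Real.exp ‖y‖) (K := 1)
      ((continuous_id.sub continuous_const).norm.pow 2).aestronglyMeasurable fun x => ?_
    have h2 := Real.quadratic_le_exp_of_nonneg (norm_nonneg (x - y))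
    have h3 : Real.exp ‖x - y‖ ≤ Real.exp ‖y‖ * Real.exp (1 * ‖x‖) := by
      rw [← Real.exp_add]; apply Real.exp_le_exp.mpr
      have := norm_sub_le x y
      linarith
    rw [Real.norm_eq_abs, abs_of_nonneg (by positivity)]
    have h4 := norm_nonneg (x - y)
    nlinarith
  have iR : Integrable R (gibbs W) := by
    refine i2.mono' hRm.aestronglyMeasurable (Eventually.of_forall fun x => ?_)
    rw [Real.norm_eq_abs, abs_of_nonneg (hR0 x)]; exact hR1 x
  have iFq' := (integrable_gibbs_iff hq.toQG F).mp iFq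
  have iFp' := (integrable_gibbs_iff hp.toQG F).mp iFp
  have iR' := (integrable_gibbs_iff hq.toQG R).mp iR
  simp only [smul_eq_mul] at iFq' iFp' iR'
  have key : ∫ z, F z ∂(gibbs W) ≤ ∫ z, F z ∂(gibbs (pp V y σ)) + ∫ z, R z ∂(gibbs W) := by
    rw [integral_gibbs hq.toQG, integral_gibbs hp.toQG, integral_gibbs hq.toQG]
    simp only [smul_eq_mul]
    rw [← integral_const_mul, ← integral_const_mul, ← integral_const_mul,
      ← integral_add (iFp'.const_mul _) (iR'.const_mul _)]
    refine integral_mono (iFq'.const_mul _) ((iFp'.const_mul _).add (iR'.const_mul _)) fun z => ?_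
    simp only [smul_eq_mul]
    have h2 := hdens z
    have h3 := h0 z
    have h4 := h1 z
    have h5 : 0 ≤ Real.exp (-W z) / ZZ W := by positivity
    have h6 : Real.exp (-W z) / ZZ W * (1 - R z) * F z ≤
        Real.exp (-pp V y σ z) / ZZ (pp V y σ) * F z := by gcongr
    have h7 : 0 ≤ Real.exp (-W z) / ZZ W * R z * (1 - F z) :=
      mul_nonneg (mul_nonneg h5 (hR0 z)) (by linarith)
    have e1 : (ZZ W)⁻¹ * (Real.exp (-W z) * F z) = Real.exp (-W z) / ZZ W * F z := by ring
    have e2 : (ZZ (pp V y σ))⁻¹ * (Real.exp (-pp V y σ z) * F z) =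
        Real.exp (-pp V y σ z) / ZZ (pp V y σ) * F z := by ring
    have e3 : (ZZ W)⁻¹ * (Real.exp (-W z) * R z) = Real.exp (-W z) / ZZ W * R z := by ring
    rw [e1, e2, e3]
    nlinarith
  refine key.trans ?_
  rw [post_eq]
  gcongr
  calc ∫ z, R z ∂(gibbs W) ≤ ∫ z, ‖z - y‖ ^ 2 ∂(gibbs W) := integral_mono iR i2 hR1
    _ = ∫ g, ‖a + g - y‖ ^ 2 ∂(ns d σ) := by
        rw [integral_ns hσ a (F := fun z => ‖z - y‖ ^ 2)]
        exact ((continuous_id.sub continuous_const).norm.pow 2).measurable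
    _ ≤ ∫ g, (2 * ‖g‖ ^ 2 + 18 * σ ^ 4 * ‖y‖ ^ 2) ∂(ns d σ) := by
        refine integral_mono_of_nonneg (Eventually.of_forall fun x => by positivity)
          (((ns_mom hσ hd).1.const_mul _).add (integrable_const _))
          (Eventually.of_forall fun g => ?_)
        have e4 : a + g - y = g - σ ^ 2 • gradient V y := by rw [ha]; unfold TT; abel
        have h5 := adm_grad_le hV y
        simp only
        rw [e4]
        have h6 : ‖g - σ ^ 2 • gradient V y‖ ≤ ‖g‖ + σ ^ 2 * (3 * ‖y‖) := by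
          refine (norm_sub_le _ _).trans ?_
          rw [norm_smul, Real.norm_eq_abs, abs_of_pos (by positivity)]
          gcongr
        calc ‖g - σ ^ 2 • gradient V y‖ ^ 2 ≤ (‖g‖ + σ ^ 2 * (3 * ‖y‖)) ^ 2 := by gcongr
          _ ≤ 2 * ‖g‖ ^ 2 + 18 * σ ^ 4 * ‖y‖ ^ 2 := by
            nlinarith [sq_nonneg (‖g‖ - σ ^ 2 * (3 * ‖y‖))]
    _ ≤ 8 * d * σ ^ 2 + 18 * σ ^ 4 * ‖y‖ ^ 2 := by
        rw [integral_add ((ns_mom hσ hd).1.const_mul _) (integrable_const _), integral_const_mul]
        have := (ns_mom (d := d) hσ hd).2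
        simp only [integral_const, probReal_univ, one_smul]
        linarith

/-- The law of the output of the final step. -/
def fin (V : E d → ℝ) (σ : ℝ) (P : Measure (E d)) : Measure (E d) :=
  (P.prod ((ns d σ).prod (ns d σ))).map fun p => TT V σ (p.1 + p.2.1) + p.2.2

theorem measurable_avg_ns (hV : Admissible d V) {σ : ℝ} (hσ : 0 < σ) {F : E d → ℝ}
    (hF : Measurable F) : Measurable fun y => ∫ g, F (TT V σ y + g) ∂(ns d σ) := by
  have := ns_prob (d := d) σ hσ
  have hm : Measurable fun p : E d × E d => F (TT V σ p.1 + p.2) :=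
    hF.comp (((measurable_TT hV σ).comp measurable_fst).add measurable_snd)
  exact (hm.stronglyMeasurable.integral_prod_right' (ν := ns d σ)).measurable

theorem bdd_integrable {X : Type} [MeasurableSpace X] {μ : Measure X} [IsProbabilityMeasure μ]
    {F : X → ℝ} (hF : Measurable F) (h0 : ∀ x, 0 ≤ F x) (h1 : ∀ x, F x ≤ 1) : Integrable F μ := by
  refine (integrable_const (1 : ℝ)).mono' hF.aestronglyMeasurable
    (Eventually.of_forall fun x => ?_)
  rw [Real.norm_eq_abs, abs_of_nonneg (h0 x)]; exact h1 x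

theorem bdd_integral {X : Type} [MeasurableSpace X] {μ : Measure X} [IsProbabilityMeasure μ]
    {F : X → ℝ} (hF : Measurable F) (h0 : ∀ x, 0 ≤ F x) (h1 : ∀ x, F x ≤ 1) :
    0 ≤ ∫ x, F x ∂μ ∧ ∫ x, F x ∂μ ≤ 1 := by
  refine ⟨integral_nonneg h0, ?_⟩
  have : ∫ x, F x ∂μ ≤ ∫ _, (1 : ℝ) ∂μ :=
    integral_mono (bdd_integrable hF h0 h1) (integrable_const _) h1
  simpa using this

/-- The final step, one-sided, for `[0,1]`-valued test functions. -/
theorem fin_le (hV : Admissible d V) {σ : ℝ} (hσ : 0 < σ) (hσ1 : σ ≤ 1) (hd : 0 < d)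
    {P : Measure (E d)} [IsProbabilityMeasure P] {δ : ℝ} (hP : DLip P (gibbs V) δ)
    {F : E d → ℝ} (hF : Measurable F) (h0 : ∀ x, 0 ≤ F x) (h1 : ∀ x, F x ≤ 1) :
    ∫ z, F z ∂(fin V σ P) ≤
      ∫ z, F z ∂(gibbs V) + (δ / σ + 8 * d * σ ^ 2 + 288 * d * σ ^ 4) := by
  have hVs := adm_sconv hV
  have := hVs.isProb
  have hns := ns_prob (d := d) σ hσ
  have mT := measurable_TT hV σ
  -- the inner average
  set K : E d → ℝ := fun y => ∫ g, F (TT V σ y + g) ∂(ns d σ) with hK
  have mK : Measurable K := measurable_avg_ns hV hσ hF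
  have mFT : ∀ y, Measurable fun g => F (TT V σ y + g) := fun y =>
    hF.comp (measurable_const.add measurable_id)
  have K0 : ∀ y, 0 ≤ K y := fun y => (bdd_integral (mFT y) (fun _ => h0 _) (fun _ => h1 _)).1
  have K1 : ∀ y, K y ≤ 1 := fun y => (bdd_integral (mFT y) (fun _ => h0 _) (fun _ => h1 _)).2
  set Ψ : E d → ℝ := fun x => ∫ g, K (x + g) ∂(ns d σ) with hΨ
  have lΨ : Lip (1 / σ) Ψ := lip_ns hσ mK K0 K1
  -- Fubini
  have e1 : ∫ z, F z ∂(fin V σ P) = ∫ x, Ψ x ∂P := by
    have hm : Measurable fun p : E d × (E d × E d) => TT V σ (p.1 + p.2.1) + p.2.2 :=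
      (mT.comp (measurable_fst.add (measurable_fst.comp measurable_snd))).add
        (measurable_snd.comp measurable_snd)
    have hFm : Measurable fun p : E d × (E d × E d) => F (TT V σ (p.1 + p.2.1) + p.2.2) :=
      hF.comp hm
    rw [fin, integral_map hm.aemeasurable hF.aestronglyMeasurable,
      integral_prod _ (bdd_integrable hFm (fun _ => h0 _) (fun _ => h1 _))]
    congr 1
    funext x
    have hm2 : Measurable fun p : E d × E d => F (TT V σ (x + p.1) + p.2) :=
      hF.comp ((mT.comp (measurable_const.add measurable_fst)).add measurable_snd)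
    rw [integral_prod _ (bdd_integrable hm2 (fun _ => h0 _) (fun _ => h1 _))]
  -- Lipschitz step
  have h2 : |∫ x, Ψ x ∂P - ∫ x, Ψ x ∂(gibbs V)| ≤ δ / σ := by
    have := hP.lip lΨ.lipschitzWith
    rw [Real.coe_toNNReal _ (by positivity)] at this
    rw [div_eq_inv_mul, ← one_div]; exact this
  -- exact input
  have hn := noisy_prob (P := gibbs V) hσ
  have e2 : ∫ x, Ψ x ∂(gibbs V) = ∫ y, K y ∂(noisy (gibbs V) σ) := by
    have ma : Measurable fun p : E d × E d => p.1 + p.2 := measurable_fst.add measurable_snd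
    have mKa : Measurable fun p : E d × E d => K (p.1 + p.2) := mK.comp ma
    rw [noisy, integral_map ma.aemeasurable mK.aestronglyMeasurable,
      integral_prod _ (bdd_integrable mKa (fun _ => K0 _) (fun _ => K1 _))]
  have hpost : ∀ y, IsProbabilityMeasure (post V y σ) := fun y => (adm_sconv_pp hV y hσ).isProb
  have mF' : Measurable fun y => ∫ z, F z ∂(post V y σ) := by
    have e : (fun y => ∫ z, F z ∂(post V y σ)) =
        fun y => (∫⁻ z, ENNReal.ofReal (F z) ∂(post V y σ)).toReal := funext fun y =>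
      integral_eq_lintegral_of_nonneg_ae (Eventually.of_forall h0) hF.aestronglyMeasurable
    rw [e]
    exact (measurable_lintegral_post hV hσ (ENNReal.measurable_ofReal.comp hF)).ennreal_toReal
  have hb := fun y => bdd_integral (μ := post V y σ) hF h0 h1
  have iF' : Integrable (fun y => ∫ z, F z ∂(post V y σ)) (noisy (gibbs V) σ) :=
    bdd_integrable mF' (fun y => (hb y).1) (fun y => (hb y).2)
  -- second moment of noisy
  have hmom := adm_mom hV hd
  have hmomn := ns_mom (d := d) hσ hd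
  have ma : Measurable fun p : E d × E d => p.1 + p.2 := measurable_fst.add measurable_snd
  have i1 : Integrable (fun p : E d × E d => 2 * ‖p.1‖ ^ 2) ((gibbs V).prod (ns d σ)) :=
    Integrable.const_mul (Integrable.comp_fst (μ := gibbs V) (ν := ns d σ) hmom.1) 2
  have i2 : Integrable (fun p : E d × E d => 2 * ‖p.2‖ ^ 2) ((gibbs V).prod (ns d σ)) :=
    Integrable.const_mul (Integrable.comp_snd (μ := gibbs V) (ν := ns d σ) hmomn.1) 2
  have hpw : ∀ p : E d × E d, ‖p.1 + p.2‖ ^ 2 ≤ 2 * ‖p.1‖ ^ 2 + 2 * ‖p.2‖ ^ 2 := by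
    intro p
    have h3 := norm_add_le p.1 p.2
    calc ‖p.1 + p.2‖ ^ 2 ≤ (‖p.1‖ + ‖p.2‖) ^ 2 := by gcongr
      _ ≤ _ := by nlinarith [sq_nonneg (‖p.1‖ - ‖p.2‖)]
  have cn2 : Continuous fun y : E d => ‖y‖ ^ 2 := continuous_norm.pow 2
  have iY : Integrable (fun y => ‖y‖ ^ 2) (noisy (gibbs V) σ) := by
    rw [noisy, integrable_map_measure cn2.aestronglyMeasurable ma.aemeasurable]
    refine (i1.add i2).mono' ((ma.norm.pow_const 2).aestronglyMeasurable)
      (Eventually.of_forall fun p => ?_)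
    simp only [Function.comp_apply, Pi.add_apply]
    rw [Real.norm_eq_abs, abs_of_nonneg (by positivity)]
    exact hpw p
  have hσ2 : σ ^ 2 ≤ 1 := pow_le_one₀ hσ.le hσ1
  have hY : ∫ y, ‖y‖ ^ 2 ∂(noisy (gibbs V) σ) ≤ 16 * d := by
    rw [noisy, integral_map ma.aemeasurable cn2.aestronglyMeasurable]
    calc ∫ p : E d × E d, ‖p.1 + p.2‖ ^ 2 ∂((gibbs V).prod (ns d σ))
        ≤ ∫ p : E d × E d, (2 * ‖p.1‖ ^ 2 + 2 * ‖p.2‖ ^ 2) ∂((gibbs V).prod (ns d σ)) :=
          integral_mono_of_nonneg (Eventually.of_forall fun p => by positivity) (i1.add i2)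
            (Eventually.of_forall hpw)
      _ = 2 * (∫ x, ‖x‖ ^ 2 ∂(gibbs V)) + 2 * ∫ x, ‖x‖ ^ 2 ∂(ns d σ) := by
          rw [integral_add i1 i2, integral_const_mul, integral_const_mul,
            integral_fun_fst (μ := gibbs V) (ν := ns d σ) (fun x => ‖x‖ ^ 2),
            integral_fun_snd (μ := gibbs V) (ν := ns d σ) (fun x => ‖x‖ ^ 2)]
          simp
      _ ≤ 2 * (4 * d) + 2 * (4 * d * σ ^ 2) := by
          have := hmom.2
          have := hmomn.2
          gcongr
      _ ≤ 16 * d := by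
          have : (4 : ℝ) * d * σ ^ 2 ≤ 4 * d * 1 := by gcongr
          linarith
  have h3 : ∫ y, K y ∂(noisy (gibbs V) σ) ≤
      ∫ z, F z ∂(gibbs V) + (8 * d * σ ^ 2 + 18 * σ ^ 4 * (16 * d)) := by
    calc ∫ y, K y ∂(noisy (gibbs V) σ)
        ≤ ∫ y, ((∫ z, F z ∂(post V y σ)) + (8 * d * σ ^ 2 + 18 * σ ^ 4 * ‖y‖ ^ 2))
            ∂(noisy (gibbs V) σ) := by
          refine integral_mono (bdd_integrable mK K0 K1)
            (iF'.add ((integrable_const _).add (iY.const_mul _))) fun y => ?_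
          exact gauss_le_post hV hσ hd y hF h0 h1
      _ = ∫ z, F z ∂(gibbs V) + (8 * d * σ ^ 2 +
            18 * σ ^ 4 * ∫ y, ‖y‖ ^ 2 ∂(noisy (gibbs V) σ)) := by
          have i3 : Integrable (fun y : E d => 8 * d * σ ^ 2 + 18 * σ ^ 4 * ‖y‖ ^ 2)
              (noisy (gibbs V) σ) := (integrable_const _).add (iY.const_mul _)
          rw [integral_add iF' i3,
            integral_add (integrable_const _) (iY.const_mul _),
            inv_integral_nonneg hV hσ hF h0 (fun y => bdd_integrable hF h0 h1),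
            integral_const_mul (18 * σ ^ 4)]
          simp
      _ ≤ _ := by gcongr
  rw [e1]
  have h4 := (abs_le.mp h2).2
  rw [e2] at h4
  linarith

/-- **(T4)** the final step. -/
theorem fin_tv (hV : Admissible d V) {σ : ℝ} (hσ : 0 < σ) (hσ1 : σ ≤ 1) (hd : 0 < d)
    {P : Measure (E d)} [IsProbabilityMeasure P] {δ : ℝ} (hP : DLip P (gibbs V) δ)
    {B : Set (E d)} (hB : MeasurableSet B) :
    |(fin V σ P B).toReal - (gibbs V B).toReal| ≤ δ / σ + 8 * d * σ ^ 2 + 288 * d * σ ^ 4 := by
  have hVs := adm_sconv hV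
  have := hVs.isProb
  have hns := ns_prob (d := d) σ hσ
  have hfin : IsProbabilityMeasure (fin V σ P) := by
    have hm : Measurable fun p : E d × (E d × E d) => TT V σ (p.1 + p.2.1) + p.2.2 :=
      ((measurable_TT hV σ).comp (measurable_fst.add (measurable_fst.comp measurable_snd))).add
        (measurable_snd.comp measurable_snd)
    exact Measure.isProbabilityMeasure_map hm.aemeasurable
  have key : ∀ C : Set (E d), MeasurableSet C → (fin V σ P C).toReal ≤ (gibbs V C).toReal +
      (δ / σ + 8 * d * σ ^ 2 + 288 * d * σ ^ 4) := by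
    intro C hC
    have h := fin_le hV hσ hσ1 hd hP (F := C.indicator fun _ => (1 : ℝ))
      (measurable_const.indicator hC) (fun x => by
        by_cases hx : x ∈ C <;> simp [hx]) (fun x => by by_cases hx : x ∈ C <;> simp [hx])
    rw [integral_indicator_const _ hC, integral_indicator_const _ hC] at h
    simpa [Measure.real] using h
  have h1 := key B hB
  have h2 := key Bᶜ hB.compl
  rw [prob_compl_eq_one_sub hB, prob_compl_eq_one_sub hB,
    ENNReal.toReal_sub_of_le prob_le_one ENNReal.one_ne_top,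
    ENNReal.toReal_sub_of_le prob_le_one ENNReal.one_ne_top] at h2
  rw [abs_le]
  constructor <;> linarith

end Crest.Agent.R285.Top
end
end

-- ▼ part R285/TopChain
section

/-!
Row 285 (S0430), module TOP: the outer proximal chain.
-/

set_option autoImplicit false

open MeasureTheory Crest.OracleSampling Set Filter Topology
open scoped ENNReal RealInnerProductSpace NNReal

noncomputable section

namespace Crest.Agent.R285.Top

variable {d : ℕ} {V : E d → ℝ}

theorem ns_first {s : ℝ} (hs : 0 < s) (hd : 0 < d) : ∫ x, ‖x‖ ∂(ns d s) ≤ 2 * s * √(d : ℝ) := by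
  have := ns_prob (d := d) s hs
  have h := first_of_second (μ := ns d s) (f := fun x => ‖x‖)
    continuous_norm.aestronglyMeasurable (ns_mom hs hd).1
  simp only [abs_norm] at h
  refine h.2.trans (Real.sqrt_le_iff.mpr ⟨by positivity, (ns_mom hs hd).2.trans (le_of_eq ?_)⟩)
  rw [mul_pow, mul_pow, Real.sq_sqrt (Nat.cast_nonneg _)]
  ring

theorem adm_first (hV : Admissible d V) (hd : 0 < d) : ∫ x, ‖x‖ ∂(gibbs V) ≤ 2 * √(d : ℝ) := by
  have := (adm_sconv hV).isProb
  have h := first_of_second (μ := gibbs V) (f := fun x => ‖x‖)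
    continuous_norm.aestronglyMeasurable (adm_mom hV hd).1
  simp only [abs_norm] at h
  refine h.2.trans (Real.sqrt_le_iff.mpr ⟨by positivity, (adm_mom hV hd).2.trans (le_of_eq ?_)⟩)
  rw [mul_pow, Real.sq_sqrt (Nat.cast_nonneg _)]
  ring

theorem noisy_first {P : Measure (E d)} [IsProbabilityMeasure P]
    (hP : Integrable (fun x => ‖x‖) P) {s : ℝ} (hs : 0 < s) :
    ∫ y, ‖y‖ ∂(noisy P s) ≤ ∫ x, ‖x‖ ∂P + ∫ x, ‖x‖ ∂(ns d s) := by
  have := ns_prob (d := d) s hs
  have ma : Measurable fun p : E d × E d => p.1 + p.2 := measurable_fst.add measurable_snd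
  have i1 : Integrable (fun p : E d × E d => ‖p.1‖) (P.prod (ns d s)) := hP.comp_fst _
  have i2 : Integrable (fun p : E d × E d => ‖p.2‖) (P.prod (ns d s)) :=
    Integrable.comp_snd (μ := P) (ν := ns d s) (QG.integrable_norm (qp_sconv hs).toQG)
  rw [noisy, integral_map ma.aemeasurable continuous_norm.aestronglyMeasurable]
  calc ∫ p : E d × E d, ‖p.1 + p.2‖ ∂(P.prod (ns d s))
      ≤ ∫ p : E d × E d, (‖p.1‖ + ‖p.2‖) ∂(P.prod (ns d s)) :=
        integral_mono_of_nonneg (Eventually.of_forall fun p => by positivity) (i1.add i2)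
          (Eventually.of_forall fun p => norm_add_le _ _)
    _ = _ := by
        rw [integral_add i1 i2, integral_fun_fst (μ := P) (ν := ns d s) (fun x => ‖x‖),
          integral_fun_snd (μ := P) (ν := ns d s) (fun x => ‖x‖)]
        simp

/-- Adding noise does not increase the distance. -/
theorem noisy_dlip {P Q : Measure (E d)} [IsProbabilityMeasure P] [IsProbabilityMeasure Q]
    {e : ℝ} (h : DLip P Q e) {s : ℝ} (hs : 0 < s) : DLip (noisy P s) (noisy Q s) e := by
  have := ns_prob (d := d) s hs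
  have hP := noisy_prob (P := P) hs
  have hQ := noisy_prob (P := Q) hs
  have iP := noisy_int h.intP hs
  have iQ := noisy_int h.intQ hs
  have ma : Measurable fun p : E d × E d => p.1 + p.2 := measurable_fst.add measurable_snd
  have hnsn : Integrable (fun x => ‖x‖) (ns d s) := QG.integrable_norm (qp_sconv hs).toQG
  refine ⟨iP, iQ, fun f hf => ?_⟩
  have hfm := hf.continuous.measurable
  have hfa : ∀ x : E d, LipschitzWith 1 fun g => f (x + g) := fun x => by
    refine LipschitzWith.of_dist_le_mul fun g g' => ?_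
    have := hf.dist_le_mul (x + g) (x + g')
    simpa using this
  have key : ∀ M : Measure (E d), IsProbabilityMeasure M → Integrable (fun x => ‖x‖) M →
      ∫ y, f y ∂(noisy M s) = ∫ x, (∫ g, f (x + g) ∂(ns d s)) ∂M := by
    intro M hM iM
    have hi : Integrable f (noisy M s) := by
      have := noisy_prob (P := M) hs
      exact integrable_of_lipschitz (noisy_int iM hs) hf
    rw [noisy] at hi ⊢
    rw [integrable_map_measure hf.continuous.aestronglyMeasurable ma.aemeasurable] at hi
    rw [integral_map ma.aemeasurable hf.continuous.aestronglyMeasurable]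
    exact integral_prod _ hi
  rw [key P inferInstance h.intP, key Q inferInstance h.intQ]
  refine h.le _ ?_
  refine LipschitzWith.of_dist_le_mul fun x x' => ?_
  rw [Real.dist_eq, NNReal.coe_one, one_mul,
    ← integral_sub (integrable_of_lipschitz hnsn (hfa x)) (integrable_of_lipschitz hnsn (hfa x'))]
  refine abs_integral_le_integral_abs.trans ?_
  calc ∫ g, |f (x + g) - f (x' + g)| ∂(ns d s) ≤ ∫ _, dist x x' ∂(ns d s) := by
        refine integral_mono_of_nonneg (Eventually.of_forall fun g => abs_nonneg _)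
          (integrable_const _) (Eventually.of_forall fun g => ?_)
        have := hf.dist_le_mul (x + g) (x' + g)
        rw [Real.dist_eq] at this
        simpa using this
    _ = dist x x' := by simp

/-- One step of the chain. -/
theorem chain_step (hV : Admissible d V) {s : ℝ} (hs : 0 < s) (hs1 : s ≤ 1) (hd : 0 < d)
    {Ω : Type} [MeasurableSpace Ω] {μ : Measure Ω} [IsProbabilityMeasure μ]
    {f : Ω × E d → E d} (hf : Measurable f) {D : ℝ}
    (h : ∀ y, DLip (μ.map fun ω => f (ω, y)) (post V y s) (D * (√(d : ℝ) + ‖y‖)))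
    {P : Measure (E d)} [IsProbabilityMeasure P] {e : ℝ} (hP : DLip P (gibbs V) e) :
    DLip ((μ.prod (noisy P s)).map f) (gibbs V) ((1 / (1 + s ^ 2) + D) * e + 5 * D * √(d : ℝ)) := by
  have hVs := adm_sconv hV
  have := hVs.isProb
  have hns := ns_prob (d := d) s hs
  have hYp := noisy_prob (P := P) hs
  have hY0 := noisy_prob (P := gibbs V) hs
  have iY := noisy_int hP.intP hs
  have hd1 : (1 : ℝ) ≤ √(d : ℝ) := by
    rw [Real.one_le_sqrt]; exact_mod_cast hd
  have hD0 : 0 ≤ D := by
    have h0 := (h 0).nonneg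
    rw [norm_zero, add_zero] at h0
    exact nonneg_of_mul_nonneg_left h0 (by linarith)
  have mfy : ∀ y, Measurable fun ω => f (ω, y) := fun y =>
    hf.comp (measurable_id.prodMk measurable_const)
  -- first moments
  have hn1 : LipschitzWith 1 (fun x : E d => ‖x‖) := lipschitzWith_one_norm
  have lN : Lip 1 (fun x : E d => ‖x‖) := by
    intro x y; rw [one_mul]; exact abs_norm_sub_norm_le x y
  have lKN := lip_post hV hs zero_le_one lN
  have iKN : Integrable (fun y => ∫ z, ‖z‖ ∂(post V y s)) (noisy P s) :=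
    integrable_of_lipschitz iY lKN.lipschitzWith
  have iW : Integrable (fun y : E d => D * (√(d : ℝ) + ‖y‖)) (noisy P s) :=
    ((integrable_const _).add iY).const_mul _
  have ifn : Integrable (fun p => ‖f p‖) (μ.prod (noisy P s)) := by
    rw [integrable_prod_iff' hf.norm.aestronglyMeasurable]
    constructor
    · refine Eventually.of_forall fun y => ?_
      have := (h y).intP
      rwa [integrable_map_measure continuous_norm.aestronglyMeasurable (mfy y).aemeasurable] at this
    · refine (iKN.add iW).mono' ?_ (Eventually.of_forall fun y => ?_)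
      · have := (hf.norm.norm.stronglyMeasurable.integral_prod_left' (μ := μ))
        exact this.aestronglyMeasurable
      · have h1 := (h y).integral_norm_le
        rw [integral_map (mfy y).aemeasurable continuous_norm.aestronglyMeasurable] at h1
        rw [Real.norm_eq_abs, abs_of_nonneg (integral_nonneg fun ω => norm_nonneg _)]
        simp only [norm_norm, Pi.add_apply]
        exact h1
  have iOut : Integrable (fun x => ‖x‖) ((μ.prod (noisy P s)).map f) := by
    rw [integrable_map_measure continuous_norm.aestronglyMeasurable hf.aemeasurable]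
    exact ifn
  -- bounds of first moments
  have hEP : ∫ x, ‖x‖ ∂P ≤ 2 * √(d : ℝ) + e := by
    have := hP.integral_norm_le
    have := adm_first hV hd
    linarith
  have hEY : ∫ y, ‖y‖ ∂(noisy P s) ≤ 4 * √(d : ℝ) + e := by
    have h1 := noisy_first hP.intP hs
    have h2 := ns_first (d := d) hs hd
    have h3 : 2 * s * √(d : ℝ) ≤ 2 * 1 * √(d : ℝ) := by gcongr
    linarith
  refine ⟨iOut, QG.integrable_norm hVs.toQG, fun φ hφ => ?_⟩
  have lφ : Lip 1 φ := by simpa using Lip.of_lipschitzWith hφ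
  have lK := lip_post hV hs zero_le_one lφ
  have iφf : Integrable (fun p => φ (f p)) (μ.prod (noisy P s)) := by
    have hop : IsProbabilityMeasure ((μ.prod (noisy P s)).map f) :=
      Measure.isProbabilityMeasure_map hf.aemeasurable
    have := integrable_of_lipschitz iOut hφ
    rwa [integrable_map_measure hφ.continuous.aestronglyMeasurable hf.aemeasurable] at this
  have e1 : ∫ x, φ x ∂((μ.prod (noisy P s)).map f) =
      ∫ y, (∫ ω, φ (f (ω, y)) ∂μ) ∂(noisy P s) := by
    rw [integral_map hf.aemeasurable hφ.continuous.aestronglyMeasurable]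
    exact integral_prod_symm _ iφf
  have iK : Integrable (fun y => ∫ z, φ z ∂(post V y s)) (noisy P s) :=
    integrable_of_lipschitz iY lK.lipschitzWith
  have iA : Integrable (fun y => ∫ ω, φ (f (ω, y)) ∂μ) (noisy P s) := iφf.integral_prod_right
  -- kernel error
  have h1 : |∫ y, (∫ ω, φ (f (ω, y)) ∂μ) ∂(noisy P s) -
      ∫ y, (∫ z, φ z ∂(post V y s)) ∂(noisy P s)| ≤ D * (√(d : ℝ) + (4 * √(d : ℝ) + e)) := by
    rw [← integral_sub iA iK]
    refine abs_integral_le_integral_abs.trans ?_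
    calc ∫ y, |(∫ ω, φ (f (ω, y)) ∂μ) - ∫ z, φ z ∂(post V y s)| ∂(noisy P s)
        ≤ ∫ y, D * (√(d : ℝ) + ‖y‖) ∂(noisy P s) := by
          refine integral_mono_of_nonneg (Eventually.of_forall fun y => abs_nonneg _) iW
            (Eventually.of_forall fun y => ?_)
          have := (h y).le φ hφ
          rwa [integral_map (mfy y).aemeasurable hφ.continuous.aestronglyMeasurable] at this
      _ = D * (√(d : ℝ) + ∫ y, ‖y‖ ∂(noisy P s)) := by
          rw [integral_const_mul, integral_add (integrable_const _) iY]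
          simp
      _ ≤ _ := by gcongr
  -- contraction
  have h2 : |∫ y, (∫ z, φ z ∂(post V y s)) ∂(noisy P s) -
      ∫ y, (∫ z, φ z ∂(post V y s)) ∂(noisy (gibbs V) s)| ≤ 1 / (1 + s ^ 2) * e := by
    have := (noisy_dlip hP hs).lip lK.lipschitzWith
    rwa [Real.coe_toNNReal _ (by positivity)] at this
  rw [inv_integral hV hs zero_le_one lφ] at h2
  rw [e1]
  calc |∫ y, (∫ ω, φ (f (ω, y)) ∂μ) ∂(noisy P s) - ∫ x, φ x ∂(gibbs V)|
      ≤ _ := abs_sub_le _ (∫ y, (∫ z, φ z ∂(post V y s)) ∂(noisy P s)) _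
    _ ≤ D * (√(d : ℝ) + (4 * √(d : ℝ) + e)) + 1 / (1 + s ^ 2) * e := add_le_add h1 h2
    _ = _ := by ring

/-- A sampler of the posterior with a visible centre. -/
def VS (d q : ℕ) (s D : ℝ) : Prop :=
  ∃ (Ω : Type) (_ : MeasurableSpace Ω) (μ : Measure Ω) (_ : IsProbabilityMeasure μ)
    (f : (E d → ℝ) → Ω × E d → E d), IsQ q f ∧ ∀ V, Admissible d V →
      ∀ c, DLip (μ.map fun ω => f V (ω, c)) (post V c s) (D * (√(d : ℝ) + ‖c‖))

/-- A sampler of the target in the dual-Lipschitz metric. -/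
def GS (d q : ℕ) (δ : ℝ) : Prop :=
  ∃ (Ω : Type) (_ : MeasurableSpace Ω) (μ : Measure Ω) (_ : IsProbabilityMeasure μ)
    (f : (E d → ℝ) → Ω → E d), IsQ q f ∧ ∀ V, Admissible d V → DLip (μ.map (f V)) (gibbs V) δ

theorem measurable_oracle (hV : Admissible d V) : Measurable (oracle V) :=
  ((adm_cont hV).measurable).prodMk (continuous_gradient hV).measurable

theorem GS_zero (hd : 0 < d) : GS d 0 (2 * √(d : ℝ)) := by
  refine ⟨Unit, inferInstance, Measure.dirac (), inferInstance, fun _ _ => 0,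
    IsQ.const measurable_const, fun V hV => ?_⟩
  have hVs := adm_sconv hV
  have := hVs.isProb
  have e : (Measure.dirac ()).map (fun _ : Unit => (0 : E d)) = Measure.dirac 0 := by
    rw [Measure.map_const]; simp
  rw [e]
  refine ⟨by simp [integrable_dirac], QG.integrable_norm hVs.toQG, fun φ hφ => ?_⟩
  rw [integral_dirac]
  have lφ : Lip 1 φ := by simpa using Lip.of_lipschitzWith hφ
  have hi := hVs.integrable_lip lφ
  have e2 : φ 0 - ∫ x, φ x ∂(gibbs V) = ∫ x, (φ 0 - φ x) ∂(gibbs V) := by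
    rw [integral_sub (integrable_const _) hi]; simp
  rw [e2]
  refine abs_integral_le_integral_abs.trans (le_trans ?_ (adm_first hV hd))
  refine integral_mono_of_nonneg (Eventually.of_forall fun x => abs_nonneg _)
    (QG.integrable_norm hVs.toQG) (Eventually.of_forall fun x => ?_)
  have := lφ 0 x
  simpa using this

theorem GS_step {q q' : ℕ} {s D e : ℝ} (hs : 0 < s) (hs1 : s ≤ 1) (hd : 0 < d)
    (hVS : VS d q s D) (hG : GS d q' e) :
    GS d (q' + q) ((1 / (1 + s ^ 2) + D) * e + 5 * D * √(d : ℝ)) := by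
  obtain ⟨Ω, mΩ, μ, hμ, f, hf, H⟩ := hVS
  obtain ⟨Ω', mΩ', ν, hν, X, hX, HX⟩ := hG
  have hns := ns_prob (d := d) s hs
  refine ⟨Ω × (Ω' × E d), inferInstance, μ.prod (ν.prod (ns d s)), inferInstance,
    fun V w => f V (w.1, X V w.2.1 + w.2.2), ?_, fun V hV => ?_⟩
  · have h1 : IsQ q' (fun V (w : Ω × (Ω' × E d)) => X V w.2.1) :=
      hX.comap (measurable_fst.comp measurable_snd)
    have h2 : IsQ q (fun V (w : (Ω × (Ω' × E d)) × E d) => f V (w.1.1, w.2 + w.1.2.2)) :=
      hf.comap (g := fun w : (Ω × (Ω' × E d)) × E d => (w.1.1, w.2 + w.1.2.2))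
        ((measurable_fst.comp measurable_fst).prodMk
          (measurable_snd.add (measurable_snd.comp (measurable_snd.comp measurable_fst))))
    exact h1.bind h2
  · have mf : Measurable (f V) := hf.measurable (measurable_oracle hV)
    have mX : Measurable (X V) := hX.measurable (measurable_oracle hV)
    have hP : IsProbabilityMeasure (ν.map (X V)) := Measure.isProbabilityMeasure_map mX.aemeasurable
    have key := chain_step hV hs hs1 hd mf (H V hV) (HX V hV)
    have e1 : noisy (ν.map (X V)) s = (ν.prod (ns d s)).map (fun p => X V p.1 + p.2) := by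
      have ma : Measurable fun p : E d × E d => p.1 + p.2 := measurable_fst.add measurable_snd
      have h3 : (ν.map (X V)).prod (ns d s) =
          (ν.prod (ns d s)).map (Prod.map (X V) id) := by
        rw [← Measure.map_prod_map _ _ mX measurable_id, Measure.map_id]
      rw [noisy, h3, Measure.map_map ma (mX.prodMap measurable_id)]
      rfl
    have mh : Measurable fun p : Ω' × E d => X V p.1 + p.2 :=
      (mX.comp measurable_fst).add measurable_snd
    have e2 : (μ.prod (noisy (ν.map (X V)) s)).map (f V) =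
        (μ.prod (ν.prod (ns d s))).map (fun w => f V (w.1, X V w.2.1 + w.2.2)) := by
      have h3 : μ.prod ((ν.prod (ns d s)).map (fun p => X V p.1 + p.2)) =
          (μ.prod (ν.prod (ns d s))).map (Prod.map id (fun p => X V p.1 + p.2)) := by
        rw [← Measure.map_prod_map _ _ measurable_id mh, Measure.map_id]
      rw [e1, h3, Measure.map_map mf (measurable_id.prodMap mh)]
      rfl
    rw [← e2]
    exact key

theorem GS.mono {q q' : ℕ} {δ δ' : ℝ} (h : GS d q δ) (hq : q ≤ q') (hδ : δ ≤ δ') : GS d q' δ' := by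
  obtain ⟨Ω, mΩ, μ, hμ, f, hf, H⟩ := h
  exact ⟨Ω, mΩ, μ, hμ, f, hf.mono hq, fun V hV => (H V hV).mono hδ⟩

/-- **(T3)** the chain. -/
theorem GS_chain {q : ℕ} {s D : ℝ} (hs : 0 < s) (hs1 : s ≤ 1) (hd : 0 < d)
    (hVS : VS d q s D) (hD : D ≤ s ^ 2 / 4) (hD0 : 0 ≤ D) (k : ℕ) :
    GS d (k * q) (2 * (1 - s ^ 2 / 4) ^ k * √(d : ℝ) + 20 * D * √(d : ℝ) / s ^ 2) := by
  have hs2 : s ^ 2 ≤ 1 := pow_le_one₀ hs.le hs1
  have hs20 : 0 < s ^ 2 := by positivity
  induction k with
  | zero =>
    rw [Nat.zero_mul]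
    refine (GS_zero hd).mono le_rfl ?_
    rw [pow_zero]
    have : 0 ≤ 20 * D * √(d : ℝ) / s ^ 2 := by positivity
    linarith
  | succ k ih =>
    have h := GS_step hs hs1 hd hVS ih
    refine h.mono (le_of_eq (by ring)) ?_
    set r : ℝ := 1 - s ^ 2 / 4 with hr
    have hr0 : 0 ≤ r := by rw [hr]; linarith
    have h1 : 1 / (1 + s ^ 2) + D ≤ r := by
      have : 1 / (1 + s ^ 2) ≤ 1 - s ^ 2 / 2 := by
        rw [div_le_iff₀ (by positivity)]; nlinarith
      rw [hr]; linarith
    have h2 : 0 ≤ 2 * r ^ k * √(d : ℝ) + 20 * D * √(d : ℝ) / s ^ 2 := by positivity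
    calc (1 / (1 + s ^ 2) + D) * (2 * r ^ k * √(d : ℝ) + 20 * D * √(d : ℝ) / s ^ 2) +
          5 * D * √(d : ℝ)
        ≤ r * (2 * r ^ k * √(d : ℝ) + 20 * D * √(d : ℝ) / s ^ 2) + 5 * D * √(d : ℝ) := by gcongr
      _ = 2 * r ^ (k + 1) * √(d : ℝ) + 20 * D * √(d : ℝ) / s ^ 2 := by
          rw [hr]; field_simp; ring

end Crest.Agent.R285.Top
end
end

-- ▼ part R285/SmallD

/-!
Row 285 (S0430): reduction of small dimensions.  An algorithm for dimension `d + k` run on the lifted
potential `V (P x) + (3/4) |Q x|²` gives one for dimension `d` with the same number of queries.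
-/

set_option autoImplicit false

open MeasureTheory Crest.OracleSampling

namespace Crest.Agent.R285.SmallD

variable {d k : ℕ}

/-- The splitting `ℝ^(d+k) = ℝ^d × ℝ^k`. -/
noncomputable abbrev spl (d k : ℕ) : E (d + k) ≃L[ℝ] E d × E k := EuclideanSpace.finAddEquivProd

theorem spl_norm_sq (x : E (d + k)) : ‖x‖ ^ 2 = ‖(spl d k x).1‖ ^ 2 + ‖(spl d k x).2‖ ^ 2 := by
  set e1 := (LinearIsometryEquiv.piLpCongrLeft 2 ℝ ℝ (finSumFinEquiv (m := d) (n := k)).symm)
  set e2 := PiLp.sumPiLpEquivProdLpPiLp (𝕜 := ℝ) 2 (fun _ : Fin d ⊕ Fin k => ℝ)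
  have h1 : ‖x‖ = ‖e2 (e1 x)‖ := by rw [LinearIsometryEquiv.norm_map, LinearIsometryEquiv.norm_map]
  rw [h1, WithLp.prod_norm_sq_eq_of_L2]
  rfl

theorem spl_inner (x y : E (d + k)) :
    inner ℝ x y = inner ℝ (spl d k x).1 (spl d k y).1 + inner ℝ (spl d k x).2 (spl d k y).2 := by
  set e1 := (LinearIsometryEquiv.piLpCongrLeft 2 ℝ ℝ (finSumFinEquiv (m := d) (n := k)).symm)
  set e2 := PiLp.sumPiLpEquivProdLpPiLp (𝕜 := ℝ) 2 (fun _ : Fin d ⊕ Fin k => ℝ)
  have h1 : inner ℝ x y = inner ℝ (e2 (e1 x)) (e2 (e1 y)) := by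
    rw [LinearIsometryEquiv.inner_map_map, LinearIsometryEquiv.inner_map_map]
  rw [h1, WithLp.prod_inner_apply]
  rfl

theorem spl_measurePreserving :
    MeasurePreserving (spl d k) (volume : Measure (E (d + k))) ((volume : Measure (E d)).prod
      (volume : Measure (E k))) := by
  set e1 := (LinearIsometryEquiv.piLpCongrLeft 2 ℝ ℝ (finSumFinEquiv (m := d) (n := k)).symm)
  set e2 := PiLp.sumPiLpEquivProdLpPiLp (𝕜 := ℝ) 2 (fun _ : Fin d ⊕ Fin k => ℝ)
  have h1 := e1.measurePreserving
  have h2 := e2.measurePreserving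
  have h3 := WithLp.volume_preserving_ofLp (E d) (E k)
  exact h3.comp (h2.comp h1)

/-- First block. -/
noncomputable def P (d k : ℕ) : E (d + k) →L[ℝ] E d :=
  (ContinuousLinearMap.fst ℝ (E d) (E k)).comp (spl d k : E (d + k) →L[ℝ] E d × E k)

/-- Second block. -/
noncomputable def Q (d k : ℕ) : E (d + k) →L[ℝ] E k :=
  (ContinuousLinearMap.snd ℝ (E d) (E k)).comp (spl d k : E (d + k) →L[ℝ] E d × E k)

theorem P_apply (x : E (d + k)) : P d k x = (spl d k x).1 := rfl

theorem Q_apply (x : E (d + k)) : Q d k x = (spl d k x).2 := rfl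

/-- The lifted potential. -/
noncomputable def lift (k : ℕ) (V : E d → ℝ) (x : E (d + k)) : ℝ :=
  V (P d k x) + (3 / 4) * ‖Q d k x‖ ^ 2

theorem hasFDerivAt_quad (y : E k) :
    HasFDerivAt (fun y : E k => (3 / 4) * ‖y‖ ^ 2) ((3 / 2 : ℝ) • innerSL ℝ y) y := by
  have h := (hasStrictFDerivAt_norm_sq y).hasFDerivAt.const_mul (3 / 4 : ℝ)
  have e : (3 / 4 : ℝ) • (2 • (innerSL ℝ) y) = (3 / 2 : ℝ) • innerSL ℝ y := by
    ext v
    simp
    ring
  rw [e] at h
  exact h

theorem lift_hasFDerivAt {V : E d → ℝ} (x : E (d + k)) (hV : DifferentiableAt ℝ V (P d k x)) :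
    HasFDerivAt (lift k V) ((fderiv ℝ V (P d k x)).comp (P d k) +
      ((3 / 2 : ℝ) • innerSL ℝ (Q d k x)).comp (Q d k)) x := by
  have h1 := (hV.hasFDerivAt).comp x (P d k).hasFDerivAt
  have h2 := (hasFDerivAt_quad (Q d k x)).comp x (Q d k).hasFDerivAt
  exact h1.add h2

theorem lift_fderiv_apply {V : E d → ℝ} (x h : E (d + k)) (hV : DifferentiableAt ℝ V (P d k x)) :
    fderiv ℝ (lift k V) x h = fderiv ℝ V (P d k x) (P d k h) +
      (3 / 2) * inner ℝ (Q d k x) (Q d k h) := by
  rw [(lift_hasFDerivAt x hV).fderiv]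
  rfl

theorem lift_gradient {V : E d → ℝ} (x : E (d + k)) (hV : DifferentiableAt ℝ V (P d k x)) :
    gradient (lift k V) x = (spl d k).symm (gradient V (P d k x), (3 / 2 : ℝ) • Q d k x) := by
  refine ext_inner_right ℝ fun v => ?_
  rw [spl_inner ((spl d k).symm _) v, ContinuousLinearEquiv.apply_symm_apply]
  rw [← P_apply, ← Q_apply]
  have h1 : inner ℝ (gradient (lift k V) x) v = fderiv ℝ (lift k V) x v := by
    rw [← InnerProductSpace.toDual_apply_apply, gradient, LinearIsometryEquiv.apply_symm_apply]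
  have h2 : inner ℝ (gradient V (P d k x)) (P d k v) = fderiv ℝ V (P d k x) (P d k v) := by
    rw [← InnerProductSpace.toDual_apply_apply, gradient, LinearIsometryEquiv.apply_symm_apply]
  rw [h1, lift_fderiv_apply x v hV]
  simp only [inner_smul_left]
  rw [h2]
  rfl

theorem lift_iteratedFDeriv {V : E d → ℝ} (hV : ContDiff ℝ 2 V) (hL : ContDiff ℝ 2 (lift k V))
    (x h : E (d + k)) :
    iteratedFDeriv ℝ 2 (lift k V) x ![h, h] =
      iteratedFDeriv ℝ 2 V (P d k x) ![P d k h, P d k h] + (3 / 2) * ‖Q d k h‖ ^ 2 := by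
  rw [iteratedFDeriv_two_apply, iteratedFDeriv_two_apply]
  have hd : Differentiable ℝ V := hV.differentiable (by norm_num)
  have hd2 : Differentiable ℝ (fderiv ℝ V) :=
    (hV.fderiv_right (m := 1) (by norm_num)).differentiable (by norm_num)
  have hd3 : Differentiable ℝ (fderiv ℝ (lift k V)) :=
    (hL.fderiv_right (m := 1) (by norm_num)).differentiable (by norm_num)
  have h1 : ∀ x, HasFDerivAt (fun x => fderiv ℝ (lift k V) x h)
      ((fderiv ℝ (fderiv ℝ (lift k V)) x).flip h) x := fun x =>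
    ((hd3 x).hasFDerivAt).clm_apply (hasFDerivAt_const h x) |>.congr_fderiv (by ext; simp)
  have h2 : HasFDerivAt (fun x => fderiv ℝ V (P d k x) (P d k h))
      (((fderiv ℝ (fderiv ℝ V) (P d k x)).flip (P d k h)).comp (P d k)) x :=
    (((hd2 (P d k x)).hasFDerivAt).clm_apply (hasFDerivAt_const (P d k h) (P d k x))
      |>.congr_fderiv (by ext; simp)).comp x (P d k).hasFDerivAt
  have h3 : HasFDerivAt (fun x : E (d + k) => (3 / 2) * inner ℝ (Q d k x) (Q d k h))
      ((3 / 2 : ℝ) • (innerSL ℝ (Q d k h)).comp (Q d k)) x := by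
    have := (((innerSL ℝ (Q d k h)).comp (Q d k)).hasFDerivAt (x := x)).const_mul (3 / 2 : ℝ)
    refine this.congr_of_eventuallyEq (Filter.Eventually.of_forall fun y => ?_)
    simp only [ContinuousLinearMap.comp_apply, innerSL_apply_apply]
    rw [real_inner_comm]
  have h4 : (fun x => fderiv ℝ (lift k V) x h) = fun x => fderiv ℝ V (P d k x) (P d k h) +
      (3 / 2) * inner ℝ (Q d k x) (Q d k h) := by
    funext y
    exact lift_fderiv_apply y h (hd _)
  have h5 := h1 x
  rw [h4] at h5
  have h6 := h5.unique (h2.add h3)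
  have h7 := congrArg (fun L => L h) h6
  simp only [ContinuousLinearMap.flip_apply] at h7
  simp only [Matrix.cons_val_zero, Matrix.cons_val_one]
  rw [h7]
  change fderiv ℝ (fderiv ℝ V) (P d k x) (P d k h) (P d k h) +
    (3 / 2) * inner ℝ (Q d k h) (Q d k h) = _
  rw [real_inner_self_eq_norm_sq]

theorem lift_contDiff {V : E d → ℝ} (h1 : ContDiff ℝ 2 V) : ContDiff ℝ 2 (lift k V) := by
  have e1 : ContDiff ℝ 2 (fun x : E (d + k) => V (P d k x)) := h1.comp (P d k).contDiff
  have e2 : ContDiff ℝ 2 (fun x : E (d + k) => (3 / 4 : ℝ) * ‖Q d k x‖ ^ 2) :=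
    contDiff_const.mul ((Q d k).contDiff.norm_sq ℝ)
  exact e1.add e2

theorem lift_admissible {V : E d → ℝ} (hV : Admissible d V) : Admissible (d + k) (lift k V) := by
  obtain ⟨h1, h2, h3, h4⟩ := hV
  refine ⟨lift_contDiff h1, ?_, ?_, fun x h => ?_⟩
  · simp [lift, h2]
  · rw [lift_gradient _ (h1.differentiable (by norm_num) _)]
    simp [h3]
  · rw [lift_iteratedFDeriv h1 (lift_contDiff h1)]
    have e1 := h4 (P d k x) (P d k h)
    have e2 := spl_norm_sq h
    rw [← P_apply, ← Q_apply] at e2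
    have e3 := sq_nonneg ‖Q d k h‖
    constructor <;> nlinarith

/-! ### simulation of the oracle -/

/-- Translation of an answer. -/
noncomputable def tr (x : E (d + k)) (a : Answer d) : Answer (d + k) :=
  (a.1 + (3 / 4) * ‖Q d k x‖ ^ 2, (spl d k).symm (a.2, (3 / 2 : ℝ) • Q d k x))

theorem measurable_tr : Measurable (fun p : E (d + k) × Answer d => tr p.1 p.2) := by
  have h1 : Measurable fun p : E (d + k) × Answer d => Q d k p.1 :=
    (Q d k).continuous.measurable.comp measurable_fst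
  refine Measurable.prodMk ?_ ?_
  · exact (measurable_fst.comp measurable_snd).add ((h1.norm.pow_const 2).const_mul _)
  · exact (spl d k).symm.continuous.measurable.comp
      ((measurable_snd.comp measurable_snd).prodMk (h1.const_smul (3 / 2 : ℝ)))

theorem oracle_lift {V : E d → ℝ} (hV : Differentiable ℝ V) (x : E (d + k)) :
    oracle (lift k V) x = tr x (oracle V (P d k x)) := by
  refine Prod.ext rfl ?_
  exact lift_gradient x (hV _)

variable {Ω : Type} [MeasurableSpace Ω]

/-- The simulated transcript. -/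
noncomputable def sim (Qy : (i : ℕ) → Ω → (Fin i → Answer (d + k)) → E (d + k)) (ω : Ω) :
    (i : ℕ) → (Fin i → Answer d) → (Fin i → Answer (d + k))
  | 0, _ => Fin.elim0
  | i + 1, a => Fin.snoc (α := fun _ => Answer (d + k)) (sim Qy ω i (Fin.init a))
      (tr (Qy i ω (sim Qy ω i (Fin.init a))) (a (Fin.last i)))

theorem measurable_sim {Qy : (i : ℕ) → Ω → (Fin i → Answer (d + k)) → E (d + k)}
    (hQ : ∀ i, Measurable (Function.uncurry (Qy i))) (i : ℕ) :
    Measurable fun p : Ω × (Fin i → Answer d) => sim Qy p.1 i p.2 := by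
  induction i with
  | zero => exact measurable_const
  | succ i ih =>
    have h0 : Measurable fun p : Ω × (Fin (i + 1) → Answer d) => sim Qy p.1 i (Fin.init p.2) := by
      refine ih.comp (measurable_fst.prodMk ?_)
      exact measurable_pi_lambda _ fun j => (measurable_pi_apply _).comp measurable_snd
    refine measurable_pi_lambda _ fun j => ?_
    refine Fin.lastCases ?_ (fun j => ?_) j
    · simp only [sim, Fin.snoc_last]
      exact measurable_tr.comp (((hQ i).comp (measurable_fst.prodMk h0)).prodMk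
        ((measurable_pi_apply (Fin.last i)).comp measurable_snd))
    · simp only [sim, Fin.snoc_castSucc]
      exact (measurable_pi_apply j).comp h0

/-- Queries to the lifted potential are simulated by queries to the potential. -/
theorem IsQ.lower {β : Type} [MeasurableSpace β] {q : ℕ} {f : (E (d + k) → ℝ) → Ω → β}
    (hf : IsQ q f) : ∃ g : (E d → ℝ) → Ω → β, IsQ q g ∧
      ∀ V, Differentiable ℝ V → ∀ ω, g V ω = f (lift k V) ω := by
  obtain ⟨Qy, O, hQ, hO, H⟩ := hf
  let Q' : (i : ℕ) → Ω → (Fin i → Answer d) → E d := fun i ω a => P d k (Qy i ω (sim Qy ω i a))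
  let O' : Ω → (Fin q → Answer d) → β := fun ω a => O ω (sim Qy ω q a)
  refine ⟨fun V ω => O' ω (trans Q' V ω q), ⟨Q', O', fun i => ?_, ?_, fun V ω => rfl⟩,
    fun V hV ω => ?_⟩
  · exact (P d k).continuous.measurable.comp ((hQ i).comp (measurable_fst.prodMk
      (measurable_sim hQ i)))
  · exact hO.comp (measurable_fst.prodMk (measurable_sim hQ q))
  · have key : ∀ i, sim Qy ω i (trans Q' V ω i) = trans Qy (lift k V) ω i := by
      intro i
      induction i with
      | zero => rfl
      | succ i ih =>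
        have e1 : Fin.init (trans Q' V ω (i + 1)) = trans Q' V ω i := by
          simp only [trans, Fin.init_snoc]
        have e2 : trans Q' V ω (i + 1) (Fin.last i) = oracle V (Q' i ω (trans Q' V ω i)) := by
          simp only [trans, Fin.snoc_last]
        simp only [sim]
        rw [e1, e2, ih]
        simp only [trans]
        congr 1
        rw [oracle_lift hV]
        simp only [Q', ih]
    change O ω (sim Qy ω q (trans Q' V ω q)) = _
    rw [key, H]

/-! ### marginal of the target -/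

/-- The normalising constant of the extra block. -/
noncomputable def cst (k : ℕ) : ENNReal :=
  ∫⁻ y : E k, ENNReal.ofReal (Real.exp (-((3 / 4) * ‖y‖ ^ 2)))

theorem integrable_gauss : Integrable (fun y : E k => Real.exp (-((3 / 4) * ‖y‖ ^ 2))) := by
  have h := GaussianFourier.integrable_cexp_neg_mul_sq_norm_add (V := E k) (b := ((3 / 4 : ℝ) : ℂ))
    (by norm_num) 0 0
  have h2 := h.norm
  refine h2.congr (Filter.Eventually.of_forall fun y => ?_)
  simp only [zero_mul, add_zero, Complex.norm_exp]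
  congr 1
  rw [show (-((3 / 4 : ℝ) : ℂ) * (‖y‖ : ℂ) ^ 2) = ((-((3 / 4) * ‖y‖ ^ 2) : ℝ) : ℂ) by
    push_cast; ring]
  exact Complex.ofReal_re _

theorem cst_ne_top : cst k ≠ ⊤ := (integrable_gauss (k := k)).lintegral_lt_top.ne

theorem cst_ne_zero : cst k ≠ 0 := by
  unfold cst
  rw [Ne, lintegral_eq_zero_iff' (by fun_prop)]
  intro h
  have h1 : ∀ y : E k, ENNReal.ofReal (Real.exp (-((3 / 4) * ‖y‖ ^ 2))) ≠ 0 := fun y => by
    rw [Ne, ENNReal.ofReal_eq_zero, not_le]
    exact Real.exp_pos _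
  have h2 : (∀ᵐ y : E k, False) := h.mono fun y hy => h1 y hy
  rw [Filter.eventually_false_iff_eq_bot, ae_eq_bot] at h2
  have h3 : (volume : Measure (E k)) (Metric.ball 0 1) ≠ 0 :=
    (Metric.isOpen_ball.measure_pos volume (Metric.nonempty_ball.2 one_pos)).ne'
  rw [h2] at h3
  exact h3 rfl

theorem withDensity_lift (V : E d → ℝ) (hV : Measurable V) {B : Set (E d)} (hB : MeasurableSet B) :
    (volume : Measure (E (d + k))).withDensity (fun x => ENNReal.ofReal (Real.exp (-lift k V x)))
      (P d k ⁻¹' B) =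
    (volume : Measure (E d)).withDensity (fun x => ENNReal.ofReal (Real.exp (-V x))) B * cst k := by
  have hPm : Measurable (P d k) := (P d k).continuous.measurable
  rw [withDensity_apply _ (hPm hB), withDensity_apply _ hB, ← lintegral_indicator (hPm hB),
    ← lintegral_indicator hB]
  have h1 : ∀ x : E (d + k), (P d k ⁻¹' B).indicator
      (fun x => ENNReal.ofReal (Real.exp (-lift k V x))) x =
      (fun z : E d × E k => B.indicator (fun x => ENNReal.ofReal (Real.exp (-V x))) z.1 *
        ENNReal.ofReal (Real.exp (-((3 / 4) * ‖z.2‖ ^ 2)))) (spl d k x) := by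
    intro x
    by_cases hx : P d k x ∈ B
    · rw [Set.indicator_of_mem (by exact hx)]
      have hx' : (spl d k x).1 ∈ B := hx
      simp only [Set.indicator_of_mem hx']
      rw [← ENNReal.ofReal_mul (Real.exp_pos _).le, ← Real.exp_add]
      congr 2
      simp only [lift, P_apply, Q_apply]
      ring
    · rw [Set.indicator_of_notMem (by exact hx)]
      have hx' : (spl d k x).1 ∉ B := hx
      simp only [Set.indicator_of_notMem hx', zero_mul]
  rw [lintegral_congr h1]
  have h2 : Measurable (fun z : E d × E k =>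
      B.indicator (fun x => ENNReal.ofReal (Real.exp (-V x))) z.1 *
        ENNReal.ofReal (Real.exp (-((3 / 4) * ‖z.2‖ ^ 2)))) := by
    refine Measurable.mul ?_ (by fun_prop)
    exact (((hV.neg.exp).ennreal_ofReal).indicator hB).comp measurable_fst
  rw [spl_measurePreserving.lintegral_comp h2]
  have hV' : Measurable fun x => ENNReal.ofReal (Real.exp (-V x)) := by fun_prop
  exact lintegral_prod_mul (hV'.indicator hB).aemeasurable
    (g := fun y : E k => ENNReal.ofReal (Real.exp (-((3 / 4) * ‖y‖ ^ 2)))) (by fun_prop)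

theorem target_lift (V : E d → ℝ) (hV : Measurable V) {B : Set (E d)} (hB : MeasurableSet B) :
    target (d + k) (lift k V) (P d k ⁻¹' B) = target d V B := by
  simp only [target, Measure.smul_apply, smul_eq_mul]
  have h1 := withDensity_lift (k := k) V hV hB
  have h2 := withDensity_lift (k := k) V hV MeasurableSet.univ
  rw [Set.preimage_univ] at h2
  rw [h1, h2, ENNReal.mul_inv (Or.inr cst_ne_top) (Or.inr cst_ne_zero)]
  set a := (volume : Measure (E d)).withDensity (fun x => ENNReal.ofReal (Real.exp (-V x)))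
  calc (a Set.univ)⁻¹ * (cst k)⁻¹ * (a B * cst k)
      = (a Set.univ)⁻¹ * a B * ((cst k)⁻¹ * cst k) := by ring
    _ = (a Set.univ)⁻¹ * a B := by rw [ENNReal.inv_mul_cancel cst_ne_zero cst_ne_top, mul_one]

/-! ### conclusion -/

theorem isQ_run {q : ℕ} (A : QueryAlg d q) : @IsQ d A.Ω (E d) A.mΩ _ q (run A) := by
  let _ := A.mΩ
  refine ⟨A.query, A.output, A.query_meas, A.output_meas, fun V ω => ?_⟩
  have ht : ∀ i, transcript A V ω i = trans A.query V ω i := by
    intro i
    induction i with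
    | zero => rfl
    | succ i ih =>
      simp only [transcript, trans]
      rw [ih]
  simp only [run, ht]

theorem measurable_oracle {V : E d → ℝ} (hV : ContDiff ℝ 2 V) :
    Measurable (Crest.OracleSampling.oracle V) := by
  refine Measurable.prodMk hV.continuous.measurable ?_
  have h1 : Continuous (fderiv ℝ V) := hV.continuous_fderiv (by norm_num)
  exact ((InnerProductSpace.toDual ℝ (E d)).symm.continuous.comp h1).measurable

/-- **Reduction of small dimensions**, one step: an algorithm in dimension `d + k` gives one in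
dimension `d` with the same number of queries. -/
theorem exists_alg_of_add {q : ℕ} (A : QueryAlg (d + k) q)
    (hA : ∀ V : E (d + k) → ℝ, Admissible (d + k) V → Succeeds A V) :
    ∃ A' : QueryAlg d q, ∀ V : E d → ℝ, Admissible d V → Succeeds A' V := by
  let _ := A.mΩ
  have := A.prob
  obtain ⟨g, hg, hgV⟩ := IsQ.lower (isQ_run A)
  have hg' : IsQ q (fun V ω => P d k (g V ω)) :=
    hg.map (g := fun p => P d k p.2) ((P d k).continuous.measurable.comp measurable_snd)
  obtain ⟨A', hA'⟩ := hg'.exists_alg A.μ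
  refine ⟨A', fun V hV B hB => ?_⟩
  have hrun : Measurable (run A (lift k V)) :=
    (isQ_run A).measurable (measurable_oracle (lift_contDiff hV.1))
  have h1 : outputLaw A' V B = outputLaw A (lift k V) (P d k ⁻¹' B) := by
    have hPm : Measurable (P d k) := (P d k).continuous.measurable
    rw [hA' V]
    have e : (fun ω => P d k (g V ω)) = P d k ∘ run A (lift k V) := by
      funext ω
      simp only [Function.comp_apply]
      rw [hgV V (hV.1.differentiable (by norm_num)) ω]
    rw [e, outputLaw, Measure.map_apply (hPm.comp hrun) hB]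
    rw [show @Measure.map _ _ A.mΩ _ (run A (lift k V)) A.μ = Measure.map (run A (lift k V)) A.μ
      from rfl, Measure.map_apply hrun (hPm hB)]
    rfl
  rw [h1, ← target_lift (k := k) V hV.1.continuous.measurable hB]
  exact hA _ (lift_admissible hV) _ ((P d k).continuous.measurable hB)

theorem exists_alg_of_le {D q : ℕ} (hdD : d ≤ D)
    (h : ∃ A : QueryAlg D q, ∀ V : E D → ℝ, Admissible D V → Succeeds A V) :
    ∃ A' : QueryAlg d q, ∀ V : E d → ℝ, Admissible d V → Succeeds A' V := by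
  obtain ⟨k, rfl⟩ := Nat.exists_eq_add_of_le hdD
  obtain ⟨A, hA⟩ := h
  exact exists_alg_of_add A hA

/-- It is enough to treat large dimensions. -/
theorem of_large
    (H : ∀ ε : ℝ, 0 < ε → ∃ (C : ℝ) (d0 : ℕ), ∀ d : ℕ, d0 ≤ d →
      ∃ (q : ℕ) (A : QueryAlg d q), (q : ℝ) ≤ C * (d : ℝ) ^ ε ∧
        ∀ V : E d → ℝ, Admissible d V → Succeeds A V) :
    ∀ ε : ℝ, 0 < ε → ∃ C : ℝ, ∀ d : ℕ, 2 ≤ d →
      ∃ (q : ℕ) (A : QueryAlg d q), (q : ℝ) ≤ C * (d : ℝ) ^ ε ∧
        ∀ V : E d → ℝ, Admissible d V → Succeeds A V := by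
  intro ε hε
  obtain ⟨C, d0, h⟩ := H ε hε
  obtain ⟨q0, A0, hq0, hA0⟩ := h (max d0 2) (le_max_left _ _)
  refine ⟨max C q0, fun d hd => ?_⟩
  have hd1 : (1 : ℝ) ≤ (d : ℝ) ^ ε := by
    refine Real.one_le_rpow ?_ hε.le
    exact_mod_cast (by omega : 1 ≤ d)
  by_cases hdd : d0 ≤ d
  · obtain ⟨q, A, hq, hA⟩ := h d hdd
    exact ⟨q, A, hq.trans (mul_le_mul_of_nonneg_right (le_max_left _ _) (by positivity)), hA⟩
  · push Not at hdd
    obtain ⟨A', hA'⟩ := exists_alg_of_le (d := d) (by omega : d ≤ max d0 2) ⟨A0, hA0⟩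
    refine ⟨q0, A', ?_, hA'⟩
    calc (q0 : ℝ) = q0 * 1 := (mul_one _).symm
      _ ≤ max C q0 * (d : ℝ) ^ ε :=
        mul_le_mul (le_max_right _ _) hd1 zero_le_one ((Nat.cast_nonneg _).trans (le_max_right _ _))

end Crest.Agent.R285.SmallD
private theorem rz_14ee8a19ff : type_of% @_root_.Crest.Agent.R285.SmallD.sim.eq_def := @_root_.Crest.Agent.R285.SmallD.sim.eq_def -- L177
private theorem rz_1cc2b86965 : type_of% @_root_.Crest.Agent.R285.SmallD.sim.eq_1 := @_root_.Crest.Agent.R285.SmallD.sim.eq_1 -- L177
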