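import Crest.Agent.R285.SmallD_Mg
import Crest.Agent.R285.Link
import Crest.Agent.R285.Glue2
import Crest.Agent.R285.Rot
import Crest.Agent.R285.PostMean
import Crest.Agent.R285.Rec
import Crest.Agent.R285.StepYFix
import Crest.Agent.R285.AFAll_Mg
import Crest.Agent.R285.GlueQ
import Crest.Agent.R285.Unroll
import Crest.Agent.R285.ProgW
import Crest.Agent.R285.SemQDef
import Crest.Agent.R285.StepYCore
import Crest.Agent.R285.YSem

-- ▼ part R285/TopMain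
section

/-!
Row 285 (S0430), module TOP: assembly.  From samplers of the posterior with a visible centre to the
statement S0430.
-/

set_option autoImplicit false

open MeasureTheory Crest.OracleSampling Set Filter Topology
open scoped ENNReal RealInnerProductSpace NNReal

noncomputable section

namespace Crest.Agent.R285.Top

variable {d : ℕ}

/-- The final step as an algorithm. -/
theorem final_alg {q : ℕ} {δ σ : ℝ} (hG : GS d q δ) (hσ : 0 < σ) (hσ1 : σ ≤ 1) (hd : 0 < d) :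
    ∃ A : QueryAlg d (q + 1), ∀ V, Admissible d V → ∀ B, MeasurableSet B →
      |(outputLaw A V B).toReal - (target d V B).toReal| ≤
        δ / σ + 8 * d * σ ^ 2 + 288 * d * σ ^ 4 := by
  obtain ⟨Ω, mΩ, μ, hμ, X, hX, H⟩ := hG
  have hns := ns_prob (d := d) σ hσ
  -- the output map
  have hq : IsQ (q + 1) (fun (V : E d → ℝ) (w : Ω × (E d × E d)) =>
      TT V σ (X V w.1 + w.2.1) + w.2.2) := by
    have h1 : IsQ q (fun (V : E d → ℝ) (w : Ω × (E d × E d)) => X V w.1) :=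
      hX.comap measurable_fst
    have hm2 : Measurable fun p : (Ω × (E d × E d)) × E d => p.2 + p.1.2.1 := by fun_prop
    have h2 : IsQ q (fun (V : E d → ℝ) (w : Ω × (E d × E d)) => X V w.1 + w.2.1) :=
      h1.map hm2
    have h3 : IsQ 1 (fun (V : E d → ℝ) (p : (Ω × (E d × E d)) × E d) => gradient V p.2) :=
      (IsQ.const (d := d) (measurable_snd (α := Ω × (E d × E d)) (β := E d))).grad
    have hm4 : Measurable fun r : ((Ω × (E d × E d)) × E d) × E d =>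
        r.1.2 - σ ^ 2 • r.2 + r.1.1.2.2 := by fun_prop
    have h4 : IsQ 1 (fun (V : E d → ℝ) (p : (Ω × (E d × E d)) × E d) =>
        p.2 - σ ^ 2 • gradient V p.2 + p.1.2.2) := h3.map hm4
    exact h2.bind h4
  obtain ⟨A, hA⟩ := hq.exists_alg (μ.prod ((ns d σ).prod (ns d σ)))
  refine ⟨A, fun V hV B hB => ?_⟩
  have mX : Measurable (X V) := hX.measurable (measurable_oracle hV)
  have hP : IsProbabilityMeasure (μ.map (X V)) := Measure.isProbabilityMeasure_map mX.aemeasurable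
  have key := fin_tv hV hσ hσ1 hd (H V hV) hB
  have e1 : fin V σ (μ.map (X V)) = (μ.prod ((ns d σ).prod (ns d σ))).map
      (fun w => TT V σ (X V w.1 + w.2.1) + w.2.2) := by
    have h3 : (μ.map (X V)).prod ((ns d σ).prod (ns d σ)) =
        (μ.prod ((ns d σ).prod (ns d σ))).map (Prod.map (X V) id) := by
      rw [← Measure.map_prod_map _ _ mX measurable_id, Measure.map_id]
    have hm : Measurable fun p : E d × (E d × E d) => TT V σ (p.1 + p.2.1) + p.2.2 :=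
      ((measurable_TT hV σ).comp (measurable_fst.add (measurable_fst.comp measurable_snd))).add
        (measurable_snd.comp measurable_snd)
    rw [fin, h3, Measure.map_map hm (mX.prodMap measurable_id)]
    rfl
  rw [hA V, ← e1, target_eq_gibbs]
  exact key

/-- Numerical bookkeeping of the final error. -/
theorem num_err {r C δ σ : ℝ} (hr : 1 ≤ r) (hC : 0 < C) (hrC : 20 * (40 + 400 * C) < r)
    (hσ : σ = 1 / (20 * √r))
    (hδ : δ ≤ 2 * (1 / r ^ 2) * √r + 20 * C * (1 / r ^ 3) * r) :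
    δ / σ + 8 * r * σ ^ 2 + 288 * r * σ ^ 4 ≤ 1 / 10 := by
  have hdp : 0 < r := by linarith
  have hs2 : √r * √r = r := Real.mul_self_sqrt hdp.le
  have hsp : 0 < √r := Real.sqrt_pos.mpr hdp
  have hsqd : √r ≤ r := by rw [Real.sqrt_le_left hdp.le]; nlinarith
  have hsq1 : 1 ≤ √r := Real.one_le_sqrt.mpr hr
  have hσ0 : 0 < σ := by rw [hσ]; positivity
  have e1 : 8 * r * σ ^ 2 = 1 / 50 := by
    rw [hσ, div_pow, mul_pow, Real.sq_sqrt hdp.le]; field_simp; norm_num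
  have e2 : 288 * r * σ ^ 4 ≤ 1 / 500 := by
    have : σ ^ 4 = 1 / (160000 * r ^ 2) := by
      have h4 : √r ^ 4 = r ^ 2 := by
        rw [show (4 : ℕ) = 2 * 2 by norm_num, pow_mul, Real.sq_sqrt hdp.le]
      rw [hσ, div_pow, mul_pow, h4]; norm_num
    rw [this, mul_one_div, div_le_div_iff₀ (by positivity) (by norm_num)]
    nlinarith
  have hu : √r = r * (1 / √r) := by
    rw [mul_one_div, eq_div_iff (ne_of_gt hsp)]; exact hs2
  have e3 : δ / σ ≤ 1 / 20 := by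
    rw [div_le_iff₀ hσ0]
    refine hδ.trans ?_
    have h1 : 1 / 20 * σ = 1 / 400 * (1 / √r) := by
      rw [hσ]; field_simp; norm_num
    have h4 : 2 * (1 / r ^ 2) * √r = 2 / r * (1 / √r) := by
      calc 2 * (1 / r ^ 2) * √r = 2 * (1 / r ^ 2) * (r * (1 / √r)) := by rw [← hu]
        _ = _ := by field_simp
    have h5 : 20 * C * (1 / r ^ 3) * r ≤ 20 * C / r * (1 / √r) := by
      have h6 : 20 * C * (1 / r ^ 3) * r = 20 * C / r * (1 / r) := by field_simp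
      rw [h6]
      have : 1 / r ≤ 1 / √r := one_div_le_one_div_of_le hsp hsqd
      gcongr
    have h7 : (2 + 20 * C) / r ≤ 1 / 400 := by
      rw [div_le_div_iff₀ hdp (by norm_num)]; linarith
    calc 2 * (1 / r ^ 2) * √r + 20 * C * (1 / r ^ 3) * r
        ≤ 2 / r * (1 / √r) + 20 * C / r * (1 / √r) := by rw [h4]; linarith
      _ = (2 + 20 * C) / r * (1 / √r) := by ring
      _ ≤ 1 / 400 * (1 / √r) := by
          have : 0 ≤ 1 / √r := by positivity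
          gcongr
      _ = 1 / 20 * σ := h1.symm
  rw [e1]
  linarith

/-- Numerical bookkeeping of the chain. -/
theorem num_chain {r C s2 D x : ℝ} (hr : 1 ≤ r) (hC : 0 < C) (hx2 : x ≤ 1 / 4)
    (hx0 : 0 < x) (hs : s2 = r ^ (-(2 * x))) (hrC : 4 * C < r) (hD : D = C * r ^ (-3 : ℝ)) :
    0 < s2 ∧ s2 ≤ 1 ∧ 0 ≤ D ∧ D ≤ s2 / 4 ∧ 20 * D * √r / s2 ≤ 20 * C * (1 / r ^ 3) * r := by
  have hdp : 0 < r := by linarith
  have hs0 : 0 < s2 := by rw [hs]; positivity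
  have hs1 : s2 ≤ 1 := by
    rw [hs]; exact Real.rpow_le_one_of_one_le_of_nonpos hr (by linarith)
  have hsq : √r * √r = r := Real.mul_self_sqrt hdp.le
  have hsp : 0 < √r := Real.sqrt_pos.mpr hdp
  have hsqd : √r ≤ r := by rw [Real.sqrt_le_left hdp.le]; nlinarith
  have hge : 1 / √r ≤ s2 := by
    have h1 : r ^ (-(1 / 2) : ℝ) ≤ s2 := by
      rw [hs]; exact Real.rpow_le_rpow_of_exponent_le hr (by linarith)
    have h2 : r ^ (-(1 / 2) : ℝ) = 1 / √r := by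
      rw [Real.rpow_neg hdp.le, Real.sqrt_eq_rpow, one_div, one_div]
    rwa [h2] at h1
  have hd3 : r ^ (-3 : ℝ) = 1 / r ^ 3 := by
    rw [Real.rpow_neg hdp.le, one_div]; norm_cast
  have hD0 : 0 ≤ D := by rw [hD]; positivity
  have hDle : D ≤ s2 / 4 := by
    have h1 : D ≤ 1 / (4 * r) := by
      rw [hD, hd3, mul_one_div, div_le_div_iff₀ (by positivity) (by positivity)]
      have h2 : 4 * C * r ≤ r * r := by nlinarith
      have h3 : r * r ≤ r ^ 3 := by nlinarith [mul_pos hdp hdp]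
      linarith
    have h2 : 1 / (4 * r) ≤ 1 / √r / 4 := by
      rw [div_div, mul_comm (√r) 4]
      apply one_div_le_one_div_of_le (by positivity)
      linarith
    linarith
  refine ⟨hs0, hs1, hD0, hDle, ?_⟩
  rw [div_le_iff₀ hs0]
  have h5 : √r = r * (1 / √r) := by
    rw [mul_one_div, eq_div_iff (ne_of_gt hsp)]; exact hsq
  have h6 : 0 ≤ 20 * C * (1 / r ^ 3) * r := by positivity
  calc 20 * D * √r = 20 * C * (1 / r ^ 3) * r * (1 / √r) := by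
        rw [hD, hd3]
        nth_rewrite 1 [h5]
        ring
    _ ≤ 20 * C * (1 / r ^ 3) * r * s2 := by gcongr

/-- Number of steps. -/
theorem num_steps {r s2 x : ℝ} (hr : 1 ≤ r) (hx0 : 0 < x) (hs : s2 = r ^ (-(2 * x)))
    (hs1 : s2 ≤ 1) {k : ℕ} (hk : k = ⌈8 * Real.log r / s2⌉₊) :
    (1 - s2 / 4) ^ k ≤ 1 / r ^ 2 ∧ (k : ℝ) ≤ (8 / x + 1) * r ^ (3 * x) := by
  have hdp : 0 < r := by linarith
  have hs0 : 0 < s2 := by rw [hs]; positivity
  have hlog0 : 0 ≤ Real.log r := Real.log_nonneg hr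
  have hk1 : 8 * Real.log r / s2 ≤ k := by rw [hk]; exact Nat.le_ceil _
  constructor
  · have h1 : 1 - s2 / 4 ≤ Real.exp (-(s2 / 4)) := by
      have := Real.add_one_le_exp (-(s2 / 4)); linarith
    calc (1 - s2 / 4) ^ k ≤ (Real.exp (-(s2 / 4))) ^ k := by
          apply pow_le_pow_left₀ (by linarith) h1
      _ = Real.exp (-(k * (s2 / 4))) := by rw [← Real.exp_nat_mul]; congr 1; ring
      _ ≤ Real.exp (-(2 * Real.log r)) := by
          apply Real.exp_le_exp.mpr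
          have h2 : 8 * Real.log r / s2 * (s2 / 4) ≤ k * (s2 / 4) := by gcongr
          have h3 : 8 * Real.log r / s2 * (s2 / 4) = 2 * Real.log r := by field_simp; ring
          linarith
      _ = 1 / r ^ 2 := by
          rw [Real.exp_neg, ← Real.log_rpow hdp, Real.exp_log (by positivity), one_div]
          norm_cast
  · have hlog : Real.log r ≤ r ^ x / x := Real.log_le_rpow_div hdp.le hx0
    have hd3x : 1 ≤ r ^ (3 * x) := Real.one_le_rpow hr (by positivity)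
    have h1 : (k : ℝ) ≤ 8 * Real.log r / s2 + 1 := by
      rw [hk]; exact (Nat.ceil_lt_add_one (by positivity)).le
    have h2 : 8 * Real.log r / s2 ≤ 8 / x * r ^ (3 * x) := by
      rw [div_le_iff₀ hs0, hs]
      calc 8 * Real.log r ≤ 8 * (r ^ x / x) := by gcongr
        _ = 8 / x * (r ^ (3 * x) * r ^ (-(2 * x))) := by
            rw [← Real.rpow_add hdp]
            rw [show 3 * x + -(2 * x) = x by ring]; ring
        _ = _ := by ring
    linarith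

/-- The family of visible-centre posterior samplers needed by the outer chain. -/
def HS : Prop := ∀ x A g : ℝ, 0 < x → 0 < A → 0 < g → ∃ C : ℝ, 0 < C ∧ ∀ᶠ d : ℕ in atTop,
  ∃ q : ℕ, (q : ℝ) ≤ C * (d : ℝ) ^ g ∧ VS d q ((d : ℝ) ^ (-x)) (C * (d : ℝ) ^ (-A))

theorem large_of_HS (H : HS) (ε : ℝ) (hε : 0 < ε) : ∃ (C : ℝ) (d0 : ℕ), ∀ d : ℕ, d0 ≤ d →
    ∃ (q : ℕ) (A : QueryAlg d q), (q : ℝ) ≤ C * (d : ℝ) ^ ε ∧
      ∀ V : E d → ℝ, Admissible d V → Succeeds A V := by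
  set x : ℝ := min (ε / 8) (1 / 4) with hx
  have hx0 : 0 < x := lt_min (by positivity) (by norm_num)
  have hx1 : x ≤ ε / 8 := min_le_left _ _
  have hx2 : x ≤ 1 / 4 := min_le_right _ _
  obtain ⟨C, hC, hE⟩ := H x 3 (ε / 8) hx0 (by norm_num) (by positivity)
  obtain ⟨d1, hd1⟩ := eventually_atTop.mp hE
  obtain ⟨d2, hd2⟩ := exists_nat_gt (max (20 * (40 + 400 * C)) (4 * C))
  refine ⟨(8 / x + 1) * C + 1, max d1 (max d2 1), fun d hd => ?_⟩
  have hdd1 : d1 ≤ d := (le_max_left _ _).trans hd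
  have hdd2 : d2 ≤ d := (le_max_left _ _).trans ((le_max_right _ _).trans hd)
  have hd0 : 0 < d := lt_of_lt_of_le one_pos ((le_max_right _ _).trans ((le_max_right _ _).trans hd))
  have hdr : (1 : ℝ) ≤ d := by exact_mod_cast hd0
  have hdp : (0 : ℝ) < d := by linarith
  have hdC : 20 * (40 + 400 * C) < d := by
    have h1 : max (20 * (40 + 400 * C)) (4 * C) < (d : ℝ) := hd2.trans_le (by exact_mod_cast hdd2)
    exact (le_max_left _ _).trans_lt h1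
  have hdC2 : 4 * C < d := by
    have h1 : max (20 * (40 + 400 * C)) (4 * C) < (d : ℝ) := hd2.trans_le (by exact_mod_cast hdd2)
    exact (le_max_right _ _).trans_lt h1
  obtain ⟨q, hq, hVS⟩ := hd1 d hdd1
  set s : ℝ := (d : ℝ) ^ (-x) with hs
  set D : ℝ := C * (d : ℝ) ^ (-3 : ℝ) with hD
  have hs0 : 0 < s := by positivity
  have hs1 : s ≤ 1 := Real.rpow_le_one_of_one_le_of_nonpos hdr (by linarith)
  have hs2 : s ^ 2 = (d : ℝ) ^ (-(2 * x)) := by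
    rw [hs, ← Real.rpow_natCast, ← Real.rpow_mul hdp.le]; congr 1; push_cast; ring
  have hD0 : 0 ≤ D := by positivity
  obtain ⟨hs2p, hs21, hD0', hDle, hchain⟩ := num_chain hdr hC hx2 hx0 hs2 hdC2 hD
  set k : ℕ := ⌈8 * Real.log d / s ^ 2⌉₊ with hk
  obtain ⟨hpow, hk2⟩ := num_steps hdr hx0 hs2 hs21 hk
  have hG := GS_chain hs0 hs1 hd0 hVS hDle hD0 k
  set δ : ℝ := 2 * (1 - s ^ 2 / 4) ^ k * √(d : ℝ) + 20 * D * √(d : ℝ) / s ^ 2 with hδ
  have hδle : δ ≤ 2 * (1 / (d : ℝ) ^ 2) * √(d : ℝ) + 20 * C * (1 / (d : ℝ) ^ 3) * d := by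
    have h0 : 0 ≤ √(d : ℝ) := Real.sqrt_nonneg _
    have h1 : 2 * (1 - s ^ 2 / 4) ^ k * √(d : ℝ) ≤ 2 * (1 / (d : ℝ) ^ 2) * √(d : ℝ) := by
      gcongr
    rw [hδ]
    exact add_le_add h1 hchain
  have hsq1 : 1 ≤ √(d : ℝ) := Real.one_le_sqrt.mpr hdr
  have hσ0 : 0 < 1 / (20 * √(d : ℝ)) := by positivity
  have hσ1 : 1 / (20 * √(d : ℝ)) ≤ 1 := by
    rw [div_le_one (by positivity)]; linarith
  obtain ⟨A, hA⟩ := final_alg hG hσ0 hσ1 hd0
  refine ⟨k * q + 1, A, ?_, fun V hV B hB => (hA V hV B hB).trans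
    (num_err hdr hC hdC rfl hδle)⟩
  have hexp : (d : ℝ) ^ (3 * x) * (d : ℝ) ^ (ε / 8) ≤ (d : ℝ) ^ ε := by
    rw [← Real.rpow_add hdp]
    apply Real.rpow_le_rpow_of_exponent_le hdr
    linarith
  have hde : 1 ≤ (d : ℝ) ^ ε := Real.one_le_rpow hdr hε.le
  have h8x : 0 < 8 / x + 1 := by positivity
  have hprod : (k : ℝ) * q ≤ ((8 / x + 1) * (d : ℝ) ^ (3 * x)) * (C * (d : ℝ) ^ (ε / 8)) :=
    mul_le_mul hk2 hq (Nat.cast_nonneg _) (by positivity)
  have h9 : ((8 / x + 1) * (d : ℝ) ^ (3 * x)) * (C * (d : ℝ) ^ (ε / 8)) ≤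
      ((8 / x + 1) * C) * (d : ℝ) ^ ε := by
    calc ((8 / x + 1) * (d : ℝ) ^ (3 * x)) * (C * (d : ℝ) ^ (ε / 8))
        = ((8 / x + 1) * C) * ((d : ℝ) ^ (3 * x) * (d : ℝ) ^ (ε / 8)) := by ring
      _ ≤ _ := mul_le_mul_of_nonneg_left hexp (by positivity)
  push_cast
  linarith

/-- **TOP**: the statement S0430 from visible-centre posterior samplers. -/
theorem S0430_of_HS (H : HS) :
    ∀ ε : ℝ, 0 < ε → ∃ C : ℝ, ∀ d : ℕ, 2 ≤ d →
      ∃ (q : ℕ) (A : Crest.OracleSampling.QueryAlg d q), (q : ℝ) ≤ C * (d : ℝ) ^ ε ∧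
        ∀ V : Crest.OracleSampling.E d → ℝ, Crest.OracleSampling.Admissible d V →
          Crest.OracleSampling.Succeeds A V :=
  SmallD.of_large fun ε hε => large_of_HS H ε hε

end Crest.Agent.R285.Top
end
end

-- ▼ part R285/Final
section

/-!
Row 285 (S0430): the last link.  The statement from the posterior samplers `SP x g 1 A`, and from the
five lemmas of the recursion.
-/

set_option autoImplicit false

open MeasureTheory ProbabilityTheory Filter Topology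
open Crest.OracleSampling (E Admissible)
open scoped NNReal

noncomputable section

namespace Crest.Agent.R285.Link

theorem vs_of_con {d : ℕ} {s : ℝ} (hs : 0 < s) {N q : ℕ} {L : ℝ≥0} {D : ℝ}
    (h : Con (d := d) (s / 4) N q L (fun V c => post V c s) D) : Top.VS d q s D := by
  obtain ⟨Ω, mΩ, μ, hμ, f, hf, H⟩ := visible_of_con hs h
  exact ⟨Ω, mΩ, μ, hμ, fun V p => f V (p.2, p.1), hf.comap measurable_swap, H⟩

theorem topHS_of_SP (h : ∀ x : ℝ, 0 < x → ∀ A g : ℝ, 0 < g → SP x g 1 A) : Top.HS := by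
  intro x A g hx _ hg
  obtain ⟨C, hC, hS⟩ := h x hx (A / x) (g / x) (by positivity)
  refine ⟨C, hC, ?_⟩
  filter_upwards [hS, eventually_gt_atTop 0] with d hd hd0
  have hdR : (0 : ℝ) < d := by exact_mod_cast hd0
  have hd1 : (1 : ℝ) ≤ d := by exact_mod_cast hd0
  have hs : 0 < (d : ℝ) ^ (-x) := Real.rpow_pos_of_pos hdR _
  have hs1 : (d : ℝ) ^ (-x) ≤ 1 := Real.rpow_le_one_of_one_le_of_nonpos hd1 (by linarith)
  have h1 := hd ((d : ℝ) ^ (-x)) hs (by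
    rw [Real.rpow_one]; change _ ≤ (d : ℝ) ^ (-x); nlinarith)
  have e1 : bt x d ^ (-(g / x)) = (d : ℝ) ^ g := by
    unfold bt
    rw [← Real.rpow_mul hdR.le]
    congr 1; field_simp
  have e2 : bt x d ^ (A / x) = (d : ℝ) ^ (-A) := by
    unfold bt
    rw [← Real.rpow_mul hdR.le]
    congr 1; field_simp
  rw [e1, e2] at h1
  exact ⟨_, Nat.floor_le (by positivity), vs_of_con hs h1⟩

/-- The statement from the posterior samplers. -/
theorem S0430_of_SP (h : ∀ x : ℝ, 0 < x → ∀ A g : ℝ, 0 < g → SP x g 1 A) :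
    ∀ ε : ℝ, 0 < ε → ∃ C : ℝ, ∀ d : ℕ, 2 ≤ d →
      ∃ (q : ℕ) (A : Crest.OracleSampling.QueryAlg d q), (q : ℝ) ≤ C * (d : ℝ) ^ ε ∧
        ∀ V : Crest.OracleSampling.E d → ℝ, Crest.OracleSampling.Admissible d V →
          Crest.OracleSampling.Succeeds A V :=
  Top.S0430_of_HS (topHS_of_SP h)

end Crest.Agent.R285.Link
end
end

-- ▼ part R285/BaseSteps
section

/-!
Row 285 (S0430): the base cases of the recursion.
-/

set_option autoImplicit false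
set_option linter.unusedSectionVars false

open MeasureTheory ProbabilityTheory Filter Topology
open Crest.OracleSampling (E Admissible oracle)
open scoped NNReal
open Crest.Agent.R285.Comp (measurable_oracle)

noncomputable section

namespace Crest.Agent.R285.Rec

open Crest.Agent.R285

variable {d : ℕ}

theorem bt_pos {x : ℝ} {d : ℕ} (hd : 1 ≤ d) : 0 < bt x d :=
  Real.rpow_pos_of_pos (by exact_mod_cast hd) _

theorem bt_le_one {x : ℝ} (hx : 0 ≤ x) {d : ℕ} (hd : 1 ≤ d) : bt x d ≤ 1 :=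
  Real.rpow_le_one_of_one_le_of_nonpos (by exact_mod_cast hd) (by linarith)

theorem tendsto_bt {x : ℝ} (hx : 0 < x) : Tendsto (bt x) atTop (𝓝 0) :=
  (tendsto_rpow_neg_atTop hx).comp tendsto_natCast_atTop_atTop

/-- `β ^ γ` is eventually small. -/
theorem eventually_bt_rpow_le {x γ ε : ℝ} (hx : 0 < x) (hγ : 0 < γ) (hε : 0 < ε) :
    ∀ᶠ d : ℕ in atTop, bt x d ^ γ ≤ ε := by
  have h1 : Tendsto (fun d : ℕ => bt x d ^ γ) atTop (𝓝 (0 ^ γ)) :=
    (tendsto_bt hx).rpow_const (Or.inr hγ.le)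
  rw [Real.zero_rpow hγ.ne'] at h1
  exact (h1.eventually (gt_mem_nhds hε)).mono fun d hd => hd.le

theorem bt_rpow_pos {x : ℝ} {d : ℕ} (hd : 1 ≤ d) (γ : ℝ) : 0 < bt x d ^ γ :=
  Real.rpow_pos_of_pos (bt_pos hd) _

theorem bt_rpow_anti {x : ℝ} (hx : 0 ≤ x) {d : ℕ} (hd : 1 ≤ d) {a b : ℝ} (h : a ≤ b) :
    bt x d ^ b ≤ bt x d ^ a :=
  Real.rpow_le_rpow_of_exponent_ge (bt_pos hd) (bt_le_one hx hd) h

theorem one_le_bt_rpow_neg {x : ℝ} (hx : 0 ≤ x) {d : ℕ} (hd : 1 ≤ d) {g : ℝ} (hg : 0 ≤ g) :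
    1 ≤ bt x d ^ (-g) :=
  Real.one_le_rpow_of_pos_of_le_one_of_nonpos (bt_pos hd) (bt_le_one hx hd) (by linarith)

theorem one_le_floor {x : ℝ} (hx : 0 ≤ x) {d : ℕ} (hd : 1 ≤ d) {g C : ℝ} (hg : 0 ≤ g)
    (hC : 1 ≤ C) : 1 ≤ ⌊C * bt x d ^ (-g)⌋₊ := by
  rw [Nat.one_le_floor_iff]
  nlinarith [one_le_bt_rpow_neg hx hd hg]

theorem integral_norm_gN_sub (c : E d) {s : ℝ} (hs : 0 ≤ s) :
    Integrable (fun z => ‖z - c‖) (gN c s) ∧ ∫ z, ‖z - c‖ ∂(gN c s) ≤ s * √(d : ℝ) := by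
  obtain ⟨h1, h2⟩ := integral_norm_stdGaussian_le (V := E d)
  rw [finrank_euclideanSpace_fin] at h2
  have e1 : ∀ g : E d, ‖c + s • g - c‖ = s * ‖g‖ := by
    intro g
    rw [add_sub_cancel_left, norm_smul, Real.norm_of_nonneg hs]
  constructor
  · rw [gN, integrable_map_measure (by fun_prop) (by fun_prop)]
    simpa only [Function.comp_def, e1] using h1.const_mul s
  · rw [gN, integral_map (by fun_prop) (by fun_prop)]
    simp only [e1]
    rw [integral_const_mul]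
    exact mul_le_mul_of_nonneg_left h2 hs

/-- Closeness of a law with a first moment to a point mass. -/
theorem dLb_dirac {P : Measure (E d)} [IsProbabilityMeasure P] {c : E d} {e : ℝ}
    (hi : Integrable (fun z => ‖z - c‖) P) (he : ∫ z, ‖z - c‖ ∂P ≤ e) :
    DLb P (Measure.dirac c) e := by
  have h1 := DLb.of_coupling (μ := P) (F := fun z => z) (G := fun _ => c)
    measurable_id.aemeasurable measurable_const.aemeasurable
    (by simpa only [dist_eq_norm] using hi) (e := e) (by simpa only [dist_eq_norm] using he)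
  rwa [Measure.map_id', Measure.map_const, measure_univ, one_smul] at h1

/-- Scales are at most one half, for large `d`. -/
theorem le_half_of_sq_le {x a s : ℝ} (hx : 0 ≤ x) (ha : 1 ≤ a) (hs : 0 ≤ s) {d : ℕ} (hd : 1 ≤ d)
    (hb : bt x d ≤ 1 / 4) (h : s ^ 2 ≤ bt x d ^ a) : s ≤ 1 / 2 := by
  have h1 : bt x d ^ a ≤ bt x d := by
    simpa using bt_rpow_anti hx hd ha
  nlinarith

theorem eventually_bt_le {x ε : ℝ} (hx : 0 < x) (hε : 0 < ε) : ∀ᶠ d : ℕ in atTop, bt x d ≤ ε := by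
  simpa using eventually_bt_rpow_le (γ := 1) hx one_pos hε

theorem le_bt_of_sq_le {x a A s : ℝ} (hx : 0 ≤ x) (hs : 0 ≤ s) {d : ℕ} (hd : 1 ≤ d)
    (h : s ^ 2 ≤ bt x d ^ a) (hA : 2 * A ≤ a) : s ≤ bt x d ^ A := by
  refine le_of_sq_le_sq ?_ (bt_rpow_pos hd A).le
  rw [← Real.rpow_natCast (bt x d ^ A), ← Real.rpow_mul (bt_pos hd).le]
  refine h.trans (bt_rpow_anti hx hd ?_)
  push_cast
  linarith

theorem map_fst_eval (N : ℕ) (i : Fin N) (c : E d) (r : ℝ) {Ω : Type} [MeasurableSpace Ω]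
    (μ : Measure Ω) [IsProbabilityMeasure μ] :
    ((Measure.pi fun _ : Fin N => gN c r).prod μ).map
      (fun z : (Fin N → E d) × Ω => z.1 i) = gN c r := by
  have e2 : (fun z : (Fin N → E d) × Ω => z.1 i) = (fun y => y i) ∘ Prod.fst := rfl
  rw [e2, ← Measure.map_map (by fun_prop) (by fun_prop), Measure.map_fst_prod]
  simp only [measure_univ, one_smul]
  exact (measurePreserving_eval (fun _ : Fin N => gN c r) i).map_eq

/-- **Base case for the samplers**: output the draw. -/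
theorem baseS {x : ℝ} (hx : 0 < x) : ∀ g a A : ℝ, 0 < g → 1 ≤ a → 2 * A ≤ a → SP x g a A := by
  intro g a A hg ha hA
  refine ⟨3, by norm_num, ?_⟩
  filter_upwards [eventually_ge_atTop 1, eventually_bt_le hx (show (0:ℝ) < 1 / 4 by norm_num)]
    with d hd hb s hs hsa
  have hs2 := le_half_of_sq_le hx.le ha hs.le hd hb hsa
  have hsA := le_bt_of_sq_le hx.le hs.le hd hsa hA
  have base : Con (d := d) (s / 4) 1 0 1 (fun V c => post V c s) (3 * bt x d ^ A) := by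
    refine ⟨Unit, inferInstance, Measure.dirac (), inferInstance, fun _ z => z.1 0,
      IsQ.const ((measurable_pi_apply 0).comp measurable_fst), fun V hV => ⟨fun ω => ?_, fun c => ?_⟩⟩
    · exact LipschitzWith.eval 0
    · have e1 := map_fst_eval 1 0 c (s / 4) (Measure.dirac ())
      rw [e1]
      obtain ⟨i1, j1⟩ := integral_norm_gN_sub c (s := s / 4) (by positivity)
      have i2 := adm_integrable_norm_sub hV c hs
      have j2 := adm_post_disp hV c hs hs2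
      have hP := adm_isProb_post hV c hs
      refine ((dLb_dirac i1 j1).trans (dLb_dirac i2 j2).symm).mono ?_
      have h0 : 0 ≤ √(d : ℝ) := Real.sqrt_nonneg _
      have h1 : 0 ≤ ‖c‖ := norm_nonneg c
      have h3 : s / 4 * √(d : ℝ) ≤ 1 * (s * (√(d : ℝ) + ‖c‖)) := by nlinarith
      have h4 : 3 * (s * (√(d : ℝ) + ‖c‖)) ≤ 3 * (bt x d ^ A * (√(d : ℝ) + ‖c‖)) := by
        gcongr
      linarith
  refine Con.weaken base ?_ (Nat.zero_le _) ?_ le_rfl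
  · exact one_le_floor hx.le hd hg.le (by norm_num)
  · rw [← Real.toNNReal_one]
    exact Real.toNNReal_le_toNNReal (by norm_num)

/-- **Base case for the noisy gradients**: one query at the draw. -/
theorem baseQ {x : ℝ} (hx : 0 < x) : ∀ g e A : ℝ, 0 < g → 0 < e → A ≤ e → QP x g e A := by
  intro g e A hg he hA
  refine ⟨5, by norm_num, ?_⟩
  filter_upwards [eventually_ge_atTop 1, eventually_bt_le hx (show (0:ℝ) < 1 / 4 by norm_num)]
    with d hd hb s σ hs hσ hsa hsσ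
  have hs2 := le_half_of_sq_le hx.le (le_refl 1) hs.le hd hb (by simpa using hsa)
  have hAe : bt x d ^ e ≤ bt x d ^ A := bt_rpow_anti hx.le hd hA
  have hsA : 2 * s ≤ bt x d ^ A * σ := by nlinarith
  have base : Con (d := d) (s / 4) 1 1 2 (fun V c => gN (G V s c) σ) (5 * bt x d ^ A * σ) := by
    refine ⟨E d, inferInstance, stdGaussian (E d), inferInstance,
      fun V z => gradient V (z.1 0) + σ • z.2, ?_, fun V hV => ⟨fun ω => ?_, fun c => ?_⟩⟩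
    · exact (IsQ.grad (IsQ.const (g := fun z : (Fin 1 → E d) × E d => z.1 0)
        (by fun_prop))).map (g := fun p : ((Fin 1 → E d) × E d) × E d => p.2 + σ • p.1.2)
        (by fun_prop)
    · refine LipschitzWith.of_dist_le_mul fun y y' => ?_
      rw [dist_add_right, dist_eq_norm]
      refine (norm_gradient_sub_le (PotP.of_admissible hV) _ _).trans ?_
      have := dist_le_pi_dist y y' 0
      rw [dist_eq_norm] at this
      push_cast
      linarith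
    · have hgm : Measurable (gradient V) := (continuous_gradient (PotP.of_admissible hV)).measurable
      obtain ⟨i1, j1⟩ := integral_norm_gN_sub c (s := s / 4) (by positivity)
      have j2 := adm_G_sub hV c hs hs2
      -- coupling
      have hF : Measurable fun z : (Fin 1 → E d) × E d => gradient V (z.1 0) + σ • z.2 := by
        fun_prop
      have hG : Measurable fun z : (Fin 1 → E d) × E d => G V s c + σ • z.2 := by fun_prop
      have e2 : gN (G V s c) σ = (((Measure.pi fun _ : Fin 1 => gN c (s / 4)).prod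
          (stdGaussian (E d))).map fun z => G V s c + σ • z.2) := by
        have : (fun z : (Fin 1 → E d) × E d => G V s c + σ • z.2)
          = (fun g => G V s c + σ • g) ∘ Prod.snd := rfl
        rw [this, ← Measure.map_map (by fun_prop) (by fun_prop), Measure.map_snd_prod]
        simp only [measure_univ, one_smul]
        rfl
      beta_reduce
      rw [e2]
      have hm0 := map_fst_eval 1 0 c (s / 4) (stdGaussian (E d))
      have hev : Measurable fun z : (Fin 1 → E d) × E d => z.1 0 := by fun_prop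
      have i3 : Integrable (fun z : (Fin 1 → E d) × E d => ‖z.1 0 - c‖)
          ((Measure.pi fun _ : Fin 1 => gN c (s / 4)).prod (stdGaussian (E d))) := by
        rw [← hm0, integrable_map_measure (by fun_prop) hev.aemeasurable] at i1
        exact i1
      have j3 : ∫ z : (Fin 1 → E d) × E d, ‖z.1 0 - c‖
          ∂((Measure.pi fun _ : Fin 1 => gN c (s / 4)).prod (stdGaussian (E d)))
          ≤ s / 4 * √(d : ℝ) := by
        rw [← hm0, integral_map hev.aemeasurable (by fun_prop)] at j1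
        exact j1
      have bound : ∀ z : (Fin 1 → E d) × E d, dist (gradient V (z.1 0) + σ • z.2)
          (G V s c + σ • z.2) ≤ 2 * ‖z.1 0 - c‖ + 4 * s * (√(d : ℝ) + ‖c‖) := by
        intro z
        rw [dist_add_right, dist_eq_norm]
        have h1 := norm_gradient_sub_le (PotP.of_admissible hV) (z.1 0) c
        have h2 : gradient V (z.1 0) - G V s c
            = (gradient V (z.1 0) - gradient V c) - (G V s c - gradient V c) := by abel
        rw [h2]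
        refine (norm_sub_le _ _).trans ?_
        linarith
      have i4 : Integrable (fun z : (Fin 1 → E d) × E d => 2 * ‖z.1 0 - c‖
          + 4 * s * (√(d : ℝ) + ‖c‖))
          ((Measure.pi fun _ : Fin 1 => gN c (s / 4)).prod (stdGaussian (E d))) :=
        (i3.const_mul _).add (integrable_const _)
      have i5 : Integrable (fun z : (Fin 1 → E d) × E d => dist (gradient V (z.1 0) + σ • z.2)
          (G V s c + σ • z.2))
          ((Measure.pi fun _ : Fin 1 => gN c (s / 4)).prod (stdGaussian (E d))) :=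
        i4.mono' (hF.dist hG).aestronglyMeasurable
          (Eventually.of_forall fun z => by
            rw [Real.norm_of_nonneg dist_nonneg]; exact bound z)
      refine DLb.of_coupling hF.aemeasurable hG.aemeasurable i5 ?_
      refine (integral_mono i5 i4 bound).trans ?_
      rw [integral_add (i3.const_mul _) (integrable_const _), integral_const_mul]
      simp only [integral_const, probReal_univ, smul_eq_mul, one_mul]
      have h0 : 0 ≤ √(d : ℝ) := Real.sqrt_nonneg _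
      have h1 : 0 ≤ ‖c‖ := norm_nonneg c
      have h5 : 2 * (s / 4 * √(d : ℝ)) ≤ s * (√(d : ℝ) + ‖c‖) := by nlinarith
      have h6 : 5 * (s * (√(d : ℝ) + ‖c‖)) ≤ 5 * (bt x d ^ A * σ * (√(d : ℝ) + ‖c‖)) := by
        have : s ≤ bt x d ^ A * σ := by linarith
        gcongr
      linarith
  refine Con.weaken base ?_ ?_ ?_ le_rfl
  · exact one_le_floor hx.le hd hg.le (by norm_num)
  · exact one_le_floor hx.le hd hg.le (by norm_num)
  · rw [show (2 : ℝ≥0) = (2 : ℝ).toNNReal by simp]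
    exact Real.toNNReal_le_toNNReal (by norm_num)

end Crest.Agent.R285.Rec
end
end

-- ▼ part R285/StepS
section

/-!
Row 285 (S0430): the sampler step (composition at a visible centre).
-/

set_option autoImplicit false
set_option linter.unusedSectionVars false

open MeasureTheory ProbabilityTheory Filter Topology
open Crest.OracleSampling (E Admissible oracle)
open scoped NNReal

noncomputable section

namespace Crest.Agent.R285.Rec

open Crest.Agent.R285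

theorem floor_add_le (C C' y : ℝ) (hC : 0 ≤ C) (hC' : 0 ≤ C') (hy : 0 ≤ y) :
    ⌊C * y⌋₊ + ⌊C' * y⌋₊ ≤ ⌊(C + C') * y⌋₊ := by
  have h1 : 0 ≤ C * y := mul_nonneg hC hy
  have h2 : 0 ≤ C' * y := mul_nonneg hC' hy
  rw [add_mul]
  refine Nat.le_floor ?_
  push_cast
  exact add_le_add (Nat.floor_le h1) (Nat.floor_le h2)

theorem floor_mono {C C' y : ℝ} (h : C ≤ C') (hy : 0 ≤ y) : ⌊C * y⌋₊ ≤ ⌊C' * y⌋₊ :=
  Nat.floor_le_floor (mul_le_mul_of_nonneg_right h hy)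

theorem bt_rpow_lt_one {x k : ℝ} (hx : 0 < x) (hk : 0 < k) {d : ℕ} (hd : 2 ≤ d) :
    bt x d ^ k < 1 := by
  have h1 : bt x d < 1 :=
    Real.rpow_lt_one_of_one_lt_of_neg (by exact_mod_cast hd) (by linarith)
  exact Real.rpow_lt_one (bt_pos (by omega)).le h1 hk


/-- The facts on the law of the visible point needed in compositions. -/
theorem TY_facts {d : ℕ} {V : E d → ℝ} (hV : Admissible d V) (c : E d) {s κ : ℝ} (hs : 0 < s)
    (hs2 : s ≤ 1 / 2) (hκ : 0 ≤ κ) (hκ1 : κ ≤ 1) :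
    IsProbabilityMeasure (TY s κ V c) ∧ Integrable (fun y => ‖y‖) (TY s κ V c) ∧
      ∫ y, ‖y‖ ∂(TY s κ V c) ≤ 3 * (√(d : ℝ) + ‖c‖) := by
  have := adm_isProb_post hV c hs
  have h := adm_channel_moment hV c hs hs2 hκ hκ1
  refine ⟨?_, h.1, h.2⟩
  exact Measure.isProbabilityMeasure_map (by fun_prop)

/-- Integrability of `y ↦ ∫ φ d(post V y t)`. -/
theorem integrable_test_post {d : ℕ} {V : E d → ℝ} (hV : Admissible d V) {t : ℝ} (ht : 0 < t)
    {φ : E d → ℝ} (hφ : LipschitzWith 1 φ) (hb : ∃ M, ∀ y, |φ y| ≤ M) (P : Measure (E d))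
    [IsProbabilityMeasure P] : Integrable (fun y => ∫ z, φ z ∂(post V y t)) P := by
  obtain ⟨M, hM⟩ := hb
  have hN := adm_nice hV
  have h1 : StronglyMeasurable fun y => ∫ z, φ z ∂((postK V hN t ht) y) :=
    StronglyMeasurable.integral_kernel (κ := postK V hN t ht) hφ.continuous.stronglyMeasurable
  refine Integrable.mono' (integrable_const M) h1.aestronglyMeasurable
    (Eventually.of_forall fun y => ?_)
  have := adm_isProb_post hV y ht
  simpa using abs_integral_test_le (μ := post V y t) (ψ := φ) hM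

/-- **Sampler step.** -/
theorem stepS {x : ℝ} (hx : 0 < x) : ∀ A g k : ℝ, 0 < A → 0 < g → 0 < k → YP x g k A →
    ∀ a : ℝ, 1 ≤ a → SP x g (a + 2 * k) A → SP x g a A := by
  intro A g k hA hg hk hY a ha hS
  obtain ⟨C₁, hC₁, h₁⟩ := hY
  obtain ⟨C₂, hC₂, h₂⟩ := hS
  refine ⟨C₁ + C₂ + C₁ * C₂ + 4 * C₂, by positivity, ?_⟩
  filter_upwards [h₁, h₂, eventually_ge_atTop 2,
    eventually_bt_le hx (show (0:ℝ) < 1 / 4 by norm_num)] with d H₁ H₂ hd hb s hs hsa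
  have hd1 : 1 ≤ d := by omega
  have hs2 := le_half_of_sq_le hx.le ha hs.le hd1 hb hsa
  have hβ : 0 < bt x d := bt_pos hd1
  have hκ0 : 0 < bt x d ^ k := bt_rpow_pos hd1 k
  have hκ1 : bt x d ^ k < 1 := bt_rpow_lt_one hx hk hd
  have hs1 : s ^ 2 ≤ bt x d := hsa.trans (by simpa using bt_rpow_anti hx.le hd1 ha)
  have hsκ : (s * bt x d ^ k) ^ 2 ≤ bt x d ^ (a + 2 * k) := by
    rw [mul_pow, Real.rpow_add hβ]
    have : (bt x d ^ k) ^ 2 = bt x d ^ (2 * k) := by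
      rw [← Real.rpow_natCast (bt x d ^ k), ← Real.rpow_mul hβ.le]
      congr 1
      push_cast
      ring
    rw [this]
    gcongr
  have hc₁ := H₁ s hs hs1
  have hc₂ := H₂ (s * bt x d ^ k) (by positivity) hsκ
  have hg0 : 0 ≤ bt x d ^ (-g) := (bt_rpow_pos hd1 _).le
  have hA0 : 0 ≤ bt x d ^ A := (bt_rpow_pos hd1 _).le
  have key := Con.visible (K := 3) (T := fun V c => post V c s) hc₁ hc₂ (by positivity)
    (fun V hV c => TY_facts hV c hs hs2 hκ0.le hκ1.le)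
    (fun V hV c φ hφ hb => by
      have hp := (TY_facts hV c hs hs2 hκ0.le hκ1.le).1
      refine ⟨integrable_test_post hV (by positivity) hφ hb _, ?_⟩
      obtain ⟨M, hM⟩ := hb
      have hp2 := adm_isProb_post hV c hs
      have hi : Integrable φ (post V c s) :=
        integrable_test measurable_id hφ hM
      exact (post_channel_integral (adm_nice hV) c hs hκ0 hκ1 hi).symm)
  refine Con.weaken key ?_ ?_ ?_ ?_
  · refine floor_mono ?_ hg0
    nlinarith [mul_pos hC₁ hC₂]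
  · refine (floor_add_le _ _ _ hC₁.le hC₂.le hg0).trans (floor_mono ?_ hg0)
    nlinarith [mul_pos hC₁ hC₂]
  · rw [← Real.toNNReal_mul hC₂.le]
    refine Real.toNNReal_le_toNNReal ?_
    nlinarith [mul_pos hC₁ hC₂]
  · rw [Real.coe_toNNReal _ hC₂.le]
    have h3 : C₂ * (C₁ * bt x d ^ A * s) ≤ C₂ * (C₁ * bt x d ^ A * 1) := by
      gcongr
      linarith
    nlinarith [mul_nonneg hC₁.le hA0, mul_nonneg hC₂.le hA0]

end Crest.Agent.R285.Rec
end
end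

-- ▼ part R285/BtNum
section

/-!
Row 285 (S0430): eventual inequalities between powers of the small parameter `β = bt x d`.
-/

set_option autoImplicit false

open Filter Topology

namespace Crest.Agent.R285.BtNum

theorem bt_pos (x : ℝ) {d : ℕ} (hd : 0 < d) : 0 < bt x d :=
  Real.rpow_pos_of_pos (by exact_mod_cast hd) _

theorem bt_le_one {x : ℝ} (hx : 0 ≤ x) {d : ℕ} (hd : 0 < d) : bt x d ≤ 1 := by
  have h1 : (1 : ℝ) ≤ d := by exact_mod_cast hd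
  exact Real.rpow_le_one_of_one_le_of_nonpos h1 (by linarith)

theorem tendsto_bt {x : ℝ} (hx : 0 < x) : Tendsto (bt x) atTop (𝓝 0) :=
  (tendsto_rpow_neg_atTop hx).comp tendsto_natCast_atTop_atTop

theorem ev_pos (x : ℝ) : ∀ᶠ d : ℕ in atTop, 0 < bt x d := by
  filter_upwards [eventually_gt_atTop 0] with d hd
  exact bt_pos x hd

theorem ev_le_one {x : ℝ} (hx : 0 ≤ x) : ∀ᶠ d : ℕ in atTop, bt x d ≤ 1 := by
  filter_upwards [eventually_gt_atTop 0] with d hd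
  exact bt_le_one hx hd

/-- `C β^a ≤ ε` eventually, for `a > 0`. -/
theorem ev_small {x : ℝ} (hx : 0 < x) {a : ℝ} (ha : 0 < a) (C : ℝ) {ε : ℝ} (hε : 0 < ε) :
    ∀ᶠ d : ℕ in atTop, C * bt x d ^ a ≤ ε := by
  have h1 : Tendsto (fun d => C * bt x d ^ a) atTop (𝓝 (C * 0 ^ a)) :=
    ((tendsto_bt hx).rpow_const (Or.inr ha.le)).const_mul C
  rw [Real.zero_rpow ha.ne', mul_zero] at h1
  filter_upwards [h1.eventually (gt_mem_nhds hε)] with d hd
  exact le_of_lt hd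


/-- Monotonicity in the exponent (β ≤ 1). -/
theorem rpow_anti {x : ℝ} {d : ℕ} (h0 : 0 < bt x d) (h1 : bt x d ≤ 1) {a b : ℝ} (h : b ≤ a) :
    bt x d ^ a ≤ bt x d ^ b :=
  Real.rpow_le_rpow_of_exponent_ge h0 h1 h


end Crest.Agent.R285.BtNum
end

-- ▼ part R285/StepY
section

/-!
Row 285 (S0430), module STEP Y: the asymptotic form used by the recursion.
-/

set_option autoImplicit false
set_option linter.unusedSectionVars false

open MeasureTheory ProbabilityTheory Set Filter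
open Crest.OracleSampling (E Admissible)
open scoped NNReal ENNReal

noncomputable section

namespace Crest.Agent.R285.StepY

open Crest.Agent.R285 Crest.Agent.R285.YSys Crest.Agent.R285.Num

theorem num_pow {u C₁ : ℝ} (hu : 1 ≤ u) (hC : 0 ≤ C₁) {N' M n : ℕ} (K : ℕ)
    (hN : (N' : ℝ) ≤ C₁ * u) (hM : (M : ℝ) ≤ 2 * u) :
    (((N' : ℝ) * (1 + M * (n + 1))) ^ (K + 1)) ≤ (C₁ * (2 * n + 3)) ^ (K + 1) * u ^ (2 * K + 2) := by
  have hn : (0 : ℝ) ≤ n := Nat.cast_nonneg n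
  have a : (1 : ℝ) + M * (n + 1) ≤ (2 * n + 3) * u := by nlinarith
  have b : (N' : ℝ) * (1 + M * (n + 1)) ≤ C₁ * (2 * n + 3) * u ^ 2 := by
    calc (N' : ℝ) * (1 + M * (n + 1)) ≤ (C₁ * u) * ((2 * n + 3) * u) :=
          mul_le_mul hN a (by positivity) (by positivity)
      _ = _ := by ring
  calc (((N' : ℝ) * (1 + M * (n + 1))) ^ (K + 1)) ≤ (C₁ * (2 * n + 3) * u ^ 2) ^ (K + 1) :=
        pow_le_pow_left₀ (by positivity) b _
    _ = _ := by rw [mul_pow, ← pow_mul]; congr 2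

theorem num_N {u C₁ : ℝ} (hu : 1 ≤ u) (hC : 0 ≤ C₁) {N' M n : ℕ} (K : ℕ)
    (hN : (N' : ℝ) ≤ C₁ * u) (hM : (M : ℝ) ≤ 2 * u) :
    ((1 + (1 + M * (n + 1) * (N' * (1 + M * (n + 1))) ^ (K + 1)) * 4 : ℕ) : ℝ) ≤
      (5 + 8 * (n + 1) * (C₁ * (2 * n + 3)) ^ (K + 1)) * u ^ (2 * K + 4) := by
  have hn : (0 : ℝ) ≤ n := Nat.cast_nonneg n
  have h1 := num_pow (n := n) hu hC K hN hM
  have h2 : (M : ℝ) * (n + 1) * (((N' : ℝ) * (1 + M * (n + 1))) ^ (K + 1)) ≤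
      (2 * u * (n + 1)) * ((C₁ * (2 * n + 3)) ^ (K + 1) * u ^ (2 * K + 2)) :=
    mul_le_mul (mul_le_mul_of_nonneg_right hM (by positivity)) h1 (by positivity) (by positivity)
  have h3 : (2 * u * (n + 1)) * ((C₁ * (2 * n + 3)) ^ (K + 1) * u ^ (2 * K + 2)) =
      2 * (n + 1) * (C₁ * (2 * n + 3)) ^ (K + 1) * u ^ (2 * K + 3) := by ring
  have h4 : u ^ (2 * K + 3) ≤ u ^ (2 * K + 4) := pow_le_pow_right₀ hu (by omega)
  have h5 : 1 ≤ u ^ (2 * K + 4) := one_le_pow₀ hu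
  have h6 : 2 * (n + 1) * (C₁ * (2 * n + 3)) ^ (K + 1) * u ^ (2 * K + 3) ≤
      2 * (n + 1) * (C₁ * (2 * n + 3)) ^ (K + 1) * u ^ (2 * K + 4) :=
    mul_le_mul_of_nonneg_left h4 (by positivity)
  push_cast
  rw [h3] at h2
  nlinarith

theorem num_q {u C₁ : ℝ} (hu : 1 ≤ u) (hC : 0 ≤ C₁) {N' M n : ℕ} (K : ℕ)
    (hN : (N' : ℝ) ≤ C₁ * u) (hM : (M : ℝ) ≤ 2 * u) :
    ((M * (n + 1) * (N' * (N' * (1 + M * (n + 1))) ^ (K + 1)) : ℕ) : ℝ) ≤
      (2 * (n + 1) * C₁ * (C₁ * (2 * n + 3)) ^ (K + 1)) * u ^ (2 * K + 4) := by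
  have hn : (0 : ℝ) ≤ n := Nat.cast_nonneg n
  have h1 := num_pow (n := n) hu hC K hN hM
  push_cast
  calc (M : ℝ) * (n + 1) * (N' * ((N' : ℝ) * (1 + M * (n + 1))) ^ (K + 1))
      ≤ (2 * u * (n + 1)) * ((C₁ * u) * ((C₁ * (2 * n + 3)) ^ (K + 1) * u ^ (2 * K + 2))) :=
        mul_le_mul (mul_le_mul_of_nonneg_right hM (by positivity))
          (mul_le_mul hN h1 (by positivity) (by positivity)) (by positivity) (by positivity)
    _ = _ := by ring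

/-- the error terms -/
theorem num_err {b u C₁ Cn X s D' CYn cK : ℝ} {N' : ℕ} {K : ℕ} (hu : 1 ≤ u) (hC : 0 ≤ C₁)
    (hN : (N' : ℝ) ≤ C₁ * u) (hs : 0 < s) (hsb : s ^ 2 ≤ b) (hub : u ^ (K + 1) * b ≤ 1)
    (hD : 0 ≤ D') (hsD : s ^ 2 * D' ≤ C₁ * X) (hX : 0 ≤ X) (hCY : 0 ≤ CYn) (hcK : 0 ≤ cK)
    {T3 T4 : ℝ} (h3 : T3 ≤ Cn ^ (K + 1) * X) (h4 : T4 ≤ Cn * X) :
    2 * (s ^ 2 * CYn * (N' * C₁ * (s ^ 2 * CYn * (D' * QQ 4 2 C₁.toNNReal N' ^ K)) + D' * cK)) +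
      (T3 + T4) ≤
      (2 * CYn ^ 2 * C₁ ^ 3 * (32 * C₁ * (C₁ + 1)) ^ K + 2 * CYn * cK * C₁ + Cn ^ (K + 1) + Cn) * X := by
  have hL : ((C₁.toNNReal : ℝ≥0) : ℝ) = C₁ := Real.coe_toNNReal _ hC
  have hQ : QQ 4 2 C₁.toNNReal N' ≤ 32 * C₁ * (C₁ + 1) * u := by
    unfold QQ
    rw [hL]
    push_cast
    nlinarith [mul_nonneg (by norm_num : (0 : ℝ) ≤ 32) (by linarith : 0 ≤ C₁ + 1)]
  have hQ0 : 0 ≤ QQ 4 2 C₁.toNNReal N' := by unfold QQ; positivity
  have hQK : QQ 4 2 C₁.toNNReal N' ^ K ≤ (32 * C₁ * (C₁ + 1)) ^ K * u ^ K := by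
    rw [← mul_pow]; exact pow_le_pow_left₀ hQ0 hQ K
  have hb0 : 0 ≤ b := (sq_nonneg s).trans hsb
  -- first term
  have e1 : (N' : ℝ) * QQ 4 2 C₁.toNNReal N' ^ K * s ^ 2 ≤
      C₁ * (32 * C₁ * (C₁ + 1)) ^ K := by
    calc (N' : ℝ) * QQ 4 2 C₁.toNNReal N' ^ K * s ^ 2
        ≤ (C₁ * u) * ((32 * C₁ * (C₁ + 1)) ^ K * u ^ K) * b :=
          mul_le_mul (mul_le_mul hN hQK (by positivity) (by positivity)) hsb (by positivity)
            (by positivity)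
      _ = C₁ * (32 * C₁ * (C₁ + 1)) ^ K * (u ^ (K + 1) * b) := by ring
      _ ≤ C₁ * (32 * C₁ * (C₁ + 1)) ^ K * 1 :=
          mul_le_mul_of_nonneg_left hub (by positivity)
      _ = _ := by ring
  have e2 : 2 * (s ^ 2 * CYn * (N' * C₁ * (s ^ 2 * CYn * (D' * QQ 4 2 C₁.toNNReal N' ^ K)))) ≤
      2 * CYn ^ 2 * C₁ ^ 3 * (32 * C₁ * (C₁ + 1)) ^ K * X := by
    calc 2 * (s ^ 2 * CYn * (N' * C₁ * (s ^ 2 * CYn * (D' * QQ 4 2 C₁.toNNReal N' ^ K))))
        = 2 * CYn ^ 2 * C₁ * ((N' : ℝ) * QQ 4 2 C₁.toNNReal N' ^ K * s ^ 2) * (s ^ 2 * D') := by ring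
      _ ≤ 2 * CYn ^ 2 * C₁ * (C₁ * (32 * C₁ * (C₁ + 1)) ^ K) * (C₁ * X) := by
          refine mul_le_mul (mul_le_mul_of_nonneg_left e1 (by positivity)) hsD (by positivity)
            (by positivity)
      _ = _ := by ring
  have e3 : 2 * (s ^ 2 * CYn * (D' * cK)) ≤ 2 * CYn * cK * C₁ * X := by
    calc 2 * (s ^ 2 * CYn * (D' * cK)) = 2 * CYn * cK * (s ^ 2 * D') := by ring
      _ ≤ 2 * CYn * cK * (C₁ * X) := mul_le_mul_of_nonneg_left hsD (by positivity)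
      _ = _ := by ring
  have e4 : 2 * (s ^ 2 * CYn * (N' * C₁ * (s ^ 2 * CYn * (D' * QQ 4 2 C₁.toNNReal N' ^ K)) +
      D' * cK)) = 2 * (s ^ 2 * CYn * (N' * C₁ * (s ^ 2 * CYn * (D' * QQ 4 2 C₁.toNNReal N' ^ K)))) +
      2 * (s ^ 2 * CYn * (D' * cK)) := by ring
  rw [e4]
  linarith

/-- **STEP Y** (the hypothesis `stepY` of `recursion_concrete`), from `SEMY`. -/
theorem stepY_of_SEMY (hS : SEMY) {x : ℝ} (hx : 0 < x) :
    ∀ γ A g : ℝ, 0 < γ → γ ≤ 1 / 64 → 0 < A → 0 < g →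
      ∃ k₀ : ℝ, 0 < k₀ ∧ ∀ k : ℝ, 0 < k → k ≤ k₀ → ∀ A' : ℝ, A' ≤ A →
        (∀ g', 0 < g' → QP x g' (1 - γ) A') → YP x g k A' := by
  intro γ A g hγ hγ1 hA hg
  -- number of sweeps, cost exponent, order
  set K : ℕ := ⌈A⌉₊ with hK
  have hKA : A ≤ (K : ℝ) + 1 := (Nat.le_ceil A).trans (by linarith)
  set g' : ℝ := min g 1 / (2 * K + 4) with hg'
  have hK0 : (0 : ℝ) ≤ K := Nat.cast_nonneg K
  have hmin : 0 < min g 1 := lt_min hg one_pos
  have hg'0 : 0 < g' := by positivity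
  have hg'g : g' * (2 * K + 4) ≤ g := by
    rw [hg', div_mul_cancel₀ _ (by positivity)]; exact min_le_left _ _
  have hg'1 : g' * (K + 1) ≤ 1 := by
    have : g' * (2 * K + 4) ≤ 1 := by
      rw [hg', div_mul_cancel₀ _ (by positivity)]; exact min_le_right _ _
    nlinarith
  set n : ℕ := ⌈(A + 1) / g'⌉₊ with hn
  have hnA : A + 1 ≤ g' * (n + 1) := by
    have h1 : (A + 1) / g' ≤ n := Nat.le_ceil _
    rw [div_le_iff₀ hg'0] at h1
    nlinarith
  obtain ⟨Cn, Pn, hCn, hPn, hsem⟩ := hS n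
  refine ⟨min (γ / 2) (1 / Pn), lt_min (by linarith) (by positivity), ?_⟩
  intro k hk hkk A' hA' hQ
  have hkγ : k < γ := lt_of_le_of_lt (hkk.trans (min_le_left _ _)) (by linarith)
  have hkP : k * Pn ≤ 1 := by
    have := hkk.trans (min_le_right _ _)
    rwa [le_div_iff₀ hPn] at this
  obtain ⟨C₁, hC₁, hQ1⟩ := hQ g' hg'0
  have hCYn := CY_nonneg n
  set CY' : ℝ := CY n + 1 with hCY'
  have hCY'0 : 1 ≤ CY' := by rw [hCY']; linarith
  set cK : ℝ := 2 * 2 * (2 * 4 * 2) ^ K with hcK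
  -- the constants
  set CN : ℝ := 5 + 8 * (n + 1) * (C₁ * (2 * n + 3)) ^ (K + 1) with hCN
  set Cq : ℝ := 2 * (n + 1) * C₁ * (C₁ * (2 * n + 3)) ^ (K + 1) with hCq
  set CL : ℝ := 2 * (1 + (2 * (C₁ + 1) * 2) ^ (K + 1)) with hCL
  set CE : ℝ := 2 * CY n ^ 2 * C₁ ^ 3 * (32 * C₁ * (C₁ + 1)) ^ K + 2 * CY n * cK * C₁ +
    Cn ^ (K + 1) + Cn with hCE
  have hn0 : (0 : ℝ) ≤ n := Nat.cast_nonneg n
  have hCN0 : 0 ≤ CN := by positivity
  have hCq0 : 0 ≤ Cq := by positivity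
  have hCL0 : 0 ≤ CL := by positivity
  have hCE0 : 0 ≤ CE := by positivity
  refine ⟨CN + Cq + CL + CE + 1, by positivity, ?_⟩
  filter_upwards [hQ1, BtNum.ev_pos x, BtNum.ev_le_one hx.le,
    BtNum.ev_small hx (a := 1) one_pos 4 one_pos,
    BtNum.ev_small hx (a := 1) one_pos (CY n) one_pos,
    BtNum.ev_small hx (a := 1) one_pos Cn one_pos,
    BtNum.ev_small hx hk 2 one_pos,
    BtNum.ev_small hx (a := γ - k) (by linarith) (32 * CY') one_pos,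
    BtNum.ev_small hx hg'0 1 hC₁] with d hQd hb0 hb1 hb4 hbCY hbCn hbk hbγ hbg s hs hsb
  set b : ℝ := bt x d with hb
  rw [Real.rpow_one] at hb4 hbCY hbCn
  set κ : ℝ := b ^ k with hκ
  have hκ0 : 0 < κ := Real.rpow_pos_of_pos hb0 _
  have hκ1 : κ ≤ 1 / 2 := by linarith
  set u : ℝ := b ^ (-g') with hu
  have hu1 : 1 ≤ u := Real.one_le_rpow_of_pos_of_le_one_of_nonpos hb0 hb1 (by linarith)
  have hu0 : 0 < u := by linarith
  set M : ℕ := ⌈u⌉₊ with hM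
  have hMu : (M : ℝ) ≤ 2 * u := by
    have := (Nat.ceil_lt_add_one hu0.le).le
    linarith
  have huM : u ≤ M := Nat.le_ceil u
  have hM0 : 0 < M := Nat.ceil_pos.mpr hu0
  set N' : ℕ := ⌊C₁ * b ^ (-g')⌋₊ with hN'
  have hN'u : (N' : ℝ) ≤ C₁ * u := Nat.floor_le (by positivity)
  have hug : b ^ g' * u = 1 := by
    rw [hu, ← Real.rpow_add hb0, add_neg_cancel, Real.rpow_zero]
  have hN'1 : 1 ≤ N' := by
    refine Nat.le_floor ?_
    rw [Nat.cast_one]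
    have : 1 ≤ C₁ * u := by
      calc 1 = b ^ g' * u := hug.symm
        _ ≤ C₁ * u := mul_le_mul_of_nonneg_right (by linarith) hu0.le
    exact this
  have hs2 : s ≤ 1 / 2 := by
    have : s ^ 2 ≤ (1 / 2) ^ 2 := by linarith
    exact le_of_sq_le_sq this (by norm_num)
  set σ : ℝ := κ / (16 * CY' * s) with hσ
  have hσ0 : 0 < σ := by positivity
  have hmar : s ^ 2 * CY n * σ ≤ s * κ / 16 := by
    have e : s ^ 2 * CY' * σ = s * κ / 16 := by rw [hσ]; field_simp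
    rw [← e]
    exact mul_le_mul_of_nonneg_right (mul_le_mul_of_nonneg_left (by linarith) (sq_nonneg s)) hσ0.le
  have hsσ : 2 * s ≤ σ * b ^ (1 - γ) := by
    have e1 : b * b ^ (γ - k) * (κ * b ^ (1 - γ)) = b * (κ * b ^ (1 - k)) := by
      have : b ^ (γ - k) * b ^ (1 - γ) = b ^ (1 - k) := by
        rw [← Real.rpow_add hb0]; congr 1; ring
      calc b * b ^ (γ - k) * (κ * b ^ (1 - γ)) = b * (κ * (b ^ (γ - k) * b ^ (1 - γ))) := by ring
        _ = _ := by rw [this]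
    have e2 : κ * b ^ (1 - γ) = b * b ^ (k - γ) := by
      rw [hκ, ← Real.rpow_add hb0]
      have : b * b ^ (k - γ) = b ^ (1 : ℝ) * b ^ (k - γ) := by rw [Real.rpow_one]
      rw [this, ← Real.rpow_add hb0]; congr 1; ring
    have e3 : b ^ (γ - k) * b ^ (k - γ) = 1 := by
      rw [← Real.rpow_add hb0]; simp
    have e4 : 32 * CY' ≤ b ^ (k - γ) := by
      have h1 : 0 < b ^ (k - γ) := Real.rpow_pos_of_pos hb0 _
      calc 32 * CY' = 32 * CY' * b ^ (γ - k) * b ^ (k - γ) := by rw [mul_assoc, e3, mul_one]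
        _ ≤ 1 * b ^ (k - γ) := mul_le_mul_of_nonneg_right hbγ h1.le
        _ = _ := one_mul _
    rw [hσ, div_mul_eq_mul_div, le_div_iff₀ (by positivity), e2]
    calc 2 * s * (16 * CY' * s) = s ^ 2 * (32 * CY') := by ring
      _ ≤ b * b ^ (k - γ) := mul_le_mul hsb e4 (by positivity) hb0.le
  have hD'0 : 0 ≤ C₁ * b ^ A' * σ := by positivity
  -- the contract in this dimension
  have hfix := fixed (d := d) (n := n) (M := M) (s := s) (κ := κ) (Cn := Cn) (Pn := Pn)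
    (N' := N') (q' := N') (L' := C₁.toNNReal) (D' := C₁ * b ^ A' * σ) (σ := σ) K hM0 hs hs2 hκ0
    hκ1 (by nlinarith) hσ0.le hmar hN'1 hD'0 (by nlinarith)
    (fun V hV c => hsem d V hV s κ hs (by linarith) (by nlinarith) hκ0 hκ1 c M hM0 K) hCn
    (fun r hr hrs => hQd r σ hr hσ0 ((pow_le_pow_left₀ hr.le hrs 2).trans hsb)
      ((mul_le_mul_of_nonneg_left hrs zero_le_two).trans hsσ))
  -- powers of u
  have hupow : u ^ (2 * K + 4) ≤ b ^ (-g) := by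
    rw [hu, ← Real.rpow_natCast, ← Real.rpow_mul hb0.le]
    refine BtNum.rpow_anti hb0 hb1 ?_
    push_cast
    linarith
  have hub : u ^ (K + 1) * b ≤ 1 := by
    have e : u ^ (K + 1) * b = b ^ (1 - g' * (K + 1)) := by
      rw [hu, ← Real.rpow_natCast, ← Real.rpow_mul hb0.le]
      have : b ^ (-g' * ((K + 1 : ℕ) : ℝ)) * b = b ^ (-g' * ((K + 1 : ℕ) : ℝ)) * b ^ (1 : ℝ) := by
        rw [Real.rpow_one]
      rw [this, ← Real.rpow_add hb0]; congr 1; push_cast; ring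
    rw [e]
    exact Real.rpow_le_one hb0.le hb1 (by linarith)
  have hbg0 : 0 ≤ b ^ (-g) := Real.rpow_nonneg hb0.le _
  have hbA : b ^ A ≤ b ^ A' := BtNum.rpow_anti hb0 hb1 hA'
  have hbA0 : 0 < b ^ A' := Real.rpow_pos_of_pos hb0 _
  refine Rec.Con.weaken hfix ?_ ?_ ?_ ?_
  · refine Nat.le_floor ?_
    refine (num_N (n := n) hu1 hC₁.le K hN'u hMu).trans ?_
    calc CN * u ^ (2 * K + 4) ≤ CN * b ^ (-g) := mul_le_mul_of_nonneg_left hupow hCN0
      _ ≤ (CN + Cq + CL + CE + 1) * b ^ (-g) := mul_le_mul_of_nonneg_right (by linarith) hbg0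
  · refine Nat.le_floor ?_
    refine (num_q (n := n) hu1 hC₁.le K hN'u hMu).trans ?_
    calc Cq * u ^ (2 * K + 4) ≤ Cq * b ^ (-g) := mul_le_mul_of_nonneg_left hupow hCq0
      _ ≤ (CN + Cq + CL + CE + 1) * b ^ (-g) := mul_le_mul_of_nonneg_right (by linarith) hbg0
  · rw [← NNReal.coe_le_coe, Real.coe_toNNReal _ (by positivity)]
    push_cast
    rw [Real.coe_toNNReal _ hC₁.le]
    linarith
  · have hX : 0 ≤ b ^ A' * s := by positivity
    have hL : ((C₁.toNNReal : ℝ≥0) : ℝ) = C₁ := Real.coe_toNNReal _ hC₁.le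
    have hsD : s ^ 2 * (C₁ * b ^ A' * σ) ≤ C₁ * (b ^ A' * s) := by
      have e : s ^ 2 * (C₁ * b ^ A' * σ) = (C₁ * (b ^ A' * s)) * (κ / (16 * CY')) := by
        rw [hσ]; field_simp
      rw [e]
      refine mul_le_of_le_one_right (by positivity) ?_
      rw [div_le_one (by positivity)]
      linarith
    have h3 : s * (Cn * s ^ 2) ^ (K + 1) ≤ Cn ^ (K + 1) * (b ^ A' * s) := by
      have e1 : (s ^ 2) ^ (K + 1) ≤ b ^ A' := by
        calc (s ^ 2) ^ (K + 1) ≤ b ^ (K + 1) := pow_le_pow_left₀ (sq_nonneg s) hsb _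
          _ = b ^ (((K + 1 : ℕ) : ℝ)) := (Real.rpow_natCast _ _).symm
          _ ≤ b ^ A := BtNum.rpow_anti hb0 hb1 (by push_cast; exact hKA)
          _ ≤ b ^ A' := hbA
      calc s * (Cn * s ^ 2) ^ (K + 1) = Cn ^ (K + 1) * ((s ^ 2) ^ (K + 1) * s) := by
            rw [mul_pow]; ring
        _ ≤ Cn ^ (K + 1) * (b ^ A' * s) :=
            mul_le_mul_of_nonneg_left (mul_le_mul_of_nonneg_right e1 hs.le) (by positivity)
    have h4 : s * Cn * (κ ^ Pn)⁻¹ * (M : ℝ)⁻¹ ^ (n + 1) ≤ Cn * (b ^ A' * s) := by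
      have e1 : (M : ℝ)⁻¹ ^ (n + 1) ≤ b ^ (g' * (n + 1)) := by
        have h5 : (M : ℝ)⁻¹ ≤ b ^ g' := by
          have : (M : ℝ)⁻¹ ≤ u⁻¹ := inv_anti₀ hu0 huM
          refine this.trans (le_of_eq ?_)
          rw [hu, Real.rpow_neg hb0.le, inv_inv]
        calc (M : ℝ)⁻¹ ^ (n + 1) ≤ (b ^ g') ^ (n + 1) :=
              pow_le_pow_left₀ (by positivity) h5 _
          _ = b ^ (g' * (n + 1)) := by
              rw [← Real.rpow_natCast, ← Real.rpow_mul hb0.le]; push_cast; rfl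
      have e2 : (κ ^ Pn)⁻¹ = b ^ (-(k * Pn)) := by
        rw [hκ, ← Real.rpow_mul hb0.le, Real.rpow_neg hb0.le]
      have e3 : (κ ^ Pn)⁻¹ * (M : ℝ)⁻¹ ^ (n + 1) ≤ b ^ A' := by
        calc (κ ^ Pn)⁻¹ * (M : ℝ)⁻¹ ^ (n + 1) ≤ b ^ (-(k * Pn)) * b ^ (g' * (n + 1)) := by
              rw [e2]; exact mul_le_mul_of_nonneg_left e1 (Real.rpow_nonneg hb0.le _)
          _ = b ^ (g' * (n + 1) - k * Pn) := by rw [← Real.rpow_add hb0]; congr 1; ring
          _ ≤ b ^ A := BtNum.rpow_anti hb0 hb1 (by linarith)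
          _ ≤ b ^ A' := hbA
      calc s * Cn * (κ ^ Pn)⁻¹ * (M : ℝ)⁻¹ ^ (n + 1)
          = Cn * (((κ ^ Pn)⁻¹ * (M : ℝ)⁻¹ ^ (n + 1)) * s) := by ring
        _ ≤ Cn * (b ^ A' * s) :=
            mul_le_mul_of_nonneg_left (mul_le_mul_of_nonneg_right e3 hs.le) hCn.le
    rw [hL]
    refine (num_err (b := b) (u := u) (C₁ := C₁) (Cn := Cn) (X := b ^ A' * s) hu1 hC₁.le hN'u hs
      hsb hub hD'0 hsD hX hCYn (by positivity : 0 ≤ cK) h3 h4).trans ?_
    have : CE * (b ^ A' * s) ≤ (CN + Cq + CL + CE + 1) * (b ^ A' * s) :=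
      mul_le_mul_of_nonneg_right (by linarith) hX
    refine this.trans (le_of_eq (by ring))

end Crest.Agent.R285.StepY
end
end

-- ▼ part R285/Plug
section

/-!
Row 285 (S0430): the final chain, with the remaining inputs as hypotheses.

* `StepQ x`                            (the noisy-gradient step; 204/317/518/214/41/...).

`S0430_of_StepQ` is the statement of S0430 from it.  (`AF`, `SM1Y`, `SEMY`, `StepY`, `StepS`, the base
steps and `TOP` are closed.)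
-/

set_option autoImplicit false

open MeasureTheory ProbabilityTheory Filter Topology
open Crest.OracleSampling (E Admissible)
open scoped NNReal

noncomputable section

namespace Crest.Agent.R285.Plug

open Crest.Agent.R285

/-- The last hypothesis of `recursion_concrete`, verbatim. -/
def StepQ (x : ℝ) : Prop :=
  ∀ ψ γ A g : ℝ, 0 < ψ → ψ ≤ 1 / 4 → 0 < γ → γ ≤ ψ / 16 → 0 < A → 0 < g →
    ∃ k₀ : ℝ, 0 < k₀ ∧ ∀ k : ℝ, 0 < k → k ≤ k₀ → ∀ e : ℝ, 1 / 4 ≤ e → e < A →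
      (∀ g', 0 < g' → QP x g' ((1 + ψ) * e - γ) A) →
      (∀ g', 0 < g' → QP x g' (min ((1 - ψ) * e) 1 - γ) (A - (1 + ψ) * e + γ)) →
      YP x g (2 * k) (A - e + γ) →
      QP x g (e + k) A → QP x g e A

/-- All posterior samplers from `SEM_Y` and the `Q`-step. -/
theorem SP_of_SEMY_StepQ (hY : SEMY) {x : ℝ} (hx : 0 < x) (hQ : StepQ x) :
    ∀ A g : ℝ, 0 < g → SP x g 1 A :=
  recursion_concrete (Rec.baseQ hx) (Rec.baseS hx) (StepY.stepY_of_SEMY hY hx) (Rec.stepS hx) hQ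

/-- The statement of S0430 from `SEM_Y` and the `Q`-step. -/
theorem S0430_of_SEMY_StepQ (hY : SEMY) (hQ : ∀ x : ℝ, 0 < x → StepQ x) :
    ∀ ε : ℝ, 0 < ε → ∃ C : ℝ, ∀ d : ℕ, 2 ≤ d →
      ∃ (q : ℕ) (A : Crest.OracleSampling.QueryAlg d q), (q : ℝ) ≤ C * (d : ℝ) ^ ε ∧
        ∀ V : Crest.OracleSampling.E d → ℝ, Crest.OracleSampling.Admissible d V →
          Crest.OracleSampling.Succeeds A V :=
  Link.S0430_of_SP fun x hx => SP_of_SEMY_StepQ hY hx (hQ x hx)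

/-- The statement of S0430 from the `Q`-step. -/
theorem S0430_of_StepQ (hQ : ∀ x : ℝ, 0 < x → StepQ x) :
    ∀ ε : ℝ, 0 < ε → ∃ C : ℝ, ∀ d : ℕ, 2 ≤ d →
      ∃ (q : ℕ) (A : Crest.OracleSampling.QueryAlg d q), (q : ℝ) ≤ C * (d : ℝ) ^ ε ∧
        ∀ V : Crest.OracleSampling.E d → ℝ, Crest.OracleSampling.Admissible d V →
          Crest.OracleSampling.Succeeds A V :=
  S0430_of_SEMY_StepQ (SM.semY AF.AFall_afc) hQ

end Crest.Agent.R285.Plug
end
end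

-- ▼ part R285/GlueSem
section

/-!
Row 285 (S0430): from a coupling (semantic theorem) to the hypothesis `hsem` of `Con.qstep`.
-/

set_option autoImplicit false
set_option linter.unusedSectionVars false

open MeasureTheory ProbabilityTheory Filter Topology
open Crest.OracleSampling (E Admissible oracle)
open scoped NNReal

noncomputable section

namespace Crest.Agent.R285.Rec

open Crest.Agent.R285

variable {d : ℕ}

/-- `hsem` from a coupling. -/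
theorem hsem_of_coupling {Ξ : Type} [MeasurableSpace Ξ] {ρ : Measure Ξ} [IsProbabilityMeasure ρ]
    {P : Type} [MeasurableSpace P] {p : Ξ → P} (hp : Measurable p) {X₀ : Ξ → E d}
    (hX₀ : Measurable X₀) {v : P → E d} (hv : Measurable v) {Q : Measure P}
    (hQ : ρ.map p = Q) {G₀ : E d} {σb r σ : ℝ} (hX : ρ.map X₀ = gN G₀ σb) (hσb : 0 ≤ σb)
    (hr : 0 ≤ r) (hσ : 0 ≤ σ) (hσr : σb ^ 2 + r ^ 2 = σ ^ 2) {e : ℝ}
    (hi : Integrable (fun ξ => ‖v (p ξ) - X₀ ξ‖) ρ) (he : ∫ ξ, ‖v (p ξ) - X₀ ξ‖ ∂ρ ≤ e) :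
    DLb ((Q.prod (stdGaussian (E d))).map fun z => v z.1 + r • z.2) (gN G₀ σ) e := by
  have e1 : (Q.prod (stdGaussian (E d))).map (fun z => v z.1 + r • z.2)
      = (ρ.prod (stdGaussian (E d))).map fun z => v (p z.1) + r • z.2 := by
    have h1 : Q.prod (stdGaussian (E d)) = (ρ.prod (stdGaussian (E d))).map (Prod.map p id) := by
      rw [← Measure.map_prod_map _ _ hp measurable_id, Measure.map_id, hQ]
    rw [h1, Measure.map_map (by fun_prop) (hp.prodMap measurable_id)]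
    rfl
  have hle : σb ≤ σ := by
    refine le_of_sq_le_sq ?_ hσ
    nlinarith [sq_nonneg r]
  have hr' : r = √(σ ^ 2 - σb ^ 2) := by
    rw [← hσr, add_sub_cancel_left, Real.sqrt_sq hr]
  have e2 : gN G₀ σ = (ρ.prod (stdGaussian (E d))).map fun z => X₀ z.1 + r • z.2 := by
    have h1 : (gN G₀ σb).prod (stdGaussian (E d))
        = (ρ.prod (stdGaussian (E d))).map (Prod.map X₀ id) := by
      rw [← Measure.map_prod_map _ _ hX₀ measurable_id, Measure.map_id, hX]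
    rw [← gN_complete G₀ hσb hle, ← hr', h1, Measure.map_map (by fun_prop)
      (hX₀.prodMap measurable_id)]
    rfl
  rw [e1, e2]
  have hi' : Integrable (fun z : Ξ × E d => ‖v (p z.1) - X₀ z.1‖) (ρ.prod (stdGaussian (E d))) :=
    hi.comp_fst _
  have hd : ∀ z : Ξ × E d, dist (v (p z.1) + r • z.2) (X₀ z.1 + r • z.2) = ‖v (p z.1) - X₀ z.1‖ := by
    intro z
    rw [dist_add_right, dist_eq_norm]
  refine DLb.of_coupling (by fun_prop) (by fun_prop) ?_ ?_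
  · simp only [hd]; exact hi'
  · simp only [hd]
    rw [integral_prod _ hi']
    simpa using he

end Crest.Agent.R285.Rec
end
end

-- ▼ part R285/UnrollW
section

/-!
Row 285 (S0430): the program theorem (with weights) for the unrolled system.
-/

set_option autoImplicit false
set_option linter.unusedSectionVars false

open MeasureTheory ProbabilityTheory
open Crest.OracleSampling (E Admissible)
open scoped NNReal

noncomputable section

namespace Crest.Agent.R285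

theorem LF.tot_wdiv_start_le' {P ι ι' : Type} [Fintype P] [Fintype ι] [Fintype ι'] [DecidableEq P]
    {θ : ℝ} (hθ : |θ| ≤ 1) {z : P} {ω : P → ℝ} (hω : ∀ k, 0 < ω k) (hz : θ = 0 ∨ 1 ≤ ω z)
    (f : LF P ι) : LF.tot (LF.wdiv ω (LF.start (ι' := ι') θ z f)) ≤ LF.tot (LF.wdiv ω f) := by
  simp only [LF.tot, LF.wdiv, LF.start, Pi.add_apply, Pi.zero_apply, abs_zero,
    Finset.sum_const_zero, add_zero]
  have h1 : ∑ k, |(f.2.1 k + (Pi.single z (θ * ∑ j, f.2.2 j) : P → ℝ) k) / ω k|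
      ≤ ∑ k, |f.2.1 k / ω k| + ∑ k, |(Pi.single z (θ * ∑ j, f.2.2 j) : P → ℝ) k / ω k| := by
    rw [← Finset.sum_add_distrib]
    refine Finset.sum_le_sum fun k _ => ?_
    rw [add_div]
    exact abs_add_le _ _
  have h2 : ∑ k, |(Pi.single z (θ * ∑ j, f.2.2 j) : P → ℝ) k / ω k| = |θ * ∑ j, f.2.2 j| / ω z := by
    rw [Finset.sum_eq_single z]
    · rw [Pi.single_eq_same, abs_div, abs_of_pos (hω z)]
    · intro b _ hb; rw [Pi.single_eq_of_ne hb, zero_div, abs_zero]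
    · intro h; exact absurd (Finset.mem_univ z) h
  have h3 : |∑ j, f.2.2 j| ≤ ∑ j, |f.2.2 j| := Finset.abs_sum_le_sum_abs _ _
  have h4 : |θ * ∑ j, f.2.2 j| / ω z ≤ |∑ j, f.2.2 j| := by
    rcases hz with rfl | hz
    · simp
    · rw [abs_mul]
      refine (div_le_self (by positivity) hz).trans ?_
      exact mul_le_of_le_one_left (abs_nonneg _) hθ
  linarith

section prog

variable {d : ℕ} {Pt ι : Type} [Fintype Pt] [Fintype ι] [DecidableEq Pt] {S : FlatSys Pt ι}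
    {ω : Pt → ℝ} {rc : ℝ} {σ rin : ι → ℝ} {N' q' : ℕ} {L' : ℝ≥0} {D' Λ : ℝ} {T : ℝ≥0} {b : ℝ}

theorem ProgDataW.unroll' (h : ProgDataW d S ω rc σ rin N' q' L' D' Λ T b) {θ : ℝ} (hθ : |θ| ≤ 1)
    {z : Pt} (hz : θ = 0 ∨ 1 ≤ ω z) (K : ℕ) :
    ProgDataW d (S.unroll θ z K) ω rc (fun x => σ x.2) (fun x => rin x.2) N' q' L' D' Λ T b where
  rc0 := h.rc0
  ω0 := h.ω0
  totw x := by
    obtain ⟨k, i⟩ := x
    rcases Fin.eq_zero_or_eq_succ k with rfl | ⟨j, rfl⟩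
    · rw [FlatSys.unroll_pt_zero]
      exact (LF.tot_wdiv_start_le' hθ h.ω0 hz _).trans (h.totw i)
    · rw [FlatSys.unroll_pt_succ]
      have e : LF.wdiv ω (LF.lift j.castSucc (S.pt i)) = LF.lift j.castSucc (LF.wdiv ω (S.pt i)) :=
        rfl
      rw [e, LF.tot_lift]
      exact h.totw i
  σ0 x := h.σ0 x.2
  N1 := h.N1
  D0 := h.D0
  Λ1 := h.Λ1
  T1 := h.T1
  b0 := h.b0
  bT := h.bT
  growth V hV x := h.growth V hV x.2
  tot x := by
    obtain ⟨k, i⟩ := x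
    rcases Fin.eq_zero_or_eq_succ k with rfl | ⟨j, rfl⟩
    · rw [FlatSys.unroll_pt_zero]; exact (LF.tot_start_le hθ z _).trans (h.tot i)
    · rw [FlatSys.unroll_pt_succ, LF.tot_lift]; exact h.tot i
  bet x := by
    obtain ⟨k, i⟩ := x
    rcases Fin.eq_zero_or_eq_succ k with rfl | ⟨j, rfl⟩
    · rw [FlatSys.unroll_pt_zero]
      simp only [LF.start, Pi.zero_apply, abs_zero, Finset.sum_const_zero]
      exact h.b0
    · rw [FlatSys.unroll_pt_succ, LF.sum_abs_lift]; exact h.bet i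
  margin x := by
    obtain ⟨k, i⟩ := x
    rcases Fin.eq_zero_or_eq_succ k with rfl | ⟨j, rfl⟩
    · rw [FlatSys.unroll_pt_zero]; exact (LF.nz_start_le θ z _ _ σ _).trans (h.margin i)
    · rw [FlatSys.unroll_pt_succ, LF.nz_lift]; exact h.margin i
  con x := h.con x.2


end prog

end Crest.Agent.R285
end
end

-- ▼ part R285/QDraw
section

/-!
Row 285 (S0430): the UNROLLED Q-system (start `g_i = θ • X₁`) and the draw of its output.

`θ = 1`, `w = 1` if `σb ≤ 1`;  `θ = 0`, `w = σb⁻¹` if `σb > 1`.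
-/

set_option autoImplicit false
set_option linter.unusedSectionVars false

open MeasureTheory ProbabilityTheory
open Crest.OracleSampling (E Admissible)
open scoped NNReal

noncomputable section

namespace Crest.Agent.R285

open Crest.Agent.R285.Num

section prog

variable {d : ℕ} {Pt ι : Type} [Fintype Pt] [Fintype ι] [DecidableEq Pt] {S : FlatSys Pt ι}
    {ω : Pt → ℝ} {rc : ℝ}
    {σ rin : ι → ℝ} {N' q' : ℕ} {L' : ℝ≥0} {D' Λ : ℝ} {T : ℝ≥0} {b : ℝ}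

/-- **Output of the unrolled system**, averaged over four draws of the hidden vector. -/
theorem ProgDataW.outv_unroll (h : ProgDataW d S ω rc σ rin N' q' L' D' Λ T b) {θ : ℝ}
    (hθ : |θ| ≤ 1) (z : Pt) (hz : θ = 0 ∨ 1 ≤ ω z) (K : ℕ)
    {σo D'' bo r : ℝ} {To : ℝ≥0} (hσo : 0 ≤ σo) (hD'' : 0 ≤ D'')
    (hTo : LF.tot S.out ≤ To) (hbo : ∑ j, |S.out.2.2 j| ≤ bo)
    (hcon : ∀ i, Con (d := d) (rin i) N' q' L' (fun V c => gN (G V (S.r i) c) σo) D'')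
    (hr : LF.nz rc (fun _ => σo) S.out ≤ r) {B : ℕ} (hB : 1 + (K + 1) * Fintype.card ι ≤ B) :
    Draw (d := d) (P := Pt → E d) (2 * rc) (4 * (B * (N' * B) ^ (K + 1)))
      (B * (q' * (N' * B) ^ (K + 1))) (To * (1 + (2 * (L' + 1) * T) ^ (K + 1))) r
      (fun V c p => (S.unroll θ z K).outv (G V) c p (K + 1))
      (fun c p => bo * (N' * L' * (b * (D' * QQ Λ T L' N' ^ K))
        + D'' * (2 * T * (2 * Λ * T) ^ K)) * WtW ω c p) := by
  have hcard : Fintype.card (Fin (K + 1) × ι) = (K + 1) * Fintype.card ι := by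
    rw [Fintype.card_prod, Fintype.card_fin]
  have hc : 1 + Fintype.card (Fin (K + 1) × ι) ≤ B := by rw [hcard]; exact hB
  have h1 := (h.unroll' hθ hz K).outv (σo := fun _ => σo) (D'' := D'') (bo := bo) (r := r)
    (To := To) (fun _ => hσo) hD''
    (by
      change LF.tot (LF.lift (Fin.last K) S.out) ≤ To
      rw [LF.tot_lift]; exact hTo)
    (by
      change ∑ j, |(LF.lift (Fin.last K) S.out).2.2 j| ≤ bo
      rw [LF.sum_abs_lift]; exact hbo)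
    (fun x _ => hcon x.2)
    (by
      change LF.nz rc _ (LF.lift (Fin.last K) S.out) ≤ r
      rw [LF.nz_lift]; exact hr) K
  have h2 := GD.avg4 (rc := 2 * rc) (by have := h.rc0; positivity) (by
    have e : 2 * rc / 2 = rc := by ring
    rw [e]; exact h1.toGD)
  have h3 := GD.toDraw h2 (N := 4 * (B * (N' * B) ^ (K + 1)))
    (err' := fun c p => bo * (N' * L' * (b * (D' * QQ Λ T L' N' ^ K))
        + D'' * (2 * T * (2 * Λ * T) ^ K)) * WtW ω c p) ?_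
    (fun V hV c p => le_rfl)
  · refine h3.mono le_rfl ?_ le_rfl (fun c p => le_rfl)
    have hc' : Fintype.card (Fin (K + 1) × ι) ≤ B := by omega
    gcongr
  · simp only [Fintype.card_prod, Fintype.card_fin] at hc ⊢
    have hN := h.N1
    set m := (K + 1) * Fintype.card ι with hm
    have hB1 : 1 ≤ (N' * B) ^ (K + 1) := Nat.one_le_pow _ _ (Nat.mul_pos hN (by omega))
    have hmono : (N' * (1 + m)) ^ (K + 1) ≤ (N' * B) ^ (K + 1) := by
      gcongr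
    calc (1 + m * (N' * (1 + m)) ^ (K + 1)) * 4
        ≤ ((N' * B) ^ (K + 1) + m * (N' * B) ^ (K + 1)) * 4 := by gcongr
      _ = 4 * ((1 + m) * (N' * B) ^ (K + 1)) := by ring
      _ ≤ 4 * (B * (N' * B) ^ (K + 1)) := by gcongr

end prog

namespace QPar

variable {Q : QPar}

namespace Ok

/-- **The output of the unrolled Q-system is drawable**, hidden centre with noise `s / 4`.
`θ = 1, w = 1` (`σb ≤ 1`) or `θ = 0, w = σb⁻¹` (`σb > 1`). -/
theorem drawU {d : ℕ} (h : Q.Ok) {s σb σin σo r D' D'' Λ w θ : ℝ} {N' q' : ℕ} {L' : ℝ≥0}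
    (hs : 0 < s) (hs1 : s ≤ 1) (hσb : 0 < σb) (hρ : Q.ρ = s * σb)
    (hb : Q.bq s σb ≤ 1) (hσin : 0 ≤ σin)
    (hin : σin * (cN Q.n * (s + Q.a0 / (σb * Q.k1))) ≤ Q.k1 / 16) (hN : 1 ≤ N') (hD : 0 ≤ D')
    (hΛ : 1 ≤ Λ) (hw : 0 < w) (hw1 : s / σb ≤ w) (hθ : |θ| ≤ 1) (hθw : θ = 0 ∨ w = 1)
    (growth : ∀ V : E d → ℝ, Admissible d V → ∀ (i : QI Q.n Q.M) x,
      ‖G V (s * Q.sys.r i) x‖ ≤ Λ * (√(d : ℝ) + ‖x‖))
    (con : ∀ i : QI Q.n Q.M, Con (d := d) (s * Q.sys.r i / 4) N' q' L'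
      (fun V c => gN (G V (s * Q.sys.r i) c) σin) D')
    (hσo : 0 ≤ σo) (hD'' : 0 ≤ D'') (hr : cO Q.n / (Q.a0 * Q.t0 * Q.k1) * σo ≤ r)
    (cono : ∀ i : QI Q.n Q.M, Con (d := d) (s * Q.sys.r i / 4) N' q' L'
      (fun V c => gN (G V (s * Q.sys.r i) c) σo) D'') (K : ℕ) {B : ℕ}
    (hB : 1 + (K + 1) * (Q.M * (Q.n + 1) * (1 + (2 * Q.n + 5) * (Q.n + 2))) ≤ B)
    {bo : ℝ} (hbo : cO Q.n / (Q.a0 * Q.t0 * Q.k1) ≤ bo) {To : ℝ≥0} (hTo : 1 + bo ≤ To) :
    Draw (d := d) (P := Fin 3 → E d) (s / 4) (4 * (B * (N' * B) ^ (K + 1)))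
      (B * (q' * (N' * B) ^ (K + 1))) (To * (1 + (2 * (L' + 1) * 4) ^ (K + 1))) r
      (fun V c p => ((Q.osys s).unroll θ 1 K).outv (G V) c p (K + 1))
      (fun c p => bo * (N' * L' * (Q.bq s σb * (D' * QQ Λ 4 L' N' ^ K))
        + D'' * (2 * 4 * (2 * Λ * 4) ^ K)) * WtW (ww w) c p) := by
  have hP := h.progDataW hs hs1 hσb hρ hb hσin hin hN hD hΛ hw hw1 growth con
  have hz : θ = 0 ∨ 1 ≤ ww w 1 := by
    rcases hθw with h | h
    · exact Or.inl h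
    · right; simp [ww, h]
  have h1 := hP.outv_unroll hθ 1 hz K (σo := σo) (D'' := D'') (bo := bo) (r := r) (To := To)
    hσo hD'' ((h.tot_out hs).trans (by linarith)) ((h.sum_out hs).trans hbo) cono
    ((h.nz_out hs hσo).trans hr) (B := B) (by rw [card_QI]; exact hB)
  have e : 2 * (s / 8) = s / 4 := by ring
  rw [e] at h1
  simpa using h1







end Ok

end QPar

end Crest.Agent.R285
end
end

-- ▼ part R285/StepQFix
section

/-!
Row 285 (S0430), module STEP Q, fixed dimension: abstract flat system with three visible vectors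
`![y₁, X₁, q]`.
-/

set_option autoImplicit false
set_option linter.unusedSectionVars false

open MeasureTheory ProbabilityTheory Set Filter
open Crest.OracleSampling (E Admissible)
open scoped NNReal ENNReal

noncomputable section

namespace Crest.Agent.R285.StepQ

open Crest.Agent.R285 Crest.Agent.R285.Rec

variable {d : ℕ}

theorem measurable_WtW {Pt : Type} [Fintype Pt] {ω : Pt → ℝ} (c : E d) :
    Measurable fun p : Pt → E d => WtW ω c p := by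
  unfold WtW
  fun_prop


theorem norm_ww_le {ω₁ : ℝ} (h : 0 ≤ ω₁) (a b c : E d) :
    ‖fun k => QPar.ww ω₁ k • (![a, b, c] : Fin 3 → E d) k‖ ≤ ‖a‖ + ω₁ * ‖b‖ + ‖c‖ := by
  have ha := norm_nonneg a
  have hb := mul_nonneg h (norm_nonneg b)
  have hc := norm_nonneg c
  rw [pi_norm_le_iff_of_nonneg (by positivity)]
  intro k
  fin_cases k
  · simp only [QPar.ww]
    change ‖(1 : ℝ) • a‖ ≤ _
    rw [one_smul]; linarith
  · simp only [QPar.ww]
    change ‖ω₁ • b‖ ≤ _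
    rw [norm_smul, Real.norm_of_nonneg h]; linarith
  · simp only [QPar.ww]
    change ‖(1 : ℝ) • c‖ ≤ _
    rw [one_smul]; linarith

/-- First moment of the visible data, with weights. -/
theorem integral_WtW_PX {V : E d → ℝ} (hV : Admissible d V) (c : E d) {s κ σb ω₁ : ℝ} (hs : 0 < s)
    (hs2 : s ≤ 1 / 2) (hκ : 0 < κ) (hκ1 : κ ≤ 1) (hσb : 0 ≤ σb) (hω : 0 ≤ ω₁) (hω1 : ω₁ ≤ 1)
    (hωσ : ω₁ * σb ≤ 1) :
    Integrable (fun p => WtW (QPar.ww ω₁) c p) (PX (TY s κ) (fun V => G V (s * κ)) σb V c) ∧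
      ∫ p, WtW (QPar.ww ω₁) c p ∂(PX (TY s κ) (fun V => G V (s * κ)) σb V c) ≤
        22 * (√(d : ℝ) + ‖c‖) := by
  obtain ⟨hp, hi, hK⟩ := TY_facts hV c hs hs2 hκ.le hκ1
  let γ : Measure (E d) := stdGaussian (E d)
  have hsκ : 0 < s * κ := mul_pos hs hκ
  have hsκ1 : s * κ ≤ 1 / 2 := by nlinarith
  have hG : Continuous (G V (s * κ)) := by
    have hU : PotP 2 V := ⟨Pot.of_admissible hV, by norm_num⟩
    exact (LipschitzWith.of_dist_le_mul (K := 2) fun x y => by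
      rw [dist_eq_norm, dist_eq_norm]; exact_mod_cast gr_lip hU (s * κ) x y).continuous
  have hmP : Measurable fun z : E d × (E d × E d) =>
      (![z.1, G V (s * κ) z.1 + σb • z.2.1, z.2.2] : Fin 3 → E d) := by
    have := hG.measurable
    exact measurable_vec3 (by fun_prop) (by fun_prop) (by fun_prop)
  have hγi : Integrable (fun g : E d => ‖g‖) γ := StepY.integrable_norm_stdGaussian
  have hγ := StepY.integral_norm_le_sqrt (d := d)
  -- the dominating function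
  let F : E d × (E d × E d) → ℝ := fun z =>
    (√(d : ℝ) + ‖c‖) + ((‖z.1‖ + 4 * (√(d : ℝ) + ‖z.1‖)) + (‖z.2.1‖ + ‖z.2.2‖))
  have hF1 : Integrable (fun z : E d × (E d × E d) => ‖z.1‖ + 4 * (√(d : ℝ) + ‖z.1‖))
      ((TY s κ V c).prod (γ.prod γ)) := by
    have h1 : Integrable (fun y : E d => ‖y‖ + 4 * (√(d : ℝ) + ‖y‖)) (TY s κ V c) :=
      hi.add (((integrable_const _).add hi).const_mul 4)
    exact h1.comp_fst _
  have hF2 : Integrable (fun z : E d × (E d × E d) => ‖z.2.1‖ + ‖z.2.2‖)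
      ((TY s κ V c).prod (γ.prod γ)) := by
    have h1 : Integrable (fun w : E d × E d => ‖w.1‖ + ‖w.2‖) (γ.prod γ) :=
      (hγi.comp_fst _).add (hγi.comp_snd _)
    exact h1.comp_snd _
  have hF : Integrable F ((TY s κ V c).prod (γ.prod γ)) :=
    (integrable_const _).add (hF1.add hF2)
  have hb : ∀ z : E d × (E d × E d),
      WtW (QPar.ww ω₁) c (![z.1, G V (s * κ) z.1 + σb • z.2.1, z.2.2] : Fin 3 → E d) ≤ F z := by
    intro z
    have h1 := norm_ww_le hω z.1 (G V (s * κ) z.1 + σb • z.2.1) z.2.2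
    have h2 : ω₁ * ‖G V (s * κ) z.1 + σb • z.2.1‖ ≤ 4 * (√(d : ℝ) + ‖z.1‖) + ‖z.2.1‖ := by
      have h3 : ‖G V (s * κ) z.1 + σb • z.2.1‖ ≤ 4 * (√(d : ℝ) + ‖z.1‖) + σb * ‖z.2.1‖ := by
        refine (norm_add_le _ _).trans (add_le_add (adm_norm_G hV _ hsκ hsκ1) ?_)
        rw [norm_smul, Real.norm_of_nonneg hσb]
      calc ω₁ * ‖G V (s * κ) z.1 + σb • z.2.1‖
          ≤ ω₁ * (4 * (√(d : ℝ) + ‖z.1‖) + σb * ‖z.2.1‖) := mul_le_mul_of_nonneg_left h3 hω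
        _ = ω₁ * (4 * (√(d : ℝ) + ‖z.1‖)) + (ω₁ * σb) * ‖z.2.1‖ := by ring
        _ ≤ 1 * (4 * (√(d : ℝ) + ‖z.1‖)) + 1 * ‖z.2.1‖ := by gcongr
        _ = _ := by ring
    unfold WtW
    simp only [F]
    linarith
  have hmW := measurable_WtW (d := d) (ω := QPar.ww ω₁) c
  have hW0 : ∀ p : Fin 3 → E d, 0 ≤ WtW (QPar.ww ω₁) c p := fun p => WtW_nonneg c p
  have hI : Integrable (fun z : E d × (E d × E d) =>
      WtW (QPar.ww ω₁) c (![z.1, G V (s * κ) z.1 + σb • z.2.1, z.2.2] : Fin 3 → E d))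
      ((TY s κ V c).prod (γ.prod γ)) := by
    refine Integrable.mono' hF (hmW.comp hmP).aestronglyMeasurable
      (Eventually.of_forall fun z => ?_)
    rw [Real.norm_of_nonneg (hW0 _)]
    exact hb z
  unfold PX
  refine ⟨(integrable_map_measure hmW.aestronglyMeasurable hmP.aemeasurable).2 hI, ?_⟩
  rw [integral_map hmP.aemeasurable hmW.aestronglyMeasurable]
  refine (integral_mono hI hF hb).trans ?_
  have e1 : ∫ z, F z ∂((TY s κ V c).prod (γ.prod γ)) =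
      (√(d : ℝ) + ‖c‖) + ((∫ y, ‖y‖ ∂(TY s κ V c) + 4 * (√(d : ℝ) + ∫ y, ‖y‖ ∂(TY s κ V c)))
        + (∫ g, ‖g‖ ∂γ + ∫ g, ‖g‖ ∂γ)) := by
    have a1 : ∫ z : E d × (E d × E d), (‖z.1‖ + 4 * (√(d : ℝ) + ‖z.1‖))
        ∂((TY s κ V c).prod (γ.prod γ)) =
        ∫ y, ‖y‖ ∂(TY s κ V c) + 4 * (√(d : ℝ) + ∫ y, ‖y‖ ∂(TY s κ V c)) := by
      have b1 : Integrable (fun y : E d => 4 * (√(d : ℝ) + ‖y‖)) (TY s κ V c) :=
        ((integrable_const _).add hi).const_mul 4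
      rw [integral_fun_fst (f := fun y : E d => ‖y‖ + 4 * (√(d : ℝ) + ‖y‖)), probReal_univ, one_smul,
        integral_add hi b1, integral_const_mul,
        integral_add (integrable_const _) hi, integral_const]
      simp
    have a2 : ∫ z : E d × (E d × E d), (‖z.2.1‖ + ‖z.2.2‖)
        ∂((TY s κ V c).prod (γ.prod γ)) = ∫ g, ‖g‖ ∂γ + ∫ g, ‖g‖ ∂γ := by
      rw [integral_fun_snd (f := fun w : E d × E d => ‖w.1‖ + ‖w.2‖), probReal_univ, one_smul,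
        integral_add (hγi.comp_fst _) (hγi.comp_snd _),
        integral_fun_fst (f := fun y : E d => ‖y‖), integral_fun_snd (f := fun y : E d => ‖y‖),
        probReal_univ, one_smul]
    have b2 : Integrable (fun z : E d × (E d × E d) => (‖z.1‖ + 4 * (√(d : ℝ) + ‖z.1‖)) +
        (‖z.2.1‖ + ‖z.2.2‖)) ((TY s κ V c).prod (γ.prod γ)) := hF1.add hF2
    simp only [F]
    rw [integral_add (integrable_const _) b2, integral_const, probReal_univ, one_smul,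
      integral_add hF1 hF2, a1, a2]
  rw [e1]
  have h5 := Real.sqrt_nonneg (d : ℝ)
  have h6 := norm_nonneg c
  have h7 : ∫ g, ‖g‖ ∂γ ≤ √(d : ℝ) := hγ
  linarith

/-- start parameter of the sweeps -/
def th (σb : ℝ) : ℝ := if σb ≤ 1 then 1 else 0

/-- weight of the visible vector `X₁` -/
def wt (σb : ℝ) : ℝ := if σb ≤ 1 then 1 else σb⁻¹

theorem th_abs (σb : ℝ) : |th σb| ≤ 1 := by
  unfold th; split_ifs <;> simp

theorem th_wt (σb : ℝ) : th σb = 0 ∨ wt σb = 1 := by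
  unfold th wt; split_ifs <;> simp

theorem wt_pos {σb : ℝ} (h : 0 < σb) : 0 < wt σb := by
  unfold wt; split_ifs
  · exact one_pos
  · exact inv_pos.2 h

theorem wt_le_one (σb : ℝ) : wt σb ≤ 1 := by
  unfold wt; split_ifs with h
  · exact le_rfl
  · exact inv_le_one_of_one_le₀ (by linarith)

theorem wt_mul_le {σb : ℝ} (h : 0 < σb) : wt σb * σb ≤ 1 := by
  unfold wt; split_ifs with h1
  · rwa [one_mul]
  · rw [inv_mul_cancel₀ h.ne']

theorem le_wt {s σb : ℝ} (hs1 : s ≤ 1) (h : 0 < σb) (h1 : s / σb ≤ 1) : s / σb ≤ wt σb := by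
  unfold wt; split_ifs with h2
  · exact h1
  · rw [div_eq_mul_inv]
    exact mul_le_of_le_one_left (inv_nonneg.2 h.le) hs1

/-- The parameters of the Q-system. -/
def qp (n M : ℕ) (s σb κ t0 a0 : ℝ) : QPar := ⟨n, M, √(1 - κ ^ 2), t0, a0, s * σb⟩

theorem qp_k1 {n M : ℕ} {s σb κ t0 a0 : ℝ} (hκ : 0 < κ) (hκ1 : κ ≤ 1) :
    (qp n M s σb κ t0 a0).k1 = κ := by
  unfold QPar.k1 qp
  rw [Real.sq_sqrt (by nlinarith), show 1 - (1 - κ ^ 2) = κ ^ 2 by ring, Real.sqrt_sq hκ.le]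

theorem qp_ok {n M : ℕ} {s σb κ t0 a0 : ℝ} (hM : 0 < M) (hs : 0 < s) (hσb : 0 < σb) (hκ : 0 < κ)
    (hκ1 : κ < 1) (ht0 : 0 < t0) (ht1 : t0 ≤ 1 / 2) (hat : 1 ≤ a0 * t0) :
    (qp n M s σb κ t0 a0).Ok where
  M0 := hM
  e0 := Real.sqrt_pos.2 (by nlinarith)
  e1 := by
    change √(1 - κ ^ 2) < 1
    rw [Real.sqrt_lt' one_pos]
    nlinarith
  t0 := ht0
  t1 := ht1
  at1 := hat
  ρ0 := mul_pos hs hσb

/-- **STEP Q, fixed dimension**, all numbers explicit.  `σb = σ / √2` is both the noise of `X₁` and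
the mask of the output. -/
theorem fixed {n M K B : ℕ} {s σ σb κ t0 a0 σin σo D' D'' DX DY bo δ : ℝ}
    {N' q' NY qY NX qX : ℕ} {L' LY LX To : ℝ≥0}
    (hs : 0 < s) (hs1 : s ≤ 1 / 2) (hσb : 0 < σb) (hσ : 0 ≤ σ) (hσσ : σb ^ 2 + σb ^ 2 = σ ^ 2)
    (hκ : 0 < κ) (hκ1 : κ ≤ 1 / 2) (hM : 0 < M) (ht0 : 0 < t0) (ht1 : t0 ≤ 1 / 2)
    (hat : 1 ≤ a0 * t0)
    (hb : QPar.cN n * (s ^ 2 + a0 * s / (σb * κ)) ≤ 1)
    (hσin : 0 ≤ σin) (hin : σin * (QPar.cN n * (s + a0 / (σb * κ))) ≤ κ / 16)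
    (hσo : 0 ≤ σo) (hr : QPar.cO n / (a0 * t0 * κ) * σo ≤ σb)
    (hN' : 1 ≤ N') (hD' : 0 ≤ D') (hD'' : 0 ≤ D'') (hDX : 0 ≤ DX)
    (conin : ∀ r, 3 / 4 * κ * s ≤ r → r ≤ s →
      Con (d := d) (r / 4) N' q' L' (fun V c => gN (G V r c) σin) D')
    (conout : ∀ r, 3 / 4 * κ * s ≤ r → r ≤ s →
      Con (d := d) (r / 4) N' q' L' (fun V c => gN (G V r c) σo) D'')
    (conY : Con (d := d) (s / 4) NY qY LY (TY s κ) DY)
    (conX : Con (d := d) (s * κ / 4) NX qX LX (fun V c => gN (G V (s * κ) c) σb) DX)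
    (hB : 1 + (K + 1) * (M * (n + 1) * (1 + (2 * n + 5) * (n + 2))) ≤ B)
    (hbo : QPar.cO n / (a0 * t0 * κ) ≤ bo) (hTo : 1 + bo ≤ To)
    (hsem : ∀ V : E d → ℝ, Admissible d V → ∀ c : E d,
      ∃ (Ξ : Type) (_ : MeasurableSpace Ξ) (P : Measure Ξ) (_ : IsProbabilityMeasure P)
        (p : Ξ → Fin 3 → E d) (X₀ : Ξ → E d), Measurable p ∧ Measurable X₀ ∧
      P.map p = PX (TY s κ) (fun V => G V (s * κ)) σb V c ∧ P.map X₀ = gN (G V s c) σb ∧
      Integrable (fun ω => ‖((qp n M s σb κ t0 a0).osys s).outF (G V) c (p ω)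
        (fun _ => th σb • p ω 1) (K + 1) - X₀ ω‖) P ∧
      ∫ ω, ‖((qp n M s σb κ t0 a0).osys s).outF (G V) c (p ω)
        (fun _ => th σb • p ω 1) (K + 1) - X₀ ω‖ ∂P ≤ δ * (√(d : ℝ) + ‖c‖)) :
    Con (d := d) (s / 4) (NY + 4 * (B * (N' * B) ^ (K + 1)))
      (qY + (qX + B * (q' * (N' * B) ^ (K + 1))))
      (To * (1 + (2 * (L' + 1) * 4) ^ (K + 1)) * max 1 (max LY (LX * LY)))
      (fun V c => gN (G V s c) σ)
      (To * (1 + (2 * (L' + 1) * 4) ^ (K + 1)) * max 1 LX * DY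
        + To * (1 + (2 * (L' + 1) * 4) ^ (K + 1)) * DX * 4
        + 22 * (bo * (N' * L' * (QPar.cN n * (s ^ 2 + a0 * s / (σb * κ)) * (D' * QQ 4 4 L' N' ^ K))
          + D'' * (2 * 4 * (2 * 4 * 4) ^ K))) + δ) := by
  set Q := qp n M s σb κ t0 a0 with hQ
  have hok : Q.Ok := qp_ok hM hs hσb hκ (by linarith) ht0 ht1 hat
  have hk1 : Q.k1 = κ := qp_k1 hκ (by linarith)
  have hbq : Q.bq s σb = QPar.cN n * (s ^ 2 + a0 * s / (σb * κ)) := by
    unfold QPar.bq; rw [hk1]; rfl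
  have hri : ∀ i : QI Q.n Q.M, 3 / 4 * κ * s ≤ s * Q.sys.r i ∧ s * Q.sys.r i ≤ s := fun i => by
    have h1 := hok.r_ge i
    have h2 := hok.r_le i
    rw [hk1] at h1
    constructor
    · calc 3 / 4 * κ * s = s * (3 / 4 * κ) := by ring
        _ ≤ _ := mul_le_mul_of_nonneg_left h1 hs.le
    · calc s * Q.sys.r i ≤ s * 1 := mul_le_mul_of_nonneg_left h2 hs.le
        _ = s := mul_one s
  have hri0 : ∀ i : QI Q.n Q.M, 0 < s * Q.sys.r i := fun i => mul_pos hs (hok.r_pos i)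
  have hdraw := hok.drawU (d := d) (s := s) (σb := σb) (σin := σin) (σo := σo) (r := σb) (D' := D')
    (D'' := D'') (Λ := 4) (w := wt σb) (θ := th σb) (N' := N') (q' := q') (L' := L') hs
    (by linarith) hσb rfl (by rw [hbq]; exact hb) hσin (by rw [hk1]; exact hin) hN' hD'
    (by norm_num) (wt_pos hσb)
    (le_wt (by linarith) hσb (hok.s_div_le hs hσb (by rw [hbq]; exact hb))) (th_abs σb) (th_wt σb)
    (fun V hV i x => adm_norm_G hV x (hri0 i) ((hri i).2.trans hs1))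
    (fun i => conin _ (hri i).1 (hri i).2) hσo hD'' (by rw [hk1]; exact hr)
    (fun i => conout _ (hri i).1 (hri i).2) K (B := B) hB (bo := bo)
    (by rw [hk1]; exact hbo) (To := To) hTo
  have hcont : ∀ V : E d → ℝ, Admissible d V → ∀ r : ℝ, Continuous (G V r) := fun V hV r => by
    have hU : PotP 2 V := ⟨Pot.of_admissible hV, by norm_num⟩
    exact (LipschitzWith.of_dist_le_mul (K := 2) fun x y => by
      rw [dist_eq_norm, dist_eq_norm]; exact_mod_cast gr_lip hU r x y).continuous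
  have hvm : ∀ V : E d → ℝ, Admissible d V → ∀ c : E d, Measurable fun p : Fin 3 → E d =>
      ((Q.osys s).unroll (th σb) 1 K).outv (G V) c p (K + 1) := fun V hV c =>
    (YSys.continuous_outv _ (hcont V hV) (fun k => by fun_prop) _).measurable
  have hE0 : 0 ≤ bo * (N' * L' * (Q.bq s σb * (D' * QQ 4 4 L' N' ^ K))
      + D'' * (2 * 4 * (2 * 4 * 4) ^ K)) := by
    have h0 : 0 ≤ bo := by
      refine le_trans ?_ hbo
      have := QPar.cO_nonneg n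
      have : 0 < a0 := by
        by_contra hc; push Not at hc; nlinarith
      positivity
    have h1 : 0 ≤ QQ 4 4 L' N' := by unfold QQ; positivity
    have h2 := hok.bq_nonneg hs hσb
    positivity
  have key := Con.qstep (σ := σ) (K := 3) (Gout := fun V c => G V s c) (δ := δ)
    (Derr := 22 * (bo * (N' * L' * (Q.bq s σb * (D' * QQ 4 4 L' N' ^ K))
      + D'' * (2 * 4 * (2 * 4 * 4) ^ K)))) conY conX hDX hdraw
    (fun V hV c => TY_facts hV c hs hs1 hκ.le (by linarith))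
    (fun V hV => (hcont V hV _).measurable) hvm
    (fun V hV c => by
      have h1 := integral_WtW_PX hV c hs hs1 hκ (by linarith : κ ≤ 1) hσb.le (wt_pos hσb).le
        (wt_le_one σb) (wt_mul_le hσb)
      refine ⟨h1.1.const_mul _, ?_⟩
      rw [integral_const_mul]
      calc _ ≤ bo * (N' * L' * (Q.bq s σb * (D' * QQ 4 4 L' N' ^ K))
            + D'' * (2 * 4 * (2 * 4 * 4) ^ K)) * (22 * (√(d : ℝ) + ‖c‖)) :=
            mul_le_mul_of_nonneg_left h1.2 hE0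
        _ = _ := by ring)
    (fun V hV c => by
      obtain ⟨Ξ, _, P, _, p, X₀, hp, hX₀, hlp, hlX, hi, he⟩ := hsem V hV c
      have e1 : ∀ ω, ((Q.osys s).unroll (th σb) 1 K).outv (G V) c (p ω) (K + 1) =
          (Q.osys s).outF (G V) c (p ω) (fun _ => th σb • p ω 1) (K + 1) := fun ω =>
        FlatSys.outv_unroll _ _ _ _ _ _ _
      refine hsem_of_coupling hp hX₀ (hvm V hV c) hlp hlX hσb.le hσb.le hσ hσσ ?_ ?_
      · simp only [e1]; exact hi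
      · simp only [e1]; exact he)
  rw [hbq] at key
  have e4 : (4 : ℝ) = 1 + 3 := by norm_num
  refine Exists.elim key fun Ω hΩ => ?_
  have h3' : Con (d := d) (s / 4) _ _ _ _ _ := ⟨Ω, hΩ⟩
  refine cast ?_ h3'
  congr 1
  push_cast
  ring

end Crest.Agent.R285.StepQ
end
end

-- ▼ part R285/StepQSem
section

/-!
Row 285 (S0430), module STEP Q, fixed dimension, with the semantic statement SEM_Q plugged in.
-/

set_option autoImplicit false
set_option linter.unusedSectionVars false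

open MeasureTheory ProbabilityTheory Set Filter
open Crest.OracleSampling (E Admissible)
open scoped NNReal ENNReal

noncomputable section

namespace Crest.Agent.R285.StepQ

open Crest.Agent.R285 Crest.Agent.R285.Rec

/-- The body of `SEMQ` for the order `n` with the constants `C`, `P`. -/
def SemQn (n : ℕ) (C : ℝ) (P : ℕ) : Prop :=
  ∀ (d : ℕ) (V : E d → ℝ), Admissible d V →
    ∀ (s σ κ t0 a0 : ℝ), 0 < s → 0 < σ → 0 < κ → κ ≤ 1 / 2 → 0 < t0 → t0 ≤ 1 / 2 → 1 ≤ a0 * t0 →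
    C * (s ^ 2 + a0 * s / (σ * κ)) ≤ 1 → ∀ (c : E d) (M : ℕ), 0 < M → ∀ K : ℕ,
    ∃ (p : (E d × E d) × E d → Fin 3 → E d) (X₀ : (E d × E d) × E d → E d),
      Measurable p ∧ Measurable X₀ ∧
      (gam3 (E d)).map p = Rec.PX (TY s κ) (fun V => G V (s * κ)) σ V c ∧
      (gam3 (E d)).map X₀ = gN (G V s c) σ ∧
      Integrable (fun ω => ‖qout (qpar n M s σ κ t0 a0) s (qth σ) K V c (p ω) - X₀ ω‖)
        (gam3 (E d)) ∧
      ∫ ω, ‖qout (qpar n M s σ κ t0 a0) s (qth σ) K V c (p ω) - X₀ ω‖ ∂(gam3 (E d)) ≤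
        σ * (C * a0 * M * (κ ^ P)⁻¹ * ((C * (s ^ 2 + a0 * s / (σ * κ))) ^ K +
          (M : ℝ)⁻¹ ^ (n + 1) + t0 ^ (n + 1) + (a0 * s / σ) ^ (n + 1))) * (√(d : ℝ) + ‖c‖)

theorem semq_iff : SEMQ ↔ ∀ n : ℕ, ∃ (C : ℝ) (P : ℕ), 1 ≤ C ∧ SemQn n C P := Iff.rfl

/-- **STEP Q, fixed dimension**, with SEM_Q. -/
theorem fixed_sem {d n M K B : ℕ} {Cn : ℝ} {P : ℕ} (hS : SemQn n Cn P)
    {s σ σb κ t0 a0 σin σo D' D'' DX DY bo : ℝ}
    {N' q' NY qY NX qX : ℕ} {L' LY LX To : ℝ≥0}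
    (hs : 0 < s) (hs1 : s ≤ 1 / 2) (hσb : 0 < σb) (hσ : 0 ≤ σ) (hσσ : σb ^ 2 + σb ^ 2 = σ ^ 2)
    (hκ : 0 < κ) (hκ1 : κ ≤ 1 / 2) (hM : 0 < M) (ht0 : 0 < t0) (ht1 : t0 ≤ 1 / 2)
    (hat : 1 ≤ a0 * t0)
    (hb : QPar.cN n * (s ^ 2 + a0 * s / (σb * κ)) ≤ 1)
    (hbn : Cn * (s ^ 2 + a0 * s / (σb * κ)) ≤ 1)
    (hσin : 0 ≤ σin) (hin : σin * (QPar.cN n * (s + a0 / (σb * κ))) ≤ κ / 16)
    (hσo : 0 ≤ σo) (hr : QPar.cO n / (a0 * t0 * κ) * σo ≤ σb)
    (hN' : 1 ≤ N') (hD' : 0 ≤ D') (hD'' : 0 ≤ D'') (hDX : 0 ≤ DX)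
    (conin : ∀ r, 3 / 4 * κ * s ≤ r → r ≤ s →
      Con (d := d) (r / 4) N' q' L' (fun V c => gN (G V r c) σin) D')
    (conout : ∀ r, 3 / 4 * κ * s ≤ r → r ≤ s →
      Con (d := d) (r / 4) N' q' L' (fun V c => gN (G V r c) σo) D'')
    (conY : Con (d := d) (s / 4) NY qY LY (TY s κ) DY)
    (conX : Con (d := d) (s * κ / 4) NX qX LX (fun V c => gN (G V (s * κ) c) σb) DX)
    (hB : 1 + (K + 1) * (M * (n + 1) * (1 + (2 * n + 5) * (n + 2))) ≤ B)
    (hbo : QPar.cO n / (a0 * t0 * κ) ≤ bo) (hTo : 1 + bo ≤ To) :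
    Con (d := d) (s / 4) (NY + 4 * (B * (N' * B) ^ (K + 1)))
      (qY + (qX + B * (q' * (N' * B) ^ (K + 1))))
      (To * (1 + (2 * (L' + 1) * 4) ^ (K + 1)) * max 1 (max LY (LX * LY)))
      (fun V c => gN (G V s c) σ)
      (To * (1 + (2 * (L' + 1) * 4) ^ (K + 1)) * max 1 LX * DY
        + To * (1 + (2 * (L' + 1) * 4) ^ (K + 1)) * DX * 4
        + 22 * (bo * (N' * L' * (QPar.cN n * (s ^ 2 + a0 * s / (σb * κ)) * (D' * QQ 4 4 L' N' ^ K))
          + D'' * (2 * 4 * (2 * 4 * 4) ^ K)))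
        + σb * (Cn * a0 * M * (κ ^ P)⁻¹ * ((Cn * (s ^ 2 + a0 * s / (σb * κ))) ^ K +
          (M : ℝ)⁻¹ ^ (n + 1) + t0 ^ (n + 1) + (a0 * s / σb) ^ (n + 1)))) := by
  refine fixed hs hs1 hσb hσ hσσ hκ hκ1 hM ht0 ht1 hat hb hσin hin hσo hr hN' hD' hD'' hDX
    conin conout conY conX hB hbo hTo fun V hV c => ?_
  obtain ⟨p, X₀, hp, hX, h1, h2, h3, h4⟩ :=
    hS d V hV s σb κ t0 a0 hs hσb hκ hκ1 ht0 ht1 hat hbn c M hM K
  exact ⟨(E d × E d) × E d, inferInstance, gam3 (E d), inferInstance, p, X₀, hp, hX, h1, h2, h3, h4⟩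

end Crest.Agent.R285.StepQ
end
end

-- ▼ part R285/QNum
section

/-!
Row 285 (S0430), STEP Q: the choice of the numbers and all inequalities (pure real numbers).

`b = β ∈ (0, 1]`; `1/4 ≤ e < A`, `0 < ψ ≤ 1/4`, `0 < γ ≤ ψ/16`, `0 < δ ≤ γ/8`, `0 < k ≤ γ/16`;
`κ = b^(2k)`, `t₀ = b^δ`, `a₀ = b^(-ψ e)`, `σb = r = σ/√2`, `m = min ((1-ψ)e) 1`;
`σin = κ/(16 cN (s + a₀/(σb κ)))`, `bo = (cO+1)/(a₀ t₀ κ)`, `σo = r/bo`.
-/

set_option autoImplicit false

open Filter Topology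

noncomputable section

namespace Crest.Agent.R285.QNum

open Crest.Agent.R285.BtNum

/-- admissible exponents -/
structure Ex (ψ γ A e δ k : ℝ) : Prop where
  ψ0 : 0 < ψ
  ψ1 : ψ ≤ 1 / 4
  γ0 : 0 < γ
  γ1 : γ ≤ ψ / 16
  e0 : 1 / 4 ≤ e
  e1 : e < A
  δ0 : 0 < δ
  δ1 : δ ≤ γ / 8
  k0 : 0 < k
  k1 : k ≤ γ / 16

/-- the numbers `s, σ` -/
structure Sc (b e s σ : ℝ) : Prop where
  b0 : 0 < b
  b1 : b ≤ 1
  s0 : 0 < s
  σ0 : 0 < σ
  sb : s ^ 2 ≤ b
  sσ : 2 * s ≤ σ * b ^ e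

variable {ψ γ A e δ k b s σ : ℝ}

theorem anti (hb0 : 0 < b) (hb1 : b ≤ 1) {u v : ℝ} (h : v ≤ u) : b ^ u ≤ b ^ v :=
  Real.rpow_le_rpow_of_exponent_ge hb0 hb1 h

theorem pos (hb0 : 0 < b) (u : ℝ) : 0 < b ^ u := Real.rpow_pos_of_pos hb0 u


namespace Sc

variable (h : Sc b e s σ)
include h

theorem s1 : s ≤ 1 := by
  have h1 := h.sb
  have h2 := h.b1
  have h3 := h.s0
  nlinarith

theorem σb0 : 0 < σ / √2 := div_pos h.σ0 (by positivity)

theorem sσb : s / (σ / √2) ≤ b ^ e := by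
  have h1 := h.sσ
  have h2 := h.σb0
  have h3 : 0 < b ^ e := pos h.b0 e
  have h4 : √2 ≤ 2 := by
    rw [Real.sqrt_le_left (by norm_num)]; norm_num
  have h5 : 0 < √2 := by positivity
  rw [div_le_iff₀ h2, ← mul_div_assoc, le_div_iff₀ h5]
  calc s * √2 ≤ s * 2 := mul_le_mul_of_nonneg_left h4 h.s0.le
    _ ≤ b ^ e * σ := by linarith

end Sc

/-- `m - 2k ≥ 1/8` -/
theorem Ex.m_ge (h : Ex ψ γ A e δ k) : 1 / 8 ≤ min ((1 - ψ) * e) 1 - 2 * k := by
  have h1 := h.ψ0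
  have h2 := h.ψ1
  have h3 := h.γ1
  have h4 := h.e0
  have h5 := h.k1
  have h6 : 3 / 16 ≤ (1 - ψ) * e := by nlinarith
  have h7 : 3 / 16 ≤ min ((1 - ψ) * e) 1 := le_min h6 (by norm_num)
  linarith

/-- `a₀ s/(σb κ) ≤ b^((1-ψ)e - 2k)` -/
theorem a0s_le (h : Sc b e s σ) (ψ k : ℝ) :
    b ^ (-(ψ * e)) * s / (σ / √2 * b ^ (2 * k)) ≤ b ^ ((1 - ψ) * e - 2 * k) := by
  have h0 := h.b0
  have h1 := h.sσb
  have h2 := h.σb0
  have h3 : 0 < b ^ (2 * k) := pos h0 _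
  have h4 : 0 < b ^ (-(ψ * e)) := pos h0 _
  have e1 : b ^ ((1 - ψ) * e - 2 * k) = b ^ (-(ψ * e)) * b ^ e * (b ^ (2 * k))⁻¹ := by
    rw [← Real.rpow_neg h0.le, ← Real.rpow_add h0, ← Real.rpow_add h0]; congr 1; ring
  rw [e1]
  calc b ^ (-(ψ * e)) * s / (σ / √2 * b ^ (2 * k))
      = b ^ (-(ψ * e)) * (s / (σ / √2)) * (b ^ (2 * k))⁻¹ := by
        field_simp
    _ ≤ b ^ (-(ψ * e)) * b ^ e * (b ^ (2 * k))⁻¹ := by gcongr

/-- `s² + a₀ s/(σb κ) ≤ 2 b^(m - 2k)` -/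
theorem eta_le (h : Sc b e s σ) (hk : 0 ≤ k) :
    s ^ 2 + b ^ (-(ψ * e)) * s / (σ / √2 * b ^ (2 * k))
      ≤ 2 * b ^ (min ((1 - ψ) * e) 1 - 2 * k) := by
  have h1 := a0s_le h ψ k
  have h2 : b ^ ((1 - ψ) * e - 2 * k) ≤ b ^ (min ((1 - ψ) * e) 1 - 2 * k) :=
    anti h.b0 h.b1 (by linarith [min_le_left ((1 - ψ) * e) 1])
  have h3 : s ^ 2 ≤ b ^ (min ((1 - ψ) * e) 1 - 2 * k) := by
    refine h.sb.trans ?_
    calc b = b ^ (1 : ℝ) := (Real.rpow_one b).symm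
      _ ≤ _ := anti h.b0 h.b1 (by linarith [min_le_right ((1 - ψ) * e) 1])
  linarith

theorem eta_pos (h : Sc b e s σ) :
    0 < s ^ 2 + b ^ (-(ψ * e)) * s / (σ / √2 * b ^ (2 * k)) := by
  have := h.b0
  have := h.s0
  have := h.σb0
  have : 0 < b ^ (2 * k) := pos h.b0 _
  have : 0 < b ^ (-(ψ * e)) := pos h.b0 _
  positivity

/-- `C (s² + a₀ s/(σb κ)) ≤ 1` if `2 C b^(1/8) ≤ 1`. -/
theorem eta_small (hE : Ex ψ γ A e δ k) (h : Sc b e s σ) {C : ℝ} (hC : 0 ≤ C)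
    (hb : 2 * C * b ^ (1 / 8 : ℝ) ≤ 1) :
    C * (s ^ 2 + b ^ (-(ψ * e)) * s / (σ / √2 * b ^ (2 * k))) ≤ 1 := by
  have h1 := eta_le (ψ := ψ) h hE.k0.le
  have h2 : b ^ (min ((1 - ψ) * e) 1 - 2 * k) ≤ b ^ (1 / 8 : ℝ) := anti h.b0 h.b1 hE.m_ge
  calc C * _ ≤ C * (2 * b ^ (1 / 8 : ℝ)) := mul_le_mul_of_nonneg_left (by linarith) hC
    _ = 2 * C * b ^ (1 / 8 : ℝ) := by ring
    _ ≤ 1 := hb

/-! ### the inner calls -/

/-- output noise of the inner calls -/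
def sin (cN b ψ e k s σ : ℝ) : ℝ :=
  b ^ (2 * k) / (16 * (cN * (s + b ^ (-(ψ * e)) / (σ / √2 * b ^ (2 * k)))))

theorem sden_pos (h : Sc b e s σ) : 0 < s + b ^ (-(ψ * e)) / (σ / √2 * b ^ (2 * k)) := by
  have := h.b0
  have := h.s0
  have := h.σb0
  have : 0 < b ^ (2 * k) := pos h.b0 _
  have : 0 < b ^ (-(ψ * e)) := pos h.b0 _
  positivity

theorem sin_pos (h : Sc b e s σ) {cN : ℝ} (hc : 0 < cN) : 0 < sin cN b ψ e k s σ := by
  have h1 := sden_pos (ψ := ψ) (k := k) h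
  have : 0 < b ^ (2 * k) := pos h.b0 _
  unfold sin
  positivity

/-- the mask inequality -/
theorem sin_mask (h : Sc b e s σ) {cN : ℝ} (hc : 0 < cN) :
    sin cN b ψ e k s σ * (cN * (s + b ^ (-(ψ * e)) / (σ / √2 * b ^ (2 * k))))
      ≤ b ^ (2 * k) / 16 := by
  have h1 := sden_pos (ψ := ψ) (k := k) h
  refine le_of_eq ?_
  unfold sin
  generalize s + b ^ (-(ψ * e)) / (σ / √2 * b ^ (2 * k)) = D at h1 ⊢
  field_simp

/-- `cN (s² + a₀ s/(σb κ)) σin = s κ/16` -/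
theorem eta_sin (h : Sc b e s σ) {cN : ℝ} (hc : 0 < cN) :
    cN * (s ^ 2 + b ^ (-(ψ * e)) * s / (σ / √2 * b ^ (2 * k))) * sin cN b ψ e k s σ
      = s * b ^ (2 * k) / 16 := by
  have h1 := sden_pos (ψ := ψ) (k := k) h
  have h2 : cN * (s ^ 2 + b ^ (-(ψ * e)) * s / (σ / √2 * b ^ (2 * k)))
      = s * (cN * (s + b ^ (-(ψ * e)) / (σ / √2 * b ^ (2 * k)))) := by ring
  rw [h2]
  unfold sin
  generalize s + b ^ (-(ψ * e)) / (σ / √2 * b ^ (2 * k)) = D at h1 ⊢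
  field_simp

/-- the inner calls are admissible for `QP x g' (m - γ) _` -/
theorem inner_ok (hE : Ex ψ γ A e δ k) (h : Sc b e s σ) {cN : ℝ} (hc : 0 < cN)
    (hb : 64 * cN * b ^ (γ / 2) ≤ 1) :
    2 * s ≤ sin cN b ψ e k s σ * b ^ (min ((1 - ψ) * e) 1 - γ) := by
  have h0 := h.b0
  have h1 := sden_pos (ψ := ψ) (k := k) h
  have h2 := eta_le (ψ := ψ) h hE.k0.le
  have hk := hE.k1
  set D := s + b ^ (-(ψ * e)) / (σ / √2 * b ^ (2 * k)) with hD
  have h3 : s * D ≤ 2 * b ^ (min ((1 - ψ) * e) 1 - 2 * k) := by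
    refine le_trans (le_of_eq ?_) h2
    rw [hD]; ring
  have e1 : b ^ (min ((1 - ψ) * e) 1 - 2 * k)
      = b ^ (γ - 4 * k) * (b ^ (2 * k) * b ^ (min ((1 - ψ) * e) 1 - γ)) := by
    rw [← Real.rpow_add h0, ← Real.rpow_add h0]; congr 1; ring
  have e2 : b ^ (γ - 4 * k) ≤ b ^ (γ / 2) := anti h0 h.b1 (by linarith [hE.γ0])
  have hX : 0 < b ^ (2 * k) * b ^ (min ((1 - ψ) * e) 1 - γ) := mul_pos (pos h0 _) (pos h0 _)
  unfold sin
  rw [← hD, div_mul_eq_mul_div, le_div_iff₀ (by positivity)]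
  calc 2 * s * (16 * (cN * D)) = 32 * cN * (s * D) := by ring
    _ ≤ 32 * cN * (2 * b ^ (min ((1 - ψ) * e) 1 - 2 * k)) := by gcongr
    _ = (64 * cN * b ^ (γ - 4 * k)) * (b ^ (2 * k) * b ^ (min ((1 - ψ) * e) 1 - γ)) := by
        rw [e1]; ring
    _ ≤ (64 * cN * b ^ (γ / 2)) * (b ^ (2 * k) * b ^ (min ((1 - ψ) * e) 1 - γ)) := by gcongr
    _ ≤ 1 * (b ^ (2 * k) * b ^ (min ((1 - ψ) * e) 1 - γ)) :=
        mul_le_mul_of_nonneg_right hb hX.le
    _ = _ := one_mul _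

/-! ### the outer calls -/

/-- bound of the call coefficients of the output -/
def bo (cO b ψ e δ k : ℝ) : ℝ := (cO + 1) / (b ^ (-(ψ * e)) * b ^ δ * b ^ (2 * k))

/-- output noise of the outer calls -/
def so (cO b ψ e δ k σ : ℝ) : ℝ := (σ / √2) / bo cO b ψ e δ k

theorem bo_pos (hb : 0 < b) {cO : ℝ} (hc : 0 ≤ cO) : 0 < bo cO b ψ e δ k := by
  have := pos hb (-(ψ * e))
  have := pos hb δ
  have := pos hb (2 * k)
  unfold bo
  positivity

theorem bo_eq (hb : 0 < b) (cO : ℝ) : bo cO b ψ e δ k = (cO + 1) * b ^ (ψ * e - δ - 2 * k) := by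
  unfold bo
  rw [← Real.rpow_add hb, ← Real.rpow_add hb, div_eq_mul_inv, ← Real.rpow_neg hb.le]
  congr 2
  ring

theorem cO_le_bo (hb : 0 < b) {cO : ℝ} :
    cO / (b ^ (-(ψ * e)) * b ^ δ * b ^ (2 * k)) ≤ bo cO b ψ e δ k := by
  have := pos hb (-(ψ * e))
  have := pos hb δ
  have := pos hb (2 * k)
  unfold bo
  gcongr
  linarith

theorem so_pos (h : Sc b e s σ) {cO : ℝ} (hc : 0 ≤ cO) : 0 < so cO b ψ e δ k σ := by
  have := bo_pos (ψ := ψ) (e := e) (δ := δ) (k := k) h.b0 hc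
  have := h.σb0
  unfold so
  positivity

theorem bo_so (h : Sc b e s σ) {cO : ℝ} (hc : 0 ≤ cO) :
    bo cO b ψ e δ k * so cO b ψ e δ k σ = σ / √2 := by
  have := bo_pos (ψ := ψ) (e := e) (δ := δ) (k := k) h.b0 hc
  unfold so
  field_simp

theorem so_mask (h : Sc b e s σ) {cO : ℝ} (hc : 0 ≤ cO) :
    cO / (b ^ (-(ψ * e)) * b ^ δ * b ^ (2 * k)) * so cO b ψ e δ k σ ≤ σ / √2 := by
  rw [← bo_so (ψ := ψ) (δ := δ) (k := k) h hc]
  exact mul_le_mul_of_nonneg_right (cO_le_bo h.b0) (so_pos h hc).le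

theorem Ex.gap (h : Ex ψ γ A e δ k) : γ / 2 ≤ ψ * e - δ - 2 * k := by
  have h1 := h.ψ0
  have h3 := h.γ1
  have h4 := h.e0
  have h5 := h.k1
  have h6 := h.δ1
  have h7 := h.γ0
  have h8 : ψ / 4 ≤ ψ * e := by nlinarith
  linarith

theorem bo_le_one (hE : Ex ψ γ A e δ k) (hb0 : 0 < b) (hb1 : b ≤ 1) {cO : ℝ} (hc : 0 ≤ cO)
    (hb : (cO + 1) * b ^ (γ / 2) ≤ 1) : bo cO b ψ e δ k ≤ 1 := by
  rw [bo_eq hb0]
  refine le_trans ?_ hb
  gcongr ?_ * ?_
  exact anti hb0 hb1 hE.gap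

/-- the outer calls are admissible for `QP x g' ((1+ψ)e - γ) A` -/
theorem outer_ok (hE : Ex ψ γ A e δ k) (h : Sc b e s σ) {cO : ℝ} (hc : 0 ≤ cO)
    (hb : 2 * (cO + 1) * b ^ (γ / 2) ≤ 1) :
    2 * s ≤ so cO b ψ e δ k σ * b ^ ((1 + ψ) * e - γ) := by
  have h0 := h.b0
  have hk := hE.k1
  have hd := hE.δ1
  have h5 : 0 < √2 := by positivity
  have h4 : √2 ≤ 2 := by
    rw [Real.sqrt_le_left (by norm_num)]; norm_num
  refine h.sσ.trans ?_
  unfold so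
  rw [bo_eq h0, div_mul_eq_mul_div, le_div_iff₀ (mul_pos (by linarith) (pos h0 _)),
    div_mul_eq_mul_div, le_div_iff₀ h5]
  have e1 : b ^ e * b ^ (ψ * e - δ - 2 * k) = b ^ (γ - δ - 2 * k) * b ^ ((1 + ψ) * e - γ) := by
    rw [← Real.rpow_add h0, ← Real.rpow_add h0]; congr 1; ring
  have e2 : b ^ (γ - δ - 2 * k) ≤ b ^ (γ / 2) := anti h0 h.b1 (by linarith [hE.γ0])
  have hX : 0 < b ^ ((1 + ψ) * e - γ) := pos h0 _
  calc σ * b ^ e * ((cO + 1) * b ^ (ψ * e - δ - 2 * k)) * √2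
      = σ * ((√2 * (cO + 1)) * (b ^ e * b ^ (ψ * e - δ - 2 * k))) := by ring
    _ = σ * ((√2 * (cO + 1)) * b ^ (γ - δ - 2 * k) * b ^ ((1 + ψ) * e - γ)) := by
        rw [e1]; ring
    _ ≤ σ * ((2 * (cO + 1)) * b ^ (γ / 2) * b ^ ((1 + ψ) * e - γ)) := by
        have := h.σ0
        gcongr
    _ ≤ σ * (1 * b ^ ((1 + ψ) * e - γ)) := by
        have := h.σ0
        gcongr
    _ = _ := by ring

/-! ### the call of `X₁` -/

theorem x1_ok (h : Sc b e s σ) (hb : 2 * b ^ k ≤ 1) :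
    2 * (s * b ^ (2 * k)) ≤ σ / √2 * b ^ (e + k) := by
  have h0 := h.b0
  have h5 : 0 < √2 := by positivity
  have h4 : √2 ≤ 2 := by
    rw [Real.sqrt_le_left (by norm_num)]; norm_num
  rw [div_mul_eq_mul_div, le_div_iff₀ h5]
  have e1 : b ^ e * b ^ (2 * k) = b ^ k * b ^ (e + k) := by
    rw [← Real.rpow_add h0, ← Real.rpow_add h0]; congr 1; ring
  have hX : 0 < b ^ (e + k) := pos h0 _
  calc 2 * (s * b ^ (2 * k)) * √2 = (2 * s) * b ^ (2 * k) * √2 := by ring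
    _ ≤ (σ * b ^ e) * b ^ (2 * k) * 2 := by
        have := h.sσ
        have := pos h0 (2 * k)
        have := mul_pos h.σ0 (pos h0 e)
        gcongr
    _ = σ * ((2 * b ^ k) * b ^ (e + k)) := by
        calc (σ * b ^ e) * b ^ (2 * k) * 2 = σ * (2 * (b ^ e * b ^ (2 * k))) := by ring
          _ = _ := by rw [e1]; ring
    _ ≤ σ * (1 * b ^ (e + k)) := by
        have := h.σ0
        gcongr
    _ = _ := by ring

/-! ### the errors -/

/-- **Inner error.** `N' QQ^K ≤ C b^(-(K+1) δ)` is `hN`. -/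
theorem inner_err (h : Sc b e s σ) {cN cO C₁ L N QK CN : ℝ} {K : ℕ}
    (hcN : 0 < cN) (hcO : 0 ≤ cO) (hC₁ : 0 ≤ C₁) (hL : 0 ≤ L) (hN0 : 0 ≤ N) (hQ0 : 0 ≤ QK)
    (hCN : 0 ≤ CN) (hN : N * QK ≤ CN * b ^ (-((K + 1) * δ)))
    (hδ : (K + 2) * δ ≤ γ) :
    bo cO b ψ e δ k * (N * L * (cN * (s ^ 2 + b ^ (-(ψ * e)) * s / (σ / √2 * b ^ (2 * k)))
      * ((C₁ * b ^ (A - (1 + ψ) * e + γ) * sin cN b ψ e k s σ) * QK)))
      ≤ ((cO + 1) * L * C₁ * CN) * b ^ A * σ := by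
  have h0 := h.b0
  have hbo := bo_pos (ψ := ψ) (e := e) (δ := δ) (k := k) h0 hcO
  have e0 := eta_sin (ψ := ψ) (k := k) h hcN
  have hX : 0 < b ^ (A - (1 + ψ) * e + γ) := pos h0 _
  have hσ := h.σ0
  have hs := h.s0
  have e1 : bo cO b ψ e δ k * (N * L * (cN * (s ^ 2 + b ^ (-(ψ * e)) * s /
      (σ / √2 * b ^ (2 * k))) * ((C₁ * b ^ (A - (1 + ψ) * e + γ) * sin cN b ψ e k s σ) * QK)))
      = bo cO b ψ e δ k * L * C₁ * b ^ (A - (1 + ψ) * e + γ) * (s * b ^ (2 * k) / 16)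
        * (N * QK) := by
    rw [← e0]; ring
  rw [e1]
  have hsσ : s ≤ σ * b ^ e := by have := h.sσ; linarith
  have hk2 : 0 < b ^ (2 * k) := pos h0 _
  have h16 : s * b ^ (2 * k) / 16 ≤ σ * b ^ e * b ^ (2 * k) := by
    have : s * b ^ (2 * k) ≤ σ * b ^ e * b ^ (2 * k) := by gcongr
    have : 0 ≤ s * b ^ (2 * k) := by positivity
    linarith
  calc bo cO b ψ e δ k * L * C₁ * b ^ (A - (1 + ψ) * e + γ) * (s * b ^ (2 * k) / 16) * (N * QK)
      ≤ bo cO b ψ e δ k * L * C₁ * b ^ (A - (1 + ψ) * e + γ) * (σ * b ^ e * b ^ (2 * k))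
        * (CN * b ^ (-((K + 1) * δ))) := by
        gcongr
    _ = ((cO + 1) * L * C₁ * CN) * (b ^ (ψ * e - δ - 2 * k) * b ^ (A - (1 + ψ) * e + γ) * b ^ e
        * b ^ (2 * k) * b ^ (-((K + 1) * δ))) * σ := by
        rw [bo_eq h0]; ring
    _ = ((cO + 1) * L * C₁ * CN) * b ^ (A + (γ - (K + 2) * δ)) * σ := by
        rw [← Real.rpow_add h0, ← Real.rpow_add h0, ← Real.rpow_add h0, ← Real.rpow_add h0]
        congr 3
        ring
    _ ≤ ((cO + 1) * L * C₁ * CN) * b ^ A * σ := by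
        gcongr ?_ * ?_ * σ
        exact anti h0 h.b1 (by linarith)

/-- **Outer error.** -/
theorem outer_err (h : Sc b e s σ) {cO C₂ W : ℝ} (hcO : 0 ≤ cO) (hC₂ : 0 ≤ C₂) (hW : 0 ≤ W) :
    bo cO b ψ e δ k * ((C₂ * b ^ A * so cO b ψ e δ k σ) * W) ≤ (C₂ * W) * b ^ A * σ := by
  have e0 := bo_so (ψ := ψ) (δ := δ) (k := k) h hcO
  have h5 : 1 ≤ √2 := by
    rw [Real.one_le_sqrt]; norm_num
  have h1 : σ / √2 ≤ σ := div_le_self h.σ0.le h5
  calc bo cO b ψ e δ k * ((C₂ * b ^ A * so cO b ψ e δ k σ) * W)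
      = (C₂ * W) * b ^ A * (bo cO b ψ e δ k * so cO b ψ e δ k σ) := by ring
    _ = (C₂ * W) * b ^ A * (σ / √2) := by rw [e0]
    _ ≤ _ := by
        have := pos h.b0 A
        gcongr

/-- **Error of `y₁`.** -/
theorem y_err (hE : Ex ψ γ A e δ k) (h : Sc b e s σ) {C : ℝ} (hC : 0 ≤ C) :
    C * b ^ (A - e + γ) * s ≤ C * b ^ A * σ := by
  have h0 := h.b0
  have hsσ : s ≤ σ * b ^ e := by have := h.sσ; have := h.s0; linarith
  have := pos h0 (A - e + γ)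
  have hσ := h.σ0
  calc C * b ^ (A - e + γ) * s ≤ C * b ^ (A - e + γ) * (σ * b ^ e) := by gcongr
    _ = C * (b ^ (A - e + γ) * b ^ e) * σ := by ring
    _ = C * b ^ (A + γ) * σ := by
        rw [← Real.rpow_add h0]; congr 3; ring
    _ ≤ C * b ^ A * σ := by
        gcongr ?_ * ?_ * σ
        exact anti h0 h.b1 (by linarith [hE.γ0])

/-- **Semantic error.** -/
theorem sem_err (hE : Ex ψ γ A e δ k) (h : Sc b e s σ) (hδ1 : δ ≤ 1) {C M : ℝ} {K n P : ℕ}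
    (hC : 0 ≤ C) (hkP : 2 * k * P ≤ 1 / 2)
    (hM0 : b ^ (-δ) ≤ M) (hM : M ≤ 2 * b ^ (-δ)) (hK : 10 * A + 16 ≤ K)
    (hn : 5 / 4 * A + 2 ≤ δ * (n + 1)) :
    σ / √2 * (C * b ^ (-(ψ * e)) * M * ((b ^ (2 * k)) ^ P)⁻¹ *
      ((C * (s ^ 2 + b ^ (-(ψ * e)) * s / (σ / √2 * b ^ (2 * k)))) ^ K + M⁻¹ ^ (n + 1) +
        (b ^ δ) ^ (n + 1) + (b ^ (-(ψ * e)) * s / (σ / √2)) ^ (n + 1)))
      ≤ (2 * C * ((2 * C) ^ K + 3)) * b ^ A * σ := by
  have h0 := h.b0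
  have hσb := h.σb0
  have hσ := h.σ0
  have hs := h.s0
  have h5 : 1 ≤ √2 := by
    rw [Real.one_le_sqrt]; norm_num
  have h1 : σ / √2 ≤ σ := div_le_self h.σ0.le h5
  have hMpos : 0 < M := (pos h0 _).trans_le hM0
  -- the prefactor
  have hpre : C * b ^ (-(ψ * e)) * M * ((b ^ (2 * k)) ^ P)⁻¹ ≤ 2 * C * b ^ (-(5 / 4 * A + 2) + A) := by
    have e1 : ((b ^ (2 * k)) ^ P)⁻¹ = b ^ (-(2 * k * P)) := by
      rw [← Real.rpow_natCast, ← Real.rpow_mul h0.le, ← Real.rpow_neg h0.le]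
    rw [e1]
    have h2 := pos h0 (-(ψ * e))
    have h3 := pos h0 (-(2 * k * P))
    calc C * b ^ (-(ψ * e)) * M * b ^ (-(2 * k * P))
        ≤ C * b ^ (-(ψ * e)) * (2 * b ^ (-δ)) * b ^ (-(2 * k * P)) := by gcongr
      _ = 2 * C * (b ^ (-(ψ * e)) * b ^ (-δ) * b ^ (-(2 * k * P))) := by ring
      _ = 2 * C * b ^ (-(ψ * e) + -δ + -(2 * k * P)) := by
          rw [← Real.rpow_add h0, ← Real.rpow_add h0]
      _ ≤ 2 * C * b ^ (-(5 / 4 * A + 2) + A) := by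
          gcongr ?_ * ?_
          refine anti h0 h.b1 ?_
          have h6 := hE.ψ1
          have h7 := hE.e1
          have h8 := hE.e0
          have h9 : ψ * e ≤ 1 / 4 * A := by
            have := hE.ψ0
            nlinarith
          linarith
  -- the four terms
  have hη0 := eta_pos (ψ := ψ) (k := k) h
  have t1 : (C * (s ^ 2 + b ^ (-(ψ * e)) * s / (σ / √2 * b ^ (2 * k)))) ^ K
      ≤ (2 * C) ^ K * b ^ (5 / 4 * A + 2) := by
    have h2 := eta_le (ψ := ψ) h hE.k0.le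
    have h3 : b ^ (min ((1 - ψ) * e) 1 - 2 * k) ≤ b ^ (1 / 8 : ℝ) := anti h0 h.b1 hE.m_ge
    have h4 : C * (s ^ 2 + b ^ (-(ψ * e)) * s / (σ / √2 * b ^ (2 * k)))
        ≤ 2 * C * b ^ (1 / 8 : ℝ) := by
      calc C * _ ≤ C * (2 * b ^ (1 / 8 : ℝ)) := mul_le_mul_of_nonneg_left (by linarith) hC
        _ = _ := by ring
    calc _ ≤ (2 * C * b ^ (1 / 8 : ℝ)) ^ K := pow_le_pow_left₀ (by positivity) h4 K
      _ = (2 * C) ^ K * b ^ ((1 / 8 : ℝ) * K) := by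
          rw [mul_pow, Real.rpow_mul h0.le, Real.rpow_natCast]
      _ ≤ (2 * C) ^ K * b ^ (5 / 4 * A + 2) := by
          gcongr ?_ * ?_
          exact anti h0 h.b1 (by linarith)
  have tn : b ^ (δ * ((n : ℝ) + 1)) ≤ b ^ (5 / 4 * A + 2) := anti h0 h.b1 hn
  have epow : ∀ u : ℝ, (b ^ u) ^ (n + 1) = b ^ (u * ((n : ℝ) + 1)) := fun u => by
    rw [Real.rpow_mul h0.le]
    exact_mod_cast (Real.rpow_natCast (b ^ u) (n + 1)).symm
  have t2 : M⁻¹ ^ (n + 1) ≤ b ^ (5 / 4 * A + 2) := by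
    refine le_trans ?_ tn
    rw [← epow]
    refine pow_le_pow_left₀ (by positivity) ?_ _
    rw [Real.rpow_neg h0.le] at hM0
    exact inv_le_of_inv_le₀ (pos h0 _) hM0
  have t3 : (b ^ δ) ^ (n + 1) ≤ b ^ (5 / 4 * A + 2) := by rw [epow]; exact tn
  have t4 : (b ^ (-(ψ * e)) * s / (σ / √2)) ^ (n + 1) ≤ b ^ (5 / 4 * A + 2) := by
    refine le_trans ?_ tn
    rw [← epow]
    refine pow_le_pow_left₀ (by have := pos h0 (-(ψ * e)); positivity) ?_ _
    calc b ^ (-(ψ * e)) * s / (σ / √2) = b ^ (-(ψ * e)) * (s / (σ / √2)) := by ring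
      _ ≤ b ^ (-(ψ * e)) * b ^ e := by
          have := pos h0 (-(ψ * e))
          have := h.sσb
          gcongr
      _ = b ^ (-(ψ * e) + e) := by rw [← Real.rpow_add h0]
      _ ≤ b ^ δ := by
          refine anti h0 h.b1 ?_
          have h6 := hE.ψ1
          have h8 := hE.e0
          have h9 := hE.δ1
          have h10 := hE.γ1
          nlinarith
  have hsum : (C * (s ^ 2 + b ^ (-(ψ * e)) * s / (σ / √2 * b ^ (2 * k)))) ^ K + M⁻¹ ^ (n + 1) +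
        (b ^ δ) ^ (n + 1) + (b ^ (-(ψ * e)) * s / (σ / √2)) ^ (n + 1)
      ≤ ((2 * C) ^ K + 3) * b ^ (5 / 4 * A + 2) := by
    have : ((2 * C) ^ K + 3) * b ^ (5 / 4 * A + 2) = (2 * C) ^ K * b ^ (5 / 4 * A + 2)
      + b ^ (5 / 4 * A + 2) + b ^ (5 / 4 * A + 2) + b ^ (5 / 4 * A + 2) := by ring
    rw [this]
    linarith
  have hsum0 : 0 ≤ (C * (s ^ 2 + b ^ (-(ψ * e)) * s / (σ / √2 * b ^ (2 * k)))) ^ K + M⁻¹ ^ (n + 1) +
        (b ^ δ) ^ (n + 1) + (b ^ (-(ψ * e)) * s / (σ / √2)) ^ (n + 1) := by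
    have := pos h0 (-(ψ * e))
    have := pos h0 δ
    positivity
  have hb' := pos h0 (-(5 / 4 * A + 2) + A)
  calc σ / √2 * (C * b ^ (-(ψ * e)) * M * ((b ^ (2 * k)) ^ P)⁻¹ * _)
      ≤ σ * ((2 * C * b ^ (-(5 / 4 * A + 2) + A)) * (((2 * C) ^ K + 3) * b ^ (5 / 4 * A + 2))) := by
        refine mul_le_mul h1 (mul_le_mul hpre hsum hsum0 (by positivity)) ?_ hσ.le
        refine mul_nonneg ?_ hsum0
        have := pos h0 (-(ψ * e))
        have := pos h0 (2 * k)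
        positivity
    _ = (2 * C * ((2 * C) ^ K + 3)) * (b ^ (-(5 / 4 * A + 2) + A) * b ^ (5 / 4 * A + 2)) * σ := by
        ring
    _ = (2 * C * ((2 * C) ^ K + 3)) * b ^ A * σ := by
        rw [← Real.rpow_add h0]; congr 3; ring

/-! ### the counts -/

/-- growth factor of the errors: `N' (4 Λ T N' (L'+1))^K ≤ C b^(-(K+1) δ)`. -/
theorem NQ_le (hb : 0 < b) {N C₁ w : ℝ} (hN0 : 0 ≤ N) (hN : N ≤ C₁ * b ^ (-δ)) (hw : 0 ≤ w)
    (K : ℕ) :
    N * (w * N) ^ K ≤ (C₁ ^ (K + 1) * w ^ K) * b ^ (-((K + 1) * δ)) := by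
  have h1 := pos hb (-δ)
  calc N * (w * N) ^ K = w ^ K * N ^ (K + 1) := by rw [mul_pow, pow_succ]; ring
    _ ≤ w ^ K * (C₁ * b ^ (-δ)) ^ (K + 1) := by gcongr
    _ = (C₁ ^ (K + 1) * w ^ K) * b ^ (-((K + 1) * δ)) := by
        rw [mul_pow]
        have : (b ^ (-δ)) ^ (K + 1) = b ^ (-((K + 1) * δ)) := by
          have h2 : (-((K + 1 : ℝ) * δ)) = (-δ) * ((K : ℝ) + 1) := by ring
          rw [h2, Real.rpow_mul hb.le]
          exact_mod_cast (Real.rpow_natCast (b ^ (-δ)) (K + 1)).symm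
        rw [this]; ring

/-- **Number of blocks.** `M = ⌈b^(-δ)⌉`, `B = 1 + (K+1) (M (n+1) (1 + (2n+5)(n+2)))`. -/
theorem M_bounds (hb0 : 0 < b) (hb1 : b ≤ 1) (hδ : 0 ≤ δ) :
    b ^ (-δ) ≤ (⌈b ^ (-δ)⌉₊ : ℝ) ∧ (⌈b ^ (-δ)⌉₊ : ℝ) ≤ 2 * b ^ (-δ) ∧ 0 < ⌈b ^ (-δ)⌉₊ := by
  have h1 : 1 ≤ b ^ (-δ) := Real.one_le_rpow_of_pos_of_le_one_of_nonpos hb0 hb1 (by linarith)
  refine ⟨Nat.le_ceil _, ?_, Nat.ceil_pos.mpr (by linarith)⟩
  have := (Nat.ceil_lt_add_one (a := b ^ (-δ)) (by linarith)).le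
  linarith

theorem B_le (hb0 : 0 < b) (hb1 : b ≤ 1) (hδ : 0 ≤ δ) (K c : ℕ) :
    ((1 + (K + 1) * (⌈b ^ (-δ)⌉₊ * c) : ℕ) : ℝ) ≤ (1 + 2 * (K + 1) * c) * b ^ (-δ) := by
  have h1 : 1 ≤ b ^ (-δ) := Real.one_le_rpow_of_pos_of_le_one_of_nonpos hb0 hb1 (by linarith)
  have h2 := (M_bounds hb0 hb1 hδ).2.1
  push_cast
  have h3 : ((K : ℝ) + 1) * (⌈b ^ (-δ)⌉₊ * c) ≤ ((K : ℝ) + 1) * ((2 * b ^ (-δ)) * c) := by gcongr
  calc (1 : ℝ) + ((K : ℝ) + 1) * (⌈b ^ (-δ)⌉₊ * c)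
      ≤ b ^ (-δ) + ((K : ℝ) + 1) * ((2 * b ^ (-δ)) * c) := add_le_add h1 h3
    _ = _ := by ring

/-- **Number of draws and queries.** -/
theorem count_le (hb0 : 0 < b) (hb1 : b ≤ 1) {g : ℝ} {q N B C₁ cB : ℝ} (hq0 : 0 ≤ q)
    (hN0 : 0 ≤ N) (hB0 : 0 ≤ B) (hC₁ : 0 ≤ C₁) (hcB : 0 ≤ cB) (hq : q ≤ C₁ * b ^ (-δ))
    (hN : N ≤ C₁ * b ^ (-δ)) (hB : B ≤ cB * b ^ (-δ)) (K : ℕ) (hg : (2 * K + 4) * δ ≤ g) :
    B * (q * (N * B) ^ (K + 1)) ≤ (cB ^ (K + 2) * C₁ ^ (K + 2)) * b ^ (-g) := by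
  have h1 := pos hb0 (-δ)
  have e1 : b ^ (-δ) * (b ^ (-δ) * (b ^ (-δ) * b ^ (-δ)) ^ (K + 1)) = b ^ (-((2 * K + 4) * δ)) := by
    have h2 : b ^ (-δ) * (b ^ (-δ) * (b ^ (-δ) * b ^ (-δ)) ^ (K + 1)) = (b ^ (-δ)) ^ (2 * K + 4) := by
      ring
    rw [h2]
    have h3 : (-((2 * (K : ℝ) + 4) * δ)) = (-δ) * (2 * (K : ℝ) + 4) := by ring
    rw [h3, Real.rpow_mul hb0.le]
    exact_mod_cast (Real.rpow_natCast (b ^ (-δ)) (2 * K + 4)).symm
  calc B * (q * (N * B) ^ (K + 1))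
      ≤ (cB * b ^ (-δ)) * ((C₁ * b ^ (-δ)) * ((C₁ * b ^ (-δ)) * (cB * b ^ (-δ))) ^ (K + 1)) := by
        gcongr
    _ = (cB ^ (K + 2) * C₁ ^ (K + 2)) * (b ^ (-δ) * (b ^ (-δ) * (b ^ (-δ) * b ^ (-δ)) ^ (K + 1))) := by
        ring
    _ = (cB ^ (K + 2) * C₁ ^ (K + 2)) * b ^ (-((2 * K + 4) * δ)) := by rw [e1]
    _ ≤ (cB ^ (K + 2) * C₁ ^ (K + 2)) * b ^ (-g) := by
        gcongr ?_ * ?_
        exact anti hb0 hb1 (by linarith)

/-! ### the choice of the parameters -/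

/-- `K`, `δ`, `n` depend only on `γ, A, g`. -/
theorem choose_params {γ A g : ℝ} (hγ : 0 < γ) (hA : 0 < A) (hg : 0 < g) :
    ∃ (K : ℕ) (δ : ℝ) (n : ℕ), 10 * A + 16 ≤ K ∧ 0 < δ ∧ δ ≤ γ / 8 ∧ (K + 2) * δ ≤ γ ∧
      (2 * K + 4) * δ ≤ g ∧ 5 / 4 * A + 2 ≤ δ * (n + 1) := by
  obtain ⟨K, hK⟩ := exists_nat_ge (10 * A + 16)
  have hm : 0 < min γ g := lt_min hγ hg
  have hK16 : (16 : ℝ) ≤ K := by linarith
  set δ : ℝ := min γ g / (2 * K + 4) with hδ
  have hδ0 : 0 < δ := by positivity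
  have h1 : (2 * K + 4) * δ = min γ g := by rw [hδ]; field_simp
  obtain ⟨n, hn⟩ := exists_nat_ge ((5 / 4 * A + 2) / δ)
  refine ⟨K, δ, n, hK, hδ0, ?_, ?_, ?_, ?_⟩
  · have : min γ g ≤ γ := min_le_left _ _
    nlinarith
  · have : min γ g ≤ γ := min_le_left _ _
    nlinarith
  · rw [h1]; exact min_le_right _ _
  · rw [div_le_iff₀ hδ0] at hn
    nlinarith

/-- `k₀` -/
theorem choose_k {γ : ℝ} (hγ : 0 < γ) (P : ℕ) :
    ∃ k₀ : ℝ, 0 < k₀ ∧ k₀ ≤ γ / 16 ∧ ∀ k : ℝ, k ≤ k₀ → 2 * k * P ≤ 1 / 2 := by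
  refine ⟨min (γ / 16) (1 / (4 * (P + 1))), lt_min (by positivity) (by positivity),
    min_le_left _ _, fun k hk => ?_⟩
  have h1 : k ≤ 1 / (4 * ((P : ℝ) + 1)) := hk.trans (min_le_right _ _)
  rw [le_div_iff₀ (by positivity)] at h1
  have hP : (0 : ℝ) ≤ P := Nat.cast_nonneg P
  by_cases h0 : 0 ≤ k
  · nlinarith
  · push Not at h0
    nlinarith


end Crest.Agent.R285.QNum
end
end

-- ▼ part R285/StepQ

/-!
Row 285 (S0430), module STEP Q: the asymptotic form used by the recursion.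
-/

set_option autoImplicit false
set_option linter.unusedSectionVars false

open MeasureTheory ProbabilityTheory Set Filter
open Crest.OracleSampling (E Admissible)
open scoped NNReal ENNReal

noncomputable section

namespace Crest.Agent.R285.StepQ

open Crest.Agent.R285 Crest.Agent.R285.Num

/-- `1 ≤ a₀ t₀` -/
theorem one_le_at {ψ γ A e δ k b : ℝ} (hE : QNum.Ex ψ γ A e δ k) (hb0 : 0 < b) (hb1 : b ≤ 1) :
    1 ≤ b ^ (-(ψ * e)) * b ^ δ := by
  rw [← Real.rpow_add hb0]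
  refine Real.one_le_rpow_of_pos_of_le_one_of_nonpos hb0 hb1 ?_
  have h1 := hE.gap
  have h2 := hE.γ0
  have h3 := hE.k0
  linarith

/-- the error, all terms together -/
theorem num_err {ψ γ A e δ k b s σ : ℝ} (hE : QNum.Ex ψ γ A e δ k) (h : QNum.Sc b e s σ)
    {C₁ CY CX Cn LO mx M : ℝ} {L' : ℝ≥0} {N' K n P m : ℕ} (hC₁ : 0 ≤ C₁) (hCY : 0 ≤ CY)
    (hCX : 0 ≤ CX) (hCn : 0 ≤ Cn) (hLO : 0 ≤ LO) (hmx : 0 ≤ mx)
    (hN : (N' : ℝ) ≤ C₁ * b ^ (-δ)) (hδK : (K + 2) * δ ≤ γ) (hδ1 : δ ≤ 1)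
    (hkP : 2 * k * P ≤ 1 / 2) (hM0 : b ^ (-δ) ≤ M) (hM : M ≤ 2 * b ^ (-δ))
    (hK : 10 * A + 16 ≤ K) (hn : 5 / 4 * A + 2 ≤ δ * (n + 1)) :
    LO * mx * (CY * b ^ (A - e + γ) * s)
        + LO * (CX * b ^ A * (σ / √2)) * 4
        + 22 * (QNum.bo (QPar.cO m) b ψ e δ k * (N' * L' *
            (QPar.cN m * (s ^ 2 + b ^ (-(ψ * e)) * s / (σ / √2 * b ^ (2 * k))) *
              ((C₁ * b ^ (A - (1 + ψ) * e + γ) * QNum.sin (QPar.cN m) b ψ e k s σ) *
                QQ 4 4 L' N' ^ K))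
          + (C₁ * b ^ A * QNum.so (QPar.cO m) b ψ e δ k σ) * (2 * 4 * (2 * 4 * 4) ^ K)))
        + σ / √2 * (Cn * b ^ (-(ψ * e)) * M * ((b ^ (2 * k)) ^ P)⁻¹ *
          ((Cn * (s ^ 2 + b ^ (-(ψ * e)) * s / (σ / √2 * b ^ (2 * k)))) ^ K + M⁻¹ ^ (n + 1) +
            (b ^ δ) ^ (n + 1) + (b ^ (-(ψ * e)) * s / (σ / √2)) ^ (n + 1)))
      ≤ (LO * mx * CY + LO * CX * 4
        + 22 * ((QPar.cO m + 1) * L' * C₁ * (C₁ ^ (K + 1) * (64 * (L' + 1)) ^ K)
          + C₁ * (2 * 4 * (2 * 4 * 4) ^ K))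
        + 2 * Cn * ((2 * Cn) ^ K + 3)) * b ^ A * σ := by
  have h0 := h.b0
  have hcN := QPar.cN_pos m
  have hcO := QPar.cO_nonneg m
  have hσ := h.σ0
  have hbA : 0 < b ^ A := QNum.pos h0 A
  have h5 : 1 ≤ √2 := by
    rw [Real.one_le_sqrt]; norm_num
  have hσb : σ / √2 ≤ σ := div_le_self h.σ0.le h5
  have hQQ : QQ 4 4 L' N' = (64 * (L' + 1)) * N' := by
    unfold QQ
    push_cast
    ring
  have hNQ : (N' : ℝ) * QQ 4 4 L' N' ^ K ≤
      (C₁ ^ (K + 1) * (64 * ((L' : ℝ) + 1)) ^ K) * b ^ (-((K + 1) * δ)) := by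
    rw [hQQ]
    exact QNum.NQ_le h0 (Nat.cast_nonneg _) hN (by positivity) K
  have hQ0 : 0 ≤ QQ 4 4 L' N' ^ K := by rw [hQQ]; positivity
  have e1 : LO * mx * (CY * b ^ (A - e + γ) * s) ≤ LO * mx * CY * b ^ A * σ := by
    calc LO * mx * (CY * b ^ (A - e + γ) * s) ≤ LO * mx * (CY * b ^ A * σ) :=
          mul_le_mul_of_nonneg_left (QNum.y_err hE h hCY) (by positivity)
      _ = _ := by ring
  have e2 : LO * (CX * b ^ A * (σ / √2)) * 4 ≤ LO * CX * 4 * b ^ A * σ := by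
    calc LO * (CX * b ^ A * (σ / √2)) * 4 ≤ LO * (CX * b ^ A * σ) * 4 := by gcongr
      _ = _ := by ring
  have e3 := QNum.inner_err (ψ := ψ) (γ := γ) (A := A) (k := k) h hcN hcO hC₁ L'.coe_nonneg
    (Nat.cast_nonneg N') hQ0 (by positivity : 0 ≤ C₁ ^ (K + 1) * (64 * ((L' : ℝ) + 1)) ^ K) hNQ hδK
  have e4 := QNum.outer_err (ψ := ψ) (A := A) (δ := δ) (k := k) h hcO hC₁
    (by positivity : (0 : ℝ) ≤ 2 * 4 * (2 * 4 * 4) ^ K)
  have e5 := QNum.sem_err (P := P) hE h hδ1 hCn hkP hM0 hM hK hn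
  have e6 : 22 * (QNum.bo (QPar.cO m) b ψ e δ k * (N' * L' *
            (QPar.cN m * (s ^ 2 + b ^ (-(ψ * e)) * s / (σ / √2 * b ^ (2 * k))) *
              ((C₁ * b ^ (A - (1 + ψ) * e + γ) * QNum.sin (QPar.cN m) b ψ e k s σ) *
                QQ 4 4 L' N' ^ K))
          + (C₁ * b ^ A * QNum.so (QPar.cO m) b ψ e δ k σ) * (2 * 4 * (2 * 4 * 4) ^ K)))
      = 22 * (QNum.bo (QPar.cO m) b ψ e δ k * (N' * L' *
            (QPar.cN m * (s ^ 2 + b ^ (-(ψ * e)) * s / (σ / √2 * b ^ (2 * k))) *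
              ((C₁ * b ^ (A - (1 + ψ) * e + γ) * QNum.sin (QPar.cN m) b ψ e k s σ) *
                QQ 4 4 L' N' ^ K))))
        + 22 * (QNum.bo (QPar.cO m) b ψ e δ k * ((C₁ * b ^ A * QNum.so (QPar.cO m) b ψ e δ k σ)
          * (2 * 4 * (2 * 4 * 4) ^ K))) := by ring
  rw [e6]
  have e7 : (LO * mx * CY + LO * CX * 4
        + 22 * ((QPar.cO m + 1) * L' * C₁ * (C₁ ^ (K + 1) * (64 * (L' + 1)) ^ K)
          + C₁ * (2 * 4 * (2 * 4 * 4) ^ K))
        + 2 * Cn * ((2 * Cn) ^ K + 3)) * b ^ A * σ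
      = LO * mx * CY * b ^ A * σ + LO * CX * 4 * b ^ A * σ
        + (22 * (((QPar.cO m + 1) * L' * C₁ * (C₁ ^ (K + 1) * (64 * ((L' : ℝ) + 1)) ^ K))
            * b ^ A * σ)
          + 22 * ((C₁ * (2 * 4 * (2 * 4 * 4) ^ K)) * b ^ A * σ))
        + (2 * Cn * ((2 * Cn) ^ K + 3)) * b ^ A * σ := by ring
  rw [e7]
  gcongr

set_option maxHeartbeats 1600000 in
/-- **STEP Q** (the hypothesis `stepQ` of `recursion_concrete`), from `SEMQ`. -/
theorem stepQ_of_SEMQ (hS : SEMQ) {x : ℝ} (hx : 0 < x) :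
    ∀ ψ γ A g : ℝ, 0 < ψ → ψ ≤ 1 / 4 → 0 < γ → γ ≤ ψ / 16 → 0 < A → 0 < g →
      ∃ k₀ : ℝ, 0 < k₀ ∧ ∀ k : ℝ, 0 < k → k ≤ k₀ → ∀ e : ℝ, 1 / 4 ≤ e → e < A →
        (∀ g', 0 < g' → QP x g' ((1 + ψ) * e - γ) A) →
        (∀ g', 0 < g' → QP x g' (min ((1 - ψ) * e) 1 - γ) (A - (1 + ψ) * e + γ)) →
        YP x g (2 * k) (A - e + γ) →
        QP x g (e + k) A → QP x g e A := by
  intro ψ γ A g hψ hψ1 hγ hγψ hA hg
  -- the parameters
  obtain ⟨K, δ, n, hKA, hδ0, hδγ, hδK, hδg, hnA⟩ := QNum.choose_params hγ hA hg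
  have hδ1 : δ ≤ 1 := by linarith
  obtain ⟨Cn, P, hCn, hsem⟩ := semq_iff.1 hS n
  obtain ⟨k₀, hk₀, hk₀γ, hk₀P⟩ := QNum.choose_k hγ P
  refine ⟨k₀, hk₀, ?_⟩
  intro k hk hkk e he heA hout hin hY hX
  have hE : QNum.Ex ψ γ A e δ k := ⟨hψ, hψ1, hγ, hγψ, he, heA, hδ0, hδγ, hk, hkk.trans hk₀γ⟩
  have hkP := hk₀P k hkk
  obtain ⟨Ci, hCi, hQi⟩ := hin δ hδ0
  obtain ⟨Co, hCo, hQo⟩ := hout δ hδ0
  obtain ⟨CY, hCY, hQY⟩ := hY
  obtain ⟨CX, hCX, hQX⟩ := hX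
  -- common constant of the inner and outer calls
  set C₁ : ℝ := max Ci Co with hC₁
  have hC₁0 : 0 < C₁ := lt_max_of_lt_left hCi
  have hCiC₁ : Ci ≤ C₁ := le_max_left _ _
  have hCoC₁ : Co ≤ C₁ := le_max_right _ _
  have hcN := QPar.cN_pos n
  have hcO := QPar.cO_nonneg n
  -- the constants
  set L' : ℝ≥0 := C₁.toNNReal with hL'
  set c : ℕ := (n + 1) * (1 + (2 * n + 5) * (n + 2)) with hc
  set cB : ℝ := 1 + 2 * (K + 1) * c with hcB
  set CC : ℝ := cB ^ (K + 2) * C₁ ^ (K + 2) with hCC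
  set LL : ℝ≥0 := 2 * (1 + (2 * (L' + 1) * 4) ^ (K + 1)) *
    max 1 (max CY.toNNReal (CX.toNNReal * CY.toNNReal)) with hLL
  set LO : ℝ := 2 * (1 + (2 * ((L' : ℝ) + 1) * 4) ^ (K + 1)) with hLO
  set mx : ℝ := ((max 1 CX.toNNReal : ℝ≥0) : ℝ) with hmx
  set CE : ℝ := LO * mx * CY + LO * CX * 4
        + 22 * ((QPar.cO n + 1) * L' * C₁ * (C₁ ^ (K + 1) * (64 * (L' + 1)) ^ K)
          + C₁ * (2 * 4 * (2 * 4 * 4) ^ K))
        + 2 * Cn * ((2 * Cn) ^ K + 3) with hCE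
  have hcB0 : 0 ≤ cB := by positivity
  have hCC0 : 0 ≤ CC := by positivity
  have hLO0 : 0 ≤ LO := by positivity
  have hmx0 : 0 ≤ mx := NNReal.coe_nonneg _
  have hCn0 : 0 ≤ Cn := by linarith
  have hCE0 : 0 ≤ CE := by positivity
  have hLL0 : (0 : ℝ) ≤ LL := NNReal.coe_nonneg _
  refine ⟨CY + CX + 4 * CC + LL + CE + 1, by positivity, ?_⟩
  filter_upwards [hQi, hQo, hQY, hQX, BtNum.ev_pos x, BtNum.ev_le_one hx.le,
    BtNum.ev_small hx (a := 1) one_pos 4 one_pos,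
    BtNum.ev_small hx (a := 2 * k) (by linarith) 2 one_pos,
    BtNum.ev_small hx (a := k) hk 2 one_pos,
    BtNum.ev_small hx (a := δ) hδ0 2 one_pos,
    BtNum.ev_small hx (a := 1 / 8) (by norm_num) (2 * QPar.cN n) one_pos,
    BtNum.ev_small hx (a := 1 / 8) (by norm_num) (2 * Cn) one_pos,
    BtNum.ev_small hx (a := γ / 2) (by linarith) (64 * QPar.cN n) one_pos,
    BtNum.ev_small hx (a := γ / 2) (by linarith) (2 * (QPar.cO n + 1)) one_pos,
    BtNum.ev_small hx hδ0 1 hC₁0] with d hdi hdo hdY hdX hb0 hb1 hb4 hbκ hbk hbδ hbN hbn hbi hbo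
      hbC s σ hs hσ hsb hsσ
  set b : ℝ := bt x d with hb
  rw [Real.rpow_one] at hb4
  have hSc : QNum.Sc b e s σ := ⟨hb0, hb1, hs, hσ, hsb, hsσ⟩
  have hs2 : s ≤ 1 / 2 := by
    have : s ^ 2 ≤ (1 / 2) ^ 2 := by linarith
    exact le_of_sq_le_sq this (by norm_num)
  have hσb0 : 0 < σ / √2 := hSc.σb0
  have hσσ : (σ / √2) ^ 2 + (σ / √2) ^ 2 = σ ^ 2 := by
    rw [div_pow, Real.sq_sqrt (by norm_num)]; ring
  have hκ0 : 0 < b ^ (2 * k) := QNum.pos hb0 _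
  have hκ1 : b ^ (2 * k) ≤ 1 / 2 := by linarith
  have ht0 : 0 < b ^ δ := QNum.pos hb0 _
  have ht1 : b ^ δ ≤ 1 / 2 := by linarith
  have hat := one_le_at hE hb0 hb1
  obtain ⟨hM1, hM2, hM0⟩ := QNum.M_bounds hb0 hb1 hδ0.le
  set M : ℕ := ⌈b ^ (-δ)⌉₊ with hM
  have hu0 : 0 < b ^ (-δ) := QNum.pos hb0 _
  set N' : ℕ := ⌊C₁ * b ^ (-δ)⌋₊ with hN'
  have hN'u : (N' : ℝ) ≤ C₁ * b ^ (-δ) := Nat.floor_le (by positivity)
  have hN'1 : 1 ≤ N' := by
    refine Nat.le_floor ?_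
    rw [Nat.cast_one]
    have h1 : b ^ δ * b ^ (-δ) = 1 := by
      rw [← Real.rpow_add hb0, add_neg_cancel, Real.rpow_zero]
    calc 1 = b ^ δ * b ^ (-δ) := h1.symm
      _ ≤ C₁ * b ^ (-δ) := mul_le_mul_of_nonneg_right (by linarith) hu0.le
  have hbnd1 : QPar.cN n * (s ^ 2 + b ^ (-(ψ * e)) * s / (σ / √2 * b ^ (2 * k))) ≤ 1 :=
    QNum.eta_small hE hSc hcN.le hbN
  have hbnd2 : Cn * (s ^ 2 + b ^ (-(ψ * e)) * s / (σ / √2 * b ^ (2 * k))) ≤ 1 :=
    QNum.eta_small hE hSc hCn0 hbn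
  have hsin0 := QNum.sin_pos (ψ := ψ) (k := k) hSc hcN
  have hso0 := QNum.so_pos (ψ := ψ) (δ := δ) (k := k) hSc hcO
  have hbo1 : QNum.bo (QPar.cO n) b ψ e δ k ≤ 1 := by
    refine QNum.bo_le_one hE hb0 hb1 hcO ?_
    have h1 : 0 < b ^ (γ / 2) := QNum.pos hb0 _
    have h2 : 0 ≤ (QPar.cO n + 1) * b ^ (γ / 2) := by positivity
    have h3 : 2 * (QPar.cO n + 1) * b ^ (γ / 2) = 2 * ((QPar.cO n + 1) * b ^ (γ / 2)) := by ring
    linarith
  have hbA : 0 < b ^ A := QNum.pos hb0 _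
  have hbg : 0 < b ^ (-g) := QNum.pos hb0 _
  have hbD : 0 < b ^ (A - (1 + ψ) * e + γ) := QNum.pos hb0 _
  -- the inner and the outer contracts
  have conin : ∀ r, 3 / 4 * b ^ (2 * k) * s ≤ r → r ≤ s →
      Con (d := d) (r / 4) N' N' L' (fun V c => gN (G V r c) (QNum.sin (QPar.cN n) b ψ e k s σ))
        (C₁ * b ^ (A - (1 + ψ) * e + γ) * QNum.sin (QPar.cN n) b ψ e k s σ) := by
    intro r hr hrs
    have hr0 : 0 < r := lt_of_lt_of_le (by positivity) hr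
    have h1 := hdi r (QNum.sin (QPar.cN n) b ψ e k s σ) hr0 hsin0
      ((pow_le_pow_left₀ hr0.le hrs 2).trans hsb)
      ((mul_le_mul_of_nonneg_left hrs zero_le_two).trans (QNum.inner_ok hE hSc hcN hbi))
    have h2 : ⌊Ci * b ^ (-δ)⌋₊ ≤ N' := Nat.floor_le_floor (by gcongr)
    exact Rec.Con.weaken h1 h2 h2 (Real.toNNReal_le_toNNReal hCiC₁) (by gcongr)
  have conout : ∀ r, 3 / 4 * b ^ (2 * k) * s ≤ r → r ≤ s →
      Con (d := d) (r / 4) N' N' L' (fun V c => gN (G V r c) (QNum.so (QPar.cO n) b ψ e δ k σ))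
        (C₁ * b ^ A * QNum.so (QPar.cO n) b ψ e δ k σ) := by
    intro r hr hrs
    have hr0 : 0 < r := lt_of_lt_of_le (by positivity) hr
    have h1 := hdo r (QNum.so (QPar.cO n) b ψ e δ k σ) hr0 hso0
      ((pow_le_pow_left₀ hr0.le hrs 2).trans hsb)
      ((mul_le_mul_of_nonneg_left hrs zero_le_two).trans (QNum.outer_ok hE hSc hcO hbo))
    have h2 : ⌊Co * b ^ (-δ)⌋₊ ≤ N' := Nat.floor_le_floor (by gcongr)
    exact Rec.Con.weaken h1 h2 h2 (Real.toNNReal_le_toNNReal hCoC₁) (by gcongr)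
  have conY := hdY s hs hsb
  have hsκ : s * b ^ (2 * k) ≤ s := mul_le_of_le_one_right hs.le (by linarith)
  have conX := hdX (s * b ^ (2 * k)) (σ / √2) (by positivity) hσb0
    ((pow_le_pow_left₀ (by positivity) hsκ 2).trans hsb) (QNum.x1_ok hSc hbk)
  -- the contract in this dimension
  have hfix := fixed_sem (d := d) (K := K) (B := 1 + (K + 1) * (M * c)) hsem (M := M) (s := s)
    (σ := σ) (σb := σ / √2) (κ := b ^ (2 * k)) (t0 := b ^ δ) (a0 := b ^ (-(ψ * e)))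
    (bo := QNum.bo (QPar.cO n) b ψ e δ k) (To := 2)
    hs hs2 hσb0 hσ.le hσσ hκ0 hκ1 hM0 ht0 ht1 hat hbnd1 hbnd2 hsin0.le
    (QNum.sin_mask (ψ := ψ) (k := k) hSc hcN) hso0.le
    (QNum.so_mask (ψ := ψ) (δ := δ) (k := k) hSc hcO) hN'1
    (by positivity) (by positivity) (by positivity) conin conout conY conX
    (le_of_eq (by rw [hc]; ring)) (QNum.cO_le_bo hb0) (by
      have : ((2 : ℝ≥0) : ℝ) = 2 := by norm_num
      rw [this]; linarith)
  -- counts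
  have hB : ((1 + (K + 1) * (M * c) : ℕ) : ℝ) ≤ cB * b ^ (-δ) := QNum.B_le hb0 hb1 hδ0.le K c
  set B : ℕ := 1 + (K + 1) * (M * c) with hBdef
  have hcount : (B : ℝ) * (N' * ((N' : ℝ) * B) ^ (K + 1)) ≤ CC * b ^ (-g) :=
    QNum.count_le hb0 hb1 (Nat.cast_nonneg _) (Nat.cast_nonneg _) (Nat.cast_nonneg _) hC₁0.le hcB0
      hN'u hN'u hB K hδg
  have hcount1 : (B : ℝ) * ((N' : ℝ) * B) ^ (K + 1) ≤ CC * b ^ (-g) := by
    refine le_trans ?_ hcount
    have h1 : (1 : ℝ) ≤ N' := by exact_mod_cast hN'1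
    have h2 : (0 : ℝ) ≤ ((N' : ℝ) * B) ^ (K + 1) := by positivity
    exact mul_le_mul_of_nonneg_left (le_mul_of_one_le_left h2 h1) (Nat.cast_nonneg _)
  have hNY : ((⌊CY * b ^ (-g)⌋₊ : ℕ) : ℝ) ≤ CY * b ^ (-g) := Nat.floor_le (by positivity)
  have hNX : ((⌊CX * b ^ (-g)⌋₊ : ℕ) : ℝ) ≤ CX * b ^ (-g) := Nat.floor_le (by positivity)
  refine Rec.Con.weaken hfix ?_ ?_ ?_ ?_
  · refine Nat.le_floor ?_
    push_cast
    have hx1 : 0 ≤ CX * b ^ (-g) := by positivity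
    have hx2 : 0 ≤ ((LL : ℝ) + CE + 1) * b ^ (-g) := by positivity
    have e1 : (CY + CX + 4 * CC + LL + CE + 1) * b ^ (-g)
        = CY * b ^ (-g) + CX * b ^ (-g) + 4 * (CC * b ^ (-g)) + ((LL : ℝ) + CE + 1) * b ^ (-g) := by
      ring
    rw [e1]
    linarith
  · refine Nat.le_floor ?_
    push_cast
    have hx1 : 0 ≤ CC * b ^ (-g) := by positivity
    have hx2 : 0 ≤ ((LL : ℝ) + CE + 1) * b ^ (-g) := by positivity
    have e1 : (CY + CX + 4 * CC + LL + CE + 1) * b ^ (-g)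
        = CY * b ^ (-g) + CX * b ^ (-g) + 4 * (CC * b ^ (-g)) + ((LL : ℝ) + CE + 1) * b ^ (-g) := by
      ring
    rw [e1]
    linarith
  · refine NNReal.le_toNNReal_of_coe_le ?_
    have e1 : (2 * (1 + (2 * (L' + 1) * 4) ^ (K + 1)) *
      max 1 (max CY.toNNReal (CX.toNNReal * CY.toNNReal)) : ℝ≥0) = LL := rfl
    rw [e1]
    linarith
  · refine (num_err (m := n) (P := P) (Cn := Cn) (LO := LO) (mx := mx) (M := (M : ℝ)) (L' := L')
      (N' := N') (K := K) (n := n) hE hSc hC₁0.le hCY.le hCX.le hCn0 hLO0 hmx0 hN'u hδK hδ1 hkP hM1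
      hM2 hKA hnA).trans ?_
    have h1 : CE ≤ CY + CX + 4 * CC + LL + CE + 1 := by linarith
    exact mul_le_mul_of_nonneg_right (mul_le_mul_of_nonneg_right h1 hbA.le) hσ.le

end Crest.Agent.R285.StepQ
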